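import Vale.Agent.P370.IDefs

namespace Vale.Agent.P370

open MeasureTheory Filter
open scoped Classical ENNReal

theorem basic_loc : LocallyIntegrable (fun p : E3 => ‖p‖⁻¹) :=
  locallyIntegrable_of_norm_le_rpow (C := 1) (α := 1) (by simp) (by simp)
    (.of_forall fun p => by simp [Real.rpow_neg_one]) measurable_norm.inv.aestronglyMeasurable

theorem integrable_inv_norm {u : E3 → ℝ} (hu : Continuous u) (hc : HasCompactSupport u) (r : E3) :
    Integrable fun p => u p / ‖p - r‖ := by
  have h := (basic_loc.integrable_smul_left_of_hasCompactSupport (g := fun p => u (p + r))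
    (by fun_prop) (hc.comp_homeomorph (Homeomorph.addRight r))).comp_sub_right r
  simpa [div_eq_mul_inv] using h

theorem basic_mp {n : ℕ} (i : Fin (n + 1)) :
    MeasurePreserving (MeasurableEquiv.piFinSuccAbove (fun _ => E3) i).symm volume volume :=
  (volume_preserving_piFinSuccAbove (fun _ => E3) i).symm _

theorem basic_int {n : ℕ} (i : Fin (n + 1)) {F : Conf (n + 1) → ℝ} :
    Integrable (fun q : E3 × Conf n => F (i.insertNth q.1 q.2)) (volume.prod volume) ↔
      Integrable F :=
  (basic_mp i).integrable_comp_emb (MeasurableEquiv.measurableEmbedding _)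

theorem basic_conf {n : ℕ} {F : Conf (n + 1) → ℝ} (hF : Continuous F) (hc : HasCompactSupport F)
    (i : Fin (n + 1)) {c : Conf n → E3} (hcm : Continuous c) {a : ℝ} (ha : ∀ y, ‖c y‖ ≤ ‖y‖ + a) :
    Integrable fun x => F x / ‖x i - c (i.removeNth x)‖ := by
  obtain ⟨R, hR⟩ := hc.isCompact.isBounded.exists_norm_le
  obtain ⟨C, hC⟩ := hc.exists_bound_of_continuous hF
  set g : E3 → ℝ := (Metric.closedBall 0 (2 * R + a)).indicator fun p => ‖p‖⁻¹ with hg
  set h : Conf n → ℝ := (Metric.closedBall 0 R).indicator fun _ => C with hh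
  have g1 : Integrable g :=
    (basic_loc.integrableOn_isCompact (isCompact_closedBall _ _)).integrable_indicator
      measurableSet_closedBall
  have h1 : Integrable h :=
    (integrableOn_const (measure_closedBall_lt_top).ne).integrable_indicator
      measurableSet_closedBall
  have gm : Measurable g := measurable_norm.inv.indicator measurableSet_closedBall
  have hm : Measurable h := measurable_const.indicator measurableSet_closedBall
  have k1 : Integrable (fun q : E3 × Conf n => g (q.1 - c q.2) * h q.2) (volume.prod volume) := by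
    have km : Measurable fun q : E3 × Conf n => g (q.1 - c q.2) * h q.2 :=
      (gm.comp (measurable_fst.sub (hcm.measurable.comp measurable_snd))).mul
        (hm.comp measurable_snd)
    rw [integrable_prod_iff' km.aestronglyMeasurable]
    refine ⟨.of_forall fun y => (g1.comp_sub_right (c y)).mul_const (h y), ?_⟩
    simp only [norm_mul, integral_mul_const, integral_sub_right_eq_self fun p => ‖g p‖]
    exact h1.norm.const_mul _
  rw [← basic_int i]
  simp only [Fin.insertNth_apply_same, Fin.removeNth_insertNth]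
  have hi : Continuous fun q : E3 × Conf n => (i.insertNth q.1 q.2 : Conf (n + 1)) := by fun_prop
  refine k1.mono' ((hF.comp hi).measurable.div
    (continuous_fst.sub (hcm.comp continuous_snd)).norm.measurable).aestronglyMeasurable
    (.of_forall fun q => ?_)
  have hC0 : 0 ≤ C := (norm_nonneg _).trans (hC 0)
  by_cases h0 : F (i.insertNth q.1 q.2) = 0
  · rw [h0, zero_div, norm_zero]
    exact mul_nonneg (Set.indicator_nonneg (fun _ _ => by positivity) _)
      (Set.indicator_nonneg (fun _ _ => hC0) _)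
  · have k2 := hR _ (subset_tsupport F h0)
    have k3 : ‖q.1‖ ≤ R := by
      simpa using (norm_le_pi_norm (i.insertNth q.1 q.2 : Conf (n + 1)) i).trans k2
    have k4 : ‖q.2‖ ≤ R := (pi_norm_le_iff_of_nonneg ((norm_nonneg _).trans k2)).2 fun j => by
      simpa using (norm_le_pi_norm (i.insertNth q.1 q.2 : Conf (n + 1)) (i.succAbove j)).trans k2
    have k5 : ‖q.1 - c q.2‖ ≤ 2 * R + a := by linarith [norm_sub_le q.1 (c q.2), ha q.2]
    rw [hg, hh, Set.indicator_of_mem (mem_closedBall_zero_iff.2 k5),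
      Set.indicator_of_mem (mem_closedBall_zero_iff.2 k4), norm_div, norm_norm, div_eq_inv_mul]
    exact mul_le_mul_of_nonneg_left (hC _) (by positivity)

theorem integrable_conf_inv {N : ℕ} {F : Conf N → ℝ} (hF : Continuous F)
    (hc : HasCompactSupport F) (i : Fin N) (r : E3) : Integrable fun x => F x / ‖x i - r‖ := by
  rcases N with _ | n
  · exact i.elim0
  · exact basic_conf hF hc i (c := fun _ => r) continuous_const (a := ‖r‖) fun y => by simp

theorem integrable_conf_pair {N : ℕ} {F : Conf N → ℝ} (hF : Continuous F)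
    (hc : HasCompactSupport F) (i j : Fin N) : Integrable fun x => F x / ‖x i - x j‖ := by
  rcases N with _ | n
  · exact i.elim0
  by_cases h : j = i
  · simp [h]
  · obtain ⟨k, rfl⟩ := Fin.exists_succAbove_eq h
    exact basic_conf hF hc i (c := fun y => y k) (continuous_apply k) (a := 0) fun y => by
      simpa using norm_le_pi_norm y k

/-- Fubini in one particle coordinate. -/
theorem integral_insertNth {n : ℕ} (i : Fin (n + 1)) {F : Conf (n + 1) → ℝ} (hF : Integrable F) :
    ∫ x, F x = ∫ y : Conf n, ∫ p : E3, F (i.insertNth p y) := by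
  rw [← (basic_mp i).integral_comp' F]
  exact integral_prod_symm _ ((basic_int i).2 hF)

theorem integrable_insertNth {n : ℕ} (i : Fin (n + 1)) {F : Conf (n + 1) → ℝ} (hF : Integrable F) :
    (∀ᵐ y : Conf n, Integrable fun p : E3 => F (i.insertNth p y)) ∧
      Integrable fun y : Conf n => ∫ p : E3, F (i.insertNth p y) :=
  ⟨((basic_int i).2 hF).prod_left_ae, ((basic_int i).2 hF).integral_prod_right⟩

/-- Slices of smooth compactly supported functions. -/
theorem Sm.slice {n : ℕ} {F : Conf (n + 1) → ℝ} (hF : Sm F) (i : Fin (n + 1)) (y : Conf n) :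
    Sm (fun p : E3 => F (i.insertNth p y)) ∧ ∀ k p,
      pd k (fun p : E3 => F (i.insertNth p y)) p = fderiv ℝ F (i.insertNth p y) (dir i k) := by
  set L : E3 →L[ℝ] Conf (n + 1) := ContinuousLinearMap.single ℝ (fun _ => E3) i with hL
  have e : (fun p : E3 => (i.insertNth p y : Conf (n + 1))) = fun p => L p + i.insertNth 0 y := by
    funext p j
    refine Fin.succAboveCases i ?_ (fun k => ?_) j <;> simp [hL]
  have hd : ∀ p, HasFDerivAt (fun p : E3 => (i.insertNth p y : Conf (n + 1))) L p := fun p => by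
    rw [e]
    exact L.hasFDerivAt.add_const _
  refine ⟨⟨hF.1.comp ?_, ?_⟩, fun k p => ?_⟩
  · rw [e]
    exact L.contDiff.add contDiff_const
  · obtain ⟨R, hR⟩ := hF.2.isCompact.isBounded.exists_norm_le
    refine HasCompactSupport.intro (isCompact_closedBall (0 : E3) R) fun p hp => ?_
    by_contra h0
    refine hp (mem_closedBall_zero_iff.2 ?_)
    simpa using (norm_le_pi_norm (i.insertNth p y : Conf (n + 1)) i).trans
      (hR _ (subset_tsupport F h0))
  · have := ((hF.1.differentiable one_ne_zero _).hasFDerivAt.comp p (hd p)).fderiv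
    exact congrArg (fun T : E3 →L[ℝ] ℝ => T (ev k)) this

/-- Coordinates as a measurable equivalence. -/
noncomputable def basicEquiv : ℝ × ℝ × ℝ ≃ᵐ E3 :=
  ((MeasurableEquiv.refl ℝ).prodCongr MeasurableEquiv.finTwoArrow.symm).trans
    ((MeasurableEquiv.piFinSuccAbove (fun _ : Fin 3 => ℝ) 0).symm.trans
      (MeasurableEquiv.toLp 2 _))

theorem basicEquiv_eq : ⇑basicEquiv = fun q : ℝ × ℝ × ℝ => (!₂[q.1, q.2.1, q.2.2] : E3) := by
  funext q
  ext j
  fin_cases j <;> rfl

/-- Coordinates on three-space preserve the volume. -/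
theorem measurePreserving_coord :
    MeasurePreserving (fun q : ℝ × ℝ × ℝ => (!₂[q.1, q.2.1, q.2.2] : E3)) volume volume := by
  rw [← basicEquiv_eq]
  exact (PiLp.volume_preserving_toLp (Fin 3)).comp
    (((volume_preserving_piFinSuccAbove (fun _ : Fin 3 => ℝ) 0).symm _).comp
      ((MeasurePreserving.id volume).prod ((volume_preserving_finTwoArrow ℝ).symm _)))

theorem basic_emb :
    MeasurableEmbedding fun q : ℝ × ℝ × ℝ => (!₂[q.1, q.2.1, q.2.2] : E3) :=
  basicEquiv_eq ▸ basicEquiv.measurableEmbedding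

theorem integral_E3 (f : E3 → ℝ) :
    ∫ p, f p = ∫ q : ℝ × ℝ × ℝ, f (!₂[q.1, q.2.1, q.2.2]) :=
  (measurePreserving_coord.integral_comp basic_emb f).symm

theorem integrable_E3 (f : E3 → ℝ) :
    Integrable f ↔ Integrable fun q : ℝ × ℝ × ℝ => f (!₂[q.1, q.2.1, q.2.2]) :=
  (measurePreserving_coord.integrable_comp_emb basic_emb).symm

theorem lintegral_E3 (f : E3 → ℝ≥0∞) :
    ∫⁻ p, f p = ∫⁻ q : ℝ × ℝ × ℝ, f (!₂[q.1, q.2.1, q.2.2]) :=
  (measurePreserving_coord.lintegral_comp_emb basic_emb f).symm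

theorem integral_E3_prod (f g h : ℝ → ℝ) :
    ∫ p : E3, f (p 0) * g (p 1) * h (p 2) = (∫ t, f t) * (∫ t, g t) * ∫ t, h t := by
  rw [integral_E3, mul_assoc, ← integral_prod_mul g h,
    ← integral_prod_mul f fun q : ℝ × ℝ => g q.1 * h q.2]
  exact integral_congr_ae (.of_forall fun q => by simp [mul_assoc])

theorem norm_E3_sq (p : E3) : ‖p‖ ^ 2 = p 0 ^ 2 + p 1 ^ 2 + p 2 ^ 2 := by
  rw [EuclideanSpace.norm_sq_eq, Fin.sum_univ_three]
  simp

/-- Integration by parts. -/
theorem integral_pd_mul {f g : E3 → ℝ} (hf : ContDiff ℝ 1 f) (hg : Sm g) (k : Fin 3) :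
    ∫ p, pd k f p * g p = -∫ p, f p * pd k g p := by
  have f' : Continuous fun p => fderiv ℝ f p (ev k) :=
    (hf.continuous_fderiv one_ne_zero).clm_apply continuous_const
  have g' : Continuous fun p => fderiv ℝ g p (ev k) :=
    (hg.1.continuous_fderiv one_ne_zero).clm_apply continuous_const
  have h := integral_mul_fderiv_eq_neg_fderiv_mul_of_integrable (μ := volume) (v := ev k)
    ((f'.mul hg.1.continuous).integrable_of_hasCompactSupport hg.2.mul_left)
    ((hf.continuous.mul g').integrable_of_hasCompactSupport (hg.2.fderiv_apply ℝ (ev k)).mul_left)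
    ((hf.continuous.mul hg.1.continuous).integrable_of_hasCompactSupport hg.2.mul_left)
    (fun x _ => hf.differentiable one_ne_zero x) fun x _ => hg.1.differentiable one_ne_zero x
  unfold pd
  rw [h, neg_neg]

/-- The derivative along a coordinate line. -/
theorem hasDerivAt_line {f : E3 → ℝ} (hf : Differentiable ℝ f) (k : Fin 3) (p : E3) (t : ℝ) :
    HasDerivAt (fun s : ℝ => f (p + s • ev k)) (pd k f (p + t • ev k)) t := by
  have h : HasDerivAt (fun s : ℝ => p + s • ev k) (ev k) t := by
    simpa using ((hasDerivAt_id t).smul_const (ev k)).const_add p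
  exact (hf _).hasFDerivAt.comp_hasDerivAt t h

theorem basic_norm_ev (k : Fin 3) : ‖ev k‖ = 1 := by simp [ev]

theorem abs_iteratedDeriv_line {n : ℕ} {f : E3 → ℝ} (hf : ContDiff ℝ n f) (k : Fin 3) (p : E3)
    (t : ℝ) : |iteratedDeriv n (fun s : ℝ => f (p + s • ev k)) t| ≤
      ‖iteratedFDeriv ℝ n f (p + t • ev k)‖ := by
  have h := (ContinuousLinearMap.toSpanSingleton ℝ (ev k)).iteratedFDeriv_comp_right
    (f := fun z => f (p + z)) (hf.comp (contDiff_const.add contDiff_id)) t le_rfl
  rw [iteratedFDeriv_comp_add_left] at h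
  rw [← Real.norm_eq_abs, ← norm_iteratedFDeriv_eq_norm_iteratedDeriv]
  refine (congrArg norm h).le.trans
    ((ContinuousMultilinearMap.norm_compContinuousLinearMap_le _ _).trans ?_)
  simp [basic_norm_ev]

theorem Bd.pd {n : ℕ} {C : ℝ} {f : E3 → ℝ} (h : Bd (n + 1) C f) (k : Fin 3) :
    Bd n C (pd k f) := by
  have h1 : ContDiff ℝ n (fderiv ℝ f) := h.1.fderiv_right (by simp)
  refine ⟨h1.clm_apply contDiff_const, fun i hi p => ?_⟩
  refine (norm_iteratedFDeriv_clm_apply_const h1.contDiffAt (by exact_mod_cast hi)).trans ?_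
  rw [basic_norm_ev, one_mul, norm_iteratedFDeriv_fderiv]
  exact h.2 _ (by omega) p

theorem Bd.mul {n : ℕ} {C C' : ℝ} {f g : E3 → ℝ} (h : Bd n C f) (h' : Bd n C' g) :
    Bd n (2 ^ n * C * C') (fun p => f p * g p) := by
  refine ⟨h.1.mul h'.1, fun i hi p => ?_⟩
  have hC : 0 ≤ C := (norm_nonneg _).trans (h.2 0 n.zero_le p)
  have hC' : 0 ≤ C' := (norm_nonneg _).trans (h'.2 0 n.zero_le p)
  refine (norm_iteratedFDeriv_mul_le h.1 h'.1 p (by exact_mod_cast hi)).trans ?_
  have h1 : ∑ j ∈ Finset.range (i + 1), (i.choose j : ℝ) * ‖iteratedFDeriv ℝ j f p‖ *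
      ‖iteratedFDeriv ℝ (i - j) g p‖ ≤ ∑ j ∈ Finset.range (i + 1), (i.choose j : ℝ) * C * C' := by
    refine Finset.sum_le_sum fun j hj => ?_
    have h2 := Finset.mem_range.1 hj
    exact mul_le_mul (mul_le_mul_of_nonneg_left (h.2 j (by omega) p) (by positivity))
      (h'.2 _ (by omega) p) (norm_nonneg _) (by positivity)
  refine h1.trans ?_
  rw [← Finset.sum_mul, ← Finset.sum_mul, ← Nat.cast_sum, Nat.sum_range_choose]
  push_cast
  gcongr
  norm_num

theorem Bd.add {n : ℕ} {C C' : ℝ} {f g : E3 → ℝ} (h : Bd n C f) (h' : Bd n C' g) :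
    Bd n (C + C') (fun p => f p + g p) := by
  refine ⟨h.1.add h'.1, fun i hi p => ?_⟩
  rw [fun_iteratedFDeriv_add_apply (h.1.of_le (by exact_mod_cast hi)).contDiffAt
    (h'.1.of_le (by exact_mod_cast hi)).contDiffAt]
  exact (norm_add_le _ _).trans (add_le_add (h.2 i hi p) (h'.2 i hi p))

theorem Bd.lap {n : ℕ} {C : ℝ} {f : E3 → ℝ} (h : Bd (n + 2) C f) : Bd n (3 * C) (lap f) := by
  have h1 := (((h.pd 0).pd 0).add ((h.pd 1).pd 1)).add ((h.pd 2).pd 2)
  have e : P370.lap f = fun p => P370.pd 0 (P370.pd 0 f) p + P370.pd 1 (P370.pd 1 f) p +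
      P370.pd 2 (P370.pd 2 f) p := funext fun p => Fin.sum_univ_three _
  rw [e, show 3 * C = C + C + C by ring]
  exact h1

theorem Bd.mono {n n' : ℕ} {C C' : ℝ} {f : E3 → ℝ} (h : Bd n C f) (hn : n' ≤ n) (hC : C ≤ C') :
    Bd n' C' f :=
  ⟨h.1.of_le (by exact_mod_cast hn), fun i hi p => (h.2 i (hi.trans hn) p).trans hC⟩

theorem Bd.abs_le {n : ℕ} {C : ℝ} {f : E3 → ℝ} (h : Bd n C f) (p : E3) : |f p| ≤ C := by
  simpa using h.2 0 n.zero_le p

end Vale.Agent.P370
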