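import Vale.Agent.P370.Basic

namespace Vale.Agent.P370

open MeasureTheory Filter
open scoped Classical ENNReal

variable {N : ℕ}

/-- Dilation of a spinor function. -/
def brSc (c : ℝ) (F : RS N) : RS N := fun s x => F s (c • x)

/-- The Jacobian of a dilation. -/
noncomputable def brJ (N : ℕ) (c : ℝ) : ℝ := |(c ^ Module.finrank ℝ (Conf N))⁻¹|

theorem brJ_pos {c : ℝ} (hc : 0 < c) : 0 < brJ N c := by unfold brJ; positivity

theorem br_int {c : ℝ} (hc : 0 < c) (V G : Conf N → ℝ) :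
    ∫ x, V x * G (c • x) = brJ N c * ∫ x, V (c⁻¹ • x) * G x := by
  have h := Measure.integral_comp_smul (volume : Measure (Conf N))
    (fun x => V (c⁻¹ • x) * G x) c
  simp only [inv_smul_smul₀ hc.ne'] at h
  exact h

theorem br_sma {c : ℝ} (hc : 0 < c) {F : RS N} (hF : SmA F) : SmA (brSc c F) :=
  ⟨fun s => ⟨(hF.1 s).1.comp (contDiff_const_smul c), (hF.1 s).2.comp_smul hc.ne'⟩,
    fun π s x => hF.2 π s (c • x)⟩

theorem br_nsq {c : ℝ} (hc : 0 < c) (F : RS N) : nsq (brSc c F) = brJ N c * nsq F := by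
  unfold nsq
  rw [Finset.mul_sum]
  refine Finset.sum_congr rfl fun s _ => ?_
  simpa [brSc] using br_int hc (fun _ => 1) fun x => F s x ^ 2

theorem br_kin {c : ℝ} (hc : 0 < c) {F : RS N} (hF : SmA F) :
    kinN (brSc c F) = brJ N c * c ^ 2 * kinN F := by
  unfold kinN
  simp only [← mul_div_assoc, Finset.mul_sum]
  congr 1
  refine Finset.sum_congr rfl fun s _ => Finset.sum_congr rfl fun i _ =>
    Finset.sum_congr rfl fun k _ => ?_
  have e : ∀ x, fderiv ℝ (brSc c F s) x (dir i k) = c * fderiv ℝ (F s) (c • x) (dir i k) := by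
    intro x
    have h := (((hF.1 s).1.differentiable one_ne_zero (c • x)).hasFDerivAt.comp x
      ((hasFDerivAt_id x).const_smul c)).fderiv
    refine (congrArg (fun T : Conf N →L[ℝ] ℝ => T (dir i k)) h).trans ?_
    simp
  simp only [e, mul_pow]
  rw [br_int hc (fun _ => c ^ 2) fun x => fderiv ℝ (F s) x (dir i k) ^ 2, integral_const_mul,
    mul_assoc]

theorem br_en {c : ℝ} (hc : 0 < c) {F : RS N} (hF : SmA F) {A A' : E3 → ℝ} {W W' : E3 → E3 → ℝ}
    (hA : ∀ x, A (c⁻¹ • x) = c ^ 2 * A' x)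
    (hW : ∀ x y, W (c⁻¹ • x) (c⁻¹ • y) = c ^ 2 * W' x y) :
    enN A W (brSc c F) = brJ N c * c ^ 2 * enN A' W' F := by
  unfold enN
  rw [br_kin hc hF, mul_add, mul_sub]
  simp only [Finset.mul_sum]
  congr 2
  · refine Finset.sum_congr rfl fun s _ => Finset.sum_congr rfl fun i _ => ?_
    refine (br_int hc (fun x => A (x i)) fun x => F s x ^ 2).trans ?_
    simp only [Pi.smul_apply, hA, mul_assoc, integral_const_mul]
  · funext s
    refine Finset.sum_congr rfl fun i _ => Finset.sum_congr rfl fun j _ => ?_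
    refine (br_int hc (fun x => W (x i) (x j)) fun x => F s x ^ 2).trans ?_
    simp only [Pi.smul_apply, hW, mul_assoc, integral_const_mul]

theorem br_norm {l : ℝ} (hl : 0 < l) (x y : E3) : ‖l⁻¹ • x - l⁻¹ • y‖ = ‖x - y‖ / l := by
  rw [← smul_sub, norm_smul, Real.norm_of_nonneg (by positivity), div_eq_inv_mul]

theorem br_attL {l : ℝ} (hl : 0 < l) (nuc : List ((ℚ × ℚ × ℚ) × ℕ)) (x : E3) :
    attL l nuc (l⁻¹ • x) = l ^ 2 * attL 1 nuc x := by
  unfold attL
  rw [← List.sum_map_mul_left]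
  congr 2
  funext p
  rw [br_norm hl, inv_one, one_smul, div_div_eq_mul_div]
  ring

theorem br_att_nonneg (nuc : List ((ℚ × ℚ × ℚ) × ℕ)) (x : E3) : 0 ≤ attL 1 nuc x :=
  List.sum_nonneg fun _ h => by
    obtain ⟨p, -, rfl⟩ := List.mem_map.1 h
    positivity

theorem br_sq {F : Conf N → ℝ} (hF : Continuous F) (hc : HasCompactSupport F) :
    Continuous (fun x => F x ^ 2) ∧ HasCompactSupport fun x => F x ^ 2 :=
  ⟨hF.pow 2, hc.comp_left (g := fun t : ℝ => t ^ 2) (by simp)⟩

theorem br_att_int {G : Conf N → ℝ} (hG : Continuous G) (hc : HasCompactSupport G) (i : Fin N)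
    (nuc : List ((ℚ × ℚ × ℚ) × ℕ)) : Integrable fun x => attL 1 nuc (x i) * G x := by
  induction nuc with
  | nil => simp [attL]
  | cons p t ih =>
    refine (((integrable_conf_inv hG hc i (pt p.1)).const_mul (p.2 : ℝ)).add ih).congr
      (.of_forall fun x => ?_)
    simp only [attL, List.map_cons, List.sum_cons, Pi.add_apply, inv_one, one_smul]
    ring

theorem br_att_ae (i : Fin N) (nuc : List ((ℚ × ℚ × ℚ) × ℕ)) : ∀ᵐ x : Conf N,
    (nuc.map fun p => (p.2 : ℝ≥0∞) / edist (x i) (pt p.1)).sum =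
      ENNReal.ofReal (attL 1 nuc (x i)) := by
  induction nuc with
  | nil => simp [attL]
  | cons p t ih =>
    filter_upwards [ih, Measure.ae_eval_ne (fun _ : Fin N => (volume : Measure E3)) i (pt p.1)]
      with x h1 h2
    have e : attL 1 (p :: t) (x i) = p.2 / ‖x i - pt p.1‖ + attL 1 t (x i) := by simp [attL]
    rw [e, ENNReal.ofReal_add (by positivity) (br_att_nonneg _ _), List.map_cons, List.sum_cons,
      h1, ENNReal.ofReal_div_of_pos (norm_pos_iff.2 (sub_ne_zero.2 h2)), ENNReal.ofReal_natCast,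
      edist_dist, dist_eq_norm]

theorem br_att {G : Conf N → ℝ} (hG : Continuous G) (hc : HasCompactSupport G) (h0 : ∀ x, 0 ≤ G x)
    (nuc : List ((ℚ × ℚ × ℚ) × ℕ)) :
    ∫⁻ x, (∑ i, (nuc.map fun p => (p.2 : ℝ≥0∞) / edist (x i) (pt p.1)).sum) *
      ENNReal.ofReal (G x) = ENNReal.ofReal (∑ i, ∫ x, attL 1 nuc (x i) * G x) := by
  rw [← integral_finsetSum _ fun i _ => br_att_int hG hc i nuc, ofReal_integral_eq_lintegral_ofReal
    (integrable_finsetSum _ fun i _ => br_att_int hG hc i nuc) (.of_forall fun x =>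
      Finset.sum_nonneg fun i _ => mul_nonneg (br_att_nonneg _ _) (h0 x))]
  refine lintegral_congr_ae ?_
  filter_upwards [ae_all_iff.2 fun i => br_att_ae i nuc] with x hx
  rw [← Finset.sum_mul, ENNReal.ofReal_mul (Finset.sum_nonneg fun i _ => br_att_nonneg _ _),
    ENNReal.ofReal_sum_of_nonneg fun i _ => br_att_nonneg _ _]
  simp only [hx]

theorem br_att_meas (i : Fin N) (nuc : List ((ℚ × ℚ × ℚ) × ℕ)) : Measurable fun x : Conf N =>
    (nuc.map fun p => (p.2 : ℝ≥0∞) / edist (x i) (pt p.1)).sum := by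
  induction nuc with
  | nil => simp
  | cons p t ih =>
    simp only [List.map_cons, List.sum_cons]
    exact (measurable_const.div ((measurable_pi_apply i).edist measurable_const)).add ih

end Vale.Agent.P370
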