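import Vale.Agent.P370.Dens
import Vale.Agent.P370.BrLowA

namespace Vale.Agent.P370

open MeasureTheory Filter
open scoped Classical ENNReal

theorem brLow_ereal {a k : ℝ≥0∞} {c β : ℝ} (ha : a ≠ ⊤) (hc : 0 ≤ c) (hβ : 0 ≤ c + β)
    (h : a + ENNReal.ofReal (c + β) ≤ k + ENNReal.ofReal c) :
    (β : EReal) ≤ (k : EReal) - (a : EReal) := by
  rcases eq_or_ne k ⊤ with rfl | hk
  · rw [EReal.coe_ennreal_top, EReal.top_sub (by simpa using ha)]
    exact le_top
  · have h1 := ENNReal.toReal_mono (ENNReal.add_ne_top.2 ⟨hk, ENNReal.ofReal_ne_top⟩) h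
    rw [ENNReal.toReal_add ha ENNReal.ofReal_ne_top, ENNReal.toReal_add hk ENNReal.ofReal_ne_top,
      ENNReal.toReal_ofReal hc, ENNReal.toReal_ofReal hβ] at h1
    rw [← EReal.coe_ennreal_toReal hk, ← EReal.coe_ennreal_toReal ha, ← EReal.coe_sub,
      EReal.coe_le_coe_iff]
    linarith

theorem brLow_kin {N : ℕ} (u : State N) : u.kin ≠ ⊤ := by
  refine ENNReal.div_ne_top (ENNReal.sum_ne_top.2 fun s _ => ENNReal.sum_ne_top.2 fun i _ =>
    ENNReal.sum_ne_top.2 fun k _ => ?_) two_ne_zero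
  have h := ((memLp_two_iff_integrable_sq_norm (u.mem_grad s i k).1).1 (u.mem_grad s i k)).2
  simpa [HasFiniteIntegral, enorm_pow, lt_top_iff_ne_top] using h

theorem brLow_one (I : Inst) {W : E3 → E3 → ℝ} (hW : Continuous fun q : E3 × E3 => W q.1 q.2)
    {B : ℝ} (h0 : ∀ x y, 0 ≤ W x y) (hB : ∀ x y, W x y ≤ B)
    (he : ∀ x y, ENNReal.ofReal (W x y) ≤ (edist x y)⁻¹) (β : ℝ)
    (h : ∀ F : RS I.N, SmA F → β * nsq F ≤ enN (attL 1 I.nuc) W F) : (β : EReal) ≤ I.E0 := by
  set V : Conf I.N → ℝ := fun x => ∑ i, ∑ j with i < j, W (x i) (x j) with hV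
  set c : ℝ := (∑ i : Fin I.N, ∑ j with i < j, B) + |β| with hc
  have hB0 : 0 ≤ B := (h0 0 0).trans (hB 0 0)
  have hWc : ∀ i j, Continuous fun x : Conf I.N => W (x i) (x j) := fun i j =>
    hW.comp (f := fun x : Conf I.N => (x i, x j)) (by fun_prop)
  have hVc : Continuous V :=
    continuous_finsetSum _ fun i _ => continuous_finsetSum _ fun j _ => hWc i j
  have hV0 : ∀ x, 0 ≤ V x := fun x =>
    Finset.sum_nonneg fun i _ => Finset.sum_nonneg fun j _ => h0 _ _
  have hVc0 : ∀ x, 0 ≤ c + β - V x := fun x => by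
    have : V x ≤ ∑ i : Fin I.N, ∑ j with i < j, B :=
      Finset.sum_le_sum fun i _ => Finset.sum_le_sum fun j _ => hB _ _
    linarith [neg_abs_le β]
  have hc0 : 0 ≤ c := by positivity
  set At : Conf I.N → ℝ≥0∞ := fun x =>
    ∑ i, (I.nuc.map fun p => (p.2 : ℝ≥0∞) / edist (x i) (pt p.1)).sum with hAt
  have hAm : Measurable At := Finset.measurable_sum _ fun i _ => br_att_meas i I.nuc
  have hm : Measurable fun x => ENNReal.ofReal (c + β - V x) :=
    (continuous_const.sub hVc).measurable.ennreal_ofReal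
  refine le_iInf₂ fun u hu => ?_
  have key := dens (fun x => At x + ENNReal.ofReal (c + β - V x)) (hAm.add hm) (ENNReal.ofReal c)
    ENNReal.ofReal_ne_top (fun F hF => by
      have hq := fun s => br_sq (hF.1 s).1.continuous (hF.1 s).2
      have hi : ∀ s, ∀ {w : Conf I.N → ℝ}, Continuous w → Integrable fun x => w x * F s x ^ 2 :=
        fun s w hw => (hw.mul (hq s).1).integrable_of_hasCompactSupport (hq s).2.mul_left
      have e1 : ∀ s, ∫ x, (c + β - V x) * F s x ^ 2 = (c + β) * (∫ x, F s x ^ 2) -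
          ∑ i, ∑ j with i < j, ∫ x, W (x i) (x j) * F s x ^ 2 := by
        intro s
        simp only [sub_mul]
        rw [integral_sub (hi s continuous_const) (hi s hVc), integral_const_mul]
        congr 1
        simp only [hV, Finset.sum_mul]
        rw [integral_finsetSum _ fun i _ => integrable_finsetSum _ fun j _ => hi s (hWc i j)]
        exact Finset.sum_congr rfl fun i _ => integral_finsetSum _ fun j _ => hi s (hWc i j)
      have n1 : ∀ s, 0 ≤ ∑ i, ∫ x : Conf I.N, attL 1 I.nuc (x i) * F s x ^ 2 := fun s =>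
        Finset.sum_nonneg fun i _ => integral_nonneg fun x =>
          mul_nonneg (br_att_nonneg _ _) (sq_nonneg _)
      have n2 : ∀ s, 0 ≤ ∫ x, (c + β - V x) * F s x ^ 2 := fun s =>
        integral_nonneg fun x => mul_nonneg (hVc0 x) (sq_nonneg _)
      have e2 : ∀ s, ∫⁻ x, (At x + ENNReal.ofReal (c + β - V x)) * ENNReal.ofReal (F s x ^ 2) =
          ENNReal.ofReal ((∑ i, ∫ x : Conf I.N, attL 1 I.nuc (x i) * F s x ^ 2) +
            ∫ x, (c + β - V x) * F s x ^ 2) := by
        intro s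
        simp only [add_mul]
        rw [lintegral_add_left (hAm.fun_mul (hq s).1.measurable.ennreal_ofReal),
          br_att (hq s).1 (hq s).2 (fun _ => sq_nonneg _), ENNReal.ofReal_add (n1 s) (n2 s),
          ofReal_integral_eq_lintegral_ofReal (hi s (continuous_const.fun_sub hVc))
            (.of_forall fun x => mul_nonneg (hVc0 x) (sq_nonneg _))]
        congr 2
        funext x
        rw [ENNReal.ofReal_mul (hVc0 x)]
      simp only [e2]
      rw [← ENNReal.ofReal_sum_of_nonneg fun s _ => add_nonneg (n1 s) (n2 s),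
        ← ENNReal.ofReal_mul hc0, ← ENNReal.ofReal_add (by unfold kinN; positivity)
          (mul_nonneg hc0 (by unfold nsq; positivity))]
      refine ENNReal.ofReal_le_ofReal ?_
      have k := h F hF
      simp only [e1, Finset.sum_add_distrib, Finset.sum_sub_distrib, ← Finset.mul_sum]
      unfold enN at k
      unfold nsq at k ⊢
      linarith) u
  have um : ∀ s, AEMeasurable fun x => ‖u.ψ s x‖ₑ ^ 2 := fun s =>
    (u.mem s).1.enorm.pow_const 2
  simp only [add_mul] at key
  rw [Finset.sum_congr rfl fun s _ => lintegral_add_left' (hAm.aemeasurable.fun_mul (um s)) _,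
    Finset.sum_add_distrib, hu, mul_one] at key
  have k1 : ENNReal.ofReal (c + β) ≤
      (∑ s, ∫⁻ x, ENNReal.ofReal (c + β - V x) * ‖u.ψ s x‖ₑ ^ 2) + u.rep := by
    rw [← mul_one (ENNReal.ofReal (c + β)), ← hu, State.normSq, State.rep, Finset.mul_sum,
      ← Finset.sum_add_distrib]
    refine Finset.sum_le_sum fun s _ => ?_
    rw [← lintegral_const_mul'' _ (um s), ← lintegral_add_left' (hm.aemeasurable.fun_mul (um s))]
    refine lintegral_mono fun x => ?_
    beta_reduce
    rw [← add_mul]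
    refine mul_le_mul_left ?_ _
    rw [show c + β = (c + β - V x) + V x by ring, ENNReal.ofReal_add (hVc0 x) (hV0 x),
      add_sub_cancel_right]
    refine add_le_add_right ?_ _
    rw [hV, ENNReal.ofReal_sum_of_nonneg fun i _ => Finset.sum_nonneg fun j _ => h0 _ _]
    refine Finset.sum_le_sum fun i _ => ?_
    rw [ENNReal.ofReal_sum_of_nonneg fun j _ => h0 _ _]
    exact Finset.sum_le_sum fun j _ => he _ _
  refine brLow_ereal (c := c) (ne_top_of_le_ne_top
    (ENNReal.add_ne_top.2 ⟨brLow_kin u, ENNReal.ofReal_ne_top⟩) (le_self_add.trans key)) hc0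
    (by linarith [hVc0 0, hV0 0]) ?_
  calc u.att I.nuc + ENNReal.ofReal (c + β) ≤ u.att I.nuc +
        ((∑ s, ∫⁻ x, ENNReal.ofReal (c + β - V x) * ‖u.ψ s x‖ₑ ^ 2) + u.rep) :=
        add_le_add_right k1 _
    _ ≤ u.kin + ENNReal.ofReal c + u.rep := by rw [← add_assoc]; exact add_le_add_left key _
    _ = _ := add_right_comm _ _ _

theorem bridge_low (I : Inst) {l : ℝ} (hl : 0 < l) (b : ℝ)
    (h : ∀ F : RS I.N, SmA F → b * nsq F ≤ enN (attL l I.nuc) (wlow l) F) :
    ((b / l ^ 2 : ℝ) : EReal) ≤ I.E0 := by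
  have hp : ∀ x y : E3, 0 < max l ‖x - y‖ := fun x y => hl.trans_le (le_max_left _ _)
  refine brLow_one I (W := fun x y => (max l ‖x - y‖)⁻¹)
    ((continuous_const.max (continuous_fst.sub continuous_snd).norm).inv₀ fun q => (hp _ _).ne')
    (B := l⁻¹) (fun x y => (inv_pos.2 (hp x y)).le) (fun x y => inv_anti₀ hl (le_max_left _ _))
    (fun x y => ?_) _ fun F hF => ?_
  · rw [ENNReal.ofReal_inv_of_pos (hp x y), ENNReal.inv_le_inv, edist_dist, dist_eq_norm]
    exact ENNReal.ofReal_le_ofReal (le_max_right _ _)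
  · have k := h _ (br_sma hl hF)
    rw [br_nsq hl, br_en hl hF (br_attL hl I.nuc) (W' := fun x y => (max l ‖x - y‖)⁻¹)
      fun x y => by
        rw [wlow, br_norm hl, ← div_self hl.ne', max_div_div_right hl.le, div_div_eq_mul_div,
          div_eq_mul_inv, sq]] at k
    rw [div_mul_eq_mul_div, div_le_iff₀ (by positivity)]
    refine le_of_mul_le_mul_left ?_ (brJ_pos (N := I.N) hl)
    linarith

end Vale.Agent.P370
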