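import Vale.Agent.P370.BrLowA

namespace Vale.Agent.P370

open MeasureTheory Filter
open scoped Classical ENNReal

theorem brUp_enorm (r : ℝ) : ‖(r : ℂ)‖ₑ ^ 2 = ENNReal.ofReal (r ^ 2) := by
  rw [← ofReal_norm, Complex.norm_real, ← ENNReal.ofReal_pow (norm_nonneg _), Real.norm_eq_abs,
    sq_abs]

theorem brUp_sq {N : ℕ} {f : Conf N → ℝ} (hf : Continuous f) (hc : HasCompactSupport f) :
    ∫⁻ x, ‖(f x : ℂ)‖ₑ ^ 2 = ENNReal.ofReal (∫ x, f x ^ 2) := by
  simp only [brUp_enorm]
  exact (ofReal_integral_eq_lintegral_ofReal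
    ((br_sq hf hc).1.integrable_of_hasCompactSupport (br_sq hf hc).2)
    (.of_forall fun _ => sq_nonneg _)).symm

theorem brUp_mem {N : ℕ} {f : Conf N → ℝ} (hf : Continuous f) (hc : HasCompactSupport f) :
    MemLp (fun x => (f x : ℂ)) 2 volume :=
  (Complex.continuous_ofReal.comp hf).memLp_of_hasCompactSupport
    (hc.comp_left (g := fun t : ℝ => (t : ℂ)) (by simp))

theorem brUp_d {N : ℕ} {f : Conf N → ℝ} (hf : Sm f) (v : Conf N) :
    Continuous (fun x => fderiv ℝ f x v) ∧ HasCompactSupport fun x => fderiv ℝ f x v :=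
  ⟨(hf.1.continuous_fderiv one_ne_zero).clm_apply continuous_const, hf.2.fderiv_apply ℝ v⟩

theorem brUp_ae {N : ℕ} {i j : Fin N} (h : i ≠ j) : ∀ᵐ x : Conf N, x i ≠ x j := by
  have h1 := Measure.addHaar_submodule (volume : Measure (Conf N))
    (LinearMap.ker ((LinearMap.proj i : Conf N →ₗ[ℝ] E3) - LinearMap.proj j)) fun e => by
      have h2 : dir i 0 ∈ LinearMap.ker ((LinearMap.proj i : Conf N →ₗ[ℝ] E3) - LinearMap.proj j) :=
        e ▸ Submodule.mem_top
      simp [dir, h.symm] at h2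
  rw [ae_iff]
  refine measure_mono_null (fun x hx => ?_) h1
  simpa [sub_eq_zero] using hx

theorem brUp_rep {N : ℕ} {G : Conf N → ℝ} (hG : Continuous G) (hc : HasCompactSupport G)
    (h0 : ∀ x, 0 ≤ G x) :
    ∫⁻ x : Conf N, (∑ i, ∑ j with i < j, (edist (x i) (x j))⁻¹) * ENNReal.ofReal (G x) =
      ENNReal.ofReal (∑ i, ∑ j with i < j, ∫ x : Conf N, wfull 1 (x i) (x j) * G x) := by
  have hi : ∀ i j, Integrable fun x : Conf N => wfull 1 (x i) (x j) * G x := fun i j =>
    (integrable_conf_pair hG hc i j).congr (.of_forall fun x => by simp only [wfull]; ring)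
  have hw : ∀ x y : E3, 0 ≤ wfull 1 x y := fun x y => by unfold wfull; positivity
  rw [Finset.sum_congr rfl fun i _ => (integral_finsetSum _ fun j _ => hi i j).symm,
    ← integral_finsetSum _ fun i _ => integrable_finsetSum _ fun j _ => hi i j,
    ofReal_integral_eq_lintegral_ofReal
      (integrable_finsetSum _ fun i _ => integrable_finsetSum _ fun j _ => hi i j)
      (.of_forall fun x => Finset.sum_nonneg fun i _ => Finset.sum_nonneg fun j _ =>
        mul_nonneg (hw _ _) (h0 x))]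
  refine lintegral_congr_ae ?_
  have hae : ∀ᵐ x : Conf N, ∀ i j, i < j → x i ≠ x j :=
    ae_all_iff.2 fun i => ae_all_iff.2 fun j => by
      by_cases h : i < j
      · exact (brUp_ae h.ne).mono fun x hx _ => hx
      · exact .of_forall fun x h' => absurd h' h
  filter_upwards [hae] with x hx
  simp only [← Finset.sum_mul]
  rw [ENNReal.ofReal_mul (Finset.sum_nonneg fun i _ => Finset.sum_nonneg fun j _ => hw _ _),
    ENNReal.ofReal_sum_of_nonneg fun i _ => Finset.sum_nonneg fun j _ => hw _ _]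
  congr 1
  refine Finset.sum_congr rfl fun i _ => ?_
  rw [ENNReal.ofReal_sum_of_nonneg fun j _ => hw _ _]
  refine Finset.sum_congr rfl fun j hj => ?_
  rw [wfull, one_div, ENNReal.ofReal_inv_of_pos
    (norm_pos_iff.2 (sub_ne_zero.2 (hx i j (Finset.mem_filter.1 hj).2))), edist_dist, dist_eq_norm]

/-- The state given by a smooth real function. -/
noncomputable def brUpState {N : ℕ} {G : RS N} (hG : SmA G) : State N where
  ψ := fun s x => (G s x : ℂ)
  grad := fun s i k x => (fderiv ℝ (G s) x (dir i k) : ℂ)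
  mem := fun s => brUp_mem (hG.1 s).1.continuous (hG.1 s).2
  mem_grad := fun s i k => brUp_mem (brUp_d (hG.1 s) _).1 (brUp_d (hG.1 s) _).2
  weak := fun s i k φ h1 h2 => by
    have hφ : Sm φ := ⟨h1.of_le (by simp), h2⟩
    have a1 := (hG.1 s).1.continuous
    have h := integral_mul_fderiv_eq_neg_fderiv_mul_of_integrable (μ := volume) (v := dir i k)
      (((brUp_d hφ _).1.mul a1).integrable_of_hasCompactSupport (hG.1 s).2.mul_left)
      ((h1.continuous.mul (brUp_d (hG.1 s) _).1).integrable_of_hasCompactSupport h2.mul_right)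
      ((h1.continuous.mul a1).integrable_of_hasCompactSupport h2.mul_right)
      (fun x _ => hφ.1.differentiable one_ne_zero x)
      fun x _ => (hG.1 s).1.differentiable one_ne_zero x
    simp only [← Complex.ofReal_mul, integral_complex_ofReal]
    rw [h, Complex.ofReal_neg, neg_neg]
  anti := fun π s => .of_forall fun x => by
    rw [hG.2 π s x]
    push_cast
    rfl

theorem brUp_one (I : Inst) {G : RS I.N} (hG : SmA G) (h1 : nsq G = 1) :
    I.E0 ≤ (enN (attL 1 I.nuc) (wfull 1) G : ℝ) := by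
  have hq := fun s => br_sq (hG.1 s).1.continuous (hG.1 s).2
  have e1 : (brUpState hG).normSq = 1 := by
    rw [← ENNReal.ofReal_one, ← h1, nsq,
      ENNReal.ofReal_sum_of_nonneg fun s _ => integral_nonneg fun _ => sq_nonneg _]
    exact Finset.sum_congr rfl fun s _ => brUp_sq (hG.1 s).1.continuous (hG.1 s).2
  have e2 : (brUpState hG).kin = ENNReal.ofReal (kinN G) := by
    rw [kinN, ENNReal.ofReal_div_of_pos two_pos, ENNReal.ofReal_ofNat,
      ENNReal.ofReal_sum_of_nonneg fun s _ => by positivity, State.kin]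
    congr 1
    refine Finset.sum_congr rfl fun s _ => ?_
    rw [ENNReal.ofReal_sum_of_nonneg fun i _ => by positivity]
    refine Finset.sum_congr rfl fun i _ => ?_
    rw [ENNReal.ofReal_sum_of_nonneg fun k _ => by positivity]
    exact Finset.sum_congr rfl fun k _ => brUp_sq (brUp_d (hG.1 s) _).1 (brUp_d (hG.1 s) _).2
  have n1 : ∀ s, 0 ≤ ∑ i, ∫ x : Conf I.N, attL 1 I.nuc (x i) * G s x ^ 2 := fun s =>
    Finset.sum_nonneg fun i _ => integral_nonneg fun x =>
      mul_nonneg (br_att_nonneg _ _) (sq_nonneg _)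
  have n2 : ∀ s, 0 ≤ ∑ i, ∑ j with i < j, ∫ x : Conf I.N, wfull 1 (x i) (x j) * G s x ^ 2 :=
    fun s => by unfold wfull; positivity
  have e3 : (brUpState hG).att I.nuc =
      ENNReal.ofReal (∑ s, ∑ i, ∫ x : Conf I.N, attL 1 I.nuc (x i) * G s x ^ 2) := by
    rw [ENNReal.ofReal_sum_of_nonneg fun s _ => n1 s]
    refine Finset.sum_congr rfl fun s _ => ?_
    rw [← br_att (hq s).1 (hq s).2 fun _ => sq_nonneg _]
    simp only [brUpState, brUp_enorm]
  have e4 : (brUpState hG).rep = ENNReal.ofReal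
      (∑ s, ∑ i, ∑ j with i < j, ∫ x : Conf I.N, wfull 1 (x i) (x j) * G s x ^ 2) := by
    rw [ENNReal.ofReal_sum_of_nonneg fun s _ => n2 s]
    refine Finset.sum_congr rfl fun s _ => ?_
    rw [← brUp_rep (hq s).1 (hq s).2 fun _ => sq_nonneg _]
    simp only [brUpState, brUp_enorm]
  have n0 : 0 ≤ kinN G := by unfold kinN; positivity
  have m1 := Finset.sum_nonneg fun s (_ : s ∈ Finset.univ) => n1 s
  have m2 := Finset.sum_nonneg fun s (_ : s ∈ Finset.univ) => n2 s
  refine iInf₂_le_of_le (brUpState hG) e1 (le_of_eq ?_)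
  rw [e2, e3, e4, ← ENNReal.ofReal_add n0 m2, EReal.coe_ennreal_ofReal, EReal.coe_ennreal_ofReal,
    max_eq_left (add_nonneg n0 m2), max_eq_left m1, ← EReal.coe_sub, enN, add_sub_right_comm]

theorem bridge_up (I : Inst) {l : ℝ} (hl : 0 < l) (a : ℝ) (F : RS I.N) (hF : SmA F)
    (h0 : 0 < nsq F) (h : enN (attL l I.nuc) (wfull l) F ≤ a * nsq F) :
    I.E0 ≤ ((a / l ^ 2 : ℝ) : EReal) := by
  have hG := br_sma (inv_pos.2 hl) hF
  set G := brSc l⁻¹ F with hGd
  have e : F = brSc l G := by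
    funext s x
    simp only [hGd, brSc, inv_smul_smul₀ hl.ne']
  have hJ := brJ_pos (N := I.N) hl
  rw [e, br_nsq hl] at h h0
  rw [br_en hl hG (br_attL hl I.nuc) (W' := wfull 1) fun x y => by
    rw [wfull, wfull, br_norm hl, div_div_eq_mul_div]; ring] at h
  have h1 : 0 < nsq G := (mul_pos_iff_of_pos_left hJ).1 h0
  have h2 : l ^ 2 * enN (attL 1 I.nuc) (wfull 1) G ≤ a * nsq G :=
    le_of_mul_le_mul_left (by linarith) hJ
  set c := (√(nsq G))⁻¹ with hc
  have hc2 : c ^ 2 * nsq G = 1 := by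
    rw [hc, inv_pow, Real.sq_sqrt h1.le, inv_mul_cancel₀ h1.ne']
  have hG' : SmA fun s x => c * G s x :=
    ⟨fun s => ⟨contDiff_const.mul (hG.1 s).1, (hG.1 s).2.mul_left⟩,
      fun π s x => by beta_reduce; rw [hG.2 π s x]; ring⟩
  have e1 : nsq (fun s x => c * G s x) = c ^ 2 * nsq G := by
    simp only [nsq, mul_pow, integral_const_mul, Finset.mul_sum]
  have e2 : enN (attL 1 I.nuc) (wfull 1) (fun s x => c * G s x) =
      c ^ 2 * enN (attL 1 I.nuc) (wfull 1) G := by
    have d : ∀ s x v, fderiv ℝ (fun x => c * G s x) x v = c * fderiv ℝ (G s) x v := fun s x v => by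
      rw [fderiv_const_mul ((hG.1 s).1.differentiable one_ne_zero x)]
      rfl
    simp only [enN, kinN, d, mul_pow, mul_left_comm _ (c ^ 2), integral_const_mul,
      ← Finset.mul_sum]
    ring
  refine (brUp_one I hG' (e1.trans hc2)).trans (EReal.coe_le_coe_iff.2 ?_)
  rw [e2, le_div_iff₀ (by positivity)]
  have h3 := mul_le_mul_of_nonneg_left h2 (sq_nonneg c)
  have h4 : c ^ 2 * (a * nsq G) = a := by rw [mul_left_comm, hc2, mul_one]
  linarith

end Vale.Agent.P370
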