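import Vale.Agent.P370.Basic

namespace Vale.Agent.P370

open MeasureTheory Filter
open scoped Classical ENNReal

/-- The trial function attached to a coefficient vector. -/
noncomputable def trial {K : ℕ} (θ : E3 → ℝ) (f : Fin K → E3 → ℝ) (c : Fin K → ℝ) (p : E3) : ℝ :=
  θ p * ∑ a, c a * f a p

/-- The many-body trial function. -/
noncomputable def mbuF {N K : ℕ} (θ : E3 → ℝ) (f : Fin K → E3 → ℝ) (D : (Fin N → Fin K) → ℝ)
    (x : Conf N) : ℝ := ∑ a, D a * ∏ i, (θ (x i) * f (a i) (x i))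

/-- The product densities. -/
noncomputable def mbuM {N K : ℕ} (θ : E3 → ℝ) (f : Fin K → E3 → ℝ) (a : Fin N → Fin K)
    (x : Conf N) : ℝ := ∏ i, (θ (x i) ^ 2 * f (a i) (x i))

section
variable {N K : ℕ} {θ : E3 → ℝ} {f : Fin K → E3 → ℝ}

theorem mbu_supp (hθ : Sm θ) {G : Conf N → ℝ} (hG : ∀ x i, θ (x i) = 0 → G x = 0) :
    HasCompactSupport G := by
  refine HasCompactSupport.intro (isCompact_univ_pi fun _ : Fin N => hθ.2.isCompact) fun x hx => ?_
  simp only [Set.mem_univ_pi, not_forall] at hx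
  obtain ⟨i, hi⟩ := hx
  exact hG x i (image_eq_zero_of_notMem_tsupport hi)

theorem mbuF_sm (hθ : Sm θ) (hf : ∀ a, ContDiff ℝ 1 (f a)) (D : (Fin N → Fin K) → ℝ) :
    Sm (mbuF θ f D) := by
  refine ⟨ContDiff.sum fun a _ => contDiff_const.mul (contDiff_prod fun i _ => ?_),
    mbu_supp hθ fun x i hi => Finset.sum_eq_zero fun a _ => ?_⟩
  · exact (hθ.1.comp (contDiff_apply ℝ E3 i)).mul ((hf _).comp (contDiff_apply ℝ E3 i))
  · rw [Finset.prod_eq_zero (Finset.mem_univ i) (by rw [hi, zero_mul]), mul_zero]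

theorem mbuM_cont (hθ : Sm θ) (hf : ∀ a, ContDiff ℝ 1 (f a)) (a : Fin N → Fin K) :
    Continuous (mbuM θ f a) :=
  continuous_finsetProd _ fun i _ => ((hθ.1.continuous.comp (continuous_apply i)).pow 2).mul
    ((hf _).continuous.comp (continuous_apply i))

theorem mbuM_supp (hθ : Sm θ) (a : Fin N → Fin K) : HasCompactSupport (mbuM θ f a) :=
  mbu_supp hθ fun x i hi => Finset.prod_eq_zero (Finset.mem_univ i) (by simp [hi])

theorem mbuM_nonneg (hf0 : ∀ a p, 0 ≤ f a p) (a : Fin N → Fin K) (x : Conf N) :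
    0 ≤ mbuM θ f a x := Finset.prod_nonneg fun _ _ => mul_nonneg (sq_nonneg _) (hf0 _ _)

theorem mbuM_int (hθ : Sm θ) (hf : ∀ a, ContDiff ℝ 1 (f a)) (a : Fin N → Fin K) :
    Integrable (mbuM θ f a) := (mbuM_cont hθ hf a).integrable_of_hasCompactSupport (mbuM_supp hθ a)

theorem mbuM_integral (hf0 : ∀ a p, 0 ≤ f a p) {B : ℝ} (hm : ∀ a, ∫ p, θ p ^ 2 * f a p ≤ B)
    (a : Fin N → Fin K) : ∫ x, mbuM θ f a x ≤ B ^ N := by
  unfold mbuM
  rw [integral_fintype_prod_volume_eq_prod (fun i p => θ p ^ 2 * f (a i) p)]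
  refine (Finset.prod_le_prod (fun i _ => integral_nonneg fun p =>
    mul_nonneg (sq_nonneg _) (hf0 _ _)) fun i _ => hm (a i)).trans ?_
  simp

theorem mbu_jensen (hf0 : ∀ a p, 0 ≤ f a p) (hf1 : ∀ p, ∑ a, f a p ≤ 1)
    (D : (Fin N → Fin K) → ℝ) (x : Conf N) :
    mbuF θ f D x ^ 2 ≤ ∑ a, D a ^ 2 * mbuM θ f a x := by
  have hP : ∀ a : Fin N → Fin K, 0 ≤ ∏ i, f (a i) (x i) :=
    fun a => Finset.prod_nonneg fun _ _ => hf0 _ _
  have h1 : ∑ a : Fin N → Fin K, ∏ i, f (a i) (x i) ≤ 1 := by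
    have := Finset.prod_univ_sum (fun _ : Fin N => (Finset.univ : Finset (Fin K)))
      fun i c => f c (x i)
    rw [Fintype.piFinset_univ] at this
    rw [← this]
    exact Finset.prod_le_one (fun i _ => Finset.sum_nonneg fun _ _ => hf0 _ _) fun i _ => hf1 _
  have h2 := Finset.sum_sq_le_sum_mul_sum_of_sq_le_mul Finset.univ
    (r := fun a => D a * ∏ i, (θ (x i) * f (a i) (x i)))
    (f := fun a => D a ^ 2 * mbuM θ f a x) (g := fun a => ∏ i, f (a i) (x i))
    (fun a _ => mul_nonneg (sq_nonneg _) (mbuM_nonneg hf0 a x)) (fun a _ => hP a) fun a _ => by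
      unfold mbuM
      rw [mul_pow, ← Finset.prod_pow, mul_assoc, ← Finset.prod_mul_distrib]
      exact le_of_eq (congrArg _ (Finset.prod_congr rfl fun i _ => by ring))
  have h3 : 0 ≤ ∑ a, D a ^ 2 * mbuM θ f a x :=
    Finset.sum_nonneg fun a _ => mul_nonneg (sq_nonneg _) (mbuM_nonneg hf0 a x)
  unfold mbuF
  nlinarith

theorem mbuF_anti {C : Ten N K} (hA : AntiT C) (π : Equiv.Perm (Fin N)) (s : Spin N)
    (x : Conf N) :
    mbuF θ f (C (s ∘ π)) (x ∘ π) = ((Equiv.Perm.sign π : ℤ) : ℝ) * mbuF θ f (C s) x := by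
  unfold mbuF
  rw [Finset.mul_sum]
  refine (Fintype.sum_equiv (Equiv.arrowCongr π.symm (Equiv.refl _)) _ _ fun b => ?_).symm
  have e : (Equiv.arrowCongr π.symm (Equiv.refl (Fin K))) b = b ∘ π := rfl
  rw [e, hA π s b, mul_assoc]
  congr 2
  exact (Equiv.prod_comp π fun i => θ (x i) * f (b i) (x i)).symm

theorem mbu_low_pt {Ω : Fin K → Set E3}
    (hΩ1 : ∀ a b, b ≠ a → ∀ p ∈ Ω a, f b p = 0) (D : (Fin N → Fin K) → ℝ) (x : Conf N) :
    ∑ a, D a ^ 2 * ∏ i, (Ω (a i)).indicator (fun p => (θ p * f (a i) p) ^ 2) (x i) ≤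
      mbuF θ f D x ^ 2 := by
  by_cases h : ∃ b : Fin N → Fin K, ∀ i, x i ∈ Ω (b i)
  · obtain ⟨b, hb⟩ := h
    have h0 : ∀ i c, c ≠ b i → f c (x i) = 0 := fun i c hc => hΩ1 _ _ hc _ (hb i)
    unfold mbuF
    rw [Finset.sum_eq_single b, Finset.sum_eq_single b]
    · rw [mul_pow, ← Finset.prod_pow]
      refine le_of_eq (congrArg _ (Finset.prod_congr rfl fun i _ => ?_))
      rw [Set.indicator_of_mem (hb i)]
    · intro a _ ha
      obtain ⟨i, hi⟩ := Function.ne_iff.1 ha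
      rw [Finset.prod_eq_zero (Finset.mem_univ i) (by rw [h0 i _ hi, mul_zero]), mul_zero]
    · simp
    · intro a _ ha
      obtain ⟨i, hi⟩ := Function.ne_iff.1 ha
      refine mul_eq_zero_of_right _ (Finset.prod_eq_zero (Finset.mem_univ i) ?_)
      by_cases hx : x i ∈ Ω (a i)
      · rw [Set.indicator_of_mem hx, h0 i _ hi]
        simp
      · exact Set.indicator_of_notMem hx _
    · simp
  · refine le_trans (le_of_eq (Finset.sum_eq_zero fun a _ => ?_)) (sq_nonneg _)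
    push Not at h
    obtain ⟨i, hi⟩ := h a
    exact mul_eq_zero_of_right _
      (Finset.prod_eq_zero (Finset.mem_univ i) (Set.indicator_of_notMem hi _))

theorem mbu_sq_int {X : Type} [NormedAddCommGroup X] [NormedSpace ℝ X] {F : X → ℝ} (hF : Sm F) :
    Continuous (fun x => F x ^ 2) ∧ HasCompactSupport fun x => F x ^ 2 :=
  ⟨hF.1.continuous.pow 2, hF.2.comp_left (g := fun t : ℝ => t ^ 2) (by simp)⟩

theorem mbu_d_int {X : Type} [NormedAddCommGroup X] [NormedSpace ℝ X] {F : X → ℝ} (hF : Sm F)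
    (v : X) : Continuous (fun x => fderiv ℝ F x v ^ 2) ∧
      HasCompactSupport fun x => fderiv ℝ F x v ^ 2 :=
  ⟨((hF.1.continuous_fderiv one_ne_zero).clm_apply continuous_const).pow 2,
    (hF.2.fderiv_apply ℝ v).comp_left (g := fun t : ℝ => t ^ 2) (by simp)⟩

theorem mbu_low (hθ : Sm θ) (hf : ∀ a, ContDiff ℝ 1 (f a)) {Ω : Fin K → Set E3}
    (hΩ : ∀ a, MeasurableSet (Ω a)) (hΩ1 : ∀ a b, b ≠ a → ∀ p ∈ Ω a, f b p = 0) {B : ℝ}
    (hB : 0 ≤ B) (hΩ2 : ∀ a, B ≤ ∫ p in Ω a, (θ p * f a p) ^ 2)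
    (D : (Fin N → Fin K) → ℝ) : (∑ a, D a ^ 2) * B ^ N ≤ ∫ x, mbuF θ f D x ^ 2 := by
  have hs : ∀ a, Sm fun p => θ p * f a p := fun a => ⟨hθ.1.mul (hf a), hθ.2.mul_right⟩
  have hi : ∀ a : Fin N → Fin K, Integrable fun x : Conf N =>
      D a ^ 2 * ∏ i, (Ω (a i)).indicator (fun p => (θ p * f (a i) p) ^ 2) (x i) := fun a =>
    (Integrable.fintype_prod
      (f := fun i => (Ω (a i)).indicator (fun p => (θ p * f (a i) p) ^ 2))
      fun i => ((mbu_sq_int (hs (a i))).1.integrable_of_hasCompactSupport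
        (mbu_sq_int (hs (a i))).2).indicator (hΩ _)).const_mul _
  have h1 := integral_mono (integrable_finsetSum Finset.univ fun a _ => hi a)
    ((mbu_sq_int (mbuF_sm hθ hf D)).1.integrable_of_hasCompactSupport
      (mbu_sq_int (mbuF_sm hθ hf D)).2) (mbu_low_pt hΩ1 D)
  refine le_trans ?_ h1
  rw [integral_finsetSum _ fun a _ => hi a, Finset.sum_mul]
  refine Finset.sum_le_sum fun a _ => ?_
  rw [integral_const_mul, integral_fintype_prod_volume_eq_prod
    (fun i => (Ω (a i)).indicator (fun p => (θ p * f (a i) p) ^ 2))]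
  refine mul_le_mul_of_nonneg_left ?_ (sq_nonneg _)
  refine le_trans (by simp) (Finset.prod_le_prod (f := fun _ => B) (fun _ _ => hB) fun i _ => ?_)
  rw [integral_indicator (hΩ _)]
  exact hΩ2 _

theorem mbu_coul_int {ι : Type} (s : Finset ι) (z : ι → ℝ) (r : ι → E3) {G : Conf N → ℝ}
    (hG : Continuous G) (hc : HasCompactSupport G) (i : Fin N) :
    Integrable fun x => coul s z r (x i) * G x := by
  have : (fun x => coul s z r (x i) * G x) = fun x => ∑ j ∈ s, z j * (G x / ‖x i - r j‖) := by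
    funext x
    rw [coul, Finset.sum_mul]
    exact Finset.sum_congr rfl fun j _ => by ring
  rw [this]
  exact integrable_finsetSum _ fun j _ => (integrable_conf_inv hG hc i (r j)).const_mul _

theorem mbu_coul_int1 {ι : Type} (s : Finset ι) (z : ι → ℝ) (r : ι → E3) {G : E3 → ℝ}
    (hG : Continuous G) (hc : HasCompactSupport G) :
    Integrable fun x => coul s z r x * G x := by
  have : (fun x => coul s z r x * G x) = fun x => ∑ j ∈ s, z j * (G x / ‖x - r j‖) := by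
    funext x
    rw [coul, Finset.sum_mul]
    exact Finset.sum_congr rfl fun j _ => by ring
  rw [this]
  exact integrable_finsetSum _ fun j _ => (integrable_inv_norm hG hc (r j)).const_mul _

theorem mbu_w_int (l : ℝ) {G : Conf N → ℝ} (hG : Continuous G) (hc : HasCompactSupport G)
    (i j : Fin N) : Integrable fun x => wfull l (x i) (x j) * G x := by
  have : (fun x => wfull l (x i) (x j) * G x) = fun x => l * (G x / ‖x i - x j‖) := by
    funext x
    rw [wfull]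
    ring
  rw [this]
  exact (integrable_conf_pair hG hc i j).const_mul _

theorem mbu_sum_ins {n : ℕ} (i : Fin (n + 1)) (G : (Fin (n + 1) → Fin K) → ℝ) :
    ∑ a, G a = ∑ c, ∑ b : Fin n → Fin K, G (i.insertNth c b) := by
  rw [← Fintype.sum_prod_type' (fun c (b : Fin n → Fin K) => G (i.insertNth c b))]
  exact (Fintype.sum_equiv (Fin.insertNthEquiv (fun _ => Fin K) i) _ _ fun _ => rfl).symm

theorem mbu_slice {n : ℕ} (i : Fin (n + 1)) (D : (Fin (n + 1) → Fin K) → ℝ) (y : Conf n) :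
    (fun p => mbuF θ f D (i.insertNth p y))
      = trial θ f fun c => mbuF θ f (fun b => D (i.insertNth c b)) y := by
  funext p
  unfold mbuF trial
  rw [mbu_sum_ins i, Finset.mul_sum]
  refine Finset.sum_congr rfl fun c _ => ?_
  rw [Finset.sum_mul, Finset.mul_sum]
  refine Finset.sum_congr rfl fun b _ => ?_
  rw [Fin.prod_univ_succAbove _ i]
  simp only [Fin.insertNth_apply_same, Fin.insertNth_apply_succAbove]
  ring

theorem mbu_hop {n : ℕ} (i : Fin (n + 1)) (D : (Fin (n + 1) → Fin K) → ℝ) (c c' : Fin K) :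
    ∑ a with a i = c, (D a - D (Function.update a i c')) ^ 2
      = ∑ b : Fin n → Fin K, (D (i.insertNth c b) - D (i.insertNth c' b)) ^ 2 := by
  rw [Finset.sum_filter, mbu_sum_ins i, Finset.sum_eq_single c]
  · simp [Fin.update_insertNth]
  · intro c'' _ h
    simp [h]
  · simp

theorem mbu_split {X : Type} [MeasureSpace X] {u : Fin 3 → X → ℝ} {v w : X → ℝ} {e : ℝ}
    (i1 : ∀ k, Integrable (u k)) (i2 : Integrable v) (i3 : Integrable w) :
    ∫ x, ((∑ k, u k x) / 2 - v x - e * w x) = (∑ k, ∫ x, u k x) / 2 - (∫ x, v x) - e * ∫ x, w x := by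
  have i4 := (integrable_finsetSum Finset.univ fun k _ => i1 k).div_const 2
  have i5 : Integrable fun x => (∑ k, u k x) / 2 - v x := i4.sub i2
  rw [integral_sub i5 (i3.const_mul e), integral_sub i4 i2, integral_div,
    integral_finsetSum _ fun k _ => i1 k, integral_const_mul]

/-- The one-body part for particle `i`. -/
theorem mbu_one {n : ℕ} {ι : Type} (s : Finset ι) (z : ι → ℝ) (r : ι → E3)
    (E : Finset (Fin K × Fin K)) {t e δ B : ℝ} (ht : 0 ≤ t) (hδ : 0 ≤ δ)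
    (hθ : Sm θ) (hf : ∀ a, ContDiff ℝ 1 (f a)) (hf0 : ∀ a p, 0 ≤ f a p)
    (hf1 : ∀ p, ∑ a, f a p ≤ 1) (hm : ∀ a, ∫ p, θ p ^ 2 * f a p ≤ B)
    (h2 : ∀ c : Fin K → ℝ, en1 (coul s z r) (trial θ f c) ≤
      e * nsq1 (trial θ f c) + t * hop1 E c + δ * ∑ a, c a ^ 2)
    (i : Fin (n + 1)) (D : (Fin (n + 1) → Fin K) → ℝ) :
    (∑ k, ∫ x, fderiv ℝ (mbuF θ f D) x (dir i k) ^ 2) / 2
      - ∫ x, coul s z r (x i) * mbuF θ f D x ^ 2 ≤ e * (∫ x, mbuF θ f D x ^ 2) +
      B ^ n * (t * ∑ q ∈ E, ∑ a with a i = q.1, (D a - D (Function.update a i q.2)) ^ 2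
        + δ * ∑ a, D a ^ 2) := by
  have hF := mbuF_sm hθ hf D
  have i1 : ∀ k, Integrable fun x => fderiv ℝ (mbuF θ f D) x (dir i k) ^ 2 := fun k =>
    (mbu_d_int hF _).1.integrable_of_hasCompactSupport (mbu_d_int hF _).2
  have i2 := mbu_coul_int s z r (mbu_sq_int hF).1 (mbu_sq_int hF).2 i
  have i3 := (mbu_sq_int hF).1.integrable_of_hasCompactSupport (μ := volume) (mbu_sq_int hF).2
  have iG : Integrable fun x => (∑ k, fderiv ℝ (mbuF θ f D) x (dir i k) ^ 2) / 2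
      - coul s z r (x i) * mbuF θ f D x ^ 2 - e * mbuF θ f D x ^ 2 :=
    (((integrable_finsetSum Finset.univ fun k _ => i1 k).div_const 2).sub i2).sub (i3.const_mul e)
  have e1 := integral_insertNth i iG
  rw [mbu_split i1 i2 i3] at e1
  set co : (Fin n → Fin K) → ℝ := fun b =>
    t * ∑ q ∈ E, (D (i.insertNth q.1 b) - D (i.insertNth q.2 b)) ^ 2
      + δ * ∑ c, D (i.insertNth c b) ^ 2 with hco
  have hco0 : ∀ b, 0 ≤ co b := fun b => by positivity
  have iR : ∀ b, Integrable fun y : Conf n => co b * mbuM θ f b y :=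
    fun b => (mbuM_int hθ hf b).const_mul _
  have e2 := integral_mono (integrable_insertNth i iG).2
    (integrable_finsetSum Finset.univ fun b _ => iR b) fun y => by
      have hS := hF.slice i y
      have j1 : ∀ k, Integrable fun p => pd k (fun p => mbuF θ f D (i.insertNth p y)) p ^ 2 :=
        fun k => (mbu_d_int hS.1 _).1.integrable_of_hasCompactSupport (mbu_d_int hS.1 _).2
      have j2 := mbu_coul_int1 s z r (mbu_sq_int hS.1).1 (mbu_sq_int hS.1).2
      have j3 := (mbu_sq_int hS.1).1.integrable_of_hasCompactSupport (μ := volume)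
        (mbu_sq_int hS.1).2
      simp only [← hS.2, Fin.insertNth_apply_same]
      rw [mbu_split j1 j2 j3]
      have h3 := h2 fun c => mbuF θ f (fun b => D (i.insertNth c b)) y
      rw [← mbu_slice] at h3
      unfold en1 kin1 nsq1 hop1 at h3
      have h4 : ∑ q ∈ E, (mbuF θ f (fun b => D (i.insertNth q.1 b)) y
          - mbuF θ f (fun b => D (i.insertNth q.2 b)) y) ^ 2 ≤ ∑ q ∈ E, ∑ b : Fin n → Fin K,
          (D (i.insertNth q.1 b) - D (i.insertNth q.2 b)) ^ 2 * mbuM θ f b y := by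
        refine Finset.sum_le_sum fun q _ => le_trans (le_of_eq ?_) (mbu_jensen hf0 hf1 _ y)
        unfold mbuF
        rw [← Finset.sum_sub_distrib]
        simp only [sub_mul]
      have h5 : ∑ c, mbuF θ f (fun b => D (i.insertNth c b)) y ^ 2
          ≤ ∑ c, ∑ b : Fin n → Fin K, D (i.insertNth c b) ^ 2 * mbuM θ f b y :=
        Finset.sum_le_sum fun c _ => mbu_jensen hf0 hf1 _ y
      rw [Finset.sum_comm] at h4 h5
      have h6 := mul_le_mul_of_nonneg_left h4 ht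
      have h7 := mul_le_mul_of_nonneg_left h5 hδ
      simp only [hco, add_mul, mul_assoc, Finset.sum_mul, Finset.sum_add_distrib,
        ← Finset.mul_sum]
      linarith
  rw [← e1, integral_finsetSum _ fun b _ => iR b] at e2
  have e3 : ∑ b, ∫ y : Conf n, co b * mbuM θ f b y ≤ ∑ b, co b * B ^ n :=
    Finset.sum_le_sum fun b _ => by
      rw [integral_const_mul]
      exact mul_le_mul_of_nonneg_left (mbuM_integral hf0 hm b) (hco0 b)
  have e4 : ∑ b, co b = t * ∑ q ∈ E, ∑ a with a i = q.1, (D a - D (Function.update a i q.2)) ^ 2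
      + δ * ∑ a, D a ^ 2 := by
    simp only [hco, Finset.sum_add_distrib, ← Finset.mul_sum, mbu_hop]
    rw [Finset.sum_comm, mbu_sum_ins i (fun a => D a ^ 2), Finset.sum_comm (f := fun b c => D (i.insertNth c b) ^ 2)]
  rw [← Finset.sum_mul, e4] at e3
  linarith

theorem mbu_pair1 {n : ℕ} {l B W : ℝ} (hl : 0 ≤ l) (hB : 1 ≤ B) (hW : 0 ≤ W) (hθ : Sm θ)
    (hf : ∀ a, ContDiff ℝ 1 (f a)) (hf0 : ∀ a p, 0 ≤ f a p) (hm : ∀ a, ∫ p, θ p ^ 2 * f a p ≤ B)
    (a : Fin (n + 1) → Fin K) {i j : Fin (n + 1)} (hij : i ≠ j)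
    (hw : ∫ x, ∫ y, θ x ^ 2 * f (a i) x * (θ y ^ 2 * f (a j) y) * wfull l x y ≤ W) :
    ∫ x, wfull l (x i) (x j) * mbuM θ f a x ≤ B ^ (n + 1) * W := by
  obtain ⟨k, rfl⟩ := Fin.exists_succAbove_eq hij
  rw [integral_insertNth j (mbu_w_int l (mbuM_cont hθ hf a) (mbuM_supp hθ a) _ _)]
  set g : Fin n → E3 → ℝ := Function.update (fun m p => θ p ^ 2 * f (a (j.succAbove m)) p) k
    fun x => ∫ y, θ x ^ 2 * f (a (j.succAbove k)) x * (θ y ^ 2 * f (a j) y) * wfull l x y with hg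
  have h1 : ∀ y : Conf n, ∫ p, wfull l ((j.insertNth p y : Conf (n + 1)) (j.succAbove k))
      ((j.insertNth p y : Conf (n + 1)) j) * mbuM θ f a (j.insertNth p y) = ∏ m, g m (y m) := by
    intro y
    have h2 : ∏ m ∈ Finset.univ.erase k, g m (y m)
        = ∏ m ∈ Finset.univ.erase k, θ (y m) ^ 2 * f (a (j.succAbove m)) (y m) :=
      Finset.prod_congr rfl fun m hm => by rw [hg, Function.update_of_ne (Finset.ne_of_mem_erase hm)]
    rw [← Finset.mul_prod_erase _ _ (Finset.mem_univ k), h2, hg, Function.update_self,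
      ← integral_mul_const]
    refine integral_congr_ae (.of_forall fun p => ?_)
    unfold mbuM
    simp only
    rw [Fin.prod_univ_succAbove _ j, ← Finset.mul_prod_erase _ _ (Finset.mem_univ k)]
    simp only [Fin.insertNth_apply_same, Fin.insertNth_apply_succAbove]
    ring
  simp only [h1]
  rw [integral_fintype_prod_volume_eq_prod g, ← Finset.mul_prod_erase _ _ (Finset.mem_univ k),
    mul_comm]
  have h0 : ∀ m ∈ Finset.univ.erase k, 0 ≤ ∫ p, g m p ∧ ∫ p, g m p ≤ B := fun m hm' => by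
    rw [hg, Function.update_of_ne (Finset.ne_of_mem_erase hm')]
    exact ⟨integral_nonneg fun p => mul_nonneg (sq_nonneg _) (hf0 _ _), hm _⟩
  refine mul_le_mul ((Finset.prod_le_prod (fun m hm => (h0 m hm).1) fun m hm => (h0 m hm).2).trans
    ?_) ?_ ?_ (by positivity)
  · rw [Finset.prod_const]
    exact pow_le_pow_right₀ hB ((Finset.card_le_univ _).trans (by simp))
  · rw [hg, Function.update_self]
    exact hw
  · rw [hg, Function.update_self]
    refine integral_nonneg fun x => integral_nonneg fun y => ?_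
    have := hf0 (a (j.succAbove k)) x
    have := hf0 (a j) y
    unfold wfull
    positivity

theorem mbu_pair {n : ℕ} {l B : ℝ} (hl : 0 ≤ l) (hB : 1 ≤ B) (hθ : Sm θ)
    (hf : ∀ a, ContDiff ℝ 1 (f a)) (hf0 : ∀ a p, 0 ≤ f a p) (hf1 : ∀ p, ∑ a, f a p ≤ 1)
    (hm : ∀ a, ∫ p, θ p ^ 2 * f a p ≤ B) {w : Fin K → Fin K → ℝ} (hw0 : ∀ a b, 0 ≤ w a b)
    (hw : ∀ a b, a ≠ b →
      ∫ x, ∫ y, θ x ^ 2 * f a x * (θ y ^ 2 * f b y) * wfull l x y ≤ w a b)
    (D : (Fin (n + 1) → Fin K) → ℝ) (hD : ∀ a, ¬ Function.Injective a → D a = 0)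
    {i j : Fin (n + 1)} (hij : i ≠ j) :
    ∫ x, wfull l (x i) (x j) * mbuF θ f D x ^ 2
      ≤ B ^ (n + 1) * ∑ a, w (a i) (a j) * D a ^ 2 := by
  have hF := mbu_sq_int (mbuF_sm hθ hf D)
  have iR : ∀ a, Integrable fun x : Conf (n + 1) => D a ^ 2 * (wfull l (x i) (x j) * mbuM θ f a x) :=
    fun a => (mbu_w_int l (mbuM_cont hθ hf a) (mbuM_supp hθ a) i j).const_mul _
  have h1 := integral_mono (mbu_w_int l hF.1 hF.2 i j)
    (integrable_finsetSum Finset.univ fun a _ => iR a) fun x => by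
      have h2 := mul_le_mul_of_nonneg_left (mbu_jensen (θ := θ) hf0 hf1 D x)
        (show 0 ≤ wfull l (x i) (x j) by unfold wfull; positivity)
      rw [Finset.mul_sum] at h2
      exact h2.trans (le_of_eq (Finset.sum_congr rfl fun a _ => by ring))
  refine h1.trans ?_
  rw [integral_finsetSum _ fun a _ => iR a, Finset.mul_sum]
  refine Finset.sum_le_sum fun a _ => ?_
  rw [integral_const_mul]
  by_cases ha : Function.Injective a
  · have := mul_le_mul_of_nonneg_left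
      (mbu_pair1 hl hB (hw0 _ _) hθ hf hf0 hm a hij (hw _ _ (ha.ne hij))) (sq_nonneg (D a))
    linarith
  · simp [hD a ha]

end

/-- The many-body upper bound. -/
theorem mb_up {N K : ℕ} (hN : 1 ≤ N) {θ : E3 → ℝ} {f : Fin K → E3 → ℝ} {ι : Type}
    (s : Finset ι) (z : ι → ℝ) (r : ι → E3) (E : Finset (Fin K × Fin K)) {t e l η δ α : ℝ}
    (w : Fin K → Fin K → ℝ) (Ω : Fin K → Set E3) (ht : 0 ≤ t) (hl : 0 ≤ l) (hδ : 0 ≤ δ)
    (hη : 0 ≤ η) (hη1 : η < 1) (hw0 : ∀ a b, 0 ≤ w a b)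
    (hθ : Sm θ) (hf : ∀ a, ContDiff ℝ 1 (f a)) (hf0 : ∀ a p, 0 ≤ f a p)
    (hf1 : ∀ p, ∑ a, f a p ≤ 1) (hm : ∀ a, ∫ p, θ p ^ 2 * f a p ≤ 1 + η)
    (hΩ : ∀ a, MeasurableSet (Ω a)) (hΩ1 : ∀ a b, b ≠ a → ∀ p ∈ Ω a, f b p = 0)
    (hΩ2 : ∀ a, 1 - η ≤ ∫ p in Ω a, (θ p * f a p) ^ 2)
    (h2 : ∀ c : Fin K → ℝ, en1 (coul s z r) (trial θ f c) ≤
      e * nsq1 (trial θ f c) + t * hop1 E c + δ * ∑ a, c a ^ 2)
    (hw : ∀ a b, a ≠ b →
      ∫ x, ∫ y, θ x ^ 2 * f a x * (θ y ^ 2 * f b y) * wfull l x y ≤ w a b)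
    (C : Ten N K) (hA : AntiT C) (hH : HardT C) (hn : nrmT C = 1)
    (hD : t * hopT E C + intT w C ≤ α) :
    ∃ F : RS N, SmA F ∧ 0 < nsq F ∧ enN (coul s z r) (wfull l) F ≤
      (N * e + ((1 + η) / (1 - η)) ^ N * (α + N * δ)) * nsq F := by
  obtain ⟨n, rfl⟩ : ∃ n, N = n + 1 := ⟨N - 1, by omega⟩
  have hη2 : 0 < 1 - η := by linarith
  have hB : 1 ≤ 1 + η := by linarith
  set F : RS (n + 1) := fun σ => mbuF θ f (C σ) with hF
  have hlow : (1 - η) ^ (n + 1) ≤ nsq F := by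
    have := Finset.sum_le_sum fun σ (_ : σ ∈ Finset.univ) =>
      mbu_low hθ hf hΩ hΩ1 hη2.le hΩ2 (C σ)
    rw [← Finset.sum_mul] at this
    unfold nrmT at hn
    rwa [hn, one_mul] at this
  refine ⟨F, ⟨fun σ => mbuF_sm hθ hf _, fun π σ x => mbuF_anti hA π σ x⟩,
    (pow_pos hη2 _).trans_le hlow, ?_⟩
  have h1 := Finset.sum_le_sum fun σ (_ : σ ∈ Finset.univ) => Finset.sum_le_sum
    fun i (_ : i ∈ Finset.univ) => mbu_one s z r E ht hδ hθ hf hf0 hf1 hm h2 i (C σ)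
  have h3 := Finset.sum_le_sum fun σ (_ : σ ∈ Finset.univ) => Finset.sum_le_sum
    fun i (_ : i ∈ Finset.univ) => Finset.sum_le_sum
    fun j (hj : j ∈ Finset.univ.filter fun j => i < j) =>
      mbu_pair hl hB hθ hf hf0 hf1 hm hw0 hw (C σ) (hH σ) (Finset.mem_filter.1 hj).2.ne
  have h4 : ∑ σ, ∑ i, ∑ j with i < j, (1 + η) ^ (n + 1) * ∑ a, w (a i) (a j) * C σ a ^ 2
      = (1 + η) ^ (n + 1) * intT w C := by
    unfold intT
    simp only [← Finset.mul_sum]
    congr 1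
    refine Finset.sum_congr rfl fun σ _ => ?_
    simp only [Finset.sum_mul]
    rw [Finset.sum_comm]
    exact Finset.sum_congr rfl fun i _ => Finset.sum_comm
  rw [h4] at h3
  simp only [Finset.sum_sub_distrib, Finset.sum_add_distrib, ← Finset.sum_div, ← Finset.mul_sum,
    Finset.sum_const, Finset.card_univ, Fintype.card_fin, nsmul_eq_mul] at h1
  have hh : 0 ≤ hopT E C := by unfold hopT; positivity
  have hi : 0 ≤ intT w C := Finset.sum_nonneg fun σ _ => Finset.sum_nonneg fun a _ =>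
    mul_nonneg (Finset.sum_nonneg fun _ _ => Finset.sum_nonneg fun _ _ => hw0 _ _) (sq_nonneg _)
  have h5 : enN (coul s z r) (wfull l) F ≤ ((n + 1 : ℕ) : ℝ) * e * nsq F +
      (1 + η) ^ n * (t * hopT E C + ((n + 1 : ℕ) : ℝ) * δ) + (1 + η) ^ (n + 1) * intT w C := by
    unfold nrmT at hn
    rw [hn] at h1
    unfold enN kinN nsq hopT
    linarith
  have h6 : (1 + η) ^ n * (t * hopT E C + ((n + 1 : ℕ) : ℝ) * δ)
      ≤ (1 + η) ^ (n + 1) * (t * hopT E C + ((n + 1 : ℕ) : ℝ) * δ) :=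
    mul_le_mul_of_nonneg_right (pow_le_pow_right₀ hB n.le_succ) (by positivity)
  have h7 := mul_le_mul_of_nonneg_left hD (show 0 ≤ (1 + η) ^ (n + 1) by positivity)
  have h8 : 0 ≤ α + ((n + 1 : ℕ) : ℝ) * δ := by
    have : 0 ≤ t * hopT E C := by positivity
    have : 0 ≤ ((n + 1 : ℕ) : ℝ) * δ := by positivity
    linarith
  have h9 := mul_le_mul_of_nonneg_left hlow
    (show 0 ≤ ((1 + η) / (1 - η)) ^ (n + 1) * (α + ((n + 1 : ℕ) : ℝ) * δ) by positivity)
  have h10 : ((1 + η) / (1 - η)) ^ (n + 1) * (α + ((n + 1 : ℕ) : ℝ) * δ) * (1 - η) ^ (n + 1)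
      = (1 + η) ^ (n + 1) * (α + ((n + 1 : ℕ) : ℝ) * δ) := by
    rw [div_pow]
    field_simp
  linarith

end Vale.Agent.P370
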