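import Vale.Agent.P370.MBa
import Vale.Agent.P370.MBU

/-! Definitions for the continuum part: kernels, layouts, potentials, grid, the instance. -/

namespace Vale.Agent.P370

open MeasureTheory Filter
open scoped Classical

/-- Support radius of the lateral kernel. -/
def rr (M : ℕ) : ℕ := 2 * M + 1
/-- Length of ports and links. -/
def LL (M : ℕ) : ℕ := M ^ 20
/-- Distance of rows. -/
def SS (M : ℕ) : ℕ := M ^ 40
/-- Distance of columns. -/
def D0 (M : ℕ) : ℕ := M ^ 50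
/-- Size of the active region. -/
def DD (M : ℕ) : ℕ := M ^ 55
/-- Number of columns. -/
def NC (M : ℕ) : ℕ := M ^ 4
/-- Inverse grid spacing. -/
def HH (M : ℕ) : ℕ := 3 * M ^ 1000
/-- Lateral size of the slab. -/
def RR (M : ℕ) : ℕ := M ^ 3300
/-- Number of grid points in a lateral direction. -/
def NX (M : ℕ) : ℕ := 2 * RR M * HH M
/-- Number of grid points in the vertical direction. -/
def NZ (M : ℕ) : ℕ := 6 * HH M
/-- The row of mode `a`. -/
def row (M a : ℕ) : ℕ := SS M * (a + 1)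

/-- `a < b` are modes of one cluster. -/
def Edge (K a b : ℕ) : Prop := a < b ∧ b < K ∧ a / 4 = b / 4

/-- A planar layout: bus nodes, ports and links of `K` modes. -/
structure Lay : Type where
  K : ℕ
  x0 : ℕ
  bus : ℕ → ℕ → ℕ → Bool
  has : ℕ → ℕ → Bool
  li : ℕ → ℕ → ℕ
  lj : ℕ → ℕ → ℕ

/-- The properties of a layout used in the analysis. -/
structure Lay.OK (L : Lay) (M Pi : ℕ) (v : ℕ → ℕ → ℕ) : Prop where
  K_le : L.K ≤ M
  Pi_ge : M ≤ Pi
  Pi_le : Pi ≤ M ^ 3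
  v_le : ∀ a b, v a b ≤ M
  inner : ∀ a i j, a < L.K → L.bus a i j = true →
    rr M ≤ i ∧ i + rr M ≤ DD M ∧ rr M ≤ j ∧ j + rr M ≤ DD M
  port_bus : ∀ a c k, a < L.K → c < NC M → L.has a c = true → k < LL M →
    L.bus a (L.x0 + D0 M * c + k) (row M a) = true
  sep : ∀ a b i j i' j', a < L.K → b < L.K → a ≠ b → L.bus a i j = true → L.bus b i' j' = true →
    i + 2 * rr M ≤ i' ∨ i' + 2 * rr M ≤ i ∨ j + 2 * rr M ≤ j' ∨ j' + 2 * rr M ≤ j
  link_l : ∀ a b, Edge L.K a b → L.bus a (L.li a b) (L.lj a b) = true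
  link_r : ∀ a b, Edge L.K a b → L.bus b (L.li a b + LL M) (L.lj a b) = true
  link_sep : ∀ a b x i j, Edge L.K a b → x < L.K → L.bus x i j = true →
    (j + 2 * rr M ≤ L.lj a b ∨ L.lj a b + 2 * rr M ≤ j ∨ i + 2 * rr M ≤ L.li a b ∨
      L.li a b + LL M + 2 * rr M ≤ i) ∨ (x = a ∧ i ≤ L.li a b) ∨ (x = b ∧ L.li a b + LL M ≤ i)
  link_row : ∀ a b a' b', Edge L.K a b → Edge L.K a' b' → (a, b) ≠ (a', b') →
    L.lj a b + 2 * rr M ≤ L.lj a' b' ∨ L.lj a' b' + 2 * rr M ≤ L.lj a b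
  root : ∀ a, a < L.K → L.bus a L.x0 (row M a) = true
  conn : ∀ a i j, a < L.K → L.bus a i j = true →
    (row M a < j → L.bus a i (j - 1) = true) ∧ (j < row M a → L.bus a i (j + 1) = true) ∧
    (j = row M a → L.x0 < i → L.bus a (i - 1) j = true) ∧
    (j = row M a → i < L.x0 → L.bus a (i + 1) j = true)
  cnt : ∀ a, a < L.K → ((Finset.range (NC M)).filter fun c => L.has a c = true).card = Pi
  cnt2 : ∀ a b, a < L.K → b < L.K → a ≠ b → ((Finset.range (NC M)).filter fun c =>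
    L.has a c = true ∧ L.has b c = true).card = v a b * (a - b + (b - a))

section Generic

variable {F : Type} [Field F] [LinearOrder F]

/-- Truncated power. -/
def pw (u : F) : F := max u 0 ^ 9
/-- Smooth step from `0` (for `u ≤ 0`) to `1` (for `1 ≤ u`). -/
def sst (u : F) : F := pw u / (pw u + pw (1 - u))
/-- Plateau: `1` on `[a, b]`, `0` outside the open unit neighbourhood. -/
def plat (a b u : F) : F := sst (u - a + 1) - sst (u - b)
/-- The lateral kernel. -/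
def gk (M : ℕ) (u : F) : F :=
  ∑ j ∈ Finset.range (4 * M + 1),
    (2 ^ (2 * M - j + (j - 2 * M)))⁻¹ * plat 0 0 (u + ((2 * M : ℕ) : F) - (j : F))
/-- The sum of all integer translates of `gk`. -/
def ginf (M : ℕ) : F := ∑ j ∈ Finset.range (4 * M + 1), (2 ^ (2 * M - j + (j - 2 * M)))⁻¹
/-- Inverse powers of the parameter. -/
def ip (M k : ℕ) : F := ((M : F) ^ k)⁻¹
/-- The background amplitude. -/
def om (M : ℕ) : F := (2 ^ M)⁻¹
/-- A horizontal run of nodes. -/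
def run (M i0 j0 len : ℕ) (x y : F) : F :=
  gk M (y - (j0 : F)) * ∑ k ∈ Finset.range len, gk M (x - ((i0 + k : ℕ) : F))
/-- One port. -/
def portF (M : ℕ) (L : Lay) (a c : ℕ) (x y : F) : F :=
  run M (L.x0 + D0 M * c) (row M a) (LL M) x y
/-- All ports of a mode. -/
def ports (M : ℕ) (L : Lay) (a : ℕ) (x y : F) : F :=
  ∑ c ∈ Finset.range (NC M), if L.has a c = true then portF M L a c x y else 0
/-- The bus of a mode. -/
def busF (M : ℕ) (L : Lay) (a : ℕ) (x y : F) : F :=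
  ∑ i ∈ Finset.range (DD M), ∑ j ∈ Finset.range (DD M),
    if L.bus a i j = true then gk M (x - (i : F)) * gk M (y - (j : F)) else 0
/-- The lateral shape of a mode. -/
def own (M : ℕ) (L : Lay) (a : ℕ) (x y : F) : F := ports M L a x y + ip M 90 * busF M L a x y
/-- A link. -/
def linkF (M : ℕ) (L : Lay) (a b : ℕ) (x y : F) : F :=
  ip M 1520 * run M (L.li a b) (L.lj a b) (LL M + 1) x y
/-- The lateral ground state. -/
def psi (M : ℕ) (L : Lay) (x y : F) : F :=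
  om M + ∑ a ∈ Finset.range L.K, own M L a x y +
    ∑ a ∈ Finset.range L.K, ∑ b ∈ Finset.range L.K,
      if a < b ∧ a / 4 = b / 4 then linkF M L a b x y else 0
/-- Lateral grid coordinate. -/
def gx (M i : ℕ) : F := ((i : F) + 1 / 2) / (HH M : F) - (RR M : F)
/-- Vertical grid coordinate. -/
def gz (M k : ℕ) : F := ((k : F) + 1 / 2) / (HH M : F) - 3
/-- Quadrature weights. -/
def ws (i : ℕ) : F := if i % 3 = 1 then 3 / 4 else 9 / 8
/-- Three-dimensional quadrature weights. -/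
def wt3 (M : ℕ) (n : ℕ × ℕ × ℕ) : F := ws n.1 * ws n.2.1 * ws n.2.2 / (HH M : F) ^ 3

end Generic

/-- The lateral ground state on three-space. -/
noncomputable def PS (M : ℕ) (L : Lay) (p : E3) : ℝ := psi M L (p 0) (p 1)
/-- Gaussian. -/
noncomputable def gam (M : ℕ) (z : ℝ) : ℝ := Real.exp (-(M * z ^ 2 / 2))
/-- Gaussian with background. -/
noncomputable def Gam (M : ℕ) (z : ℝ) : ℝ := gam M z + om M
/-- Vertical cut-off of the modes. -/
noncomputable def chz (z : ℝ) : ℝ := plat (-1) 1 z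
/-- The positive comparison function. -/
noncomputable def TH (M : ℕ) (L : Lay) (p : E3) : ℝ := PS M L p * Gam M (p 2)
/-- The lateral potential. -/
noncomputable def vlat (M : ℕ) (L : Lay) (p : E3) : ℝ :=
  (lap (PS M L) p / 2 + om M) / PS M L p - 1
/-- The compactly supported part of the potential. -/
noncomputable def V1 (M : ℕ) (L : Lay) (p : E3) : ℝ := plat (-2) 2 (p 2) * vlat M L p
/-- The model potential. -/
noncomputable def Vm (M : ℕ) (L : Lay) (p : E3) : ℝ :=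
  V1 M L p + (M : ℝ) ^ 2 / 2 * min (p 2 ^ 2) 9 - M / 2 + 1
/-- The penalty. -/
noncomputable def Wt (M : ℕ) (L : Lay) (p : E3) : ℝ := if |p 2| ≤ 2 then om M / PS M L p else 1
/-- Unnormalised modes. -/
noncomputable def phh (M : ℕ) (L : Lay) (a : ℕ) (p : E3) : ℝ :=
  own M L a (p 0) (p 1) * (gam M (p 2) * chz (p 2))
/-- Normalised modes. -/
noncomputable def phi (M : ℕ) (L : Lay) (a : Fin L.K) (p : E3) : ℝ :=
  phh M L a.val p / Real.sqrt (nsq1 (phh M L a.val))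
/-- Transverse norm of the lateral kernel. -/
noncomputable def beta (M : ℕ) : ℝ := ∫ u : ℝ, gk M u ^ 2
/-- Vertical norm. -/
noncomputable def gam0 (M : ℕ) : ℝ := ∫ z : ℝ, (gam M z * chz z) ^ 2
/-- The ideal squared norm of a mode. -/
noncomputable def n0sq (M Pi : ℕ) : ℝ := Pi * LL M * ginf M ^ 2 * beta M * gam0 M
/-- The hopping amplitude. -/
noncomputable def tt (M Pi : ℕ) : ℝ := ip M 3040 / (2 * Pi * SS M)
/-- A ramp from `0` (left of `a`) to `1` (right of `b`). -/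
noncomputable def ramp (a b u : ℝ) : ℝ :=
  (∫ s in a..u, plat (a + 1) (b - 1) s) / ∫ s in a..b, plat (a + 1) (b - 1) s
/-- The ramp along a link. -/
noncomputable def rho (M : ℕ) (L : Lay) (a b : ℕ) (x : ℝ) : ℝ :=
  ramp ((L.li a b : ℝ) + rr M) ((L.li a b : ℝ) + LL M - rr M) x
/-- The share of mode `a` in the lateral ground state. -/
noncomputable def part (M : ℕ) (L : Lay) (a : ℕ) (p : E3) : ℝ :=
  own M L a (p 0) (p 1) +
    (∑ b ∈ Finset.range L.K,
      if Edge L.K a b then (1 - rho M L a b (p 0)) * linkF M L a b (p 0) (p 1) else 0) +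
    ∑ b ∈ Finset.range L.K,
      if Edge L.K b a then rho M L b a (p 0) * linkF M L b a (p 0) (p 1) else 0
/-- The envelope of the trial functions. -/
noncomputable def th (M : ℕ) (L : Lay) (Pi : ℕ) (p : E3) : ℝ :=
  PS M L p * (plat 0 (DD M : ℝ) (p 0) * plat 0 (DD M : ℝ) (p 1)) * (gam M (p 2) * chz (p 2)) /
    Real.sqrt (n0sq M Pi)
/-- The partition used for the trial functions. -/
noncomputable def ff (M : ℕ) (L : Lay) (a : Fin L.K) (p : E3) : ℝ := part M L a.val p / PS M L p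
/-- The weighted Dirichlet energy. -/
noncomputable def EE (M : ℕ) (L : Lay) (f : E3 → ℝ) : ℝ :=
  (∑ k, ∫ p, TH M L p ^ 2 * pd k f p ^ 2) / 2
/-- Cubes. -/
def cube (c : E3) (ρ : ℝ) : Set E3 := {p | ∀ k, |p k - c k| ≤ ρ}
/-- Averages over cubes. -/
noncomputable def avgc (c : E3) (ρ : ℝ) (f : E3 → ℝ) : ℝ := (∫ p in cube c ρ, f p) / (2 * ρ) ^ 3
/-- The average near a node. -/
noncomputable def avg (M i j : ℕ) (f : E3 → ℝ) : ℝ := avgc !₂[(i : ℝ), (j : ℝ), 0] (1 / M) f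
/-- The average near the root of a mode. -/
noncomputable def fb (M : ℕ) (L : Lay) (f : E3 → ℝ) (a : Fin L.K) : ℝ :=
  avg M L.x0 (row M a.val) f
/-- The box `[0, D]² × [-w, w]`. -/
def box (M : ℕ) (w : ℝ) : Set E3 :=
  {p | 0 ≤ p 0 ∧ p 0 ≤ DD M ∧ 0 ≤ p 1 ∧ p 1 ≤ DD M ∧ |p 2| ≤ w}
/-- The charged slab. -/
def slab (M : ℕ) : Set E3 := {p | |p 0| ≤ RR M ∧ |p 1| ≤ RR M ∧ |p 2| ≤ 3}
/-- The reference point. -/
noncomputable def xs : E3 := !₂[0, 0, 6]
/-- The potential of the homogeneous slab. -/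
noncomputable def Vs (M : ℕ) (p : E3) : ℝ := ∫ y in slab M, 1 / ‖p - y‖
/-- The charge density. -/
noncomputable def qq (M : ℕ) (q1 : E3 → ℝ) (y : E3) : ℝ := ((M : ℝ) ^ 2 + q1 y) / (4 * Real.pi)
/-- The potential of the charge density. -/
noncomputable def Vc (M : ℕ) (q1 : E3 → ℝ) (p : E3) : ℝ := ∫ y in slab M, qq M q1 y / ‖p - y‖
/-- The one-particle reference energy. -/
noncomputable def e0 (M : ℕ) (L : Lay) : ℝ :=
  -Vc M (lap (V1 M L)) xs - 27 / 2 * (M : ℝ) ^ 2 + M / 2 - 1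
/-- Grid spacing. -/
noncomputable def hh (M : ℕ) : ℝ := 1 / (HH M : ℝ)
/-- Grid indices. -/
def grid (M : ℕ) : Finset (ℕ × ℕ × ℕ) :=
  Finset.range (NX M) ×ˢ Finset.range (NX M) ×ˢ Finset.range (NZ M)
/-- Grid points. -/
noncomputable def node (M : ℕ) (n : ℕ × ℕ × ℕ) : E3 := !₂[gx M n.1, gx M n.2.1, gz M n.2.2]
/-- Iterated cumulative sums (four in the first index, one in the second). -/
def cum (q : ℕ → ℕ → ℕ → ℚ) (i j k : ℕ) : ℚ :=
  ∑ i' ∈ Finset.range (i + 1), ∑ j' ∈ Finset.range (j + 1),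
    ((i - i' + 1) * (i - i' + 2) * (i - i' + 3) : ℕ) / 6 * q i' j' k
/-- Signed binomial coefficients. -/
def cf4 (a : ℕ) : ℤ := if a = 0 then 1 else if a = 1 then -4 else if a = 2 then 6
  else if a = 3 then -4 else 1
/-- Noise-shaped integer charges. -/
def zz (q : ℕ → ℕ → ℕ → ℚ) (n : ℕ × ℕ × ℕ) : ℤ :=
  ∑ a ∈ Finset.range 5, if a ≤ n.1 then cf4 a * (⌊cum q (n.1 - a) n.2.1 n.2.2⌋ -
    if 1 ≤ n.2.1 then ⌊cum q (n.1 - a) (n.2.1 - 1) n.2.2⌋ else 0) else 0
/-- The attraction of the point charges. -/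
noncomputable def AA (M : ℕ) (l : ℝ) (q : ℕ → ℕ → ℕ → ℚ) : E3 → ℝ :=
  coul (grid M) (fun n => l * (zz q n : ℝ)) (node M)
/-- The singular part of the attraction. -/
noncomputable def Sing (M : ℕ) (l : ℝ) (q : ℕ → ℕ → ℕ → ℚ) (p : E3) : ℝ :=
  ∑ n ∈ grid M, if ‖p - node M n‖ < hh M / 4 then l * (zz q n : ℝ) / ‖p - node M n‖ else 0
/-- The regularised kernel. -/
noncomputable def kk (ε : ℝ) (s : E3) : ℝ := 1 / Real.sqrt (‖s‖ ^ 2 + ε ^ 2)
/-- A majorant of the difference of the kernels. -/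
noncomputable def jj (ε : ℝ) (s : E3) : ℝ := min (1 / ‖s‖) (ε ^ 2 / ‖s‖ ^ 3)

/-- The data of the discretisation are admissible. -/
structure WOK (M : ℕ) (l : ℝ) (q1 : E3 → ℝ) (q : ℕ → ℕ → ℕ → ℚ) : Prop where
  l_ge : ip M 3040 ≤ l
  l_le : l ≤ ip M 3037
  bd : Bd 4 (3 * M) q1
  supp : ∀ p, p ∉ box M 3 → q1 p = 0
  apx : ∀ n ∈ grid M, |l * (q n.1 n.2.1 n.2.2 : ℝ) - wt3 M n * qq M q1 (node M n)| ≤ ip M 14000

/-- Finite difference Laplacian. -/
def lapQ (δ : ℚ) (f : ℚ → ℚ → ℚ → ℚ) (x y z : ℚ) : ℚ :=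
  (f (x + δ) y z + f (x - δ) y z + f x (y + δ) z + f x (y - δ) z + f x y (z + δ) + f x y (z - δ) -
    6 * f x y z) / δ ^ 2
/-- Approximation of `V1`. -/
def V1Q (M : ℕ) (L : Lay) (x y z : ℚ) : ℚ :=
  plat (-2) 2 z * ((lapQ (ip M 44040 * om M) (fun x y _ => psi M L x y) x y z / 2 + om M) /
    psi M L x y - 1)
/-- Approximation of `π`. -/
def piQ (M : ℕ) : ℚ :=
  4 * ∑ i ∈ Finset.range (M ^ 11010), (if i % 2 = 0 then 1 else -1) / (2 * (i : ℚ) + 1)
/-- The ideal charges. -/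
def qQ (M : ℕ) (L : Lay) (l : ℚ) (i j k : ℕ) : ℚ :=
  wt3 M (i, j, k) * (((M : ℚ) ^ 2 + lapQ (ip M 11010) (V1Q M L) (gx M i) (gx M j) (gz M k)) /
    (4 * piQ M)) / l
/-- Approximation of the inverse square root. -/
def isq (M : ℕ) (ρ : ℚ) : ℚ := (Nat.sqrt ⌊(M : ℚ) ^ 20000 / ρ⌋₊ : ℚ) / (M : ℚ) ^ 10000
/-- Approximation of the reference energy. -/
def e0Q (M : ℕ) (l : ℚ) (q : ℕ → ℕ → ℕ → ℚ) : ℚ :=
  -(∑ i ∈ Finset.range (NX M), ∑ j ∈ Finset.range (NX M), ∑ k ∈ Finset.range (NZ M),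
      l * (zz q (i, j, k) : ℚ) * isq M (gx M i ^ 2 + gx M j ^ 2 + (6 - gz M k) ^ 2)) -
    27 / 2 * (M : ℚ) ^ 2 + M / 2 - 1

/-- Left ends of the links of the comb layout. -/
def combLi (M a b : ℕ) : ℕ :=
  if a % 4 = 1 ∧ b % 4 = 3 then 4 * rr M
  else LL M + 8 * rr M + D0 M * NC M + (LL M + 4 * rr M) *
    (if b = a + 1 then a % 4 else b % 4 + 1)
/-- Rows of the links of the comb layout. -/
def combLj (M a b : ℕ) : ℕ := row M a + 2 * rr M * (b - a)
/-- Left end of a row. -/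
def combLo (M a : ℕ) : ℕ :=
  if a % 4 = 1 then 4 * rr M else if a % 4 = 3 then 4 * rr M + LL M else LL M + 8 * rr M
/-- Right end of a row. -/
def combHi (M a : ℕ) : ℕ :=
  if a % 4 = 0 then combLi M 0 3 else if a % 4 = 1 then combLi M 1 2
  else if a % 4 = 2 then combLi M 0 2 + LL M else combLi M 0 3 + LL M
/-- Bus nodes of the comb layout. -/
def combBus (M a i j : ℕ) : Bool :=
  decide (j = row M a ∧ combLo M a ≤ i ∧ i ≤ combHi M a) ||
  (List.range 4).any fun s =>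
    decide (a < a / 4 * 4 + s ∧ i = combLi M a (a / 4 * 4 + s) ∧ row M a ≤ j ∧
      j ≤ combLj M a (a / 4 * 4 + s)) ||
    decide (a / 4 * 4 + s < a ∧ i = combLi M (a / 4 * 4 + s) a + LL M ∧
      combLj M (a / 4 * 4 + s) a ≤ j ∧ j ≤ row M a)
/-- Ports of the comb layout; column `c` encodes two modes and a counter. -/
def combHas (M K : ℕ) (v : ℕ → ℕ → ℕ) (x c : ℕ) : Bool :=
  decide (c < K * K * (K * M) ∧
    ((c / (K * M) / K < c / (K * M) % K ∧ (x = c / (K * M) / K ∨ (x = c / (K * M) % K ∧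
        c % (K * M) < v (c / (K * M) / K) x * (x - c / (K * M) / K)))) ∨
      (c / (K * M) % K < c / (K * M) / K ∧ x = c / (K * M) / K ∧
        v (c / (K * M) % K) x * (x - c / (K * M) % K) ≤ c % (K * M))))
/-- The comb layout of a discrete instance. -/
def comb (M : ℕ) (d : Disc) : Lay :=
  ⟨4 * d.n, LL M + 8 * rr M, combBus M, combHas M (4 * d.n) d.wt, combLi M, combLj M⟩
/-- The number of ports of a mode. -/
def piN (M : ℕ) (d : Disc) : ℕ := (4 * d.n - 1) * (4 * d.n * M)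
/-- The length scale. -/
def ellQ (M : ℕ) (d : Disc) : ℚ := ip M 3040 * piN M d / (2 * d.tau)
/-- The ideal charges of the instance. -/
def qI (M : ℕ) (d : Disc) : ℕ → ℕ → ℕ → ℚ := qQ M (comb M d) (ellQ M d)
/-- The nuclei. -/
def nucI (M : ℕ) (d : Disc) : List ((ℚ × ℚ × ℚ) × ℕ) :=
  (List.range (NX M)).flatMap fun i => (List.range (NX M)).flatMap fun j =>
    (List.range (NZ M)).map fun k =>
      ((ellQ M d * gx M i, ellQ M d * gx M j, ellQ M d * gz M k), (zz (qI M d) (i, j, k)).toNat)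
/-- The lower threshold. -/
def aI (M : ℕ) (d : Disc) : ℚ :=
  (3 * d.n * e0Q M (ellQ M d) (qI M d) +
    ellQ M d / ((piN M d : ℚ) ^ 2 * SS M) * (d.al + 1)) / ellQ M d ^ 2
/-- The continuum instance. -/
def inst (M : ℕ) (d : Disc) : Inst := ⟨nucI M d, 3 * d.n, aI M d, aI M d + 1⟩

theorem ev_le (C : ℝ) : ∀ᶠ M : ℕ in atTop, C ≤ (M : ℝ) :=
  tendsto_natCast_atTop_atTop.eventually_ge_atTop C

theorem ip_pos {M : ℕ} (hM : 1 ≤ M) (k : ℕ) : (0 : ℝ) < ip M k := by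
  unfold ip
  positivity

theorem ip_add (M k k' : ℕ) : (ip M (k + k') : ℝ) = ip M k * ip M k' := by
  unfold ip
  rw [pow_add, mul_inv]

theorem ip_mul_pow {M : ℕ} (hM : 1 ≤ M) (k k' : ℕ) :
    (ip M (k + k') : ℝ) * (M : ℝ) ^ k' = ip M k := by
  have : (M : ℝ) ≠ 0 := by positivity
  unfold ip
  field_simp
  ring

theorem ip_anti {M : ℕ} (hM : 1 ≤ M) {k k' : ℕ} (h : k ≤ k') : (ip M k' : ℝ) ≤ ip M k := by
  have h1 : (1 : ℝ) ≤ M := by exact_mod_cast hM
  unfold ip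
  exact inv_anti₀ (by positivity) (pow_le_pow_right₀ h1 h)

/-- A constant and a power of `M` are absorbed by a lower inverse power. -/
theorem ip_absorb {M : ℕ} (hM : 1 ≤ M) {C : ℝ} (hC : C ≤ M) {j k k' : ℕ} (h : k' + j + 1 ≤ k) :
    C * (M : ℝ) ^ j * ip M k ≤ ip M k' := by
  have h1 := ip_anti hM h
  have h2 := ip_mul_pow hM k' (j + 1)
  have h3 := ip_pos hM k
  have h4 : (0 : ℝ) < (M : ℝ) ^ j := by positivity
  calc C * (M : ℝ) ^ j * ip M k ≤ M * (M : ℝ) ^ j * ip M (k' + j + 1) := by gcongr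
    _ = ip M k' := by rw [← h2, ← add_assoc]; ring

theorem ev_exp (k : ℕ) : ∀ᶠ M : ℕ in atTop, Real.exp (-(M / 2 : ℝ)) ≤ ip M k := by
  have h := (Real.tendsto_pow_mul_exp_neg_atTop_nhds_zero k).comp
    (tendsto_natCast_atTop_atTop.atTop_div_const (show (0 : ℝ) < 2 by norm_num))
  filter_upwards [h.eventually (ge_mem_nhds (show (0 : ℝ) < (2 ^ k)⁻¹ by positivity)),
    eventually_ge_atTop 1] with M h1 hM
  simp only [Function.comp_apply, div_pow] at h1
  have h2 : (0 : ℝ) < (M : ℝ) ^ k := by positivity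
  unfold ip
  rw [← one_div, le_div_iff₀ h2]
  have h3 : (M : ℝ) ^ k / 2 ^ k * Real.exp (-(M / 2 : ℝ)) =
      (2 ^ k)⁻¹ * (Real.exp (-(M / 2 : ℝ)) * (M : ℝ) ^ k) := by ring
  rw [h3] at h1
  exact le_of_mul_le_mul_left (by simpa using h1) (show (0 : ℝ) < (2 ^ k)⁻¹ by positivity)

theorem ev_om (k : ℕ) : ∀ᶠ M : ℕ in atTop, (om M : ℝ) ≤ ip M k := by
  filter_upwards [ev_exp k] with M h
  refine le_trans ?_ h
  unfold om
  rw [Real.exp_neg]
  refine inv_anti₀ (Real.exp_pos _) ?_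
  rw [show (M / 2 : ℝ) = M * (1 / 2) by ring, Real.exp_nat_mul]
  refine pow_le_pow_left₀ (Real.exp_pos _).le ?_ M
  have h1 : Real.exp (1 / 2) ^ 2 = Real.exp 1 := by rw [← Real.exp_nat_mul]; norm_num
  have h2 := Real.exp_one_lt_d9
  nlinarith [Real.exp_pos (1 / 2 : ℝ)]

end Vale.Agent.P370
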