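import Vale.Agent.P370.CluA

/-! The spectral analysis of one cluster. -/

namespace Vale.Agent.P370

open scoped Classical

theorem clu_sqrt_pos (l : Bool) : 0 < Real.sqrt (if l = true then 188 else 564) := by
  apply Real.sqrt_pos.2
  split_ifs <;> norm_num

theorem clu_sqrt_sq (l : Bool) :
    Real.sqrt (if l = true then 188 else 564) * Real.sqrt (if l = true then 188 else 564) =
      if l = true then 188 else 564 := by
  apply Real.mul_self_sqrt
  split_ifs <;> norm_num

theorem clu_sqrt_mul : Real.sqrt 564 * Real.sqrt 188 = 188 * Real.sqrt 3 := by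
  rw [← Real.sqrt_mul (by norm_num), show (564 * 188 : ℝ) = 188 ^ 2 * 3 by norm_num,
    Real.sqrt_mul (by norm_num), Real.sqrt_sq (by norm_num)]

theorem clu_jm_mul (y : Cl) (l s l' s' : Bool) : jm y l s * jm y l' s' =
    ((jz y l s * jz y l' s' : ℤ) : ℝ) / (Real.sqrt (if l = true then 188 else 564) *
      Real.sqrt (if l' = true then 188 else 564)) := by
  unfold jm
  rw [div_mul_div_comm]
  push_cast
  rfl

theorem jm_ortho (l s l' s' : Bool) :
    ∑ y, jm y l s * jm y l' s' = if l = l' ∧ s = s' then 1 else 0 := by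
  simp only [clu_jm_mul]
  rw [← Finset.sum_div, ← Int.cast_sum, clu_ortho]
  by_cases h : l = l' ∧ s = s'
  · obtain ⟨rfl, rfl⟩ := h
    rw [clu_sqrt_sq]
    cases l <;> simp
  · simp [h]

theorem jm_eigen (y : Cl) (l s : Bool) :
    ∑ t, (sgZ y.1 t : ℝ) * jm (hopC y t) l s + (if y.1 = 0 then 15 / 8 else 0) * jm y l s =
      3 * jm y l s := by
  have h := congrArg (Int.cast : ℤ → ℝ) (clu_eigen y l s)
  have hp := (clu_sqrt_pos l).ne'
  unfold jm
  generalize Real.sqrt (if l = true then 188 else 564) = N at hp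
  simp only [← mul_div_assoc]
  rw [← Finset.sum_div, ← add_div]
  congr 1
  push_cast at h
  split_ifs at h ⊢ <;> linarith

theorem jm_dens (k : Fin 4) (l s l' s' : Bool) :
    ∑ y : Cl with y.1 ≠ k, jm y l s * jm y l' s' = if s = s' then nM k.val l l' else 0 := by
  simp only [clu_jm_mul]
  rw [← Finset.sum_div, ← Int.cast_sum, Finset.sum_filter, clu_dens]
  by_cases h : s = s'
  · rw [if_pos h, if_pos h]
    have h3 : Real.sqrt 3 * Real.sqrt 3 = 3 := Real.mul_self_sqrt (by norm_num)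
    have h3' : Real.sqrt 3 ≠ 0 := by positivity
    by_cases hl : l = l'
    · subst hl
      rw [clu_sqrt_sq]
      fin_cases k <;> cases l <;> norm_num [cluN, nM, m2]
    · have e : Real.sqrt (if l = true then 188 else 564) *
          Real.sqrt (if l' = true then 188 else 564) = 188 * Real.sqrt 3 := by
        rw [← clu_sqrt_mul]
        cases l <;> cases l'
        · exact absurd rfl hl
        · simp
        · simp [mul_comm]
        · exact absurd rfl hl
      rw [e, div_eq_iff (by positivity)]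
      fin_cases k <;> cases l <;> cases l' <;> first
        | exact absurd rfl hl
        | (simp [cluN, nM, m2]; done)
        | (simp [cluN, nM, m2]; linarith)
  · simp [h]

theorem clu_form (g g' : Cl → ℝ) :
    ∑ y, ∑ s, g y * (sgZ y.1 s : ℝ) * g' (hopC y s) = ∑ y, ∑ y', g y * g' y' * (cluX y y' : ℝ) := by
  refine Finset.sum_congr rfl fun y _ => ?_
  unfold cluX
  push_cast
  simp only [Finset.mul_sum]
  rw [Finset.sum_comm]
  refine Finset.sum_congr rfl fun s _ => ?_
  rw [Finset.sum_eq_single (hopC y s)]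
  · rw [if_pos rfl]
    ring
  · intro b _ hb
    rw [if_neg (Ne.symm hb), mul_zero]
  · intro hb
    exact absurd (Finset.mem_univ _) hb

/-- The hopping form is symmetric. -/
theorem xC_symm (g g' : Cl → ℝ) :
    ∑ y, ∑ s, g y * (sgZ y.1 s : ℝ) * g' (hopC y s) =
      ∑ y, ∑ s, g' y * (sgZ y.1 s : ℝ) * g (hopC y s) := by
  rw [clu_form, clu_form, Finset.sum_comm]
  refine Finset.sum_congr rfl fun y _ => Finset.sum_congr rfl fun y' _ => ?_
  rw [cluX_symm y' y]
  ring

theorem clu_sq (a g : Cl → ℝ) : (∑ y, a y * g y) ^ 2 = ∑ y, ∑ y', g y * g y' * (a y * a y') := by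
  rw [sq, Finset.sum_mul_sum]
  refine Finset.sum_congr rfl fun y _ => Finset.sum_congr rfl fun y' _ => ?_
  ring

theorem clu_sos (g : Cl → ℝ) (L : List (ℚ × List ℤ)) (hL : ∀ p ∈ L, 0 ≤ p.1) :
    0 ≤ ∑ y, ∑ y', g y * g y' * (((L.map fun p =>
      p.1 * ((p.2.getD (cluIdx y) 0 * p.2.getD (cluIdx y') 0 : ℤ) : ℚ)).sum : ℚ) : ℝ) := by
  induction L with
  | nil => simp
  | cons p L ih =>
    have h1 := ih fun q hq => hL q (List.mem_cons_of_mem _ hq)
    have h2 : (0 : ℝ) ≤ (p.1 : ℝ) := by exact_mod_cast hL p List.mem_cons_self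
    have h3 := mul_nonneg h2 (sq_nonneg (∑ y, ((p.2.getD (cluIdx y) 0 : ℤ) : ℝ) * g y))
    rw [clu_sq, Finset.mul_sum] at h3
    simp only [List.map_cons, List.sum_cons, Rat.cast_add, mul_add, Finset.sum_add_distrib]
    refine add_nonneg (le_of_le_of_eq h3 ?_) h1
    refine Finset.sum_congr rfl fun y _ => ?_
    rw [Finset.mul_sum]
    refine Finset.sum_congr rfl fun y' _ => ?_
    push_cast
    ring

theorem clu_psd (g : Cl → ℝ) : 0 ≤ ∑ y, ∑ y', g y * g y' * (cluM y y' : ℝ) := by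
  refine le_of_le_of_eq (clu_sos g cluL clu_pos) ?_
  refine Finset.sum_congr rfl fun y _ => Finset.sum_congr rfl fun y' _ => ?_
  rw [← clu_cert, Rat.cast_intCast]

theorem clu_expand (g : Cl → ℝ) : ∑ y, ∑ y', g y * g y' * (cluM y y' : ℝ) =
    9024 * ∑ y, g y ^ 2 - 6345 * ∑ y : Cl with y.1 = 0, g y ^ 2 - 3384 * xC g +
      ∑ s : Bool, (2 * (∑ y, (jz y false s : ℝ) * g y) ^ 2 +
        6 * (∑ y, (jz y true s : ℝ) * g y) ^ 2) := by
  have e1 : ∀ y : Cl, ∑ y', g y * g y' *
      (((if y = y' then 9024 - (if y.1 = 0 then 6345 else 0) else 0 : ℤ)) : ℝ) =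
      9024 * g y ^ 2 - 6345 * (if y.1 = 0 then g y ^ 2 else 0) := by
    intro y
    rw [Finset.sum_eq_single y]
    · rw [if_pos rfl]
      split_ifs <;> push_cast <;> ring
    · intro b _ hb
      rw [if_neg (Ne.symm hb)]
      simp
    · intro hb
      exact absurd (Finset.mem_univ _) hb
  have e2 : ∑ y, ∑ y', g y * g y' * (cluM y y' : ℝ) =
      ∑ y, ∑ y', g y * g y' *
        (((if y = y' then 9024 - (if y.1 = 0 then 6345 else 0) else 0 : ℤ)) : ℝ) -
      3384 * ∑ y, ∑ y', g y * g y' * (cluX y y' : ℝ) +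
      ∑ s : Bool, (2 * ∑ y, ∑ y', g y * g y' * ((jz y false s : ℝ) * (jz y' false s : ℝ)) +
        6 * ∑ y, ∑ y', g y * g y' * ((jz y true s : ℝ) * (jz y' true s : ℝ))) := by
    simp only [Fintype.sum_bool, Finset.mul_sum, ← Finset.sum_add_distrib,
      ← Finset.sum_sub_distrib]
    refine Finset.sum_congr rfl fun y _ => Finset.sum_congr rfl fun y' _ => ?_
    unfold cluM
    rw [Fintype.sum_bool]
    generalize (if y = y' then 9024 - (if y.1 = 0 then 6345 else 0) else 0 : ℤ) = c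
    push_cast
    ring
  rw [e2]
  simp only [e1, ← clu_sq]
  rw [xC, clu_form, Finset.sum_sub_distrib, ← Finset.mul_sum, ← Finset.mul_sum, Finset.sum_filter]

theorem clu_jm_sq (g : Cl → ℝ) (l s : Bool) : (∑ y, jm y l s * g y) ^ 2 =
    (∑ y, (jz y l s : ℝ) * g y) ^ 2 / (if l = true then 188 else 564) := by
  rw [← clu_sqrt_sq l, ← sq, ← div_pow, Finset.sum_div]
  congr 1
  refine Finset.sum_congr rfl fun y _ => ?_
  unfold jm
  ring

theorem clu_gap (g : Cl → ℝ) :
    1 / 3 * (∑ y, g y ^ 2 - ∑ l, ∑ s, (∑ y, jm y l s * g y) ^ 2) ≤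
      3 * ∑ y, g y ^ 2 - xC g - 15 / 8 * ∑ y : Cl with y.1 = 0, g y ^ 2 := by
  have h := clu_psd g
  rw [clu_expand] at h
  simp only [clu_jm_sq, Fintype.sum_bool, if_true, Bool.false_eq_true, if_false] at h ⊢
  linarith

end Vale.Agent.P370
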