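import Vale.Agent.P370.DDefs

/-! The spectral analysis of one cluster. -/

namespace Vale.Agent.P370

/-- The position of a cluster state in the lists below. -/
def cluIdx (y : Cl) : ℕ := 8 * y.1.val + 4 * (y.2 0).val + 2 * (y.2 1).val + (y.2 2).val

/-- The hopping matrix. -/
def cluX (y y' : Cl) : ℤ := ∑ s, if hopC y s = y' then sgZ y.1 s else 0

/-- The matrix of the gap form, times `3384`. -/
def cluM (y y' : Cl) : ℤ :=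
  (if y = y' then 9024 - (if y.1 = 0 then 6345 else 0) else 0) - 3384 * cluX y y' +
    ∑ s : Bool, (2 * (jz y false s * jz y' false s) + 6 * (jz y true s * jz y' true s))

/-- A sum of squares certificate. -/
def cluL : List (ℚ × List ℤ) :=
  [(141 / 19, [19, 0, 0, 0, 0, 0, 0, 0, -24, 0, 0, 0, 0, 0, 0, 0, 24, 0, 0, 0, 0, 0, 0, 0, -24, 0, 0, 0, 0, 0, 0, 0]),
   (1 / 3191, [0, 3191, -256, 0, -256, 0, 0, 0, 0, -3224, -32, 0, -128, 0, 0, 0, 0, 3224, 32, 0, 128, 0, 0, 0, 0, -128, -128, 0, -3128, 0, 0, 0]),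
   (1 / 3587019055, [0, 0, 3372315, 0, -294144, 0, 0, 0, 0, -309152, -3431992, 0, -147072, 0, 0, 0, 0, 411264, 138880, 0, 3338072, 0, 0, 0, 0, -3440184, -44960, 0, -403072, 0, 0, 0]),
   (1 / 3191, [0, 0, 0, 3191, 0, -256, -256, 0, 0, 0, 0, -3128, 0, -128, -128, 0, 0, 0, 0, 128, 0, 3224, 32, 0, 0, 0, 0, -128, 0, -3224, -32, 0]),
   (47 / 64073985, [0, 0, 0, 0, 65493, 0, 0, 0, 0, -8576, -8576, 0, -65576, 0, 0, 0, 0, 6752, 67400, 0, 8576, 0, 0, 0, 0, -6752, -67400, 0, -8576, 0, 0, 0]),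
   (1 / 3587019055, [0, 0, 0, 0, 0, 3372315, -294144, 0, 0, 0, 0, -403072, 0, -3440184, -44960, 0, 0, 0, 0, 3338072, 0, 411264, 138880, 0, 0, 0, 0, -147072, 0, -309152, -3431992, 0]),
   (47 / 64073985, [0, 0, 0, 0, 0, 0, 65493, 0, 0, 0, 0, -8576, 0, -6752, -67400, 0, 0, 0, 0, 8576, 0, 6752, 67400, 0, 0, 0, 0, -65576, 0, -8576, -8576, 0]),
   (141 / 19, [0, 0, 0, 0, 0, 0, 0, 19, 0, 0, 0, 0, 0, 0, 0, -24, 0, 0, 0, 0, 0, 0, 0, 24, 0, 0, 0, 0, 0, 0, 0, -24]),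
   (705 / 38, [0, 0, 0, 0, 0, 0, 0, 0, 16, 0, 0, 0, 0, 0, 0, 0, 3, 0, 0, 0, 0, 0, 0, 0, -3, 0, 0, 0, 0, 0, 0, 0]),
   (94 / 7278258921, [0, 0, 0, 0, 0, 0, 0, 0, 0, 666782, -43438, 0, -71824, 0, 0, 0, 0, -10769, 57631, 0, 56548, 0, 0, 0, 0, -57631, 322217, 0, -367996, 0, 0, 0]),
   (47 / 30991920778231210, [0, 0, 0, 0, 0, 0, 0, 0, 0, 0, 1941716560, 0, -223731760, 0, 0, 0, 0, 166489165, -931338247, 0, 1086971232, 0, 0, 0, 0, 20514035, -107152857, 0, -235483328, 0, 0, 0]),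
   (47 / 948513288, [0, 0, 0, 0, 0, 0, 0, 0, 0, 0, 0, 347584, 0, -35912, -35912, 0, 0, 0, 0, -160567, 0, 183998, 28274, 0, 0, 0, 0, 160567, 0, -183998, -28274, 0]),
   (235 / 65529038, [0, 0, 0, 0, 0, 0, 0, 0, 0, 0, 0, 0, 40368, 0, 0, 0, 0, 3685, 20077, 0, -16193, 0, 0, 0, 0, -3685, -20077, 0, 16193, 0, 0, 0]),
   (47 / 522717352724800, [0, 0, 0, 0, 0, 0, 0, 0, 0, 0, 0, 0, 0, 251297600, -19383440, 0, 0, 0, 0, 127606313, 0, -108313598, 24191190, 0, 0, 0, 0, -8906377, 0, -36455138, 1877610, 0]),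
   (47 / 131665618436800, [0, 0, 0, 0, 0, 0, 0, 0, 0, 0, 0, 0, 0, 0, 125746320, 0, 0, 0, 0, 9437971, 0, 14145334, -5870, 0, 0, 0, 0, -64580659, 0, 53107754, -12104530, 0]),
   (705 / 38, [0, 0, 0, 0, 0, 0, 0, 0, 0, 0, 0, 0, 0, 0, 0, 16, 0, 0, 0, 0, 0, 0, 0, 3, 0, 0, 0, 0, 0, 0, 0, -3]),
   (705 / 26, [0, 0, 0, 0, 0, 0, 0, 0, 0, 0, 0, 0, 0, 0, 0, 0, 13, 0, 0, 0, 0, 0, 0, 0, 3, 0, 0, 0, 0, 0, 0, 0]),
   (47 / 131997542614616, [0, 0, 0, 0, 0, 0, 0, 0, 0, 0, 0, 0, 0, 0, 0, 0, 0, 125965556, -8834056, 0, -14962615, 0, 0, 0, 0, -61073996, 18582928, 0, 66068503, 0, 0, 0]),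
   (96303 / 2997084617696840, [0, 0, 0, 0, 0, 0, 0, 0, 0, 0, 0, 0, 0, 0, 0, 0, 0, 0, 9517156, 0, 6518669, 0, 0, 0, 0, 2097320, 3335716, 0, -1732461, 0, 0, 0]),
   (47 / 1876688917869290, [0, 0, 0, 0, 0, 0, 0, 0, 0, 0, 0, 0, 0, 0, 0, 0, 0, 0, 0, 358185703, 0, 227471797, -74813075, 0, 0, 0, 0, -130227607, 0, -82227733, 330342515, 0]),
   (8988280 / 30930757, [0, 0, 0, 0, 0, 0, 0, 0, 0, 0, 0, 0, 0, 0, 0, 0, 0, 0, 0, 0, 78, 0, 0, 0, 0, 97, -59, 0, -20, 0, 0, 0]),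
   (96303 / 8751829949875934, [0, 0, 0, 0, 0, 0, 0, 0, 0, 0, 0, 0, 0, 0, 0, 0, 0, 0, 0, 0, 0, 12216889, 222941, 0, 0, 0, 0, 31728, 0, 10637903, -7798901, 0]),
   (8988280 / 158819557, [0, 0, 0, 0, 0, 0, 0, 0, 0, 0, 0, 0, 0, 0, 0, 0, 0, 0, 0, 0, 0, 0, 312, 0, 0, 0, 0, 154, 0, 37, -119, 0]),
   (705 / 26, [0, 0, 0, 0, 0, 0, 0, 0, 0, 0, 0, 0, 0, 0, 0, 0, 0, 0, 0, 0, 0, 0, 0, 13, 0, 0, 0, 0, 0, 0, 0, 3]),
   (56400 / 13, [0, 0, 0, 0, 0, 0, 0, 0, 0, 0, 0, 0, 0, 0, 0, 0, 0, 0, 0, 0, 0, 0, 0, 0, 1, 0, 0, 0, 0, 0, 0, 0]),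
   (18800 / 13, [0, 0, 0, 0, 0, 0, 0, 0, 0, 0, 0, 0, 0, 0, 0, 0, 0, 0, 0, 0, 0, 0, 0, 0, 0, 1, 1, 0, 1, 0, 0, 0]),
   (18800 / 13, [0, 0, 0, 0, 0, 0, 0, 0, 0, 0, 0, 0, 0, 0, 0, 0, 0, 0, 0, 0, 0, 0, 0, 0, 0, 0, 0, 1, 0, 1, 1, 0]),
   (56400 / 13, [0, 0, 0, 0, 0, 0, 0, 0, 0, 0, 0, 0, 0, 0, 0, 0, 0, 0, 0, 0, 0, 0, 0, 0, 0, 0, 0, 0, 0, 0, 0, 1])]

/-- Occupation sums. -/
def cluN (k : ℕ) (l l' : Bool) : ℤ :=
  if l = l' then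
    (if k = 0 then (if l = true then 60 else 180) else if k = 1 then (if l = true then 180 else 468)
      else (if l = true then 162 else 522))
  else (if k = 0 then 0 else if k = 1 then 0 else if k = 2 then 18 else -18)

theorem clu_cert : ∀ y y' : Cl, (cluM y y' : ℚ) =
    (cluL.map fun p => p.1 * ((p.2.getD (cluIdx y) 0 * p.2.getD (cluIdx y') 0 : ℤ) : ℚ)).sum := by
  decide +kernel

theorem clu_pos : ∀ p ∈ cluL, 0 ≤ p.1 := by decide +kernel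

theorem clu_ortho : ∀ l s l' s' : Bool, ∑ y, jz y l s * jz y l' s' =
    if l = l' ∧ s = s' then (if l = true then 188 else 564) else 0 := by decide +kernel

theorem clu_eigen : ∀ (y : Cl) (l s : Bool),
    8 * ∑ t, sgZ y.1 t * jz (hopC y t) l s + (if y.1 = 0 then 15 else 0) * jz y l s =
      24 * jz y l s := by decide +kernel

theorem clu_dens : ∀ (k : Fin 4) (l s l' s' : Bool),
    ∑ y : Cl, (if y.1 ≠ k then jz y l s * jz y l' s' else 0) =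
      if s = s' then cluN k.val l l' else 0 := by decide +kernel

theorem cluX_symm : ∀ y y' : Cl, cluX y y' = cluX y' y := by decide +kernel

end Vale.Agent.P370
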