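import Vale.Agent.P370.CDefs

/-! The comb layout: geometry. -/

set_option linter.unusedSimpArgs false

namespace Vale.Agent.P370

/-- Explicit form of the bus nodes of mode `s` of a cluster with offset `T`. -/
def CombB (r L S Y T s i j : ℕ) : Prop :=
  (s = 0 ∧ ((j = T + S ∧ L + 8 * r ≤ i ∧ i ≤ Y + 4 * L + 16 * r) ∨
    (i = Y ∧ T + S ≤ j ∧ j ≤ T + S + 2 * r) ∨
    (i = Y + 3 * L + 12 * r ∧ T + S ≤ j ∧ j ≤ T + S + 4 * r) ∨
    (i = Y + 4 * L + 16 * r ∧ T + S ≤ j ∧ j ≤ T + S + 6 * r))) ∨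
  (s = 1 ∧ ((j = T + 2 * S ∧ 4 * r ≤ i ∧ i ≤ Y + L + 4 * r) ∨
    (i = Y + L ∧ T + S + 2 * r ≤ j ∧ j ≤ T + 2 * S) ∨
    (i = Y + L + 4 * r ∧ T + 2 * S ≤ j ∧ j ≤ T + 2 * S + 2 * r) ∨
    (i = 4 * r ∧ T + 2 * S ≤ j ∧ j ≤ T + 2 * S + 4 * r))) ∨
  (s = 2 ∧ ((j = T + 3 * S ∧ L + 8 * r ≤ i ∧ i ≤ Y + 4 * L + 12 * r) ∨
    (i = Y + 4 * L + 12 * r ∧ T + S + 4 * r ≤ j ∧ j ≤ T + 3 * S) ∨
    (i = Y + 2 * L + 4 * r ∧ T + 2 * S + 2 * r ≤ j ∧ j ≤ T + 3 * S) ∨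
    (i = Y + 2 * L + 8 * r ∧ T + 3 * S ≤ j ∧ j ≤ T + 3 * S + 2 * r))) ∨
  (s = 3 ∧ ((j = T + 4 * S ∧ 4 * r + L ≤ i ∧ i ≤ Y + 5 * L + 16 * r) ∨
    (i = Y + 5 * L + 16 * r ∧ T + S + 6 * r ≤ j ∧ j ≤ T + 4 * S) ∨
    (i = 4 * r + L ∧ T + 2 * S + 4 * r ≤ j ∧ j ≤ T + 4 * S) ∨
    (i = Y + 3 * L + 8 * r ∧ T + 3 * S + 2 * r ≤ j ∧ j ≤ T + 4 * S)))

/-- Explicit form of the links of a cluster with offset `T`. -/
def CombE (r L S Y T s t i j : ℕ) : Prop :=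
  (s = 0 ∧ t = 1 ∧ i = Y ∧ j = T + S + 2 * r) ∨
  (s = 0 ∧ t = 2 ∧ i = Y + 3 * L + 12 * r ∧ j = T + S + 4 * r) ∨
  (s = 0 ∧ t = 3 ∧ i = Y + 4 * L + 16 * r ∧ j = T + S + 6 * r) ∨
  (s = 1 ∧ t = 2 ∧ i = Y + L + 4 * r ∧ j = T + 2 * S + 2 * r) ∨
  (s = 1 ∧ t = 3 ∧ i = 4 * r ∧ j = T + 2 * S + 4 * r) ∨
  (s = 2 ∧ t = 3 ∧ i = Y + 2 * L + 8 * r ∧ j = T + 3 * S + 2 * r)

/-- Left end of the right part. -/
def combY (M : ℕ) : ℕ := LL M + 8 * rr M + D0 M * NC M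
/-- Offset of the cluster of `a`. -/
def combT (M a : ℕ) : ℕ := SS M * (a / 4 * 4)

theorem comb_row (M c s : ℕ) : row M (c * 4 + s) = SS M * (c * 4) + (s + 1) * SS M := by
  unfold row; ring

theorem comb_li (M c s t : ℕ) : combLi M (c * 4 + s) (c * 4 + t) = combLi M s t := by
  have h1 : (c * 4 + s) % 4 = s % 4 := by omega
  have h2 : (c * 4 + t) % 4 = t % 4 := by omega
  have h3 : c * 4 + t = c * 4 + s + 1 ↔ t = s + 1 := by omega
  simp only [combLi, h1, h2, h3]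

theorem comb_lj (M c s t : ℕ) :
    combLj M (c * 4 + s) (c * 4 + t) = SS M * (c * 4) + (s + 1) * SS M + 2 * rr M * (t - s) := by
  rw [combLj, comb_row, Nat.add_sub_add_left]

theorem comb_li01 (M : ℕ) : combLi M 0 1 = combY M := by simp [combLi, combY]
theorem comb_li02 (M : ℕ) : combLi M 0 2 = combY M + 3 * LL M + 12 * rr M := by
  simp [combLi, combY]; ring
theorem comb_li03 (M : ℕ) : combLi M 0 3 = combY M + 4 * LL M + 16 * rr M := by
  simp [combLi, combY]; ring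
theorem comb_li12 (M : ℕ) : combLi M 1 2 = combY M + LL M + 4 * rr M := by
  simp [combLi, combY]; ring
theorem comb_li13 (M : ℕ) : combLi M 1 3 = 4 * rr M := by simp [combLi]
theorem comb_li23 (M : ℕ) : combLi M 2 3 = combY M + 2 * LL M + 8 * rr M := by
  simp [combLi, combY]; ring

theorem comb_bus_aux (M c s i j : ℕ) (hs : s < 4) : combBus M (c * 4 + s) i j = true ↔
    CombB (rr M) (LL M) (SS M) (combY M) (SS M * (c * 4)) s i j := by
  have h1 : (c * 4 + s) / 4 = c := by omega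
  have h2 : (c * 4 + s) % 4 = s := by omega
  simp only [combBus, h1, comb_li, comb_lj, comb_row, combLo, combHi, h2, List.range_succ,
    List.range_zero, List.nil_append, List.cons_append, List.any_cons, List.any_nil,
    Bool.or_eq_true, decide_eq_true_eq, Nat.add_lt_add_iff_left, Bool.false_eq_true, or_false,
    CombB]
  generalize SS M * (c * 4) = T
  interval_cases s <;>
    simp only [comb_li01, comb_li02, comb_li03, comb_li12, comb_li13, comb_li23] <;>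
    simp only [Nat.lt_irrefl, Nat.reduceLT, Nat.reduceEqDiff, false_and, true_and, false_or,
      or_false, if_true, if_false, Nat.reduceAdd, Nat.reduceSub, OfNat.zero_ne_ofNat,
      OfNat.one_ne_ofNat, zero_ne_one, one_ne_zero, OfNat.ofNat_ne_zero, OfNat.ofNat_ne_one] <;>
    omega

theorem comb_bus (M a i j : ℕ) : combBus M a i j = true ↔
    CombB (rr M) (LL M) (SS M) (combY M) (combT M a) (a % 4) i j := by
  have := comb_bus_aux M (a / 4) (a % 4) i j (Nat.mod_lt _ (by norm_num))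
  rwa [Nat.div_add_mod'] at this

theorem comb_row' (M a : ℕ) : row M a = combT M a + (a % 4 + 1) * SS M := by
  have := comb_row M (a / 4) (a % 4)
  rwa [Nat.div_add_mod'] at this

theorem comb_edge {M K a b : ℕ} (h : Edge K a b) :
    CombE (rr M) (LL M) (SS M) (combY M) (combT M a) (a % 4) (b % 4) (combLi M a b)
      (combLj M a b) := by
  obtain ⟨h1, -, h3⟩ := h
  have e1 := comb_li M (a / 4) (a % 4) (b % 4)
  have e2 := comb_lj M (a / 4) (a % 4) (b % 4)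
  rw [Nat.div_add_mod'] at e1 e2
  rw [show a / 4 * 4 + b % 4 = b by omega] at e1 e2
  have h4 : a % 4 < b % 4 := by omega
  have h5 : b % 4 < 4 := Nat.mod_lt _ (by norm_num)
  rw [e1, e2, CombE, combT]
  clear e1 e2
  generalize a % 4 = s at h4 ⊢
  generalize b % 4 = t at h4 h5 ⊢
  generalize SS M * (a / 4 * 4) = T
  have h6 : s < 4 := by omega
  interval_cases s <;> interval_cases t <;>
    simp only [comb_li01, comb_li02, comb_li03, comb_li12, comb_li13, comb_li23, Nat.reduceSub,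
      Nat.reduceAdd, true_and] <;> omega

theorem comb_T_eq {M a b : ℕ} (h : a / 4 = b / 4) : combT M a = combT M b := by
  rw [combT, combT, h]

theorem comb_T_lt {M a b : ℕ} (h : a / 4 < b / 4) : combT M a + 4 * SS M ≤ combT M b := by
  rw [combT, combT, mul_comm 4, ← mul_add]
  exact Nat.mul_le_mul_left _ (by omega)

section arith

variable {r L S Y T s t i j i' j' : ℕ}

theorem CombB.range (h : CombB r L S Y T s i j) (hS : 10 * r ≤ S) (hY : L + 8 * r ≤ Y) :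
    4 * r ≤ i ∧ i ≤ Y + 5 * L + 16 * r ∧ T + S ≤ j ∧ j ≤ T + 4 * S := by
  unfold CombB at h
  omega

theorem CombE.range (h : CombE r L S Y T s t i j) (hS : 10 * r ≤ S) :
    T + S + 2 * r ≤ j ∧ j ≤ T + 3 * S + 2 * r := by
  unfold CombE at h
  omega

theorem CombB.sep (h : CombB r L S Y T s i j) (h' : CombB r L S Y T t i' j') (hst : s ≠ t)
    (hL : 10 * r ≤ L) (hS : 10 * r ≤ S) (hY : L + 8 * r ≤ Y) :
    i + 2 * r ≤ i' ∨ i' + 2 * r ≤ i ∨ j + 2 * r ≤ j' ∨ j' + 2 * r ≤ j := by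
  rcases h with ⟨rfl, h⟩ | ⟨rfl, h⟩ | ⟨rfl, h⟩ | ⟨rfl, h⟩ <;>
    rcases h' with ⟨rfl, h'⟩ | ⟨rfl, h'⟩ | ⟨rfl, h'⟩ | ⟨rfl, h'⟩ <;>
    first
    | exact absurd rfl hst
    | (rcases h with h | h | h | h <;> rcases h' with h' | h' | h' | h' <;> omega)

theorem CombE.left (h : CombE r L S Y T s t i j) : CombB r L S Y T s i j := by
  rcases h with ⟨rfl, -, h⟩ | ⟨rfl, -, h⟩ | ⟨rfl, -, h⟩ | ⟨rfl, -, h⟩ | ⟨rfl, -, h⟩ |
    ⟨rfl, -, h⟩ <;>
    simp only [CombB, Nat.reduceEqDiff, true_and, false_and, false_or, or_false,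
      OfNat.zero_ne_ofNat, OfNat.one_ne_ofNat, zero_ne_one, one_ne_zero, OfNat.ofNat_ne_zero,
      OfNat.ofNat_ne_one] <;> omega

theorem CombE.right (h : CombE r L S Y T s t i j) (hS : 10 * r ≤ S) :
    CombB r L S Y T t (i + L) j := by
  rcases h with ⟨-, rfl, h⟩ | ⟨-, rfl, h⟩ | ⟨-, rfl, h⟩ | ⟨-, rfl, h⟩ | ⟨-, rfl, h⟩ |
    ⟨-, rfl, h⟩ <;>
    simp only [CombB, Nat.reduceEqDiff, true_and, false_and, false_or, or_false,
      OfNat.zero_ne_ofNat, OfNat.one_ne_ofNat, zero_ne_one, one_ne_zero, OfNat.ofNat_ne_zero,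
      OfNat.ofNat_ne_one] <;> omega

theorem CombE.sep {x : ℕ} (h : CombE r L S Y T s t i' j') (h' : CombB r L S Y T x i j)
    (hL : 10 * r ≤ L) (hS : 10 * r ≤ S) (hY : L + 8 * r ≤ Y) :
    (j + 2 * r ≤ j' ∨ j' + 2 * r ≤ j ∨ i + 2 * r ≤ i' ∨ i' + L + 2 * r ≤ i) ∨
      (x = s ∧ i ≤ i') ∨ (x = t ∧ i' + L ≤ i) := by
  rcases h with ⟨rfl, rfl, h⟩ | ⟨rfl, rfl, h⟩ | ⟨rfl, rfl, h⟩ | ⟨rfl, rfl, h⟩ | ⟨rfl, rfl, h⟩ |
    ⟨rfl, rfl, h⟩ <;>
    rcases h' with ⟨rfl, h'⟩ | ⟨rfl, h'⟩ | ⟨rfl, h'⟩ | ⟨rfl, h'⟩ <;>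
    rcases h' with h' | h' | h' | h' <;> omega

theorem CombE.row {s' t' : ℕ} (h : CombE r L S Y T s t i j) (h' : CombE r L S Y T s' t' i' j')
    (hne : s ≠ s' ∨ t ≠ t') (hS : 10 * r ≤ S) : j + 2 * r ≤ j' ∨ j' + 2 * r ≤ j := by
  rcases h with h | h | h | h | h | h <;> rcases h' with h' | h' | h' | h' | h' | h' <;> omega

theorem CombB.of_row (hs : s < 4) (h1 : L + 8 * r ≤ i) (h2 : i ≤ Y) :
    CombB r L S Y T s i (T + (s + 1) * S) := by
  interval_cases s <;>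
    simp only [CombB, Nat.reduceEqDiff, true_and, false_and, false_or, or_false,
      OfNat.zero_ne_ofNat, OfNat.one_ne_ofNat, zero_ne_one, one_ne_zero, OfNat.ofNat_ne_zero,
      OfNat.ofNat_ne_one] <;> (left; omega)

theorem CombB.conn (h : CombB r L S Y T s i j) (hY : L + 8 * r ≤ Y) :
    (T + (s + 1) * S < j → CombB r L S Y T s i (j - 1)) ∧
    (j < T + (s + 1) * S → CombB r L S Y T s i (j + 1)) ∧
    (j = T + (s + 1) * S → L + 8 * r < i → CombB r L S Y T s (i - 1) j) ∧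
    (j = T + (s + 1) * S → i < L + 8 * r → CombB r L S Y T s (i + 1) j) := by
  rcases h with ⟨rfl, h⟩ | ⟨rfl, h⟩ | ⟨rfl, h⟩ | ⟨rfl, h⟩ <;>
    simp only [CombB, Nat.reduceEqDiff, true_and, false_and, false_or, or_false,
      OfNat.zero_ne_ofNat, OfNat.one_ne_ofNat, zero_ne_one, one_ne_zero, OfNat.ofNat_ne_zero,
      OfNat.ofNat_ne_one] <;>
    rcases h with h | h | h | h <;>
    refine ⟨fun _ => ?_, fun _ => ?_, fun _ _ => ?_, fun _ _ => ?_⟩ <;>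
    first
      | (left; omega)
      | (right; left; omega)
      | (right; right; left; omega)
      | (right; right; right; omega)

end arith

theorem comb_size {M : ℕ} (hM : 4 ≤ M) : 10 * rr M ≤ LL M ∧ 10 * rr M ≤ SS M ∧ LL M ≤ D0 M ∧
    combY M + 5 * LL M + 17 * rr M ≤ DD M ∧ SS M * M + rr M ≤ DD M := by
  have hp : ∀ a b : ℕ, a ≤ b → M ^ a ≤ M ^ b := fun a b h => Nat.pow_le_pow_right (by omega) h
  have h4 : ∀ a : ℕ, 4 * M ^ a ≤ M ^ (a + 1) := fun a => by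
    rw [pow_succ, mul_comm]; exact Nat.mul_le_mul_left _ hM
  have e1 := h4 1
  have e2 := h4 2
  have e3 := h4 3
  have e4 := hp 4 20
  have e5 := hp 20 40
  have e6 := hp 20 50
  have e7 := h4 54
  have e8 := h4 20
  have e9 := h4 21
  have e10 := hp 22 54
  have e11 := hp 41 54
  have f1 : D0 M * NC M = M ^ 54 := by rw [D0, NC, ← pow_add]
  have f2 : SS M * M = M ^ 41 := by rw [SS, ← pow_succ]
  rw [combY, f1, f2]
  simp only [rr, LL, SS, D0, DD, pow_one, Nat.reduceAdd] at *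
  omega

end Vale.Agent.P370
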