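import Vale.Agent.P370.CDefs

/-! The comb layout: counting ports. -/

namespace Vale.Agent.P370

open Finset
open scoped Classical

theorem comb_sum_mul (f : ℕ → ℕ → ℕ) (n m : ℕ) :
    ∑ c ∈ range (n * m), f (c / m) (c % m) = ∑ a ∈ range n, ∑ b ∈ range m, f a b := by
  induction n with
  | zero => simp
  | succ n ih =>
    rw [Nat.succ_mul, sum_range_add, ih, sum_range_succ]
    congr 1
    refine sum_congr rfl fun b hb => ?_
    have hb' := mem_range.1 hb
    rw [mul_comm n, Nat.mul_add_div (by omega), Nat.mul_add_mod, Nat.div_eq_of_lt hb',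
      Nat.mod_eq_of_lt hb', add_zero]

/-- The port condition in decoded form. -/
def CombP (v : ℕ → ℕ → ℕ) (x a b c : ℕ) : Prop :=
  (a < b ∧ (x = a ∨ (x = b ∧ c < v a x * (x - a)))) ∨ (b < a ∧ x = a ∧ v b x * (x - b) ≤ c)

theorem comb_has (M K : ℕ) (v : ℕ → ℕ → ℕ) (x c : ℕ) : combHas M K v x c = true ↔
    c < K * K * (K * M) ∧ CombP v x (c / (K * M) / K) (c / (K * M) % K) (c % (K * M)) := by
  simp only [combHas, CombP, decide_eq_true_eq]

theorem comb_card {N K C : ℕ} (hN : K * K * C ≤ N) (P : ℕ → ℕ → ℕ → Prop) (Q : ℕ → Prop)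
    [∀ a b c, Decidable (P a b c)] [DecidablePred Q] (hQ : ∀ c, Q c ↔ c < K * K * C ∧ P (c / C / K) (c / C % K) (c % C)) :
    ((range N).filter Q).card =
      ∑ a ∈ range K, ∑ b ∈ range K, ((range C).filter fun c => P a b c).card := by
  have e : (range N).filter Q =
      (range (K * K * C)).filter fun c => P (c / C / K) (c / C % K) (c % C) := by
    ext c
    simp only [mem_filter, mem_range, hQ]
    exact ⟨fun h => h.2, fun h => ⟨h.1.trans_le hN, h⟩⟩
  rw [e, card_filter,
    comb_sum_mul (fun p c => if P (p / K) (p % K) c then 1 else 0) (K * K) C,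
    comb_sum_mul (fun a b => ∑ c ∈ range C, if P a b c then 1 else 0) K K]
  simp only [card_filter]

theorem comb_lt {C m : ℕ} (h : m ≤ C) (P : ℕ → Prop) [DecidablePred P] (hP : ∀ c, P c ↔ c < m) :
    ((range C).filter P).card = m := by
  have : (range C).filter P = range m := by
    ext c
    simp only [mem_filter, mem_range, hP]
    omega
  rw [this, card_range]

theorem comb_ge {C m : ℕ} (P : ℕ → Prop) [DecidablePred P] (hP : ∀ c, P c ↔ m ≤ c) :
    ((range C).filter P).card = C - m := by
  have : (range C).filter P = Ico m C := by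
    ext c
    simp only [mem_filter, mem_range, mem_Ico, hP]
    omega
  rw [this, Nat.card_Ico]

theorem comb_m_le {M K : ℕ} {v : ℕ → ℕ → ℕ} (hv : ∀ a b, v a b ≤ M) {x : ℕ} (hx : x < K)
    (y : ℕ) : v y x * (x - y) ≤ K * M := by
  rw [mul_comm]
  exact Nat.mul_le_mul (by omega) (hv y x)

theorem comb_cnt {M K N : ℕ} {v : ℕ → ℕ → ℕ} (hv : ∀ a b, v a b ≤ M) (hN : K * K * (K * M) ≤ N)
    {x : ℕ} (hx : x < K) :
    ((range N).filter fun c => combHas M K v x c = true).card = (K - 1) * (K * M) := by
  rw [comb_card hN (CombP v x) _ (comb_has M K v x)]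
  have hm := comb_m_le hv hx
  set C := K * M
  have e : ∀ a b, ((range C).filter fun c => CombP v x a b c).card =
      (if x = a then (if x < b then C else if b < x then C - v b x * (x - b) else 0) else 0) +
      (if x = b then (if a < x then v a x * (x - a) else 0) else 0) := by
    intro a b
    by_cases h1 : x = a
    · subst h1
      rcases lt_trichotomy x b with h | h | h
      · rw [if_pos rfl, if_pos h, if_neg h.ne, add_zero]
        rw [filter_true_of_mem fun c _ => show CombP v x x b c from Or.inl ⟨h, Or.inl rfl⟩,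
          card_range]
      · subst h
        simp [CombP]
      · rw [if_pos rfl, if_neg h.not_gt, if_pos h, if_neg h.ne', add_zero]
        exact comb_ge _ fun c => by simp [CombP, h, h.not_gt]
    · rw [if_neg h1, zero_add]
      by_cases h2 : x = b
      · subst h2
        rw [if_pos rfl]
        by_cases h : a < x
        · rw [if_pos h]
          exact comb_lt (hm a) _ fun c => by simp [CombP, h, h1]
        · rw [if_neg h]
          simp [CombP, h, h1]
      · simp [CombP, h1, h2]
  simp only [e, sum_add_distrib]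
  rw [sum_comm]
  simp only [sum_ite_eq, mem_range, hx, if_true]
  rw [← sum_add_distrib, ← sum_erase (a := x) _ (by simp)]
  rw [sum_const_nat (m := C) fun y hy => ?_, card_erase_of_mem (mem_range.2 hx), card_range]
  have h1 := hm y
  have h2 := ne_of_mem_erase hy
  split_ifs <;> omega

theorem comb_cnt2 {M K N : ℕ} {v : ℕ → ℕ → ℕ} (hv : ∀ a b, v a b ≤ M) (hN : K * K * (K * M) ≤ N)
    {x y : ℕ} (hxy : x < y) (hy : y < K) :
    ((range N).filter fun c => combHas M K v x c = true ∧ combHas M K v y c = true).card =
      v x y * (y - x) := by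
  rw [comb_card hN (fun a b c => CombP v x a b c ∧ CombP v y a b c) _ fun c => by
    rw [comb_has, comb_has, ← and_and_left]]
  have hm := comb_m_le hv hy
  rw [sum_eq_single x, sum_eq_single y]
  · exact comb_lt (hm x) _ fun c => by simp [CombP, hxy, hxy.ne', hxy.not_gt]
  · intro b _ hb
    rw [card_eq_zero, filter_eq_empty_iff]
    intro c _
    unfold CombP
    omega
  · intro h
    exact absurd (mem_range.2 hy) h
  · intro a _ ha
    refine sum_eq_zero fun b _ => ?_
    rw [card_eq_zero, filter_eq_empty_iff]
    intro c _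
    unfold CombP
    omega
  · intro h
    exact absurd (mem_range.2 (hxy.trans hy)) h

end Vale.Agent.P370
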