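import Vale.Agent.P370.CDefs
import Vale.Agent.P370.CombA
import Vale.Agent.P370.CombB

/-! The comb layout is admissible. -/

namespace Vale.Agent.P370

open MeasureTheory Filter
open scoped Classical

theorem comb_ok {M : ℕ} (hM : 4 ≤ M) {d : Disc} (h : d.Le M) :
    (comb M d).OK M (piN M d) d.wt := by
  obtain ⟨hL, hS, hD, hX, hR⟩ := comb_size hM
  have hY : LL M + 8 * rr M ≤ combY M := Nat.le_add_right _ _
  have hn := h.n_pos
  have hK := h.n_le
  have hN : 4 * d.n * (4 * d.n) * (4 * d.n * M) ≤ NC M := by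
    have := Nat.mul_le_mul (Nat.mul_le_mul hK hK) (Nat.mul_le_mul_right M hK)
    refine this.trans (le_of_eq ?_)
    rw [NC]; ring
  have hm : ∀ a : ℕ, a % 4 < 4 := fun a => Nat.mod_lt _ (by norm_num)
  refine ⟨hK, ?_, ?_, h.wt_le, fun a i j ha hb => ?_, fun a c k _ hc _ hk => ?_,
    fun a b i j i' j' _ _ hab h1 h2 => ?_, fun a b he => ?_, fun a b he => ?_,
    fun a b x i j he _ hb => ?_, fun a b a' b' he he' hne => ?_, fun a _ => ?_,
    fun a i j _ hb => ?_, fun a ha => comb_cnt h.wt_le hN ha, fun a b ha hb hab => ?_⟩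
  · rw [piN]
    exact le_trans (by omega) (Nat.mul_le_mul (show 1 ≤ 4 * d.n - 1 by omega)
      (Nat.mul_le_mul_right M (show 1 ≤ 4 * d.n by omega)))
  · have := Nat.mul_le_mul (show 4 * d.n - 1 ≤ M by omega) (Nat.mul_le_mul_right M hK)
    refine this.trans (le_of_eq ?_)
    ring
  · have h1 := ((comb_bus M a i j).1 hb).range hS hY
    have h2 : combT M a + 4 * SS M ≤ SS M * M := by
      rw [combT, mul_comm 4, ← mul_add]
      have ha' : a < 4 * d.n := ha
      exact Nat.mul_le_mul_left _ (by omega)
    omega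
  · refine (comb_bus M a _ _).2 ?_
    rw [comb_row']
    refine CombB.of_row (hm a) (by change _ ≤ LL M + 8 * rr M + _ + _; omega) ?_
    have h1 := Nat.mul_le_mul_left (D0 M) (show c + 1 ≤ NC M from hc)
    rw [mul_add, mul_one] at h1
    change LL M + 8 * rr M + _ + _ ≤ _
    rw [combY]
    omega
  · have h3 := (comb_bus M a i j).1 h1
    have h4 := (comb_bus M b i' j').1 h2
    have h5 := h3.range hS hY
    have h6 := h4.range hS hY
    rcases lt_trichotomy (a / 4) (b / 4) with hc | hc | hc
    · have := comb_T_lt (M := M) hc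
      omega
    · rw [← comb_T_eq hc] at h4
      exact h3.sep h4 (by omega) hL hS hY
    · have := comb_T_lt (M := M) hc
      omega
  · exact (comb_bus M a _ _).2 (comb_edge he).left
  · refine (comb_bus M b _ _).2 ?_
    rw [← comb_T_eq he.2.2]
    exact (comb_edge he).right hS
  · have h3 := (comb_bus M x i j).1 hb
    have h4 := comb_edge (M := M) he
    have h5 := h3.range hS hY
    have h6 := h4.range hS
    change (j + 2 * rr M ≤ combLj M a b ∨ combLj M a b + 2 * rr M ≤ j ∨
      i + 2 * rr M ≤ combLi M a b ∨ combLi M a b + LL M + 2 * rr M ≤ i) ∨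
      (x = a ∧ i ≤ combLi M a b) ∨ (x = b ∧ combLi M a b + LL M ≤ i)
    rcases lt_trichotomy (a / 4) (x / 4) with hc | hc | hc
    · have := comb_T_lt (M := M) hc
      omega
    · rw [← comb_T_eq hc] at h3
      have h7 := he.2.2
      rcases h4.sep h3 hL hS hY with h8 | h8 | h8
      · exact Or.inl h8
      · exact Or.inr (Or.inl ⟨by omega, h8.2⟩)
      · exact Or.inr (Or.inr ⟨by omega, h8.2⟩)
    · have := comb_T_lt (M := M) hc
      omega
  · have h3 := comb_edge (M := M) he
    have h4 := comb_edge (M := M) he'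
    have h5 := h3.range hS
    have h6 := h4.range hS
    change combLj M a b + 2 * rr M ≤ combLj M a' b' ∨ combLj M a' b' + 2 * rr M ≤ combLj M a b
    rcases lt_trichotomy (a / 4) (a' / 4) with hc | hc | hc
    · have := comb_T_lt (M := M) hc
      omega
    · rw [← comb_T_eq hc] at h4
      refine h3.row h4 ?_ hS
      have h7 := he.2.2
      have h8 := he'.2.2
      have h9 : a ≠ a' ∨ b ≠ b' := by
        by_contra h10
        rw [not_or, not_not, not_not] at h10
        exact hne (Prod.ext h10.1 h10.2)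
      omega
    · have := comb_T_lt (M := M) hc
      omega
  · refine (comb_bus M a _ _).2 ?_
    rw [comb_row']
    exact CombB.of_row (hm a) le_rfl hY
  · have h1 := ((comb_bus M a i j).1 hb).conn hY
    rw [← comb_row'] at h1
    exact ⟨fun h2 => (comb_bus M a _ _).2 (h1.1 h2), fun h2 => (comb_bus M a _ _).2 (h1.2.1 h2),
      fun h2 h3 => (comb_bus M a _ _).2 (h1.2.2.1 h2 h3),
      fun h2 h3 => (comb_bus M a _ _).2 (h1.2.2.2 h2 h3)⟩
  · rcases lt_or_gt_of_ne hab with hc | hc
    · rw [show a - b + (b - a) = b - a by omega]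
      exact comb_cnt2 h.wt_le hN hc hb
    · rw [show a - b + (b - a) = a - b by omega, h.symm]
      refine Eq.trans ?_ (comb_cnt2 h.wt_le hN hc ha)
      exact congrArg Finset.card (Finset.filter_congr fun c _ => and_comm)

end Vale.Agent.P370
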