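import Vale.Agent.P370.IDefs

/-! Definitions for the discrete part: clusters, logical qubits, history Hamiltonian. -/

namespace Vale.Agent.P370

open scoped Classical

/-- The elementary inequality behind the projection lemma. -/
theorem proj_ineq {qyy qyz qzz ny nz a J lam B : ℝ}
    (h1 : lam * ny ^ 2 ≤ qyy) (h2 : |qyz| ≤ a * ny * nz) (h3 : -a * nz ^ 2 ≤ qzz)
    (h4 : J * nz ^ 2 ≤ B) (h5 : lam ≤ a) (hJ : 2 * a < J) :
    (lam - a ^ 2 / (J - 2 * a)) * (ny ^ 2 + nz ^ 2) ≤ qyy + 2 * qyz + qzz + B := by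
  have h6 : 0 < J - 2 * a := by linarith
  obtain ⟨c, hc⟩ : ∃ c, c = a / (J - 2 * a) := ⟨_, rfl⟩
  have e1 : a = c * (J - 2 * a) := by rw [hc, div_mul_cancel₀ _ h6.ne']
  have e2 : a ^ 2 / (J - 2 * a) = c ^ 2 * (J - 2 * a) := by rw [hc]; field_simp
  have h7 := (abs_le.1 h2).1
  have h8 : 0 ≤ (J - 2 * a) * (nz - c * ny) ^ 2 := by positivity
  have h9 : 0 ≤ c ^ 2 * (J - 2 * a) * nz ^ 2 := by positivity
  have h10 : lam * nz ^ 2 ≤ a * nz ^ 2 := mul_le_mul_of_nonneg_right h5 (by positivity)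
  have e3 : (J - 2 * a) * (nz - c * ny) ^ 2 = (J - 2 * a) * nz ^ 2 - 2 * (a * ny * nz) +
      c ^ 2 * (J - 2 * a) * ny ^ 2 := by
    conv_rhs => rw [show a * ny * nz = c * (J - 2 * a) * ny * nz by rw [← e1]]
    ring
  rw [e2]
  nlinarith

/-- States of one cluster: the position of the hole and the three spins. -/
abbrev Cl : Type := Fin 4 × (Fin 3 → Fin 2)

/-- After particle `s` hops into the hole `h`, particle `s'` sits in slot `mvF h s s'`. -/
def mvF : Fin 4 → Fin 3 → Fin 3 → Fin 3 :=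
  ![![![0, 1, 2], ![1, 0, 2], ![1, 2, 0]], ![![0, 1, 2], ![0, 1, 2], ![0, 2, 1]],
    ![![1, 0, 2], ![0, 1, 2], ![0, 1, 2]], ![![2, 0, 1], ![0, 2, 1], ![0, 1, 2]]]

/-- The inverse of `mvF h s`. -/
def mvI : Fin 4 → Fin 3 → Fin 3 → Fin 3 :=
  ![![![0, 1, 2], ![1, 0, 2], ![2, 0, 1]], ![![0, 1, 2], ![0, 1, 2], ![0, 2, 1]],
    ![![1, 0, 2], ![0, 1, 2], ![0, 1, 2]], ![![1, 2, 0], ![0, 2, 1], ![0, 1, 2]]]

/-- The sign of `mvF h s`. -/
def sgZ : Fin 4 → Fin 3 → ℤ := ![![1, -1, 1], ![1, 1, -1], ![-1, 1, 1], ![1, -1, 1]]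

theorem mvF_spec : ∀ (h : Fin 4) (s s' : Fin 3),
    (h.succAbove s).succAbove (mvF h s s') = if s' = s then h else h.succAbove s' := by decide

theorem mvI_mvF : ∀ (h : Fin 4) (s s' : Fin 3), mvI h s (mvF h s s') = s' := by decide

theorem mvF_mvI : ∀ (h : Fin 4) (s s' : Fin 3), mvF h s (mvI h s s') = s' := by decide

/-- The permutation `mvF h s`. -/
def mvP (h : Fin 4) (s : Fin 3) : Equiv.Perm (Fin 3) :=
  ⟨mvF h s, mvI h s, mvI_mvF h s, mvF_mvI h s⟩

theorem sign_mvP : ∀ (h : Fin 4) (s : Fin 3), (Equiv.Perm.sign (mvP h s) : ℤ) = sgZ h s := by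
  decide

/-- The cluster state after particle `s` hops into the hole. -/
def hopC (y : Cl) (s : Fin 3) : Cl := (y.1.succAbove s, fun q => y.2 (mvI y.1 s q))

/-- The hopping form of one cluster. -/
noncomputable def xC (g : Cl → ℝ) : ℝ := ∑ y, ∑ s, g y * (sgZ y.1 s : ℝ) * g (hopC y s)

/-- The hopping form of `n` clusters. -/
noncomputable def xN {n : ℕ} (G : (Fin n → Cl) → ℝ) : ℝ :=
  ∑ c, ∑ x, ∑ s, G x * (sgZ (x c).1 s : ℝ) * G (Function.update x c (hopC (x c) s))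

/-- The cluster of a mode. -/
def clOf {n : ℕ} (a : Fin (4 * n)) : Fin n := ⟨a.val / 4, by have := a.2; omega⟩

/-- Mode `a` is occupied in the cluster configuration `x`. -/
def occ {n : ℕ} (x : Fin n → Cl) (a : Fin (4 * n)) : Prop := (x (clOf a)).1.val ≠ a.val % 4

/-- The interaction energy of a cluster configuration. -/
noncomputable def wDiag {n : ℕ} (w : Fin (4 * n) → Fin (4 * n) → ℝ) (x : Fin n → Cl) : ℝ :=
  ∑ a, ∑ b with a < b, if occ x a ∧ occ x b then w a b else 0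

/-- Placements without double occupancy and with three particles in every cluster. -/
def ValidT {n : ℕ} (a : Fin (3 * n) → Fin (4 * n)) : Prop :=
  Function.Injective a ∧ ∀ c : Fin n, (Finset.univ.filter fun i => clOf (a i) = c).card = 3

/-- Tensors supported on valid placements. -/
def SuppV {n : ℕ} (C : Ten (3 * n) (4 * n)) : Prop := ∀ s a, ¬ ValidT a → C s a = 0

/-- The charging energy added to the weights `w`. -/
noncomputable def wChg {n : ℕ} (Vc : ℝ) (w : Fin (4 * n) → Fin (4 * n) → ℝ) (a b : Fin (4 * n)) : ℝ :=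
  (if clOf a = clOf b then Vc else 0) + (if a = b then Vc else 0) + w a b

/-- The tensor `C` corresponds to the cluster function `G`. -/
def Corr {n : ℕ} (C : Ten (3 * n) (4 * n)) (G : (Fin n → Cl) → ℝ) : Prop :=
  nrmT C = (3 * n).factorial * ∑ x, G x ^ 2 ∧
  hopT (E4 (4 * n)) C = (3 * n).factorial * (9 * n * ∑ x, G x ^ 2 - xN G) ∧
  ∀ w : Fin (4 * n) → Fin (4 * n) → ℝ, (∀ a b, w a b = w b a) →
    intT w C = (3 * n).factorial * ∑ x, wDiag w x * G x ^ 2

/-- Amplitudes of the ground states of a cluster. -/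
def tbZ : Bool → Fin 4 → Fin 3 → ℤ
  | false => ![![16, -8, -8], ![8, -4, -4], ![4, -5, 1], ![-4, 5, -1]]
  | true => ![![0, 8, -8], ![0, 2, -2], ![-4, 1, 3], ![-4, 1, 3]]

/-- The spin pattern with the minority spin at position `p`. -/
def pat (s : Bool) (p : Fin 3) : Fin 3 → Fin 2 :=
  fun q => if q = p then (if s = true then 0 else 1) else (if s = true then 1 else 0)

/-- Integer ground states. -/
def jz (y : Cl) (l s : Bool) : ℤ := ∑ p, if y.2 = pat s p then tbZ l y.1 p else 0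

/-- Normalised ground states (logical value `l`, spin label `s`). -/
noncomputable def jm (y : Cl) (l s : Bool) : ℝ :=
  (jz y l s : ℝ) / Real.sqrt (if l = true then 188 else 564)

/-- The symmetric matrix `α I + x X + z Z`. -/
def m2 (α x z : ℝ) (b b' : Bool) : ℝ := if b = b' then (if b = true then α - z else α + z) else x

/-- The occupation numbers on the logical qubit. -/
noncomputable def nM (k : ℕ) : Bool → Bool → ℝ :=
  if k = 0 then m2 (15 / 47) 0 0 else if k = 1 then m2 (42 / 47) 0 (-3 / 47)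
  else if k = 2 then m2 (42 / 47) (3 * Real.sqrt 3 / 94) (3 / 94)
  else m2 (42 / 47) (-(3 * Real.sqrt 3 / 94)) (3 / 94)

/-- A one-qubit matrix acting on qubit `c`. -/
noncomputable def opQ {n : ℕ} (c : ℕ) (A : Bool → Bool → ℝ) (ξ : (Fin n → Bool) → ℝ)
    (d : Fin n → Bool) : ℝ :=
  if h : c < n then ∑ b, A (d ⟨c, h⟩) b * ξ (Function.update d ⟨c, h⟩ b) else 0

/-- The quadratic form of a product of two one-qubit matrices. -/
noncomputable def form2 {n : ℕ} (c : ℕ) (A : Bool → Bool → ℝ) (c' : ℕ) (B : Bool → Bool → ℝ)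
    (ξ : (Fin n → Bool) → ℝ) : ℝ := ∑ d, ξ d * opQ c A (opQ c' B ξ) d

/-- The logical form of inter-cluster weights. -/
noncomputable def hU {n : ℕ} (u : ℕ → ℕ → ℝ) (ξ : (Fin n → Bool) → ℝ) : ℝ :=
  ∑ a : Fin (4 * n), ∑ b : Fin (4 * n) with a < b ∧ a.val / 4 ≠ b.val / 4,
    u a.val b.val * form2 (a.val / 4) (nM (a.val % 4)) (b.val / 4) (nM (b.val % 4)) ξ

/-- The moderate weights: a field inside the clusters and `u` between clusters. -/
noncomputable def wMod {n : ℕ} (t0 : ℝ) (u : ℕ → ℕ → ℝ) (a b : Fin (4 * n)) : ℝ :=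
  if a = b then 0 else if a.val / 4 = b.val / 4 then
    (if a.val % 4 = 0 ∨ b.val % 4 = 0 then 15 * t0 else 0) else u a.val b.val

/-- The energy form on cluster functions. -/
noncomputable def clForm {n : ℕ} (t0 : ℝ) (u : ℕ → ℕ → ℝ) (G : (Fin n → Cl) → ℝ) : ℝ :=
  16 * t0 * (9 * n * ∑ x, G x ^ 2 - xN G) + ∑ x, wDiag (wMod t0 u) x * G x ^ 2

/-- The matrices `I, P0, P1, X, Z, H, Q`. -/
noncomputable def mat (A : ℕ) : Bool → Bool → ℝ :=
  if A = 0 then m2 1 0 0 else if A = 1 then m2 (1 / 2) 0 (1 / 2)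
  else if A = 2 then m2 (1 / 2) 0 (-(1 / 2)) else if A = 3 then m2 0 1 0
  else if A = 4 then m2 0 0 1 else if A = 5 then m2 0 (Real.sqrt 2 / 2) (Real.sqrt 2 / 2)
  else m2 0 (Real.sin (Real.pi / 8)) (Real.cos (Real.pi / 8))

/-- A term: qubit, matrix, qubit, matrix, coefficient. -/
abbrev Term : Type := ℕ × ℕ × ℕ × ℕ × ℤ

/-- The logical Hamiltonian of a list of terms. -/
noncomputable def hL {n : ℕ} (ts : List Term) (ξ : (Fin n → Bool) → ℝ) : ℝ :=
  (ts.map fun t => (t.2.2.2.2 : ℝ) * form2 t.1 (mat t.2.1) t.2.2.1 (mat t.2.2.2.1) ξ).sum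

/-- Well-formed terms. -/
def TermOK (n : ℕ) (t : Term) : Prop :=
  t.1 < n ∧ t.2.2.1 < n ∧ t.1 ≠ t.2.2.1 ∧ t.2.1 ≤ 6 ∧ t.2.2.2.1 ≤ 6

/-- The sum of the absolute values of the coefficients. -/
def lamSum (ts : List Term) : ℕ := (ts.map fun t => t.2.2.2.2.natAbs).sum

/-- Rational approximations of the `I`, `X / √3` and `Z` components of `mat A`. -/
def cmpQ (K0 A : ℕ) : ℚ × ℚ × ℚ :=
  if A = 0 then (1, 0, 0) else if A = 1 then (1 / 2, 0, 1 / 2)
  else if A = 2 then (1 / 2, 0, -(1 / 2))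
  else if A = 3 then (0, (Nat.sqrt (3 * K0 ^ 2) : ℚ) / (3 * K0), 0)
  else if A = 4 then (0, 0, 1)
  else if A = 5 then (0, (Nat.sqrt (6 * K0 ^ 2) : ℚ) / (6 * K0), (Nat.sqrt (2 * K0 ^ 2) : ℚ) / (2 * K0))
  else (0, (Nat.sqrt (6 * K0 ^ 2 - Nat.sqrt (18 * K0 ^ 4)) : ℚ) / (6 * K0),
    (Nat.sqrt (2 * K0 ^ 2 + Nat.sqrt (2 * K0 ^ 4)) : ℚ) / (2 * K0))

/-- Approximate coefficient of `nM k` in `mat A`. -/
def coQ (K0 A k : ℕ) : ℚ :=
  (cmpQ K0 A).1 * (47 / 126) +
    (cmpQ K0 A).2.1 * (if k = 1 then 0 else if k = 2 then 47 / 3 else -(47 / 3)) +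
    (cmpQ K0 A).2.2 * (if k = 1 then -(94 / 9) else 47 / 9)

/-- The integer weight contributed by a term. -/
def wtT (Ks K0 : ℕ) (t : Term) (k l : ℕ) : ℕ :=
  ⌊(Ks : ℚ) * ((t.2.2.2.2 : ℚ) * coQ K0 t.2.1 k * coQ K0 t.2.2.2.1 l +
    130 * (t.2.2.2.2.natAbs : ℚ))⌋₊

/-- The inter-cluster weights of a list of terms. -/
def uT (Ks K0 : ℕ) (ts : List Term) (a b : ℕ) : ℕ :=
  (ts.map fun t =>
    (if t.1 = a / 4 ∧ t.2.2.1 = b / 4 ∧ a % 4 ≠ 0 ∧ b % 4 ≠ 0 then wtT Ks K0 t (a % 4) (b % 4) else 0) +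
    (if t.1 = b / 4 ∧ t.2.2.1 = a / 4 ∧ a % 4 ≠ 0 ∧ b % 4 ≠ 0 then wtT Ks K0 t (b % 4) (a % 4)
      else 0)).sum

/-- A step: control, target and two reflections. -/
abbrev Step : Type := ℕ × ℕ × ℕ × ℕ

/-- Bit `i` of a configuration. -/
def bitQ {n : ℕ} (d : Fin n → Bool) (i : ℕ) : Bool := if h : i < n then d ⟨i, h⟩ else false

/-- The action of a step: the control decides the order of the two reflections. -/
noncomputable def stepAct {n : ℕ} (st : Step) (v : (Fin n → Bool) → ℝ) (d : Fin n → Bool) : ℝ :=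
  if bitQ d st.1 = false then opQ st.2.1 (mat st.2.2.2) (opQ st.2.1 (mat st.2.2.1) v) d
  else opQ st.2.1 (mat st.2.2.1) (opQ st.2.1 (mat st.2.2.2) v) d

/-- Running a list of steps. -/
noncomputable def runS {n : ℕ} (sts : List Step) (v : (Fin n → Bool) → ℝ) : (Fin n → Bool) → ℝ :=
  sts.foldl (fun v st => stepAct st v) v

/-- Well-formed steps. -/
def StepOK (n : ℕ) (st : Step) : Prop :=
  st.1 < n ∧ st.2.1 < n ∧ st.1 ≠ st.2.1 ∧ (st.2.2.1 = 0 ∨ (4 ≤ st.2.2.1 ∧ st.2.2.1 ≤ 6)) ∧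
    (st.2.2.2 = 0 ∨ (4 ≤ st.2.2.2 ∧ st.2.2.2 ≤ 6))

/-- The ancilla qubits (indices from `w` up to `n - 2`) are zero. -/
def AncZero {n : ℕ} (w : ℕ) (v : (Fin n → Bool) → ℝ) : Prop :=
  ∀ d i, w ≤ i → i + 1 < n → bitQ d i = true → v d = 0

/-- The rejection weight. -/
noncomputable def rej {n : ℕ} (v : (Fin n → Bool) → ℝ) : ℝ := ∑ d with bitQ d 0 = false, v d ^ 2

/-- The clock penalty terms. -/
def termsP (nq : ℕ) (sts : List Step) (J1 : ℕ) : List Term :=
  (List.range sts.length).flatMap fun k =>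
    [(nq + 3 * k + 1, 2, nq + 3 * k, 1, (J1 : ℤ)), (nq + 3 * k + 2, 2, nq + 3 * k, 1, (J1 : ℤ)),
      (nq + 3 * k + 3, 2, nq + 3 * k + 1, 1, (J1 : ℤ)),
      (nq + 3 * k + 3, 2, nq + 3 * k + 2, 1, (J1 : ℤ)),
      (nq + 3 * k + 1, 2, (sts.getD k (0, 0, 0, 0)).1, 2, (J1 : ℤ)),
      (nq + 3 * k + 2, 2, (sts.getD k (0, 0, 0, 0)).1, 1, (J1 : ℤ)),
      (nq + 3 * k + 1, 2, nq + 3 * k + 2, 2, -(J1 : ℤ))]

/-- The propagation, input and output terms. -/
def termsA (nq w : ℕ) (sts : List Step) (J2 : ℕ) : List Term :=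
  ((List.range sts.length).flatMap fun k =>
    [((sts.getD k (0, 0, 0, 0)).2.1, (sts.getD k (0, 0, 0, 0)).2.2.1, nq + 3 * k + 1, 3, -(J2 : ℤ)),
      ((sts.getD k (0, 0, 0, 0)).2.1, (sts.getD k (0, 0, 0, 0)).2.2.2, nq + 3 * k + 2, 3, -(J2 : ℤ)),
      (nq - 1, 0, nq + 3 * k, 3, -(J2 : ℤ))]) ++
  [(nq - 1, 0, nq + 3 * sts.length, 3, -(J2 : ℤ)), (nq, 2, nq - 1, 0, (J2 : ℤ)),
    (nq + 3 * sts.length, 2, nq - 1, 0, -(J2 : ℤ)), (nq + 3 * sts.length, 2, 0, 1, 1)] ++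
  ((List.range (nq - 1)).filter fun i => decide (w ≤ i)).map fun i => (nq, 1, i, 2, (J2 : ℤ))

/-- The time at which clock bit `j` switches on, for the data `d`. -/
def posC {nq : ℕ} (sts : List Step) (d : Fin nq → Bool) (j : ℕ) : ℕ :=
  if j % 3 = 0 then j
  else if bitQ d (sts.getD (j / 3) (0, 0, 0, 0)).1 = false then j
  else if j % 3 = 1 then j + 1 else j - 1

/-- `x` is the basis state with clock time `t`. -/
def AtTime {nq : ℕ} (sts : List Step) (t : ℕ) (x : Fin (nq + (3 * sts.length + 1)) → Bool) : Prop :=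
  ∀ j : Fin (3 * sts.length + 1),
    x (Fin.natAdd nq j) = decide (posC sts (fun i => x (Fin.castAdd _ i)) j.val < t)

/-- Legal basis states. -/
def Legal {nq : ℕ} (sts : List Step) (x : Fin (nq + (3 * sts.length + 1)) → Bool) : Prop :=
  ∃ t ≤ 3 * sts.length + 1, AtTime sts t x

/-- The vector with component `ψ t` at clock time `t`. -/
noncomputable def emb {nq : ℕ} (sts : List Step) (ψ : ℕ → (Fin nq → Bool) → ℝ)
    (x : Fin (nq + (3 * sts.length + 1)) → Bool) : ℝ :=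
  ∑ t ∈ Finset.range (3 * sts.length + 2),
    if AtTime sts t x then ψ t (fun i => x (Fin.castAdd _ i)) else 0

/-- The orthogonal map applied between clock times `t` and `t + 1`. -/
noncomputable def half {nq : ℕ} (sts : List Step) (t : ℕ) (v : (Fin nq → Bool) → ℝ)
    (d : Fin nq → Bool) : ℝ :=
  if t % 3 = 0 then v d
  else if posC sts d t = t then
    opQ (sts.getD (t / 3) (0, 0, 0, 0)).2.1 (mat (if t % 3 = 1 then
      (sts.getD (t / 3) (0, 0, 0, 0)).2.2.1 else (sts.getD (t / 3) (0, 0, 0, 0)).2.2.2)) v d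
  else opQ (sts.getD (t / 3) (0, 0, 0, 0)).2.1 (mat (if t % 3 = 1 then
      (sts.getD (t / 3) (0, 0, 0, 0)).2.2.2 else (sts.getD (t / 3) (0, 0, 0, 0)).2.2.1)) v d

/-- The energy of a history. -/
noncomputable def histE {nq : ℕ} (w : ℕ) (sts : List Step) (J2 : ℝ)
    (ψ : ℕ → (Fin nq → Bool) → ℝ) : ℝ :=
  J2 * ((∑ t ∈ Finset.range (3 * sts.length + 1), ∑ d, (ψ (t + 1) d - half sts t (ψ t) d) ^ 2) +
    ∑ i ∈ Finset.range (nq - 1) with w ≤ i, ∑ d with bitQ d i = true, ψ 0 d ^ 2) +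
  rej (ψ (3 * sts.length + 1))

/-- The steps simulating a gate; `r` is the qubit carrying real and imaginary parts. -/
def stepsOf (r : ℕ) (g : ℕ × ℕ × ℕ) : List Step :=
  if g.1 = 0 then [(r, g.2.1, 5, 0)] else if g.1 = 1 then [(g.2.1, r, 6, 4)]
  else [(g.2.2, r, 5, 4), (g.2.1, g.2.2, 5, 4), (r, g.2.2, 4, 0), (r, g.2.2, 5, 0),
    (g.2.2, r, 4, 5), (g.2.1, r, 5, 4)]

/-- Matrices on one qubit that do not increase lengths. -/
def Contr (A : Bool → Bool → ℝ) : Prop :=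
  ∀ x y : ℝ, (A false false * x + A false true * y) ^ 2 + (A true false * x + A true true * y) ^ 2 ≤
    x ^ 2 + y ^ 2

/-- Matrices on one qubit that preserve lengths. -/
def Isom (A : Bool → Bool → ℝ) : Prop :=
  ∀ x y : ℝ, (A false false * x + A false true * y) ^ 2 + (A true false * x + A true true * y) ^ 2 =
    x ^ 2 + y ^ 2

/-- A gate as a triple. -/
def Gate.raw {n : ℕ} : Gate n → ℕ × ℕ × ℕ
  | .H q => (0, q.val, 0)
  | .T q => (1, q.val, 0)
  | .CX a b _ => (2, a.val, b.val)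

/-- Untyped circuits; the length of the first list is the number of qubits minus one. -/
abbrev Raw : Type := List ℕ × ℕ × List (ℕ × ℕ × ℕ)

/-- The untyped form of a circuit. -/
def Circ.raw (C : Circ) : Raw := (List.replicate C.n 1, C.w, C.gates.map Gate.raw)

/-- The parser for circuits. -/
def parseR (l : List ℕ) : Raw :=
  (l.takeWhile (· ≠ 0), ((l.dropWhile (· ≠ 0)).drop 1).headD 0,
    (List.range (((l.dropWhile (· ≠ 0)).drop 2).length / 3)).map fun i =>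
      (((l.dropWhile (· ≠ 0)).drop 2).getD (3 * i) 0, ((l.dropWhile (· ≠ 0)).drop 2).getD (3 * i + 1) 0,
        ((l.dropWhile (· ≠ 0)).drop 2).getD (3 * i + 2) 0))

namespace Raw

variable (c : Raw)

/-- Number of data qubits. -/
def nq : ℕ := c.1.length + 2
/-- The steps. -/
def sts : List Step := c.2.2.flatMap (stepsOf (c.1.length + 1))
/-- Final clock time. -/
def tT : ℕ := 3 * c.sts.length + 1
/-- Number of logical qubits. -/
def nl : ℕ := c.nq + (3 * c.sts.length + 1)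
/-- Propagation weight. -/
def j2 : ℕ := 60 + 20 * c.tT
/-- Norm bound. -/
def a3 : ℕ := c.j2 * (3 * c.sts.length + 4 + c.nq) + 1
/-- Penalty weight. -/
def j1 : ℕ := 2 * c.a3 + 24 * (c.tT + 1) * c.a3 ^ 2
/-- All terms. -/
def ts : List Term := termsP c.nq c.sts c.j1 ++ termsA c.nq c.2.1 c.sts c.j2
/-- Scale of the logical Hamiltonian. -/
def ks : ℕ := 8 * (c.tT + 1) * (18 * c.ts.length + 10)
/-- Precision of the constants. -/
def k0 : ℕ := 6000 * c.ks * lamSum c.ts + 100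
/-- Bound for the inter-cluster weights. -/
def a2 : ℕ := 2340 * c.ks * lamSum c.ts
/-- Hopping unit. -/
def t0 : ℕ := c.a2 ^ 2 + c.a2 + 1
/-- Norm bound. -/
def a1 : ℕ := 4 * (3 * c.nl) * (16 * c.t0) + (3 * c.nl) ^ 2 * (15 * c.t0 + c.a2)
/-- Charging energy. -/
def vc : ℕ := c.a1 ^ 2 + 2 * c.a1
/-- The weights. -/
def wt (a b : ℕ) : ℕ :=
  if a = b then 2 * c.vc else if a / 4 = b / 4 then
    c.vc + (if a % 4 = 0 ∨ b % 4 = 0 then 15 * c.t0 else 0) else uT c.ks c.k0 c.ts a b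
/-- The threshold. -/
def al : ℕ :=
  ⌈(3 * c.nl * c.vc + 126 * c.nl * c.t0 + 9 * c.ts.length + 1 : ℚ) + (c.ks : ℚ) *
    (130 * (lamSum c.ts : ℚ) * (126 / 47) ^ 2 - c.j2 + 1 / (3 * (c.tT + 1)))⌉₊
/-- The table of weights. -/
def tab : List (List ℕ) := (List.range (4 * c.nl)).map fun a => (List.range (4 * c.nl)).map (c.wt a)
/-- The discrete instance. -/
def disc : Disc := ⟨c.nl, 16 * c.t0, c.al, c.tab⟩
/-- A bound for all numbers of the discrete instance. -/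
def bnd : ℕ := 4 * c.nl + 16 * c.t0 + c.al + 2 + 2 * c.vc + 15 * c.t0 + c.a2

end Raw

end Vale.Agent.P370
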