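import Mathlib

namespace Vale.Agent.P370

open MeasureTheory
open scoped ENNReal

/-- Self-delimiting binary code of a list of natural numbers. -/
def binCode (l : List ℕ) : List Bool :=
  l.flatMap fun a => a.bits.flatMap (fun b => [true, b]) ++ [false]

/-- `f`, with outputs written by `code`, is computed from bit strings in polynomial time by a
deterministic machine with finite alphabets. -/
def PolyTime {β : Type} (code : β → List ℕ) (f : List Bool → β) : Prop :=
  ∃ M : Turing.TM2ComputableInPolyTime (id : List Bool → List Bool)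
    (fun y : β => binCode (code y)) f, ∀ k : M.tm.K, Finite (M.tm.Γ k)

/-- The gates Hadamard, `T` and controlled-NOT on `n` qubits. -/
inductive Gate (n : ℕ) : Type
  | H (q : Fin n)
  | T (q : Fin n)
  | CX (a b : Fin n) (h : a ≠ b)

/-- The action of a gate on a state vector. -/
noncomputable def Gate.act {n : ℕ} : Gate n → ((Fin n → Bool) → ℂ) → (Fin n → Bool) → ℂ
  | .H q, ψ, d => (ψ (Function.update d q false) +
      (if d q = true then -1 else 1) * ψ (Function.update d q true)) / (Real.sqrt 2 : ℂ)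
  | .T q, ψ, d => (if d q = true then Complex.exp (Real.pi / 4 * Complex.I) else 1) * ψ d
  | .CX a b _, ψ, d => ψ (Function.update d b (xor (d b) (d a)))

/-- A gate written as three numbers. -/
def Gate.code {n : ℕ} : Gate n → List ℕ
  | .H q => [0, q.val, 0]
  | .T q => [1, q.val, 0]
  | .CX a b _ => [2, a.val, b.val]

/-- A verifier circuit on `n + 1` qubits; the qubits with index below `w` hold the witness, the
others start in state zero, and qubit `0` is measured at the end. -/
structure Circ : Type where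
  n : ℕ
  w : ℕ
  gates : List (Gate (n + 1))

/-- A circuit written as a list of numbers (the number of qubits in unary). -/
def Circ.code (C : Circ) : List ℕ :=
  List.replicate C.n 1 ++ 0 :: C.w :: C.gates.flatMap Gate.code

/-- An admissible input state: a unit vector whose non-witness qubits are zero. -/
def Circ.Input (C : Circ) (ψ : (Fin (C.n + 1) → Bool) → ℂ) : Prop :=
  ∑ d, ‖ψ d‖ ^ 2 = 1 ∧ ∀ d (i : Fin (C.n + 1)), C.w ≤ i.val → d i = true → ψ d = 0

/-- The probability that qubit `0` reads `1` after running the gates in order on `ψ`. -/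
noncomputable def Circ.acc (C : Circ) (ψ : (Fin (C.n + 1) → Bool) → ℂ) : ℝ :=
  ∑ d with d 0 = true, ‖C.gates.foldl (fun φ g => g.act φ) ψ d‖ ^ 2

/-- The promise problem with yes-set `Y` and no-set `No` is in QMA. -/
def InQMA (Y No : Set (List Bool)) : Prop :=
  ∃ f : List Bool → Circ, PolyTime Circ.code f ∧
    (∀ x ∈ Y, ∃ ψ, (f x).Input ψ ∧ 2 / 3 ≤ (f x).acc ψ) ∧
    (∀ x ∈ No, ∀ ψ, (f x).Input ψ → (f x).acc ψ ≤ 1 / 3)

/-- Euclidean three-space. -/
abbrev E3 : Type := EuclideanSpace ℝ (Fin 3)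

/-- Positions of `N` electrons. -/
abbrev Conf (N : ℕ) : Type := Fin N → E3

/-- Spin configurations of `N` electrons. -/
abbrev Spin (N : ℕ) : Type := Fin N → Fin 2

/-- The unit vector of coordinate `k` of electron `i`. -/
noncomputable def dir {N : ℕ} (i : Fin N) (k : Fin 3) : Conf N :=
  Pi.single i (EuclideanSpace.single k (1 : ℝ))

/-- An element of `H¹(ℝ^{3N}; (ℂ²)^{⊗N})` which is antisymmetric under simultaneous exchange of
positions and spins; `grad` collects its weak first derivatives. -/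
structure State (N : ℕ) : Type where
  ψ : Spin N → Conf N → ℂ
  grad : Spin N → Fin N → Fin 3 → Conf N → ℂ
  mem : ∀ s, MemLp (ψ s) 2 volume
  mem_grad : ∀ s i k, MemLp (grad s i k) 2 volume
  weak : ∀ s i k (φ : Conf N → ℝ), ContDiff ℝ (⊤ : ℕ∞) φ → HasCompactSupport φ →
    ∫ x, (fderiv ℝ φ x (dir i k) : ℂ) * ψ s x = -∫ x, (φ x : ℂ) * grad s i k x
  anti : ∀ (π : Equiv.Perm (Fin N)) (s : Spin N),
    ∀ᵐ x : Conf N, ψ (s ∘ π) (x ∘ π) = ((Equiv.Perm.sign π : ℤ) : ℂ) * ψ s x

/-- An instance: nuclei (rational position, charge), the electron number and two thresholds. -/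
structure Inst : Type where
  nuc : List ((ℚ × ℚ × ℚ) × ℕ)
  N : ℕ
  a : ℚ
  b : ℚ

/-- A rational point of three-space. -/
noncomputable def pt (r : ℚ × ℚ × ℚ) : E3 := !₂[(r.1 : ℝ), (r.2.1 : ℝ), (r.2.2 : ℝ)]

/-- The squared `L²` norm. -/
noncomputable def State.normSq {N : ℕ} (u : State N) : ℝ≥0∞ := ∑ s, ∫⁻ x, ‖u.ψ s x‖ₑ ^ 2

/-- The kinetic energy. -/
noncomputable def State.kin {N : ℕ} (u : State N) : ℝ≥0∞ :=
  (∑ s, ∑ i, ∑ k, ∫⁻ x, ‖u.grad s i k x‖ₑ ^ 2) / 2

/-- The electron-nucleus attraction (with positive sign). -/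
noncomputable def State.att {N : ℕ} (u : State N) (nuc : List ((ℚ × ℚ × ℚ) × ℕ)) : ℝ≥0∞ :=
  ∑ s, ∫⁻ x, (∑ i, (nuc.map fun p => (p.2 : ℝ≥0∞) / edist (x i) (pt p.1)).sum) * ‖u.ψ s x‖ₑ ^ 2

/-- The electron-electron repulsion. -/
noncomputable def State.rep {N : ℕ} (u : State N) : ℝ≥0∞ :=
  ∑ s, ∫⁻ x, (∑ i, ∑ j with i < j, (edist (x i) (x j))⁻¹) * ‖u.ψ s x‖ₑ ^ 2

/-- The bottom of the spectrum of the clamped-nucleus Hamiltonian: the infimum of its quadratic
form over normalised states of the form domain. -/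
noncomputable def Inst.E0 (I : Inst) : EReal :=
  ⨅ (u : State I.N) (_ : u.normSq = 1), ((u.kin + u.rep : ℝ≥0∞) : EReal) - (u.att I.nuc : EReal)

/-- A rational number as sign, absolute numerator and denominator (lowest terms). -/
def ratCode (q : ℚ) : List ℕ := [if q.num < 0 then 1 else 0, q.num.natAbs, q.den]

/-- An instance written as a list of numbers; the electron number is in unary. -/
def Inst.code (I : Inst) : List ℕ :=
  I.nuc.length :: (I.nuc.flatMap fun p => ratCode p.1.1 ++ ratCode p.1.2.1 ++ ratCode p.1.2.2 ++ [p.2])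
    ++ List.replicate I.N 1 ++ 0 :: ratCode I.a ++ ratCode I.b

/-- The instance is well formed and satisfies the gap promise `b - a ≥ L^{-c}`, where `L` is the
length of its binary code. -/
def Inst.Valid (I : Inst) (c : ℕ) : Prop :=
  I.nuc ≠ [] ∧ (I.nuc.map Prod.fst).Nodup ∧ (∀ p ∈ I.nuc, 0 < p.2) ∧ 1 ≤ I.N ∧ I.a < I.b ∧
    1 / ((binCode I.code).length : ℚ) ^ c ≤ I.b - I.a

/-- The ground-state energy problem with exponent `c` is QMA-hard under polynomial-time
many-one reductions. -/
def QMAHard (c : ℕ) : Prop :=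
  ∀ Y No : Set (List Bool), InQMA Y No → ∃ g : List Bool → Inst, PolyTime Inst.code g ∧
    ∀ x, (g x).Valid c ∧ (x ∈ Y → (g x).E0 ≤ (((g x).a : ℝ) : EReal)) ∧
      (x ∈ No → ((((g x).b : ℝ) : EReal)) ≤ (g x).E0)

end Vale.Agent.P370
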