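import Vale.Agent.P370.IDefs

/-! Mollification of square integrable functions. -/

namespace Vale.Agent.P370

open MeasureTheory Filter Topology Metric

section

variable {X : Type} [NormedAddCommGroup X] [NormedSpace ℝ X] [MeasurableSpace X]

/-- Convolution of real functions. -/
noncomputable def dn_conv (μ : Measure X) (f ρ : X → ℝ) : X → ℝ :=
  convolution f ρ (ContinuousLinearMap.lsmul ℝ ℝ) μ

/-- A smooth compactly supported probability density. -/
structure dn_Mol (μ : Measure X) (ρ : X → ℝ) : Prop where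
  smooth : ContDiff ℝ (⊤ : ℕ∞) ρ
  cpt : HasCompactSupport ρ
  nonneg : ∀ x, 0 ≤ ρ x
  one : ∫ x, ρ x ∂μ = 1

theorem dn_conv_apply (μ : Measure X) (f ρ : X → ℝ) (x : X) :
    dn_conv μ f ρ x = ∫ t, f t * ρ (x - t) ∂μ := rfl

variable [FiniteDimensional ℝ X] [BorelSpace X] {μ : Measure X} [μ.IsAddHaarMeasure]
  {f g ρ : X → ℝ}

theorem dn_Mol.one_le (h : dn_Mol μ ρ) : ContDiff ℝ 1 ρ :=
  h.smooth.of_le (by exact_mod_cast le_top)

theorem dn_contDiff (h : dn_Mol μ ρ) (hf : LocallyIntegrable f μ) :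
    ContDiff ℝ 1 (dn_conv μ f ρ) :=
  h.cpt.contDiff_convolution_right (n := 1) _ hf h.one_le

theorem dn_int (h : dn_Mol μ ρ) (hf : LocallyIntegrable f μ) (x : X) :
    Integrable (fun t => f t * ρ (x - t)) μ :=
  h.cpt.convolutionExists_right (ContinuousLinearMap.lsmul ℝ ℝ) hf h.smooth.continuous x

theorem dn_fderiv (h : dn_Mol μ ρ) (hf : LocallyIntegrable f μ) {v : X}
    (hw : ∀ φ : X → ℝ, ContDiff ℝ (⊤ : ℕ∞) φ → HasCompactSupport φ →
      ∫ x, fderiv ℝ φ x v * f x ∂μ = -∫ x, φ x * g x ∂μ) (x : X) :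
    fderiv ℝ (dn_conv μ f ρ) x v = dn_conv μ g ρ x := by
  have h1 := (h.cpt.hasFDerivAt_convolution_right (ContinuousLinearMap.lsmul ℝ ℝ) hf h.one_le
    x).fderiv
  have h2 := hw (fun t => ρ (x - t)) (h.smooth.comp (contDiff_const.sub contDiff_id))
    (h.cpt.comp_homeomorph (Homeomorph.subLeft x))
  have h3 : ∀ t, fderiv ℝ (fun t => ρ (x - t)) t v = -fderiv ℝ ρ (x - t) v := by
    intro t
    have a1 : HasFDerivAt (fun t : X => x - t) (-ContinuousLinearMap.id ℝ X) t :=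
      (hasFDerivAt_id t).const_sub x
    have a2 := ((h.one_le.differentiable one_ne_zero) (x - t)).hasFDerivAt.comp t a1
    have a3 : fderiv ℝ (fun t => ρ (x - t)) t = _ := a2.fderiv
    rw [a3]
    simp
  simp only [h3, neg_mul, integral_neg, neg_inj] at h2
  rw [dn_conv, h1, convolution_precompR_apply _ hf (h.cpt.fderiv ℝ)
    (h.one_le.continuous_fderiv one_ne_zero), dn_conv_apply, convolution_def]
  simp only [ContinuousLinearMap.lsmul_apply, smul_eq_mul]
  simp only [mul_comm (f _), mul_comm (g _)]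
  exact h2

variable [μ.IsNegInvariant]

theorem dn_jensen (h : dn_Mol μ ρ) (hf : MemLp f 2 μ) (x : X) :
    dn_conv μ f ρ x ^ 2 ≤ dn_conv μ (fun t => f t ^ 2) ρ x := by
  have i1 := dn_int h (hf.locallyIntegrable one_le_two) x
  have i2 := dn_int h hf.integrable_sq.locallyIntegrable x
  have i0 : Integrable (fun t => ρ (x - t)) μ :=
    (h.smooth.continuous.integrable_of_hasCompactSupport h.cpt).comp_sub_left x
  have e0 : ∫ t, ρ (x - t) ∂μ = 1 := by rw [integral_sub_left_eq_self, h.one]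
  rw [dn_conv_apply, dn_conv_apply]
  obtain ⟨m, hm⟩ : ∃ m, m = ∫ t, f t * ρ (x - t) ∂μ := ⟨_, rfl⟩
  have p : 0 ≤ ∫ t, (f t ^ 2 * ρ (x - t) - 2 * m * (f t * ρ (x - t)) + m ^ 2 * ρ (x - t)) ∂μ :=
    integral_nonneg fun t => by
      have := mul_nonneg (sq_nonneg (f t - m)) (h.nonneg (x - t))
      simp only [Pi.zero_apply]
      nlinarith
  have i3 : Integrable (fun t => f t ^ 2 * ρ (x - t) - 2 * m * (f t * ρ (x - t))) μ :=
    i2.sub (i1.const_mul _)
  rw [integral_add i3 (i0.const_mul _), integral_sub i2 (i1.const_mul _),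
    integral_const_mul, integral_const_mul, e0, ← hm] at p
  rw [← hm]
  nlinarith

theorem dn_young (h : dn_Mol μ ρ) (hf : MemLp f 2 μ) :
    Integrable (fun x => dn_conv μ f ρ x ^ 2) μ ∧
      ∫ x, dn_conv μ f ρ x ^ 2 ∂μ ≤ ∫ x, f x ^ 2 ∂μ := by
  have iρ := h.smooth.continuous.integrable_of_hasCompactSupport (μ := μ) h.cpt
  have i1 : Integrable (dn_conv μ (fun t => f t ^ 2) ρ) μ :=
    hf.integrable_sq.integrable_convolution _ iρ
  have c1 := (dn_contDiff h (hf.locallyIntegrable one_le_two)).continuous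
  have i2 : Integrable (fun x => dn_conv μ f ρ x ^ 2) μ :=
    i1.mono' (c1.pow 2).aestronglyMeasurable (Eventually.of_forall fun x => by
      rw [Real.norm_of_nonneg (sq_nonneg _)]; exact dn_jensen h hf x)
  refine ⟨i2, (integral_mono i2 i1 (dn_jensen h hf)).trans_eq ?_⟩
  rw [dn_conv, integral_convolution _ hf.integrable_sq iρ, h.one]
  simp

theorem dn_ae {ρ : ℕ → X → ℝ} (h : ∀ n, dn_Mol μ (ρ n)) {r : ℕ → ℝ} (hr : ∀ n, 0 < r n)
    (hr0 : Tendsto r atTop (𝓝 0)) (hs : ∀ n x, r n < ‖x‖ → ρ n x = 0) {K : ℝ}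
    (hK : ∀ n x, ρ n x ≤ K / μ.real (closedBall (0 : X) (r n))) (hf : LocallyIntegrable f μ) :
    ∀ᵐ x ∂μ, Tendsto (fun n => dn_conv μ f (ρ n) x) atTop (𝓝 (f x)) := by
  filter_upwards [(Besicovitch.vitaliFamily μ).ae_tendsto_average_norm_sub hf] with x₀ h₀
  have hφ' : Tendsto r atTop (𝓝[>] 0) :=
    tendsto_nhdsWithin_iff.2 ⟨hr0, Eventually.of_forall hr⟩
  have := (h₀.comp (Besicovitch.tendsto_filterAt μ x₀)).comp hφ'
  have key := tendsto_integral_smul_of_tendsto_average_norm_sub (g := fun n y => ρ n (x₀ - y)) K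
    this (Eventually.of_forall fun n => hf.integrableOn_isCompact (isCompact_closedBall _ _))
    (tendsto_const_nhds.congr fun n => by rw [integral_sub_left_eq_self, (h n).one])
    (Eventually.of_forall fun n y hy => by
      by_contra hc
      refine hy (hs n _ ?_)
      rw [← dist_eq_norm, dist_comm]
      exact not_le.1 hc)
    (Eventually.of_forall fun n y => by
      rw [abs_of_nonneg ((h n).nonneg _), Measure.addHaar_real_closedBall_center]
      exact hK n _)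
  refine key.congr fun n => ?_
  simp only [dn_conv_apply, smul_eq_mul, mul_comm]

omit [μ.IsNegInvariant] in
theorem dn_cut_sq {χ G : X → ℝ} (h0 : ∀ x, 0 ≤ χ x) (h1 : ∀ x, χ x ≤ 1)
    (iG : Integrable (fun x => G x ^ 2) μ) :
    ∫ x, (χ x * G x) ^ 2 ∂μ ≤ ∫ x, G x ^ 2 ∂μ := by
  refine integral_mono_of_nonneg (Eventually.of_forall fun x => sq_nonneg _) iG
    (Eventually.of_forall fun x => ?_)
  have a : χ x ^ 2 ≤ 1 := pow_le_one₀ (h0 x) (h1 x)
  have := mul_le_mul_of_nonneg_right a (sq_nonneg (G x))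
  simp only [mul_pow]
  linarith

omit [μ.IsNegInvariant] in
theorem dn_cut_der {χ G H : X → ℝ} {v : X} (hχ : Differentiable ℝ χ) (h0 : ∀ x, 0 ≤ χ x)
    (h1 : ∀ x, χ x ≤ 1) (hG : Differentiable ℝ G) (hH : ∀ x, fderiv ℝ G x v = H x)
    (iG : Integrable (fun x => G x ^ 2) μ) (iH : Integrable (fun x => H x ^ 2) μ) {ε C : ℝ}
    (hε : 0 < ε) (hε1 : ε ≤ 1) (hb : ∀ x, |fderiv ℝ χ x v| ≤ C * ε) :
    ∫ x, fderiv ℝ (fun x => χ x * G x) x v ^ 2 ∂μ ≤
      (1 + ε) * ∫ x, H x ^ 2 ∂μ + ε * (2 * C ^ 2) * ∫ x, G x ^ 2 ∂μ := by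
  rw [← integral_const_mul, ← integral_const_mul, ← integral_add (iH.const_mul _) (iG.const_mul _)]
  refine integral_mono_of_nonneg (Eventually.of_forall fun x => sq_nonneg _)
    ((iH.const_mul _).add (iG.const_mul _)) (Eventually.of_forall fun x => ?_)
  have e : fderiv ℝ (fun x => χ x * G x) x v = χ x * H x + G x * fderiv ℝ χ x v := by
    rw [fderiv_fun_mul (hχ x) (hG x), ← hH x]
    simp
  obtain ⟨b, hb'⟩ : ∃ b, fderiv ℝ χ x v = ε * b := ⟨fderiv ℝ χ x v / ε, by field_simp⟩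
  have hbC : b ^ 2 ≤ C ^ 2 := by
    have a1 := hb x
    rw [hb', abs_mul, abs_of_pos hε, mul_comm C] at a1
    exact sq_le_sq' (abs_le.1 (le_of_mul_le_mul_left a1 hε)).1
      (abs_le.1 (le_of_mul_le_mul_left a1 hε)).2
  have a : χ x ^ 2 ≤ 1 := pow_le_one₀ (h0 x) (h1 x)
  have a2 : (χ x * H x) ^ 2 ≤ H x ^ 2 := by
    have := mul_le_mul_of_nonneg_right a (sq_nonneg (H x))
    rw [mul_pow]; linarith
  have a3 : (G x * b) ^ 2 ≤ C ^ 2 * G x ^ 2 := by
    have := mul_le_mul_of_nonneg_right hbC (sq_nonneg (G x))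
    rw [mul_pow]; linarith
  show fderiv ℝ (fun x => χ x * G x) x v ^ 2 ≤ (1 + ε) * H x ^ 2 + ε * (2 * C ^ 2) * G x ^ 2
  rw [e, hb']
  generalize χ x * H x = p at a2
  have e2 : G x * (ε * b) = ε * (G x * b) := by ring
  rw [e2]
  generalize G x * b = q at a3
  have a4 : (p + ε * q) ^ 2 ≤ (1 + ε) * p ^ 2 + (ε + ε ^ 2) * q ^ 2 := by
    nlinarith [mul_nonneg hε.le (sq_nonneg (p - q))]
  have a5 : (ε + ε ^ 2) * q ^ 2 ≤ (2 * ε) * (C ^ 2 * G x ^ 2) :=
    mul_le_mul (by nlinarith) a3 (sq_nonneg _) (by linarith)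
  have a6 : (1 + ε) * p ^ 2 ≤ (1 + ε) * H x ^ 2 := mul_le_mul_of_nonneg_left a2 (by linarith)
  nlinarith

end

end Vale.Agent.P370
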