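import Vale.Agent.P370.Basic
import Vale.Agent.P370.DensA

namespace Vale.Agent.P370

open MeasureTheory Filter
open scoped Classical ENNReal

section aux

open Topology Metric

variable {N : ℕ}

/-- The average over all permutations of the particles. -/
noncomputable def dn_sym (b : Conf N → ℝ) (x : Conf N) : ℝ :=
  (∑ π : Equiv.Perm (Fin N), b (x ∘ π)) / Fintype.card (Equiv.Perm (Fin N))

theorem dn_card_pos (N : ℕ) : (0 : ℝ) < Fintype.card (Equiv.Perm (Fin N)) := by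
  exact_mod_cast Fintype.card_pos

theorem dn_mp (π : Equiv.Perm (Fin N)) :
    MeasurePreserving (MeasurableEquiv.piCongrLeft (fun _ => E3) π).symm volume volume :=
  (volume_measurePreserving_piCongrLeft (fun _ => E3) π).symm _

theorem dn_integral_perm (π : Equiv.Perm (Fin N)) (h : Conf N → ℝ) :
    ∫ x : Conf N, h (x ∘ π) = ∫ x, h x := (dn_mp π).integral_comp' h

theorem dn_sym_perm (b : Conf N → ℝ) (σ : Equiv.Perm (Fin N)) (x : Conf N) :
    dn_sym b (x ∘ σ) = dn_sym b x := by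
  rw [dn_sym, dn_sym, ← Equiv.sum_comp (Equiv.mulLeft σ) fun π => b (x ∘ π)]
  rfl

theorem dn_sym_contDiff {b : Conf N → ℝ} {n : WithTop ℕ∞} (hb : ContDiff ℝ n b) :
    ContDiff ℝ n (dn_sym b) :=
  (ContDiff.sum fun π _ => hb.comp (contDiff_pi.2 fun i => contDiff_apply ℝ E3 (π i))).div_const _

theorem dn_sym_zero {b : Conf N → ℝ} {r : ℝ} (hb : ∀ x, r < ‖x‖ → b x = 0) (x : Conf N)
    (hx : r < ‖x‖) : dn_sym b x = 0 := by
  rw [dn_sym, Finset.sum_eq_zero fun π _ => hb _ (by rwa [π.surjective.pi_norm_comp]), zero_div]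

theorem dn_sym_nonneg {b : Conf N → ℝ} (hb : ∀ x, 0 ≤ b x) (x : Conf N) : 0 ≤ dn_sym b x :=
  div_nonneg (Finset.sum_nonneg fun _ _ => hb _) (dn_card_pos N).le

theorem dn_sym_le {b : Conf N → ℝ} {K : ℝ} (hb : ∀ x, b x ≤ K) (x : Conf N) : dn_sym b x ≤ K := by
  rw [dn_sym, div_le_iff₀ (dn_card_pos N), mul_comm, ← nsmul_eq_mul]
  exact Finset.sum_le_card_nsmul _ _ _ fun π _ => hb _

theorem dn_sym_at_zero (b : Conf N → ℝ) : dn_sym b 0 = b 0 := by
  have : ∀ π : Equiv.Perm (Fin N), b ((0 : Conf N) ∘ π) = b 0 := fun _ => rfl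
  simp only [dn_sym, this, Finset.sum_const, Finset.card_univ, nsmul_eq_mul]
  exact mul_div_cancel_left₀ _ (dn_card_pos N).ne'

theorem dn_sym_integral {b : Conf N → ℝ} (hb : Integrable b) : ∫ x, dn_sym b x = ∫ x, b x := by
  have h1 : ∀ π ∈ (Finset.univ : Finset (Equiv.Perm (Fin N))),
      Integrable fun x : Conf N => b (x ∘ π) :=
    fun π _ => (dn_mp π).integrable_comp_of_integrable hb
  simp only [dn_sym]
  rw [integral_div, integral_finsetSum _ h1]
  simp only [dn_integral_perm, Finset.sum_const, Finset.card_univ, nsmul_eq_mul]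
  exact mul_div_cancel_left₀ _ (dn_card_pos N).ne'

theorem dn_cpt {b : Conf N → ℝ} {r : ℝ} (hb : ∀ x, r < ‖x‖ → b x = 0) : HasCompactSupport b :=
  HasCompactSupport.intro (isCompact_closedBall (0 : Conf N) r) fun x hx =>
    hb x (by rwa [mem_closedBall, dist_zero_right, not_le] at hx)

theorem dn_neg (N : ℕ) : (volume : Measure (Conf N)).IsNegInvariant := Measure.pi.isNegInvariant _

theorem dn_eps_pos (n : ℕ) : (0 : ℝ) < 1 / ((n : ℝ) + 1) := Nat.one_div_pos_of_nat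

theorem dn_exists_mol (N : ℕ) : ∃ ρ : ℕ → Conf N → ℝ, (∀ n, dn_Mol volume (ρ n)) ∧
    (∀ n (π : Equiv.Perm (Fin N)) x, ρ n (x ∘ π) = ρ n x) ∧ ∀ f, LocallyIntegrable f volume →
      ∀ᵐ x, Tendsto (fun n => dn_conv volume f (ρ n) x) atTop (𝓝 (f x)) := by
  haveI := dn_neg N
  let φ : ℕ → ContDiffBump (0 : Conf N) := fun n =>
    ⟨1 / ((n : ℝ) + 1) / 2, 1 / ((n : ℝ) + 1), half_pos (dn_eps_pos n), half_lt_self (dn_eps_pos n)⟩
  have hz : ∀ (n : ℕ) x, 1 / ((n : ℝ) + 1) < ‖x‖ → (φ n).normed volume x = 0 := by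
    intro n x hx
    by_contra hc
    have : x ∈ Function.support ((φ n).normed volume) := hc
    rw [ContDiffBump.support_normed_eq, mem_ball, dist_zero_right] at this
    exact lt_asymm hx this
  have hm : ∀ n, dn_Mol volume (dn_sym ((φ n).normed volume)) := fun n =>
    ⟨dn_sym_contDiff (φ n).contDiff_normed, dn_cpt (dn_sym_zero (hz n)),
      dn_sym_nonneg (φ n).nonneg_normed, by
        rw [dn_sym_integral (φ n).integrable_normed, ContDiffBump.integral_normed]⟩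
  refine ⟨_, hm, fun n π x => dn_sym_perm _ π x, fun f hf => ?_⟩
  refine dn_ae hm dn_eps_pos tendsto_one_div_add_atTop_nhds_zero_nat
    (fun n => dn_sym_zero (hz n)) (K := 2 ^ Module.finrank ℝ (Conf N)) (fun n => dn_sym_le ?_) hf
  exact (φ n).normed_le_div_measure_closedBall_rOut volume 2 (le_of_eq (by simp only [φ]; ring))

theorem dn_exists_cut (N : ℕ) : ∃ (χ : ℕ → Conf N → ℝ) (C : ℝ), (∀ n, Sm (χ n)) ∧
    (∀ n x, 0 ≤ χ n x) ∧ (∀ n x, χ n x ≤ 1) ∧
    (∀ n (π : Equiv.Perm (Fin N)) x, χ n (x ∘ π) = χ n x) ∧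
    (∀ x, Tendsto (fun n => χ n x) atTop (𝓝 1)) ∧
    ∀ n x i k, |fderiv ℝ (χ n) x (dir i k)| ≤ C * (1 / ((n : ℝ) + 1)) := by
  let φ : ContDiffBump (0 : Conf N) := ⟨1, 2, one_pos, one_lt_two⟩
  have h1 : ContDiff ℝ 1 (dn_sym φ) := dn_sym_contDiff (φ.contDiff (n := 1))
  have h2 : HasCompactSupport (dn_sym φ) := dn_cpt (dn_sym_zero (r := 2) fun x hx =>
    φ.zero_of_le_dist (by rw [dist_zero_right]; exact hx.le))
  have h3 : dn_sym φ 0 = 1 := by
    rw [dn_sym_at_zero]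
    exact φ.one_of_mem_closedBall (mem_closedBall_self φ.rIn_pos.le)
  obtain ⟨C, hC⟩ := (h1.continuous_fderiv one_ne_zero).bounded_above_of_compact_support
    (h2.fderiv ℝ)
  refine ⟨fun n x => dn_sym φ ((1 / ((n : ℝ) + 1)) • x), C,
    fun n => ⟨h1.comp (contDiff_id.const_smul _), h2.comp_smul (dn_eps_pos n).ne'⟩,
    fun n x => dn_sym_nonneg (fun _ => φ.nonneg) _, fun n x => dn_sym_le (fun _ => φ.le_one) _,
    fun n π x => dn_sym_perm φ π ((1 / ((n : ℝ) + 1)) • x), fun x => ?_, fun n x i k => ?_⟩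
  · have e := (tendsto_one_div_add_atTop_nhds_zero_nat (𝕜 := ℝ)).smul_const x
    rw [zero_smul] at e
    have e2 := (h1.continuous.tendsto 0).comp e
    rw [h3] at e2
    exact e2
  · have hd : ‖(dir i k : Conf N)‖ = 1 := by
      rw [dir, Pi.norm_single]
      simp
    rw [fderiv_comp_smul, ContinuousLinearMap.smul_apply, smul_eq_mul, abs_mul,
      abs_of_pos (dn_eps_pos n), mul_comm C]
    refine mul_le_mul_of_nonneg_left ?_ (dn_eps_pos n).le
    have := (fderiv ℝ (dn_sym φ) ((1 / ((n : ℝ) + 1)) • x)).le_opNorm (dir i k)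
    rw [hd, mul_one] at this
    exact this.trans (hC _)

theorem dn_conv_anti {ρ f f' : Conf N → ℝ} (π : Equiv.Perm (Fin N)) {a : ℝ}
    (hρ : ∀ x, ρ (x ∘ π) = ρ x) (hf : ∀ᵐ x : Conf N, f' (x ∘ π) = a * f x) (x : Conf N) :
    dn_conv volume f' ρ (x ∘ π) = a * dn_conv volume f ρ x := by
  rw [dn_conv_apply, dn_conv_apply, ← integral_const_mul,
    ← dn_integral_perm π fun t => f' t * ρ (x ∘ π - t)]
  refine integral_congr_ae ?_
  filter_upwards [hf] with y hy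
  rw [hy, mul_assoc, ← hρ (x - y)]
  rfl

theorem dn_sum {W : Conf N → ℝ≥0∞} (hW : Measurable W) {f : RS N}
    (hf : ∀ s, AEMeasurable (f s) volume) :
    ∑ s, ∫⁻ x, W x * ENNReal.ofReal (f s x ^ 2) =
      ∫⁻ x, W x * ENNReal.ofReal (∑ s, f s x ^ 2) := by
  rw [← lintegral_finsetSum' (f := fun s x => W x * ENNReal.ofReal (f s x ^ 2)) _ fun s _ =>
    hW.aemeasurable.mul ((hf s).pow_const 2).ennreal_ofReal]
  refine lintegral_congr fun x => ?_
  rw [ENNReal.ofReal_sum_of_nonneg fun s _ => sq_nonneg _, Finset.mul_sum]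

theorem dn_real (W : Conf N → ℝ≥0∞) (hW : Measurable W) (c : ℝ≥0∞)
    (h : ∀ F : RS N, SmA F → ∑ s, ∫⁻ x, W x * ENNReal.ofReal (F s x ^ 2) ≤
      ENNReal.ofReal (kinN F) + c * ENNReal.ofReal (nsq F)) {f : RS N}
    {g : Spin N → Fin N → Fin 3 → Conf N → ℝ} (hf : ∀ s, MemLp (f s) 2 volume)
    (hg : ∀ s i k, MemLp (g s i k) 2 volume)
    (hw : ∀ s i k (φ : Conf N → ℝ), ContDiff ℝ (⊤ : ℕ∞) φ → HasCompactSupport φ →
      ∫ x, fderiv ℝ φ x (dir i k) * f s x = -∫ x, φ x * g s i k x)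
    (ha : ∀ (π : Equiv.Perm (Fin N)) (s : Spin N),
      ∀ᵐ x : Conf N, f (s ∘ π) (x ∘ π) = ((Equiv.Perm.sign π : ℤ) : ℝ) * f s x) :
    ∑ s, ∫⁻ x, W x * ENNReal.ofReal (f s x ^ 2) ≤
      ENNReal.ofReal ((∑ s, ∑ i, ∑ k, ∫ x, g s i k x ^ 2) / 2) + c * ENNReal.ofReal (nsq f) := by
  haveI := dn_neg N
  obtain ⟨ρ, hρ, hρs, hρt⟩ := dn_exists_mol N
  obtain ⟨χ, C, hχ, hχ0, hχ1, hχs, hχt, hχd⟩ := dn_exists_cut N
  have hl : ∀ s, LocallyIntegrable (f s) volume := fun s => (hf s).locallyIntegrable one_le_two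
  obtain ⟨F, hF⟩ : ∃ F : ℕ → RS N, F = fun n s x => χ n x * dn_conv volume (f s) (ρ n) x :=
    ⟨_, rfl⟩
  have hS : ∀ n, SmA (F n) := fun n => by
    rw [hF]
    refine ⟨fun s => ⟨(hχ n).1.mul (dn_contDiff (hρ n) (hl s)), (hχ n).2.mul_right⟩,
      fun π s x => ?_⟩
    show χ n (x ∘ π) * dn_conv volume (f (s ∘ π)) (ρ n) (x ∘ π) =
      _ * (χ n x * dn_conv volume (f s) (ρ n) x)
    rw [hχs, dn_conv_anti π (hρs n π) (ha π s)]
    ring
  have hn : ∀ n, nsq (F n) ≤ nsq f := fun n => by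
    rw [hF]
    exact Finset.sum_le_sum fun s _ =>
      (dn_cut_sq (hχ0 n) (hχ1 n) (dn_young (hρ n) (hf s)).1).trans (dn_young (hρ n) (hf s)).2
  obtain ⟨A, hA⟩ : ∃ A, A = (∑ s, ∑ i, ∑ k, ∫ x, g s i k x ^ 2) / 2 := ⟨_, rfl⟩
  obtain ⟨B, hB⟩ : ∃ B, B = (∑ s, ∑ _i : Fin N, ∑ _k : Fin 3, 2 * C ^ 2 * ∫ x, f s x ^ 2) / 2 :=
    ⟨_, rfl⟩
  have hk : ∀ n, kinN (F n) ≤ (1 + 1 / ((n : ℝ) + 1)) * A + 1 / ((n : ℝ) + 1) * B := fun n => by
    have he := dn_eps_pos n
    have he1 : 1 / ((n : ℝ) + 1) ≤ 1 := by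
      rw [div_le_one (by positivity)]
      exact le_add_of_nonneg_left (Nat.cast_nonneg n)
    rw [hA, hB, ← mul_div_assoc, ← mul_div_assoc, ← add_div, kinN]
    refine div_le_div_of_nonneg_right ?_ zero_le_two
    simp only [Finset.mul_sum, ← Finset.sum_add_distrib]
    refine Finset.sum_le_sum fun s _ => Finset.sum_le_sum fun i _ => Finset.sum_le_sum fun k _ => ?_
    rw [hF]
    refine (dn_cut_der ((hχ n).1.differentiable one_ne_zero) (hχ0 n) (hχ1 n)
      ((dn_contDiff (hρ n) (hl s)).differentiable one_ne_zero)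
      (dn_fderiv (hρ n) (hl s) (hw s i k)) (dn_young (hρ n) (hf s)).1
      (dn_young (hρ n) (hg s i k)).1 he he1 (fun x => hχd n x i k)).trans ?_
    rw [mul_assoc]
    exact add_le_add (mul_le_mul_of_nonneg_left (dn_young (hρ n) (hg s i k)).2 (by linarith))
      (mul_le_mul_of_nonneg_left
        (mul_le_mul_of_nonneg_left (dn_young (hρ n) (hf s)).2 (by positivity)) he.le)
  have hb : ∀ n, ∫⁻ x, W x * ENNReal.ofReal (∑ s, F n s x ^ 2) ≤
      ENNReal.ofReal ((1 + 1 / ((n : ℝ) + 1)) * A + 1 / ((n : ℝ) + 1) * B) +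
        c * ENNReal.ofReal (nsq f) := fun n => by
    rw [← dn_sum hW fun s => ((hS n).1 s).1.continuous.aemeasurable]
    exact (h _ (hS n)).trans (add_le_add (ENNReal.ofReal_le_ofReal (hk n))
      (mul_le_mul_right (ENNReal.ofReal_le_ofReal (hn n)) c))
  have ht : Tendsto (fun n : ℕ => ENNReal.ofReal ((1 + 1 / ((n : ℝ) + 1)) * A +
      1 / ((n : ℝ) + 1) * B) + c * ENNReal.ofReal (nsq f)) atTop
      (𝓝 (ENNReal.ofReal A + c * ENNReal.ofReal (nsq f))) := by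
    refine Tendsto.add_const _ (ENNReal.tendsto_ofReal ?_)
    have e := tendsto_one_div_add_atTop_nhds_zero_nat (𝕜 := ℝ)
    simpa using ((e.const_add 1).mul_const A).add (e.mul_const B)
  have hae : ∀ᵐ x : Conf N, W x * ENNReal.ofReal (∑ s, f s x ^ 2) ≤
      liminf (fun n => W x * ENNReal.ofReal (∑ s, F n s x ^ 2)) atTop := by
    filter_upwards [ae_all_iff.2 fun s => hρt _ (hl s)] with x hx
    by_cases h0 : ENNReal.ofReal (∑ s, f s x ^ 2) = 0
    · rw [h0, mul_zero]; exact zero_le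
    · refine (Tendsto.liminf_eq ?_).ge
      refine ENNReal.Tendsto.const_mul (ENNReal.tendsto_ofReal ?_) (Or.inl h0)
      refine tendsto_finsetSum _ fun s _ => Tendsto.pow ?_ 2
      rw [hF]
      simpa using (hχt x).mul (hx s)
  rw [dn_sum hW fun s => (hf s).1.aemeasurable, ← hA]
  refine (lintegral_mono_ae hae).trans ((lintegral_liminf_le' fun n => ?_).trans ?_)
  · exact hW.aemeasurable.mul (Finset.aemeasurable_fun_sum _ fun s _ =>
      (((hS n).1 s).1.continuous.aemeasurable.pow_const 2)).ennreal_ofReal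
  · exact (liminf_le_liminf (Eventually.of_forall hb)).trans ht.liminf_eq.le

theorem dn_part (W : Conf N → ℝ≥0∞) (hW : Measurable W) (c : ℝ≥0∞)
    (h : ∀ F : RS N, SmA F → ∑ s, ∫⁻ x, W x * ENNReal.ofReal (F s x ^ 2) ≤
      ENNReal.ofReal (kinN F) + c * ENNReal.ofReal (nsq F)) (u : State N) (l : ℂ →L[ℝ] ℝ) :
    ∑ s, ∫⁻ x, W x * ENNReal.ofReal (l (u.ψ s x) ^ 2) ≤
      (∑ s, ∑ i, ∑ k, ∫⁻ x, ENNReal.ofReal (l (u.grad s i k x) ^ 2)) / 2 +
        c * ∑ s, ∫⁻ x, ENNReal.ofReal (l (u.ψ s x) ^ 2) := by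
  have hf : ∀ s, MemLp (fun x => l (u.ψ s x)) 2 volume := fun s => l.comp_memLp' (u.mem s)
  have hg : ∀ s i k, MemLp (fun x => l (u.grad s i k x)) 2 volume :=
    fun s i k => l.comp_memLp' (u.mem_grad s i k)
  have hm : ∀ (a : ℝ) (z : ℂ), l ((a : ℂ) * z) = a * l z := fun a z => by
    rw [← Complex.real_smul, map_smul, smul_eq_mul]
  have hi : ∀ {a : Conf N → ℝ} {z : Conf N → ℂ}, Continuous a → HasCompactSupport a →
      MemLp z 2 volume → ∫ x, a x * l (z x) = l (∫ x, (a x : ℂ) * z x) := by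
    intro a z h1 h2 h3
    have i1 : Integrable fun x => (a x : ℂ) * z x := by
      simpa only [Complex.real_smul] using
        (h3.locallyIntegrable one_le_two).integrable_smul_left_of_hasCompactSupport h1 h2
    rw [← l.integral_comp_comm i1]
    simp only [hm]
  have key := dn_real W hW c h (f := fun s x => l (u.ψ s x)) (g := fun s i k x => l (u.grad s i k x))
    hf hg (fun s i k φ h1 h2 => by
      rw [hi ((h1.continuous_fderiv (by simp)).clm_apply continuous_const)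
        ((h2.fderiv ℝ).comp_left (g := fun L : Conf N →L[ℝ] ℝ => L (dir i k)) rfl) (u.mem s),
        hi h1.continuous h2 (u.mem_grad s i k), u.weak s i k φ h1 h2, map_neg])
    (fun π s => by
      filter_upwards [u.anti π s] with x hx
      rw [hx, ← hm, Complex.ofReal_intCast])
  have e1 : ∀ {z : Conf N → ℝ}, MemLp z 2 volume →
      ENNReal.ofReal (∫ x, z x ^ 2) = ∫⁻ x, ENNReal.ofReal (z x ^ 2) := fun hz =>
    ofReal_integral_eq_lintegral_ofReal hz.integrable_sq (Eventually.of_forall fun _ => sq_nonneg _)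
  have p1 : ∀ z : Conf N → ℝ, 0 ≤ ∫ x, z x ^ 2 := fun z => integral_nonneg fun _ => sq_nonneg _
  refine key.trans_eq ?_
  rw [nsq, ENNReal.ofReal_div_of_pos two_pos, ENNReal.ofReal_ofNat,
    ENNReal.ofReal_sum_of_nonneg fun s _ => p1 _,
    ENNReal.ofReal_sum_of_nonneg fun s _ => Finset.sum_nonneg fun i _ =>
      Finset.sum_nonneg fun k _ => p1 _]
  congr 2
  · refine Finset.sum_congr rfl fun s _ => ?_
    rw [ENNReal.ofReal_sum_of_nonneg fun i _ => Finset.sum_nonneg fun k _ => p1 _]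
    refine Finset.sum_congr rfl fun i _ => ?_
    rw [ENNReal.ofReal_sum_of_nonneg fun k _ => p1 _]
    exact Finset.sum_congr rfl fun k _ => e1 (hg s i k)
  · exact Finset.sum_congr rfl fun s _ => e1 (hf s)

theorem dn_enorm (z : ℂ) : ‖z‖ₑ ^ 2 =
    ENNReal.ofReal (Complex.reCLM z ^ 2) + ENNReal.ofReal (Complex.imCLM z ^ 2) := by
  rw [← ENNReal.ofReal_add (sq_nonneg _) (sq_nonneg _), ← ofReal_norm,
    ← ENNReal.ofReal_pow (norm_nonneg _), Complex.sq_norm, Complex.normSq_apply]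
  simp [sq]

theorem dn_split {W : Conf N → ℝ≥0∞} (hW : Measurable W) {z : Conf N → ℂ}
    (hz : MemLp z 2 volume) : ∫⁻ x, W x * ‖z x‖ₑ ^ 2 =
      (∫⁻ x, W x * ENNReal.ofReal (Complex.reCLM (z x) ^ 2)) +
        ∫⁻ x, W x * ENNReal.ofReal (Complex.imCLM (z x) ^ 2) := by
  have : AEMeasurable (fun x => W x * ENNReal.ofReal (Complex.reCLM (z x) ^ 2)) volume :=
    hW.aemeasurable.mul ((Complex.reCLM.comp_memLp' hz).1.aemeasurable.pow_const 2).ennreal_ofReal
  rw [← lintegral_add_left' this]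
  simp only [dn_enorm, mul_add]

theorem dn_split1 {z : Conf N → ℂ} (hz : MemLp z 2 volume) : ∫⁻ x, ‖z x‖ₑ ^ 2 =
    (∫⁻ x, ENNReal.ofReal (Complex.reCLM (z x) ^ 2)) +
      ∫⁻ x, ENNReal.ofReal (Complex.imCLM (z x) ^ 2) := by
  simpa only [one_mul] using dn_split (W := fun _ => 1) measurable_const hz

end aux

/-- Inequalities proved for smooth compactly supported real antisymmetric functions hold on the
form domain. -/
theorem dens {N : ℕ} (W : Conf N → ℝ≥0∞) (hW : Measurable W) (c : ℝ≥0∞) (hc : c ≠ ⊤)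
    (h : ∀ F : RS N, SmA F → ∑ s, ∫⁻ x, W x * ENNReal.ofReal (F s x ^ 2) ≤
      ENNReal.ofReal (kinN F) + c * ENNReal.ofReal (nsq F)) (u : State N) :
    ∑ s, ∫⁻ x, W x * ‖u.ψ s x‖ₑ ^ 2 ≤ u.kin + c * u.normSq := by
  have h1 := add_le_add (dn_part W hW c h u Complex.reCLM) (dn_part W hW c h u Complex.imCLM)
  simp only [State.kin, State.normSq, dn_split hW (u.mem _), dn_split1 (u.mem _),
    dn_split1 (u.mem_grad _ _ _), Finset.sum_add_distrib, ENNReal.add_div, mul_add]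
  refine h1.trans_eq ?_
  rw [add_add_add_comm]

end Vale.Agent.P370
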