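import Vale.Agent.P370.LayF

/-! Derivative bounds. -/

namespace Vale.Agent.P370

open MeasureTheory Filter Topology
open scoped Classical

/-- Derivatives up to order `n` are bounded by the function `b`. -/
def DvB (n : ℕ) (b f : E3 → ℝ) : Prop :=
  ContDiff ℝ n f ∧ ∀ i ≤ n, ∀ p, ‖iteratedFDeriv ℝ i f p‖ ≤ b p

namespace DvB

variable {n : ℕ} {b b' f g : E3 → ℝ}

theorem mono {n' : ℕ} (h : DvB n b f) (hn : n' ≤ n) (hb : ∀ p, b p ≤ b' p) : DvB n' b' f :=
  ⟨h.1.of_le (by exact_mod_cast hn), fun i hi p => (h.2 i (hi.trans hn) p).trans (hb p)⟩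

theorem cda (h : DvB n b f) {i : ℕ} (hi : i ≤ n) (p : E3) : ContDiffAt ℝ i f p :=
  (h.1.of_le (by exact_mod_cast hi)).contDiffAt

theorem abs_le (h : DvB n b f) (p : E3) : |f p| ≤ b p := by simpa using h.2 0 n.zero_le p

theorem const (n : ℕ) (c : ℝ) : DvB n (fun _ => |c|) fun _ => c := by
  refine ⟨contDiff_const, fun i _ p => ?_⟩
  rcases eq_or_ne i 0 with rfl | hi
  · simp
  · simp [iteratedFDeriv_const_of_ne hi]

theorem add (h : DvB n b f) (h' : DvB n b' g) :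
    DvB n (fun p => b p + b' p) fun p => f p + g p := by
  refine ⟨h.1.add h'.1, fun i hi p => ?_⟩
  rw [fun_iteratedFDeriv_add_apply (h.cda hi p) (h'.cda hi p)]
  exact (norm_add_le _ _).trans (add_le_add (h.2 i hi p) (h'.2 i hi p))

theorem sum {ι : Type} {s : Finset ι} {b f : ι → E3 → ℝ} (h : ∀ j ∈ s, DvB n (b j) (f j)) :
    DvB n (fun p => ∑ j ∈ s, b j p) fun p => ∑ j ∈ s, f j p := by
  refine ⟨ContDiff.sum fun j hj => (h j hj).1, fun i hi p => ?_⟩
  rw [iteratedFDeriv_fun_sum_apply fun j hj => (h j hj).cda hi p]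
  exact norm_sum_le_of_le _ fun j hj => (h j hj).2 i hi p

theorem const_mul (h : DvB n b f) (c : ℝ) : DvB n (fun p => |c| * b p) fun p => c * f p := by
  refine ⟨contDiff_const.mul h.1, fun i hi p => ?_⟩
  have e := iteratedFDeriv_const_smul_apply' (a := c) (h.cda hi p)
  refine (congrArg norm e).le.trans ?_
  rw [norm_smul]
  exact mul_le_mul_of_nonneg_left (h.2 i hi p) (abs_nonneg c)

theorem mul (h : DvB n b f) (h' : DvB n b' g) :
    DvB n (fun p => 2 ^ n * b p * b' p) fun p => f p * g p := by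
  refine ⟨h.1.mul h'.1, fun i hi p => ?_⟩
  have hC : 0 ≤ b p := (norm_nonneg _).trans (h.2 0 n.zero_le p)
  have hC' : 0 ≤ b' p := (norm_nonneg _).trans (h'.2 0 n.zero_le p)
  refine (norm_iteratedFDeriv_mul_le h.1 h'.1 p (by exact_mod_cast hi)).trans ?_
  have h1 : ∑ j ∈ Finset.range (i + 1), (i.choose j : ℝ) * ‖iteratedFDeriv ℝ j f p‖ *
      ‖iteratedFDeriv ℝ (i - j) g p‖ ≤
      ∑ j ∈ Finset.range (i + 1), (i.choose j : ℝ) * b p * b' p := by
    refine Finset.sum_le_sum fun j hj => ?_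
    have h2 := Finset.mem_range.1 hj
    exact mul_le_mul (mul_le_mul_of_nonneg_left (h.2 j (by omega) p) (by positivity))
      (h'.2 _ (by omega) p) (norm_nonneg _) (by positivity)
  refine h1.trans ?_
  rw [← Finset.sum_mul, ← Finset.sum_mul, ← Nat.cast_sum, Nat.sum_range_choose]
  push_cast
  gcongr
  norm_num

theorem pd (h : DvB (n + 1) b f) (k : Fin 3) : DvB n b (pd k f) := by
  have h1 : ContDiff ℝ n (fderiv ℝ f) := h.1.fderiv_right (by simp)
  refine ⟨h1.clm_apply contDiff_const, fun i hi p => ?_⟩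
  refine (norm_iteratedFDeriv_clm_apply_const h1.contDiffAt (by exact_mod_cast hi)).trans ?_
  rw [basic_norm_ev, one_mul, norm_iteratedFDeriv_fderiv]
  exact h.2 _ (by omega) p

theorem lap (h : DvB (n + 2) b f) : DvB n (fun p => 3 * b p) (lap f) :=
  (DvB.sum (s := Finset.univ) fun (k : Fin 3) _ => (h.pd k).pd k).mono le_rfl fun p => by simp

theorem coord {g : ℝ → ℝ} (hg : ContDiff ℝ n g) {c : ℝ → ℝ}
    (h : ∀ i ≤ n, ∀ u, |iteratedDeriv i g u| ≤ c u) (k : Fin 3) :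
    DvB n (fun p => c (p k)) fun p => g (p k) := by
  refine ⟨hg.comp (EuclideanSpace.proj k : E3 →L[ℝ] ℝ).contDiff, fun i hi p => ?_⟩
  have e := (EuclideanSpace.proj k : E3 →L[ℝ] ℝ).iteratedFDeriv_comp_right hg p
    (i := i) (by exact_mod_cast hi)
  have h1 : ‖(EuclideanSpace.proj k : E3 →L[ℝ] ℝ)‖ ≤ 1 :=
    ContinuousLinearMap.opNorm_le_bound _ zero_le_one fun q => by
      rw [one_mul]
      exact PiLp.norm_apply_le q k
  refine (congrArg norm e).le.trans
    ((ContinuousMultilinearMap.norm_compContinuousLinearMap_le _ _).trans ?_)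
  refine (mul_le_of_le_one_right (norm_nonneg _)
    (Finset.prod_le_one (fun _ _ => norm_nonneg _) fun _ _ => h1)).trans ?_
  rw [norm_iteratedFDeriv_eq_norm_iteratedDeriv]
  exact h i hi _

theorem inv (n : ℕ) (C : ℝ) : ∃ C' : ℝ, 0 ≤ C' ∧ ∀ f : E3 → ℝ, (∀ p, 0 < f p) →
    DvB n (fun p => C * f p) f → DvB n (fun p => C' * (f p)⁻¹) fun p => (f p)⁻¹ := by
  obtain ⟨A, hA⟩ : ∃ A : ℝ, A = ∑ i ∈ Finset.range (n + 1),
    ‖iteratedFDerivWithin ℝ i (fun x : ℝ => x⁻¹) (Set.Ioi 0) 1‖ := ⟨_, rfl⟩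
  have hA0 : 0 ≤ A := hA ▸ Finset.sum_nonneg fun _ _ => norm_nonneg _
  have hD : 1 ≤ max C 1 := le_max_right _ _
  refine ⟨n.factorial * A * max C 1 ^ n, by positivity, fun f hf h =>
    ⟨h.1.inv fun p => (hf p).ne', fun i hi p => ?_⟩⟩
  have hp : 0 < (f p)⁻¹ := inv_pos.2 (hf p)
  have h1 := h.const_mul (f p)⁻¹
  have h2 := norm_iteratedFDeriv_comp_le' (g := fun x : ℝ => x⁻¹) (n := i) (t := Set.Ioi 0)
    (by rintro _ ⟨q, rfl⟩; exact mul_pos hp (hf q)) (uniqueDiffOn_Ioi 0)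
    (contDiffOn_id.inv fun x hx => ne_of_gt hx) h1.1 (by exact_mod_cast hi) p (C := A)
    (D := max C 1) (fun j hj => by
      rw [inv_mul_cancel₀ (hf p).ne', hA]
      exact Finset.single_le_sum (f := fun i =>
        ‖iteratedFDerivWithin ℝ i (fun x : ℝ => x⁻¹) (Set.Ioi 0) 1‖) (fun _ _ => norm_nonneg _)
        (Finset.mem_range.2 (by omega))) fun j hj hj' => by
      refine (h1.2 j (hj'.trans hi) p).trans ?_
      beta_reduce
      rw [abs_of_pos hp, mul_left_comm, inv_mul_cancel₀ (hf p).ne', mul_one]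
      exact (le_max_left _ _).trans (le_self_pow₀ hD (by omega))
  have e : (fun q => (f q)⁻¹) =
      fun q => (f p)⁻¹ • ((fun x : ℝ => x⁻¹) ∘ fun q => (f p)⁻¹ * f q) q := by
    funext q
    simp only [Function.comp_apply, smul_eq_mul, mul_inv, inv_inv]
    rw [inv_mul_cancel_left₀ (hf p).ne']
  have h3 : ContDiffAt ℝ i ((fun x : ℝ => x⁻¹) ∘ fun q => (f p)⁻¹ * f q) p :=
    (h1.cda hi p).inv (mul_pos hp (hf p)).ne'
  rw [e, iteratedFDeriv_const_smul_apply' h3, norm_smul, Real.norm_of_nonneg hp.le, mul_comm]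
  refine mul_le_mul_of_nonneg_right (h2.trans ?_) hp.le
  gcongr

end DvB

/-- Relative derivative bounds with an error proportional to the number of nodes. -/
def DvG (M : ℕ) (K m : ℝ) (f : E3 → ℝ) : Prop :=
  DvB 8 (fun p => K * (f p + m * om M ^ 2)) f

namespace DvG

variable {M : ℕ} {K m m' : ℝ} {f g : E3 → ℝ}

theorem add (h : DvG M K m f) (h' : DvG M K m' g) : DvG M K (m + m') fun p => f p + g p :=
  (DvB.add h h').mono le_rfl fun p => le_of_eq (by ring)

theorem sum {s : ℕ} {f : ℕ → E3 → ℝ} (h : ∀ j, DvG M K m (f j)) :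
    DvG M K (s * m) fun p => ∑ j ∈ Finset.range s, f j p :=
  (DvB.sum fun j _ => h j).mono le_rfl fun p => le_of_eq (by
    rw [← Finset.mul_sum, Finset.sum_add_distrib, Finset.sum_const, Finset.card_range,
      nsmul_eq_mul, mul_assoc])

theorem ite (h : DvG M K m f) (hK : 0 ≤ K) (hm : 0 ≤ m) (P : Prop) [Decidable P] :
    DvG M K m fun p => if P then f p else 0 := by
  split_ifs
  · exact h
  · exact (DvB.const 8 0).mono le_rfl fun p => by
      rw [abs_zero, zero_add]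
      positivity

theorem smul (h : DvG M K m f) (hK : 0 ≤ K) (hm : 0 ≤ m) {c : ℝ} (h0 : 0 ≤ c) (h1 : c ≤ 1) :
    DvG M K m fun p => c * f p :=
  (DvB.const_mul h c).mono le_rfl fun p => by
    rw [abs_of_nonneg h0, mul_left_comm, mul_add]
    exact mul_le_mul_of_nonneg_left
      (add_le_add le_rfl (mul_le_of_le_one_left (by positivity) h1)) hK

theorem node : ∃ K : ℝ, 1 ≤ K ∧ ∀ (M : ℕ) (k k' : Fin 3) (a a' : ℝ),
    DvG M K 3 fun p => gk M (p k - a) * gk M (p k' - a') := by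
  obtain ⟨C, hC⟩ := gk_deriv
  have h1 : ∀ (M : ℕ) (k : Fin 3) (a : ℝ), DvB 8 (fun p => C * (gk M (p k - a) + om M ^ 2))
      fun p => gk M (p k - a) := fun M k a =>
    DvB.coord (g := fun u => gk M (u - a)) (c := fun u => C * (gk M (u - a) + om M ^ 2))
      ((gk_contDiff M).comp (contDiff_id.sub contDiff_const))
      (fun i hi u => by rw [iteratedDeriv_comp_sub_const]; exact hC M i hi _) k
  refine ⟨2 ^ 8 * C ^ 2 + 1, by linarith [sq_nonneg C], fun M k k' a a' =>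
    ((h1 M k a).mul (h1 M k' a')).mono le_rfl fun p => ?_⟩
  beta_reduce
  have h2 := gk_nonneg M (p k - a)
  have h3 := gk_nonneg M (p k' - a')
  have h4 := gk_le_one M (p k - a)
  have h5 := gk_le_one M (p k' - a')
  have h6 : (om M : ℝ) ^ 2 ≤ 1 := pow_le_one₀ (om_pos M).le (om_le_one M)
  have h7 : (0 : ℝ) ≤ om M ^ 2 := sq_nonneg _
  generalize (om M : ℝ) ^ 2 = w at *
  generalize gk M (p k - a) = x at *
  generalize gk M (p k' - a') = y at *
  have h8 : (x + w) * (y + w) ≤ x * y + 3 * w := by nlinarith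
  have h9 := mul_le_mul_of_nonneg_left h8 (by positivity : 0 ≤ 2 ^ 8 * C ^ 2)
  have h10 : 0 ≤ x * y + 3 * w := by positivity
  linarith

theorem bd (h : DvG M K m f) (hK : 0 ≤ K) (hm : m * om M ≤ 1) {b : E3 → ℝ} (hb : ∀ p, f p ≤ b p) :
    DvB 8 (fun p => K * (b p + om M)) f :=
  DvB.mono h le_rfl fun p => mul_le_mul_of_nonneg_left (add_le_add (hb p) (by
    rw [sq, ← mul_assoc]
    exact mul_le_of_le_one_left (om_pos M).le hm)) hK

end DvG

theorem deriv_ip_le {M : ℕ} (hM : 1 ≤ M) (k : ℕ) : (ip M k : ℝ) ≤ 1 := by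
  simpa [ip] using ip_anti hM k.zero_le

theorem deriv_main : ∃ K : ℝ, 1 ≤ K ∧ ∀ᶠ M : ℕ in atTop, ∀ L : Lay,
    (∀ a, Bd 8 (13 * K) fun p => own M L a (p 0) (p 1)) ∧
    (∀ a b, Bd 8 (4 * K) fun p => linkF M L a b (p 0) (p 1)) ∧
    (L.K ≤ M → DvB 8 (fun p => 2 * K * PS M L p) (PS M L)) := by
  obtain ⟨K, hK, h⟩ := DvG.node
  have hK0 : 0 ≤ K := by linarith
  refine ⟨K, hK, ?_⟩
  filter_upwards [ev_om 112, eventually_ge_atTop 12] with M hom hM L
  have hM1 : 1 ≤ M := by omega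
  have hx : (12 : ℝ) ≤ M := by exact_mod_cast hM
  have hx1 : (1 : ℝ) ≤ M := by linarith
  have hrun : ∀ i0 j0 len : ℕ, DvG M K (len * 3) fun p => run M i0 j0 len (p 0) (p 1) := by
    intro i0 j0 len
    simp only [run, Finset.mul_sum]
    exact DvG.sum fun k => h M 1 0 _ _
  have hown : ∀ a, DvG M K (NC M * (LL M * 3) + DD M * (DD M * 3))
      fun p => own M L a (p 0) (p 1) := fun a =>
    (DvG.sum fun c => (hrun _ _ _).ite hK0 (by positivity) _).add
      ((DvG.sum fun i => DvG.sum fun j => (h M 0 1 _ _).ite hK0 (by positivity) _).smul hK0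
        (by positivity) (ip_pos hM1 90).le (deriv_ip_le hM1 90))
  have hlink : ∀ a b, DvG M K ((LL M + 1 : ℕ) * 3) fun p => linkF M L a b (p 0) (p 1) :=
    fun a b => (hrun _ _ _).smul hK0 (by positivity) (ip_pos hM1 1520).le (deriv_ip_le hM1 1520)
  have hp : ∀ {i j : ℕ}, i ≤ j → (M : ℝ) ^ i ≤ (M : ℝ) ^ j := fun hij => pow_le_pow_right₀ hx1 hij
  have m1 : (NC M : ℝ) * (LL M * 3) + DD M * (DD M * 3) ≤ 6 * (M : ℝ) ^ 110 := by
    have e1 : (NC M : ℝ) * (LL M * 3) = 3 * (M : ℝ) ^ 24 := by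
      simp only [NC, LL, Nat.cast_pow]
      ring
    have e2 : (DD M : ℝ) * (DD M * 3) = 3 * (M : ℝ) ^ 110 := by
      simp only [DD, Nat.cast_pow]
      ring
    linarith [hp (show 24 ≤ 110 by norm_num)]
  have m2 : ((LL M + 1 : ℕ) : ℝ) * 3 ≤ 6 * (M : ℝ) ^ 109 := by
    simp only [LL, Nat.cast_add, Nat.cast_pow, Nat.cast_one]
    linarith [hp (show 20 ≤ 109 by norm_num), one_le_pow₀ (n := 109) hx1]
  have key : ∀ m : ℝ, m ≤ 12 * (M : ℝ) ^ 111 → m * om M ≤ 1 := fun m hm => by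
    have h1 := ip_absorb hM1 hx (j := 111) (k := 112) (k' := 0) le_rfl
    exact (mul_le_mul hm hom (om_pos M).le (by positivity)).trans (h1.trans (deriv_ip_le hM1 0))
  have q1 : (M : ℝ) ^ 110 ≤ (M : ℝ) ^ 111 := hp (by norm_num)
  have q2 : (M : ℝ) ^ 109 ≤ (M : ℝ) ^ 111 := hp (by norm_num)
  have q3 : (0 : ℝ) ≤ (M : ℝ) ^ 111 := by positivity
  refine ⟨fun a => ?_, fun a b => ?_, fun hL => ?_⟩
  · refine ((hown a).bd hK0 (key _ (by linarith)) (b := fun _ => 12)
      fun p => own_le (by omega) L a _ _).mono le_rfl fun p => ?_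
    nlinarith [om_le_one M]
  · refine ((hlink a b).bd hK0 (key _ (by linarith)) (b := fun _ => 3) fun p => ?_).mono le_rfl
      fun p => ?_
    · linarith [(linkF_mem M L a b (p 0) (p 1)).2, deriv_ip_le hM1 1520]
    · nlinarith [om_le_one M]
  · have h0 : DvG M K 0 fun _ => om M := (DvB.const 8 _).mono le_rfl fun p => by
      rw [abs_of_pos (om_pos M), zero_mul, add_zero]
      exact le_mul_of_one_le_left (om_pos M).le hK
    have h1 : DvG M K _ (PS M L) := (h0.add (DvG.sum (s := L.K) hown)).add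
      (DvG.sum fun a => DvG.sum fun b => (hlink a b).ite hK0 (by positivity) _)
    have hL' : (L.K : ℝ) ≤ M := by exact_mod_cast hL
    refine (h1.bd hK0 (key _ ?_) fun p => le_rfl).mono le_rfl fun p => ?_
    · have h2 := mul_le_mul hL' m1 (by positivity) (by positivity)
      have h3 := mul_le_mul hL' (mul_le_mul hL' m2 (by positivity) (by positivity))
        (by positivity) (by positivity)
      have e1 : (M : ℝ) * (6 * (M : ℝ) ^ 110) = 6 * (M : ℝ) ^ 111 := by ring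
      have e2 : (M : ℝ) * (M * (6 * (M : ℝ) ^ 109)) = 6 * (M : ℝ) ^ 111 := by ring
      linarith
    · nlinarith [om_le_PS M L p]

theorem PS_deriv : ∃ C : ℝ, ∀ᶠ M : ℕ in atTop, ∀ L : Lay, L.K ≤ M → ∀ i ≤ 8, ∀ p,
    ‖iteratedFDeriv ℝ i (PS M L) p‖ ≤ C * PS M L p := by
  obtain ⟨K, -, h⟩ := deriv_main
  exact ⟨2 * K, h.mono fun M hM L hL => ((hM L).2.2 hL).2⟩

theorem V1_bd : ∀ᶠ M : ℕ in atTop, ∀ L : Lay, L.K ≤ M →
    Bd 6 M (V1 M L) ∧ (∀ p, |vlat M L p| ≤ M / 4) ∧ ∀ p, |lap (PS M L) p / PS M L p| ≤ M := by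
  obtain ⟨K, hK, h⟩ := deriv_main
  obtain ⟨C, hC0, hC⟩ := DvB.inv 8 (2 * K)
  obtain ⟨P, hP⟩ := plat_deriv
  filter_upwards [h, ev_le (2 ^ 6 * P * (2 ^ 6 * (3 * K + 1) * C + 1)),
    ev_le (4 * (2 ^ 6 * (3 * K + 1) * C + 1)), ev_le (6 * K)] with M hM e1 e2 e3 L hL
  have h1 := (hM L).2.2 hL
  have h2 := (hC _ (PS_pos M L) h1).mono (show 6 ≤ 8 by norm_num) fun _ => le_rfl
  have h3 : DvB 6 (fun p => 3 * (2 * K * PS M L p)) (lap (PS M L)) := DvB.lap h1
  have h4 : DvB 6 (fun _ => 2 ^ 6 * (3 * K + 1) * C + 1) (vlat M L) := by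
    have e : vlat M L = fun p => (2⁻¹ * lap (PS M L) p + om M) * (PS M L p)⁻¹ + -1 := by
      funext p
      unfold vlat
      ring
    rw [e]
    refine ((((h3.const_mul 2⁻¹).add (DvB.const 6 (om M))).mul h2).add (DvB.const 6 (-1))).mono
      le_rfl fun p => ?_
    have h5 := PS_pos M L p
    have h6 : |(2⁻¹ : ℝ)| * (3 * (2 * K * PS M L p)) + |(om M : ℝ)| ≤ (3 * K + 1) * PS M L p := by
      rw [abs_of_pos (om_pos M), abs_of_pos (by norm_num : (0 : ℝ) < 2⁻¹)]
      linarith [om_le_PS M L p]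
    rw [abs_neg, abs_one]
    refine add_le_add ((mul_le_mul_of_nonneg_right (mul_le_mul_of_nonneg_left h6 (by positivity))
      (by positivity)).trans (le_of_eq ?_)) le_rfl
    field_simp
  refine ⟨?_, fun p => (h4.abs_le p).trans (by linarith), fun p => ?_⟩
  · exact ((DvB.coord (n := 6) (c := fun _ => P) ((plat_contDiff (-2) 2).of_le (by norm_num))
      (fun i hi u => hP _ _ i (by omega) u) 2).mul h4).mono le_rfl fun _ => e1
  · have h5 := PS_pos M L p
    rw [abs_div, abs_of_pos h5, div_le_iff₀ h5]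
    refine (h3.abs_le p).trans ?_
    nlinarith

theorem deriv_lap_zero {f : E3 → ℝ} {p : E3} {c : ℝ} (h : f =ᶠ[𝓝 p] fun _ => c) : lap f p = 0 := by
  refine Finset.sum_eq_zero fun k _ => ?_
  have h1 : pd k f =ᶠ[𝓝 p] fun _ => 0 := h.eventuallyEq_nhds.mono fun q hq => by
    simp [pd, hq.fderiv_eq]
  simp [pd, h1.fderiv_eq]

theorem deriv_box_closed (M : ℕ) (w : ℝ) : IsClosed (box M w) := by
  have h : ∀ k : Fin 3, Continuous fun p : E3 => p k := fun k => by fun_prop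
  exact (isClosed_le continuous_const (h 0)).inter ((isClosed_le (h 0) continuous_const).inter
    ((isClosed_le continuous_const (h 1)).inter ((isClosed_le (h 1) continuous_const).inter
      (isClosed_le (h 2).abs continuous_const))))

theorem Lay.OK.V1_supp {M : ℕ} {L : Lay} {Pi : ℕ} {v : ℕ → ℕ → ℕ} (h : L.OK M Pi v) :
    (∀ p, p ∉ box M 3 → V1 M L p = 0 ∧ lap (V1 M L) p = 0) ∧ HasCompactSupport (V1 M L) := by
  have h1 : ∀ p, p ∉ box M 3 → V1 M L p = 0 := fun p hp => by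
    unfold V1
    by_cases h2 : |p 2| ≤ 3
    · have h3 : ∀ q : E3, q ∉ box M (|p 2| + 1) → |q 2| < |p 2| + 1 → PS M L q = om M :=
        fun q hq hq' => by
          by_contra h4
          obtain ⟨a, b, c, d⟩ := h.PS_supp h4
          exact hq ⟨a.le, b.le, c.le, d.le, hq'.le⟩
      have h4 : p ∉ box M (|p 2| + 1) := fun ⟨a, b, c, d, _⟩ => hp ⟨a, b, c, d, h2⟩
      have h5 : PS M L =ᶠ[𝓝 p] fun _ => om M := by
        filter_upwards [(deriv_box_closed M _).isOpen_compl.mem_nhds h4,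
          (isOpen_lt (f := fun q : E3 => |q 2|) (by fun_prop) continuous_const).mem_nhds
            (lt_add_one |p 2|)] with q a b using h3 q a b
      unfold vlat
      rw [deriv_lap_zero h5, h5.eq_of_nhds, zero_div, zero_add, div_self (om_pos M).ne', sub_self,
        mul_zero]
    · rw [plat_eq_zero (by norm_num), zero_mul]
      rcases le_abs.1 (not_le.1 h2).le with h3 | h3
      · exact Or.inr (by linarith)
      · exact Or.inl (by linarith)
  refine ⟨fun p hp => ⟨h1 p hp, deriv_lap_zero (c := 0) ?_⟩, HasCompactSupport.intro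
    (Metric.isCompact_of_isClosed_isBounded (deriv_box_closed M 3) ?_) h1⟩
  · filter_upwards [(deriv_box_closed M 3).isOpen_compl.mem_nhds hp] with q hq using h1 q hq
  · refine (Metric.isBounded_closedBall (x := (0 : E3)) (r := 2 * DD M + 3)).subset ?_
    rintro p ⟨a, b, c, d, e⟩
    rw [mem_closedBall_zero_iff]
    refine le_of_sq_le_sq ?_ (by positivity)
    have h2 := abs_le.1 e
    rw [norm_E3_sq]
    nlinarith

theorem deriv_gc : ∃ C : ℝ, 0 ≤ C ∧ ∀ M : ℕ, 1 ≤ M →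
    Bd 4 (C * (M : ℝ) ^ 4) fun p => gam M (p 2) * chz (p 2) := by
  obtain ⟨C, hC⟩ := gamchz_deriv
  refine ⟨C, by simpa using (abs_nonneg _).trans (hC 1 le_rfl 0 (by norm_num) 0), fun M hM => ?_⟩
  exact DvB.coord (n := 4) (g := fun z => gam M z * chz z) (c := fun _ => C * (M : ℝ) ^ 4)
    ((gamchz_contDiff M).of_le (by norm_num)) (hC M hM) 2

theorem phh_bd : ∀ᶠ M : ℕ in atTop, ∀ L : Lay, ∀ a, Bd 4 ((M : ℝ) ^ 5) (phh M L a) := by
  obtain ⟨K, -, h⟩ := deriv_main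
  obtain ⟨C, -, hC⟩ := deriv_gc
  filter_upwards [h, ev_le (2 ^ 4 * (13 * K) * C), eventually_ge_atTop 1] with M hM e1 hM1 L a
  refine ((((hM L).1 a).mono (show 4 ≤ 8 by norm_num) le_rfl).mul (hC M hM1)).mono le_rfl ?_
  rw [← mul_assoc, pow_succ' (M : ℝ) 4]
  exact mul_le_mul_of_nonneg_right e1 (by positivity)

theorem part_bd : ∀ᶠ M : ℕ in atTop, ∀ L : Lay, L.K ≤ M → ∀ a,
    Bd 4 ((M : ℝ) ^ 6) fun p => part M L a p * (gam M (p 2) * chz (p 2)) := by
  obtain ⟨K, hK, h⟩ := deriv_main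
  obtain ⟨C, hC0, hC⟩ := deriv_gc
  obtain ⟨R, hR⟩ := ramp_deriv
  have hR0 : 0 ≤ R := (abs_nonneg _).trans (hR 0 3 (by norm_num) 0 (by norm_num) 0)
  filter_upwards [h, ev_le (2 ^ 4 * (13 * K + 2 * (2 ^ 8 * (1 + R) * (4 * K))) * C),
    eventually_ge_atTop 6] with M hM e1 hM6 L hL a
  have hx : (6 : ℝ) ≤ M := by exact_mod_cast hM6
  have hL' : (L.K : ℝ) ≤ M := by exact_mod_cast hL
  have hrho : ∀ a b, DvB 8 (fun _ => R) fun p => rho M L a b (p 0) := fun a b => by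
    refine DvB.coord (c := fun _ => R) (ramp_contDiff _ _) (hR _ _ ?_) 0
    have h1 : (M : ℝ) ^ 2 ≤ (M : ℝ) ^ 20 := pow_le_pow_right₀ (by linarith) (by norm_num)
    simp only [rr, LL, Nat.cast_add, Nat.cast_mul, Nat.cast_pow, Nat.cast_ofNat, Nat.cast_one]
    nlinarith
  have hite : ∀ {f : E3 → ℝ} (P : Prop), DvB 8 (fun _ => 1 + R) f → ∀ a b,
      DvB 8 (fun _ => 2 ^ 8 * (1 + R) * (4 * K))
        fun p => if P then f p * linkF M L a b (p 0) (p 1) else 0 := fun P hf a b => by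
    split_ifs
    · exact DvB.mul hf ((hM L).2.1 a b)
    · exact (DvB.const 8 0).mono le_rfl fun _ => by
        rw [abs_zero]
        positivity
  have h1 : ∀ a b, DvB 8 (fun _ => 1 + R) fun p => 1 - rho M L a b (p 0) := fun a b => by
    have h2 := (DvB.const 8 1).add ((hrho a b).const_mul (-1))
    simpa [sub_eq_add_neg] using h2
  have h2 : Bd 4 ((13 * K + 2 * (2 ^ 8 * (1 + R) * (4 * K))) * M) (part M L a) := by
    refine ((DvB.add ((hM L).1 a) (DvB.sum (s := Finset.range L.K) fun b _ =>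
      hite (Edge L.K a b) (h1 a b) a b)).add (DvB.sum (s := Finset.range L.K) fun b _ =>
      hite (Edge L.K b a) ((hrho b a).mono le_rfl fun _ => by linarith) b a)).mono
      (by norm_num) fun p => ?_
    rw [Finset.sum_const, Finset.card_range, nsmul_eq_mul]
    have h3 := mul_le_mul_of_nonneg_right hL' (by positivity : 0 ≤ 2 ^ 8 * (1 + R) * (4 * K))
    nlinarith
  refine (h2.mul (hC M (by omega))).mono le_rfl ?_
  have h3 := mul_le_mul_of_nonneg_right e1 (by positivity : 0 ≤ (M : ℝ) ^ 5)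
  refine le_trans (le_of_eq ?_) (h3.trans (le_of_eq ?_)) <;> ring

end Vale.Agent.P370
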