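import Vale.Agent.P370.Qop

/-! Real simulation of the gates. -/

namespace Vale.Agent.P370

open scoped Classical ComplexConjugate

theorem raw_nq (C : Circ) : C.raw.nq = C.n + 2 := by
  simp [Raw.nq, Circ.raw]

theorem gat_sts (C : Circ) : C.raw.sts = (C.gates.map Gate.raw).flatMap (stepsOf (C.n + 1)) := by
  simp [Raw.sts, Circ.raw]

theorem gates_ok (C : Circ) : ∀ st ∈ C.raw.sts, StepOK C.raw.nq st := by
  intro st hst
  rw [gat_sts, List.mem_flatMap] at hst
  obtain ⟨_, hg, h⟩ := hst
  obtain ⟨g, -, rfl⟩ := List.mem_map.1 hg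
  rw [raw_nq]
  rcases g with q | q | ⟨a, b, hab⟩
  · have := q.2
    simp only [stepsOf, Gate.raw, if_true, List.mem_singleton] at h
    subst h
    simp [StepOK]
    omega
  · have := q.2
    simp only [stepsOf, Gate.raw, one_ne_zero, if_false, if_true, List.mem_singleton] at h
    subst h
    simp [StepOK]
    omega
  · have := a.2
    have := b.2
    have := Fin.val_ne_of_ne hab
    simp only [stepsOf, Gate.raw, OfNat.ofNat_ne_zero, OfNat.ofNat_ne_one, if_false,
      List.mem_cons, List.not_mem_nil, or_false] at h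
    rcases h with h | h | h | h | h | h <;> subst h <;> simp [StepOK] <;> omega

variable {N : ℕ}

/-- The complex vector stored in a real vector with one more qubit. -/
noncomputable def gatC (v : (Fin (N + 1) → Bool) → ℝ) (d : Fin N → Bool) : ℂ :=
  v (Fin.snoc d false) + v (Fin.snoc d true) * Complex.I

/-- A real one-qubit matrix acting on complex vectors. -/
noncomputable def gatO (q : Fin N) (A : Bool → Bool → ℝ) (ψ : (Fin N → Bool) → ℂ)
    (d : Fin N → Bool) : ℂ :=
  A (d q) false * ψ (Function.update d q false) + A (d q) true * ψ (Function.update d q true)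

theorem gat_bq (d : Fin N → Bool) (b : Bool) (q : Fin N) :
    bitQ (Fin.snoc d b : Fin (N + 1) → Bool) q.val = d q := by
  rw [bitQ, dif_pos (by omega)]
  exact Fin.snoc_castSucc (α := fun _ => Bool) b d q

theorem gat_oq (q : Fin N) (A : Bool → Bool → ℝ) (v : (Fin (N + 1) → Bool) → ℝ) :
    gatC (opQ q.val A v) = gatO q A (gatC v) := by
  have h : ∀ (d : Fin N → Bool) (b : Bool), opQ q.val A v (Fin.snoc d b) =
      A (d q) false * v (Fin.snoc (Function.update d q false) b) +
        A (d q) true * v (Fin.snoc (Function.update d q true) b) := by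
    intro d b
    rw [opQ, dif_pos (by omega), Fintype.sum_bool, add_comm]
    change _ * v (Function.update _ q.castSucc _) + _ * v (Function.update _ q.castSucc _) = _
    rw [← Fin.snoc_update, ← Fin.snoc_update]
    congr 3 <;> exact Fin.snoc_castSucc (α := fun _ => Bool) b d q
  funext d
  simp only [gatC, gatO, h]
  push_cast
  ring

theorem gat_or (s c : ℝ) (v : (Fin (N + 1) → Bool) → ℝ) (d : Fin N → Bool) :
    gatC (opQ N (m2 0 s c) v) d = (c + s * Complex.I) * conj (gatC v d) := by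
  have h : ∀ b : Bool, opQ N (m2 0 s c) v (Fin.snoc d b) =
      m2 0 s c b false * v (Fin.snoc d false) + m2 0 s c b true * v (Fin.snoc d true) := by
    intro b
    rw [opQ, dif_pos (by omega), Fintype.sum_bool, add_comm]
    change _ * v (Function.update _ (Fin.last N) _) + _ * v (Function.update _ (Fin.last N) _) = _
    rw [Fin.update_snoc_last, Fin.update_snoc_last]
    congr 3 <;> exact Fin.snoc_last (α := fun _ => Bool) b d
  simp only [gatC, h]
  apply Complex.ext <;> simp [m2]
  ring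

theorem gat_step (q : Fin N) (t A B : ℕ) (v : (Fin (N + 1) → Bool) → ℝ) (d : Fin N → Bool) :
    gatC (stepAct (q.val, t, A, B) v) d =
      if d q = false then gatC (opQ t (mat B) (opQ t (mat A) v)) d
      else gatC (opQ t (mat A) (opQ t (mat B) v)) d := by
  simp only [gatC, stepAct, gat_bq]
  split_ifs <;> rfl

theorem gat_one (q : Fin N) (A : ℕ) (v : (Fin (N + 1) → Bool) → ℝ) :
    gatC (stepAct (N, q.val, A, 0) v) = gatO q (mat A) (gatC v) := by
  have hq : q.val < N + 1 := by omega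
  have : stepAct (N, q.val, A, 0) v = opQ q.val (mat A) v := by
    funext d
    simp only [stepAct, opQ_mat0 hq, ite_self]
  rw [this, gat_oq]

theorem gat_m4 : mat 4 = m2 0 0 1 := by simp [mat]

theorem gat_m5 : mat 5 = m2 0 (Real.sqrt 2 / 2) (Real.sqrt 2 / 2) := by simp [mat]

theorem gat_m6 : mat 6 = m2 0 (Real.sin (Real.pi / 8)) (Real.cos (Real.pi / 8)) := by simp [mat]

theorem gat_gate (g : Gate N) : ∃ ph : ℂ, ‖ph‖ = 1 ∧ ∀ v : (Fin (N + 1) → Bool) → ℝ,
    gatC (runS (stepsOf N g.raw) v) = fun d => ph * g.act (gatC v) d := by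
  have s2 : ((Real.sqrt 2 : ℝ) : ℂ) ^ 2 = 2 := by
    rw [← Complex.ofReal_pow, Real.sq_sqrt zero_le_two]
    simp
  have s0 : ((Real.sqrt 2 : ℝ) : ℂ) ≠ 0 := by
    intro h
    rw [h] at s2
    norm_num at s2
  rcases g with q | q | ⟨a, b, hab⟩
  · refine ⟨1, norm_one, fun v => ?_⟩
    funext d
    simp only [stepsOf, Gate.raw, if_true, runS, List.foldl, gat_one, gat_m5, Gate.act, gatO]
    rw [one_mul, eq_div_iff s0]
    cases d q <;> simp [m2]
    · linear_combination (gatC v (Function.update d q false) +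
        gatC v (Function.update d q true)) / 2 * s2
    · linear_combination (gatC v (Function.update d q false) -
        gatC v (Function.update d q true)) / 2 * s2
  · refine ⟨Complex.exp ((-(Real.pi / 8) : ℝ) * Complex.I), Complex.norm_exp_ofReal_mul_I _,
      fun v => ?_⟩
    funext d
    simp only [stepsOf, Gate.raw, one_ne_zero, if_false, if_true, runS, List.foldl, gat_step,
      gat_m4, gat_m6, Gate.act, gat_or]
    have e1 : (Real.cos (Real.pi / 8) + Real.sin (Real.pi / 8) * Complex.I : ℂ) =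
        Complex.exp ((Real.pi / 8 : ℝ) * Complex.I) := by
      rw [Complex.exp_mul_I, Complex.ofReal_cos, Complex.ofReal_sin]
    rw [e1]
    cases d q
    · simp [← Complex.exp_conj, map_ofNat]
    · simp only [Bool.true_eq_false, if_false, if_true]
      rw [← mul_assoc, ← Complex.exp_add]
      simp only [Complex.ofReal_one, Complex.ofReal_zero, zero_mul, add_zero, one_mul,
        Complex.conj_conj]
      congr 2
      push_cast
      ring
  · obtain ⟨σ, h5, hσ⟩ : ∃ σ : ℝ, mat 5 = m2 0 σ σ ∧ σ * σ = 1 / 2 :=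
      ⟨_, gat_m5, by linear_combination 1 / 4 * Real.mul_self_sqrt zero_le_two⟩
    have hc : (σ : ℂ) * σ = 1 / 2 := by
      rw [← Complex.ofReal_mul, hσ]
      simp
    refine ⟨σ * (1 - Complex.I), ?_, fun v => ?_⟩
    · rw [← sq_eq_sq₀ (norm_nonneg _) zero_le_one, Complex.sq_norm, Complex.normSq_apply]
      simp
      linear_combination 2 * hσ
    funext d
    have r1 : ∀ (q : Fin N) (u : (Fin (N + 1) → Bool) → ℝ), gatC (stepAct (q.val, N, 5, 4) u) =
        fun d => σ * (1 + (if d q = false then -1 else 1) * Complex.I) * gatC u d := by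
      intro q u
      funext d
      simp only [gat_step, gat_m4, h5, gat_or]
      split_ifs <;> simp [mul_add]
    have r2 : ∀ (q : Fin N) (u : (Fin (N + 1) → Bool) → ℝ), gatC (stepAct (q.val, N, 4, 5) u) =
        fun d => σ * (1 + (if d q = false then 1 else -1) * Complex.I) * gatC u d := by
      intro q u
      funext d
      simp only [gat_step, gat_m4, h5, gat_or]
      split_ifs <;> simp [mul_add]
    have r3 : ∀ u : (Fin (N + 1) → Bool) → ℝ, gatC (stepAct (a.val, b.val, 5, 4) u) =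
        fun d => if d a = false then gatO b (mat 4) (gatO b (mat 5) (gatC u)) d
          else gatO b (mat 5) (gatO b (mat 4) (gatC u)) d := by
      intro u
      funext d
      simp only [gat_step, gat_oq]
    simp only [stepsOf, Gate.raw, OfNat.ofNat_ne_zero, OfNat.ofNat_ne_one, if_false, runS,
      List.foldl, r1, r2, r3, gat_one, Gate.act, gatO, gat_m4, h5, Function.update_idem,
      Function.update_self, Function.update_of_ne hab]
    have hI := Complex.I_mul_I
    clear r1 r2 r3 h5 hσ s2 s0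
    cases d a <;> cases d b <;> simp [m2] <;> grind

theorem gat_smul (gs : List (Gate N)) (c : ℂ) (ψ : (Fin N → Bool) → ℂ) :
    gs.foldl (fun φ g => g.act φ) (fun d => c * ψ d) =
      fun d => c * gs.foldl (fun φ g => g.act φ) ψ d := by
  induction gs generalizing ψ with
  | nil => rfl
  | cons g gs ih =>
    have : g.act (fun d => c * ψ d) = fun d => c * g.act ψ d := by
      funext d
      cases g <;> simp only [Gate.act] <;> ring
    simp only [List.foldl, this, ih]

theorem gat_run (gs : List (Gate N)) : ∃ ph : ℂ, ‖ph‖ = 1 ∧ ∀ v : (Fin (N + 1) → Bool) → ℝ,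
    gatC (runS ((gs.map Gate.raw).flatMap (stepsOf N)) v) =
      fun d => ph * gs.foldl (fun φ g => g.act φ) (gatC v) d := by
  induction gs with
  | nil => exact ⟨1, norm_one, fun v => by simp [runS]⟩
  | cons g gs ih =>
    obtain ⟨p1, h1, e1⟩ := gat_gate g
    obtain ⟨p2, h2, e2⟩ := ih
    refine ⟨p2 * p1, by rw [norm_mul, h1, h2, one_mul], fun v => ?_⟩
    have : runS (((g :: gs).map Gate.raw).flatMap (stepsOf N)) v =
        runS ((gs.map Gate.raw).flatMap (stepsOf N)) (runS (stepsOf N g.raw) v) := by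
      simp only [runS, List.map_cons, List.flatMap_cons, List.foldl_append]
    rw [this, e2, e1, gat_smul]
    simp only [List.foldl, mul_assoc]

theorem gat_sum (f : (Fin (N + 1) → Bool) → ℝ) :
    ∑ x, f x = ∑ d : Fin N → Bool, (f (Fin.snoc d false) + f (Fin.snoc d true)) := by
  rw [← (Fin.snocEquiv fun _ => Bool).sum_comp, Fintype.sum_prod_type, Fintype.sum_bool,
    Finset.sum_add_distrib, add_comm]
  rfl

theorem gat_nsq (v : (Fin (N + 1) → Bool) → ℝ) (d : Fin N → Bool) :
    ‖gatC v d‖ ^ 2 = v (Fin.snoc d false) ^ 2 + v (Fin.snoc d true) ^ 2 := by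
  rw [gatC, Complex.sq_norm, Complex.normSq_add_mul_I]

theorem gat_nrm (v : (Fin (N + 1) → Bool) → ℝ) : ∑ d, ‖gatC v d‖ ^ 2 = ∑ x, v x ^ 2 := by
  simp only [gat_nsq, gat_sum]

theorem gat_isom {n : ℕ} {sts : List Step} (h : ∀ st ∈ sts, StepOK n st)
    (v : (Fin n → Bool) → ℝ) : ∑ d, runS sts v d ^ 2 = ∑ d, v d ^ 2 := by
  rw [← foldl_half h]
  have : ∀ k ≤ 3 * sts.length + 1,
      ∑ d, (List.range k).foldl (fun u t => half sts t u) v d ^ 2 = ∑ d, v d ^ 2 := by
    intro k hk
    induction k with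
    | zero => rfl
    | succ k ih =>
      rw [List.range_succ, List.foldl_append]
      exact (half_isom h (by omega) _).trans (ih (by omega))
  exact this _ le_rfl

theorem gat_rej (C : Circ) (v : (Fin (C.n + 2) → Bool) → ℝ) :
    rej (runS C.raw.sts v) = ∑ d, v d ^ 2 - C.acc (gatC v) := by
  have h1 := gat_isom (n := C.n + 2) (raw_nq C ▸ gates_ok C) v
  obtain ⟨p, hp, e⟩ := gat_run C.gates
  have h2 : ∀ d, ‖C.gates.foldl (fun φ g => g.act φ) (gatC v) d‖ = ‖gatC (runS C.raw.sts v) d‖ := by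
    intro d
    rw [gat_sts, e, norm_mul, hp, one_mul]
  rw [← h1, ← gat_nrm, Circ.acc, rej, Finset.sum_filter, Finset.sum_filter, gat_sum,
    ← Finset.sum_sub_distrib]
  refine Finset.sum_congr rfl fun d _ => ?_
  have h3 : ∀ b, bitQ (Fin.snoc d b : Fin (C.n + 2) → Bool) 0 = d 0 := fun b => gat_bq d b 0
  rw [h3, h3, h2, gat_nsq]
  cases d 0 <;> simp

theorem gates_no (C : Circ) (h : ∀ ψ, C.Input ψ → C.acc ψ ≤ 1 / 3) {m : ℕ} (hm : m = C.n + 2)
    (v : (Fin m → Bool) → ℝ) (hv : AncZero C.w v) :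
    2 / 3 * ∑ d, v d ^ 2 ≤ rej (runS C.raw.sts v) := by
  subst hm
  rcases (Finset.sum_nonneg fun d (_ : d ∈ Finset.univ) => sq_nonneg (v d)).eq_or_lt with h0 | h0
  · rw [← h0, mul_zero]
    exact Finset.sum_nonneg fun d _ => sq_nonneg _
  obtain ⟨S, hS⟩ : ∃ S, S = ∑ d, v d ^ 2 := ⟨_, rfl⟩
  rw [gat_rej, ← hS]
  rw [← hS] at h0
  have hn : ∀ z : ℂ, ‖((Real.sqrt S)⁻¹ : ℝ) * z‖ ^ 2 = S⁻¹ * ‖z‖ ^ 2 := by
    intro z
    rw [norm_mul, mul_pow, Complex.norm_real, Real.norm_eq_abs, sq_abs, inv_pow, Real.sq_sqrt h0.le]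
  have h1 := h (fun d => ((Real.sqrt S)⁻¹ : ℝ) * gatC v d) ⟨?_, fun d i hi hd => ?_⟩
  · rw [Circ.acc, gat_smul] at h1
    simp only [hn, ← Finset.mul_sum] at h1
    rw [inv_mul_le_iff₀ h0, ← Circ.acc] at h1
    linarith
  · simp only [hn, ← Finset.mul_sum, gat_nrm, ← hS]
    exact inv_mul_cancel₀ h0.ne'
  · have h2 : ∀ b, v (Fin.snoc d b) = 0 := fun b =>
      hv _ i.val hi (by omega) ((gat_bq d b i).trans hd)
    simp [gatC, h2]

theorem gates_yes (C : Circ) (h : ∃ ψ, C.Input ψ ∧ 2 / 3 ≤ C.acc ψ) {m : ℕ} (hm : m = C.n + 2) :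
    ∃ v : (Fin m → Bool) → ℝ, AncZero C.w v ∧ ∑ d, v d ^ 2 = 1 ∧
      rej (runS C.raw.sts v) ≤ 1 / 3 := by
  subst hm
  obtain ⟨ψ, ⟨h1, h2⟩, h3⟩ := h
  obtain ⟨v, hv⟩ : ∃ v : (Fin (C.n + 2) → Bool) → ℝ, v = fun x =>
    if x (Fin.last _) = true then (ψ (Fin.init x)).im else (ψ (Fin.init x)).re := ⟨_, rfl⟩
  have e : gatC v = ψ := by
    funext d
    simp [gatC, hv]
  have hn : ∑ d, v d ^ 2 = 1 := by rw [← gat_nrm, e, h1]
  refine ⟨v, fun x i hi hi' hx => ?_, hn, ?_⟩
  · rw [bitQ, dif_pos (by omega)] at hx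
    have : ψ (Fin.init x) = 0 := h2 _ ⟨i, by omega⟩ hi hx
    simp [hv, this]
  · rw [gat_rej, hn, e]
    linarith

end Vale.Agent.P370
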