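import Vale.Agent.P370.Qop

/-! Energy bounds for histories. -/

namespace Vale.Agent.P370

open scoped Classical

theorem histB_sq (a b k : ℝ) (hk : 0 < k) : (a + b) ^ 2 ≤ (1 + 1 / k) * a ^ 2 + (1 + k) * b ^ 2 := by
  have h1 : (1 + 1 / k) * a ^ 2 + (1 + k) * b ^ 2 - (a + b) ^ 2 = (a - k * b) ^ 2 / k := by
    field_simp
    ring
  have h2 : 0 ≤ (a - k * b) ^ 2 / k := by positivity
  linarith

theorem histB_sum {ι : Type} (s : Finset ι) (c a b : ι → ℝ) (k : ℝ) (hk : 0 < k)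
    (h : ∀ d, c d = a d + b d) :
    ∑ d ∈ s, c d ^ 2 ≤ (1 + 1 / k) * ∑ d ∈ s, a d ^ 2 + (1 + k) * ∑ d ∈ s, b d ^ 2 := by
  rw [Finset.mul_sum, Finset.mul_sum, ← Finset.sum_add_distrib]
  refine Finset.sum_le_sum fun d _ => ?_
  rw [h d]
  exact histB_sq _ _ _ hk

/-- The honest history started at `v`. -/
noncomputable def histBu {nq : ℕ} (sts : List Step) (v : (Fin nq → Bool) → ℝ) (t : ℕ) :
    (Fin nq → Bool) → ℝ :=
  (List.range t).foldl (fun u t => half sts t u) v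

theorem histBu_zero {nq : ℕ} (sts : List Step) (v : (Fin nq → Bool) → ℝ) :
    histBu sts v 0 = v := rfl

theorem histBu_succ {nq : ℕ} (sts : List Step) (v : (Fin nq → Bool) → ℝ) (t : ℕ) :
    histBu sts v (t + 1) = half sts t (histBu sts v t) := by
  simp [histBu, List.range_succ, List.foldl_append]

theorem histBu_norm {nq : ℕ} {sts : List Step} (h : ∀ st ∈ sts, StepOK nq st)
    (v : (Fin nq → Bool) → ℝ) (t : ℕ) (ht : t ≤ 3 * sts.length + 1) :
    ∑ d, histBu sts v t d ^ 2 = ∑ d, v d ^ 2 := by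
  induction t with
  | zero => rfl
  | succ t ih => rw [histBu_succ, half_isom h (by omega), ih (by omega)]

theorem histB_err {nq : ℕ} {sts : List Step} (h : ∀ st ∈ sts, StepOK nq st)
    (v : (Fin nq → Bool) → ℝ) (ψ : ℕ → (Fin nq → Bool) → ℝ) {I : ℝ}
    (hI : ∑ d, (ψ 0 d - v d) ^ 2 ≤ I) (t : ℕ) (ht : t ≤ 3 * sts.length + 1) :
    ∑ d, (ψ t d - histBu sts v t d) ^ 2 ≤
      (t + 1) * (I + ∑ s ∈ Finset.range t, ∑ d, (ψ (s + 1) d - half sts s (ψ s) d) ^ 2) := by
  induction t with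
  | zero => simpa [histBu_zero] using hI
  | succ t ih =>
    have ih' := ih (by omega)
    have hk : (0 : ℝ) < t + 1 := by positivity
    have h1 := histB_sum Finset.univ (fun d => ψ (t + 1) d - histBu sts v (t + 1) d)
      (half sts t fun d => ψ t d - histBu sts v t d) (fun d => ψ (t + 1) d - half sts t (ψ t) d)
      (t + 1) hk (fun d => by rw [half_sub, histBu_succ]; ring)
    rw [half_isom h (by omega)] at h1
    rw [Finset.sum_range_succ]
    obtain ⟨S, hS⟩ : ∃ S, S = I + ∑ s ∈ Finset.range t,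
      ∑ d, (ψ (s + 1) d - half sts s (ψ s) d) ^ 2 := ⟨_, rfl⟩
    rw [← add_assoc, ← hS]
    rw [← hS] at ih'
    have h2 : (1 + 1 / ((t : ℝ) + 1)) * ∑ d, (ψ t d - histBu sts v t d) ^ 2 ≤
        (1 + 1 / ((t : ℝ) + 1)) * ((t + 1) * S) := mul_le_mul_of_nonneg_left ih' (by positivity)
    have h3 : (1 + 1 / ((t : ℝ) + 1)) * ((t + 1) * S) = (t + 2) * S := by
      field_simp
      ring
    push_cast
    linarith

theorem histB_in {nq : ℕ} (w : ℕ) (ξ : (Fin nq → Bool) → ℝ) :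
    ∃ v : (Fin nq → Bool) → ℝ, AncZero w v ∧ ∑ d, (ξ d - v d) ^ 2 ≤
      ∑ i ∈ Finset.range (nq - 1) with w ≤ i, ∑ d with bitQ d i = true, ξ d ^ 2 := by
  refine ⟨fun d => if ∃ i, w ≤ i ∧ i + 1 < nq ∧ bitQ d i = true then 0 else ξ d, ?_, ?_⟩
  · intro d i h1 h2 h3
    exact if_pos ⟨i, h1, h2, h3⟩
  · simp only [Finset.sum_filter (fun d => bitQ d _ = true)]
    rw [Finset.sum_comm]
    refine Finset.sum_le_sum fun d _ => ?_
    have hn : ∀ i ∈ (Finset.range (nq - 1)).filter (fun i => w ≤ i),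
        0 ≤ if bitQ d i = true then ξ d ^ 2 else 0 := fun i _ => by split_ifs <;> positivity
    split_ifs with hd
    · obtain ⟨i, h1, h2, h3⟩ := hd
      have := Finset.single_le_sum hn (a := i) (by simp; omega)
      simpa [h3] using this
    · simpa using Finset.sum_nonneg hn

theorem hist_no {nq : ℕ} (w : ℕ) {sts : List Step} (h : ∀ st ∈ sts, StepOK nq st) {J2 : ℝ}
    (hJ : 20 * (3 * sts.length + 2) ≤ J2)
    (H : ∀ v : (Fin nq → Bool) → ℝ, AncZero w v → 2 / 3 * ∑ d, v d ^ 2 ≤ rej (runS sts v))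
    (ψ : ℕ → (Fin nq → Bool) → ℝ) :
    1 / (2 * (3 * sts.length + 2)) * ∑ t ∈ Finset.range (3 * sts.length + 2), ∑ d, ψ t d ^ 2 ≤
      histE w sts J2 ψ := by
  obtain ⟨v, hv, hI⟩ := histB_in w (ψ 0)
  unfold histE
  obtain ⟨I, hId⟩ : ∃ I, I = ∑ i ∈ Finset.range (nq - 1) with w ≤ i,
    ∑ d with bitQ d i = true, ψ 0 d ^ 2 := ⟨_, rfl⟩
  rw [← hId] at hI ⊢
  have hI0 : 0 ≤ I := le_trans (Finset.sum_nonneg fun _ _ => sq_nonneg _) hI
  obtain ⟨P, hP⟩ : ∃ P, P = ∑ t ∈ Finset.range (3 * sts.length + 1),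
    ∑ d, (ψ (t + 1) d - half sts t (ψ t) d) ^ 2 := ⟨_, rfl⟩
  rw [← hP]
  have hP0 : 0 ≤ P := hP ▸ Finset.sum_nonneg fun _ _ => Finset.sum_nonneg fun _ _ => sq_nonneg _
  obtain ⟨M, hM⟩ : ∃ M : ℝ, M = 3 * sts.length + 2 := ⟨_, rfl⟩
  have hM0 : 0 < M := by rw [hM]; positivity
  rw [← hM] at hJ ⊢
  have herr : ∀ t ≤ 3 * sts.length + 1, ∑ d, (ψ t d - histBu sts v t d) ^ 2 ≤ M * (P + I) := by
    intro t ht
    refine (histB_err h v ψ hI t ht).trans ?_
    have h1 : ∑ s ∈ Finset.range t, ∑ d, (ψ (s + 1) d - half sts s (ψ s) d) ^ 2 ≤ P := by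
      rw [hP]
      exact Finset.sum_le_sum_of_subset_of_nonneg (Finset.range_mono ht)
        fun _ _ _ => Finset.sum_nonneg fun _ _ => sq_nonneg _
    have h2 : (t : ℝ) + 1 ≤ M := by
      rw [hM]
      have : (t : ℝ) ≤ ((3 * sts.length + 1 : ℕ) : ℝ) := by exact_mod_cast ht
      push_cast at this
      linarith
    have h3 : 0 ≤ ∑ s ∈ Finset.range t, ∑ d, (ψ (s + 1) d - half sts s (ψ s) d) ^ 2 :=
      Finset.sum_nonneg fun _ _ => Finset.sum_nonneg fun _ _ => sq_nonneg _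
    exact mul_le_mul h2 (by linarith) (by linarith) hM0.le
  have hpsi : ∀ t ∈ Finset.range (3 * sts.length + 2),
      ∑ d, ψ t d ^ 2 ≤ 7 / 6 * ∑ d, v d ^ 2 + 7 * (M * (P + I)) := by
    intro t ht
    have ht' : t ≤ 3 * sts.length + 1 := by
      have := Finset.mem_range.1 ht
      omega
    have h1 := histB_sum Finset.univ (ψ t) (histBu sts v t) (fun d => ψ t d - histBu sts v t d)
      6 (by norm_num) (fun d => by ring)
    rw [histBu_norm h v t ht'] at h1
    have h2 := herr t ht'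
    linarith
  have hsum := Finset.sum_le_card_nsmul _ _ _ hpsi
  rw [Finset.card_range, nsmul_eq_mul] at hsum
  push_cast at hsum
  rw [← hM] at hsum
  have hrej : 7 / 12 * ∑ d, v d ^ 2 - 7 * (M * (P + I)) ≤ rej (ψ (3 * sts.length + 1)) := by
    have h1 := H v hv
    rw [← foldl_half h v] at h1
    change _ ≤ rej (histBu sts v (3 * sts.length + 1)) at h1
    have h2 := histB_sum (Finset.univ.filter fun d : Fin nq → Bool => bitQ d 0 = false)
      (histBu sts v (3 * sts.length + 1)) (ψ (3 * sts.length + 1))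
      (fun d => -(ψ (3 * sts.length + 1) d - histBu sts v (3 * sts.length + 1) d))
      7 (by norm_num) (fun d => by ring)
    have h3 : ∑ d ∈ Finset.univ.filter (fun d : Fin nq → Bool => bitQ d 0 = false),
        (-(ψ (3 * sts.length + 1) d - histBu sts v (3 * sts.length + 1) d)) ^ 2 ≤
        ∑ d, (ψ (3 * sts.length + 1) d - histBu sts v (3 * sts.length + 1) d) ^ 2 := by
      simp only [neg_sq]
      exact Finset.sum_le_sum_of_subset_of_nonneg (Finset.filter_subset _ _)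
        fun _ _ _ => sq_nonneg _
    have h4 := herr _ le_rfl
    unfold rej at h1 ⊢
    linarith
  have hD : 0 ≤ M * (P + I) := by positivity
  have hJD : 20 * M * (P + I) ≤ J2 * (P + I) := mul_le_mul_of_nonneg_right hJ (by linarith)
  have h5 : 1 / (2 * M) * ∑ t ∈ Finset.range (3 * sts.length + 2), ∑ d, ψ t d ^ 2 ≤
      1 / (2 * M) * (M * (7 / 6 * ∑ d, v d ^ 2 + 7 * (M * (P + I)))) :=
    mul_le_mul_of_nonneg_left hsum (by positivity)
  have h6 : 1 / (2 * M) * (M * (7 / 6 * ∑ d, v d ^ 2 + 7 * (M * (P + I)))) =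
      7 / 12 * ∑ d, v d ^ 2 + 7 / 2 * (M * (P + I)) := by
    field_simp
    ring
  linarith

theorem hist_yes {nq : ℕ} (w : ℕ) {sts : List Step} (h : ∀ st ∈ sts, StepOK nq st) (J2 : ℝ)
    {v : (Fin nq → Bool) → ℝ} (hv : AncZero w v) :
    ∃ ψ : ℕ → (Fin nq → Bool) → ℝ,
      ∑ t ∈ Finset.range (3 * sts.length + 2), ∑ d, ψ t d ^ 2 =
        (3 * sts.length + 2) * ∑ d, v d ^ 2 ∧ histE w sts J2 ψ = rej (runS sts v) := by
  refine ⟨histBu sts v, ?_, ?_⟩
  · rw [Finset.sum_congr rfl fun t ht => histBu_norm h v t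
      (by have := Finset.mem_range.1 ht; omega), Finset.sum_const, Finset.card_range, nsmul_eq_mul]
    push_cast
    ring
  · unfold histE
    have h1 : ∑ t ∈ Finset.range (3 * sts.length + 1),
        ∑ d, (histBu sts v (t + 1) d - half sts t (histBu sts v t) d) ^ 2 = 0 := by
      simp [histBu_succ]
    have h2 : ∑ i ∈ Finset.range (nq - 1) with w ≤ i,
        ∑ d with bitQ d i = true, histBu sts v 0 d ^ 2 = 0 := by
      refine Finset.sum_eq_zero fun i hi => Finset.sum_eq_zero fun d hd => ?_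
      simp only [Finset.mem_filter, Finset.mem_range, Finset.mem_univ, true_and] at hi hd
      rw [histBu_zero, hv d i hi.2 (by omega) hd]
      ring
    rw [h1, h2, ← foldl_half h v]
    simp [histBu]

end Vale.Agent.P370
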