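import Vale.Agent.P370.Qop

/-! The clock penalty. -/

namespace Vale.Agent.P370

open scoped Classical

/-- The indicator of a bit. -/
def histC_i (b : Bool) : ℤ := if b = true then 1 else 0

/-- The penalty of one step. -/
def histC_pk (b0 b1 b2 b3 c : Bool) : ℤ :=
  histC_i b1 * (1 - histC_i b0) + histC_i b2 * (1 - histC_i b0) + histC_i b3 * (1 - histC_i b1) +
    histC_i b3 * (1 - histC_i b2) + histC_i b1 * histC_i c + histC_i b2 * (1 - histC_i c) -
    histC_i b1 * histC_i b2

theorem histC_pk_nonneg : ∀ b0 b1 b2 b3 c : Bool, 0 ≤ histC_pk b0 b1 b2 b3 c := by decide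

theorem histC_pk_zero : ∀ b0 b1 b2 b3 c : Bool, histC_pk b0 b1 b2 b3 c = 0 ↔
    ((b1 = true → b0 = true) ∧ (b2 = true → b0 = true) ∧ (b3 = true → b1 = true) ∧
      (b3 = true → b2 = true) ∧ (c = false → b2 = true → b1 = true) ∧
      (c = true → b1 = true → b2 = true)) := by decide

theorem histC_f21 {n c c' : ℕ} (hc : c < n) (hc' : c' < n) (ξ : (Fin n → Bool) → ℝ) :
    form2 c (mat 2) c' (mat 1) ξ =
      ∑ d, ((histC_i (bitQ d c) * (1 - histC_i (bitQ d c')) : ℤ) : ℝ) * ξ d ^ 2 := by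
  unfold form2
  refine Finset.sum_congr rfl fun d _ => ?_
  rw [opQ_mat2 hc, opQ_mat1 hc']
  cases bitQ d c <;> cases bitQ d c' <;> simp [histC_i, sq]

theorem histC_f22 {n c c' : ℕ} (hc : c < n) (hc' : c' < n) (ξ : (Fin n → Bool) → ℝ) :
    form2 c (mat 2) c' (mat 2) ξ =
      ∑ d, ((histC_i (bitQ d c) * histC_i (bitQ d c') : ℤ) : ℝ) * ξ d ^ 2 := by
  unfold form2
  refine Finset.sum_congr rfl fun d _ => ?_
  rw [opQ_mat2 hc, opQ_mat2 hc']
  cases bitQ d c <;> cases bitQ d c' <;> simp [histC_i, sq]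

theorem histC_hL_flat {n : ℕ} (L : ℕ) (f : ℕ → List Term) (ξ : (Fin n → Bool) → ℝ) :
    hL ((List.range L).flatMap f) ξ = ∑ k ∈ Finset.range L, hL (f k) ξ := by
  induction L with
  | zero => simp [hL]
  | succ L ih =>
    rw [List.range_succ, List.flatMap_append, hL_append, ih, Finset.sum_range_succ]
    simp

theorem histC_lam_append (ts ts' : List Term) : lamSum (ts ++ ts') = lamSum ts + lamSum ts' := by
  simp [lamSum]

theorem histC_lam_flat (L : ℕ) (f : ℕ → List Term) :
    lamSum ((List.range L).flatMap f) = ∑ k ∈ Finset.range L, lamSum (f k) := by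
  induction L with
  | zero => simp [lamSum]
  | succ L ih =>
    rw [List.range_succ, List.flatMap_append, histC_lam_append, ih, Finset.sum_range_succ]
    simp

theorem histC_getD {nq : ℕ} {sts : List Step} (h : ∀ st ∈ sts, StepOK nq st) {k : ℕ}
    (hk : k < sts.length) : StepOK nq (sts.getD k (0, 0, 0, 0)) := by
  rw [List.getD_eq_getElem _ _ hk]
  exact h _ (List.getElem_mem hk)

/-- The total penalty. -/
def histC_pen (nq : ℕ) (sts : List Step) (x : Fin (nq + (3 * sts.length + 1)) → Bool) : ℤ :=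
  ∑ k ∈ Finset.range sts.length, histC_pk (bitQ x (nq + 3 * k)) (bitQ x (nq + 3 * k + 1))
    (bitQ x (nq + 3 * k + 2)) (bitQ x (nq + 3 * k + 3)) (bitQ x (sts.getD k (0, 0, 0, 0)).1)

theorem histC_hL_P {nq : ℕ} {sts : List Step} (h : ∀ st ∈ sts, StepOK nq st) (J1 : ℕ)
    (ξ : (Fin (nq + (3 * sts.length + 1)) → Bool) → ℝ) :
    hL (termsP nq sts J1) ξ = J1 * ∑ x, (histC_pen nq sts x : ℝ) * ξ x ^ 2 := by
  unfold termsP
  rw [histC_hL_flat]
  simp only [histC_pen, Int.cast_sum, Finset.sum_mul]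
  rw [Finset.sum_comm, Finset.mul_sum]
  refine Finset.sum_congr rfl fun k hk => ?_
  have hk' := Finset.mem_range.1 hk
  have hc := (histC_getD h hk').1
  simp only [hL, List.map_cons, List.map_nil, List.sum_cons, List.sum_nil]
  rw [histC_f21 (by omega) (by omega), histC_f21 (by omega) (by omega),
    histC_f21 (by omega) (by omega), histC_f21 (by omega) (by omega),
    histC_f22 (by omega) (by omega), histC_f21 (by omega) (by omega),
    histC_f22 (by omega) (by omega)]
  simp only [Finset.mul_sum, add_zero, ← Finset.sum_add_distrib]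
  refine Finset.sum_congr rfl fun x _ => ?_
  simp only [histC_pk]
  push_cast
  ring

theorem histC_bit_cast {nq m : ℕ} (x : Fin (nq + m) → Bool) {i : ℕ} (hi : i < nq) :
    bitQ (fun i => x (Fin.castAdd m i)) i = bitQ x i := by
  unfold bitQ
  rw [dif_pos hi, dif_pos (by omega)]
  rfl

theorem histC_bit_nat {nq m : ℕ} (x : Fin (nq + m) → Bool) (j : Fin m) :
    x (Fin.natAdd nq j) = bitQ x (nq + j.val) := by
  unfold bitQ
  rw [dif_pos (by have := j.2; omega)]
  rfl

theorem histC_at {nq : ℕ} (sts : List Step) (t : ℕ)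
    (x : Fin (nq + (3 * sts.length + 1)) → Bool) :
    AtTime sts t x ↔ ∀ j < 3 * sts.length + 1,
      bitQ x (nq + j) = decide (posC sts (fun i => x (Fin.castAdd _ i)) j < t) := by
  unfold AtTime
  constructor
  · intro H j hj
    have := H ⟨j, hj⟩
    rwa [histC_bit_nat x] at this
  · intro H j
    rw [histC_bit_nat x]
    exact H j.val j.2

theorem histC_pos0 {nq : ℕ} (sts : List Step) (d : Fin nq → Bool) (k : ℕ) :
    posC sts d (3 * k) = 3 * k := by
  unfold posC
  rw [if_pos (by omega)]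

theorem histC_pos1 {nq : ℕ} (sts : List Step) (d : Fin nq → Bool) (k : ℕ) :
    posC sts d (3 * k + 1) =
      if bitQ d (sts.getD k (0, 0, 0, 0)).1 = false then 3 * k + 1 else 3 * k + 2 := by
  unfold posC
  rw [if_neg (by omega), show (3 * k + 1) / 3 = k by omega]
  split_ifs with h1 h2
  · rfl
  · rfl
  · omega

theorem histC_pos2 {nq : ℕ} (sts : List Step) (d : Fin nq → Bool) (k : ℕ) :
    posC sts d (3 * k + 2) =
      if bitQ d (sts.getD k (0, 0, 0, 0)).1 = false then 3 * k + 2 else 3 * k + 1 := by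
  unfold posC
  rw [if_neg (by omega), show (3 * k + 2) / 3 = k by omega]
  split_ifs with h1 h2
  · rfl
  · omega
  · omega

theorem histC_pos_inv {nq : ℕ} (sts : List Step) (d : Fin nq → Bool) (j : ℕ) :
    posC sts d (posC sts d j) = j ∧ posC sts d j / 3 = j / 3 ∧
      (j % 3 = 0 → posC sts d j = j) := by
  obtain ⟨k, rfl | rfl | rfl⟩ : ∃ k, j = 3 * k ∨ j = 3 * k + 1 ∨ j = 3 * k + 2 :=
    ⟨j / 3, by omega⟩
  · rw [histC_pos0, histC_pos0]
    exact ⟨rfl, rfl, fun _ => rfl⟩
  · by_cases hc : bitQ d (sts.getD k (0, 0, 0, 0)).1 = false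
    · rw [histC_pos1, if_pos hc, histC_pos1, if_pos hc]
      exact ⟨rfl, rfl, fun _ => rfl⟩
    · rw [histC_pos1, if_neg hc, histC_pos2, if_neg hc]
      exact ⟨rfl, by omega, fun _ => by omega⟩
  · by_cases hc : bitQ d (sts.getD k (0, 0, 0, 0)).1 = false
    · rw [histC_pos2, if_pos hc, histC_pos2, if_pos hc]
      exact ⟨rfl, rfl, fun _ => rfl⟩
    · rw [histC_pos2, if_neg hc, histC_pos1, if_neg hc]
      exact ⟨rfl, by omega, fun _ => by omega⟩

theorem histC_mono (B : ℕ → Bool) (N : ℕ) (h : ∀ s, s + 1 < N → B (s + 1) = true → B s = true) :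
    ∃ t ≤ N, ∀ s < N, B s = decide (s < t) := by
  induction N with
  | zero => exact ⟨0, le_rfl, fun s hs => absurd hs (by omega)⟩
  | succ N ih =>
    obtain ⟨t, ht, H⟩ := ih fun s hs => h s (by omega)
    by_cases hB : B N = true
    · refine ⟨N + 1, le_rfl, fun s hs => ?_⟩
      rcases Nat.lt_succ_iff_lt_or_eq.1 hs with h1 | rfl
      · obtain ⟨M, rfl⟩ : ∃ M, N = M + 1 := ⟨N - 1, by omega⟩
        have h2 := H M (by omega)
        rw [h M (by omega) hB] at h2
        have h3 : M < t := by simpa using h2.symm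
        rw [H s h1]
        simp only [decide_eq_decide]
        omega
      · rw [hB]
        simp
    · refine ⟨t, by omega, fun s hs => ?_⟩
      rcases Nat.lt_succ_iff_lt_or_eq.1 hs with h1 | rfl
      · exact H s h1
      · have h2 : ¬ s < t := by omega
        simpa [h2] using hB

theorem histC_pen_nonneg (nq : ℕ) (sts : List Step)
    (x : Fin (nq + (3 * sts.length + 1)) → Bool) : 0 ≤ histC_pen nq sts x :=
  Finset.sum_nonneg fun _ _ => histC_pk_nonneg _ _ _ _ _

theorem histC_pen_legal {nq : ℕ} {sts : List Step} (h : ∀ st ∈ sts, StepOK nq st)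
    {x : Fin (nq + (3 * sts.length + 1)) → Bool} (hx : Legal sts x) : histC_pen nq sts x = 0 := by
  obtain ⟨t, -, ht⟩ := hx
  rw [histC_at] at ht
  refine Finset.sum_eq_zero fun k hk => ?_
  have hk' := Finset.mem_range.1 hk
  have hc := (histC_getD h hk').1
  have h0 := ht (3 * k) (by omega)
  have h1 := ht (3 * k + 1) (by omega)
  have h2 := ht (3 * k + 2) (by omega)
  have h3 := ht (3 * (k + 1)) (by omega)
  rw [histC_pos0] at h0 h3
  rw [histC_pos1, histC_bit_cast x hc] at h1
  rw [histC_pos2, histC_bit_cast x hc] at h2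
  rw [histC_pk_zero, h0, show nq + 3 * k + 1 = nq + (3 * k + 1) by ring, h1,
    show nq + 3 * k + 2 = nq + (3 * k + 2) by ring, h2,
    show nq + 3 * k + 3 = nq + 3 * (k + 1) by ring, h3]
  cases bitQ x (sts.getD k (0, 0, 0, 0)).1 <;> simp <;> omega

theorem histC_pen_pos {nq : ℕ} {sts : List Step} (h : ∀ st ∈ sts, StepOK nq st)
    {x : Fin (nq + (3 * sts.length + 1)) → Bool} (hx : ¬ Legal sts x) : 1 ≤ histC_pen nq sts x := by
  by_contra hlt
  have hz : histC_pen nq sts x = 0 := by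
    have := histC_pen_nonneg nq sts x
    omega
  have hz' := (Finset.sum_eq_zero_iff_of_nonneg fun _ _ => histC_pk_nonneg _ _ _ _ _).1 hz
  obtain ⟨d, hd⟩ : ∃ d : Fin nq → Bool, d = fun i => x (Fin.castAdd _ i) := ⟨_, rfl⟩
  obtain ⟨t, ht, H⟩ := histC_mono (fun s => bitQ x (nq + posC sts d s)) (3 * sts.length + 1) (by
    intro s hs
    obtain ⟨k, hk⟩ : ∃ k, s = 3 * k ∨ s = 3 * k + 1 ∨ s = 3 * k + 2 := ⟨s / 3, by omega⟩
    have hk' : k < sts.length := by omega
    have hc := (histC_getD h hk').1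
    have h1 := (histC_pk_zero _ _ _ _ _).1 (hz' k (Finset.mem_range.2 hk'))
    have hb : bitQ d (sts.getD k (0, 0, 0, 0)).1 = bitQ x (sts.getD k (0, 0, 0, 0)).1 := by
      rw [hd, histC_bit_cast x hc]
    rcases hk with rfl | rfl | rfl
    · simp only [histC_pos0, histC_pos1, hb]
      split_ifs
      · exact h1.1
      · exact h1.2.1
    · simp only [histC_pos1, show 3 * k + 1 + 1 = 3 * k + 2 by ring, histC_pos2, hb]
      split_ifs with h2
      · exact h1.2.2.2.2.1 h2
      · exact h1.2.2.2.2.2 (by simpa using h2)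
    · simp only [histC_pos2, show 3 * k + 2 + 1 = 3 * (k + 1) by ring, histC_pos0, hb]
      rw [show nq + 3 * (k + 1) = nq + 3 * k + 3 by ring]
      split_ifs
      · exact h1.2.2.2.1
      · exact h1.2.2.1)
  refine hx ⟨t, ht, (histC_at _ _ _).2 fun j hj => ?_⟩
  obtain ⟨e1, e2, e3⟩ := histC_pos_inv sts d j
  have h2 := H (posC sts d j) (by omega)
  simp only [e1] at h2
  rw [← hd]
  exact h2

end Vale.Agent.P370
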