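import Vale.Agent.P370.HistA
import Vale.Agent.P370.HistB
import Vale.Agent.P370.HistCA

/-! The logical Hamiltonian of a circuit. -/

namespace Vale.Agent.P370

open scoped Classical

theorem histC_okP {nq : ℕ} {sts : List Step} (h : ∀ st ∈ sts, StepOK nq st) (J1 : ℕ) :
    ∀ t ∈ termsP nq sts J1, TermOK (nq + (3 * sts.length + 1)) t := by
  intro t ht
  unfold termsP at ht
  rw [List.mem_flatMap] at ht
  obtain ⟨k, hk, ht⟩ := ht
  have hk' := List.mem_range.1 hk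
  have hc := (histC_getD h hk').1
  simp only [List.mem_cons, List.not_mem_nil, or_false] at ht
  rcases ht with rfl | rfl | rfl | rfl | rfl | rfl | rfl <;>
    refine ⟨?_, ?_, ?_, ?_, ?_⟩ <;> dsimp only <;> omega

theorem histC_okA {nq : ℕ} (hq : 1 ≤ nq) (w : ℕ) {sts : List Step} (h : ∀ st ∈ sts, StepOK nq st)
    (J2 : ℕ) : ∀ t ∈ termsA nq w sts J2, TermOK (nq + (3 * sts.length + 1)) t := by
  intro t ht
  unfold termsA at ht
  rw [List.mem_append, List.mem_append] at ht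
  rcases ht with (ht | ht) | ht
  · rw [List.mem_flatMap] at ht
    obtain ⟨k, hk, ht⟩ := ht
    have hk' := List.mem_range.1 hk
    obtain ⟨h1, h2, h3, h4, h5⟩ := histC_getD h hk'
    simp only [List.mem_cons, List.not_mem_nil, or_false] at ht
    rcases ht with rfl | rfl | rfl <;>
      refine ⟨?_, ?_, ?_, ?_, ?_⟩ <;> dsimp only <;> omega
  · simp only [List.mem_cons, List.not_mem_nil, or_false] at ht
    rcases ht with rfl | rfl | rfl | rfl <;>
      refine ⟨?_, ?_, ?_, ?_, ?_⟩ <;> dsimp only <;> omega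
  · rw [List.mem_map] at ht
    obtain ⟨i, hi, rfl⟩ := ht
    have hi' := List.mem_range.1 (List.mem_filter.1 hi).1
    refine ⟨?_, ?_, ?_, ?_, ?_⟩ <;> dsimp only <;> omega

theorem histC_lamA (nq w : ℕ) (sts : List Step) (J2 : ℕ) :
    J2 ≤ lamSum (termsA nq w sts J2) ∧
      lamSum (termsA nq w sts J2) ≤ J2 * (3 * sts.length + 4 + nq) + 1 := by
  unfold termsA
  rw [histC_lam_append, histC_lam_append, histC_lam_flat]
  have e1 : ∀ l : List ℕ, lamSum (l.map fun i => ((nq, 1, i, 2, (J2 : ℤ)) : Term)) =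
      l.length * J2 := by
    intro l
    induction l with
    | nil => simp [lamSum]
    | cons a l ih =>
      unfold lamSum at ih ⊢
      simp only [List.map_cons, List.sum_cons, List.length_cons, ih, Int.natAbs_natCast]
      ring
  rw [e1]
  have e2 : ((List.range (nq - 1)).filter fun i => decide (w ≤ i)).length ≤ nq := by
    refine (List.length_filter_le _ _).trans ?_
    simp
  simp only [lamSum, List.map_cons, List.map_nil, List.sum_cons, List.sum_nil, Int.natAbs_neg,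
    Int.natAbs_natCast, Finset.sum_const, Finset.card_range, smul_eq_mul, Int.natAbs_one]
  have e3 := Nat.mul_le_mul_right J2 e2
  constructor
  · omega
  · nlinarith

theorem raw_termOK (c : Raw) (h : ∀ st ∈ c.sts, StepOK c.nq st) : ∀ t ∈ c.ts, TermOK c.nl t := by
  intro t ht
  rcases List.mem_append.1 ht with ht | ht
  · exact histC_okP h _ t ht
  · exact histC_okA (by unfold Raw.nq; omega) _ h _ t ht

theorem raw_j2_le (c : Raw) : c.j2 ≤ lamSum c.ts := by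
  unfold Raw.ts
  rw [histC_lam_append]
  have := (histC_lamA c.nq c.2.1 c.sts c.j2).1
  omega

theorem histC_no {nq : ℕ} (hq : 1 ≤ nq) (w : ℕ) {sts : List Step} (h : ∀ st ∈ sts, StepOK nq st)
    {J1 J2 : ℕ} {a : ℝ} (hJ : 20 * (3 * (sts.length : ℝ) + 2) ≤ J2)
    (ha : (lamSum (termsA nq w sts J2) : ℝ) ≤ a) (hJ1 : 2 * a < J1)
    (H : ∀ v : (Fin nq → Bool) → ℝ, AncZero w v → 2 / 3 * ∑ d, v d ^ 2 ≤ rej (runS sts v))
    (ξ : (Fin (nq + (3 * sts.length + 1)) → Bool) → ℝ) :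
    (1 / (2 * (3 * sts.length + 2)) - J2 - a ^ 2 / (J1 - 2 * a)) * ∑ d, ξ d ^ 2 ≤
      hL (termsP nq sts J1 ++ termsA nq w sts J2) ξ := by
  obtain ⟨Y, hY⟩ : ∃ Y : (Fin (nq + (3 * sts.length + 1)) → Bool) → ℝ,
    Y = fun x => if Legal sts x then ξ x else 0 := ⟨_, rfl⟩
  obtain ⟨Z, hZ⟩ : ∃ Z : (Fin (nq + (3 * sts.length + 1)) → Bool) → ℝ,
    Z = fun x => if Legal sts x then 0 else ξ x := ⟨_, rfl⟩
  have hξ : ξ = fun x => Y x + Z x := by
    funext x
    rw [hY, hZ]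
    dsimp only
    split_ifs <;> simp
  have hn : ∑ d, ξ d ^ 2 = ∑ d, Y d ^ 2 + ∑ d, Z d ^ 2 := by
    rw [← Finset.sum_add_distrib]
    refine Finset.sum_congr rfl fun x _ => ?_
    rw [hY, hZ]
    dsimp only
    split_ifs <;> simp
  obtain ⟨ψ, hψ⟩ := exists_emb sts Y (fun x hx => by rw [hY]; exact if_neg hx)
  obtain ⟨q, hq1, hq2⟩ := hL_split (histC_okA hq w h J2) Y Z
  have hY0 : 0 ≤ ∑ d, Y d ^ 2 := Finset.sum_nonneg fun _ _ => sq_nonneg _
  have hZ0 : 0 ≤ ∑ d, Z d ^ 2 := Finset.sum_nonneg fun _ _ => sq_nonneg _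
  have hL0 : (0 : ℝ) ≤ sts.length := Nat.cast_nonneg _
  have h1 : (1 / (2 * (3 * (sts.length : ℝ) + 2)) - J2) * Real.sqrt (∑ d, Y d ^ 2) ^ 2 ≤
      hL (termsA nq w sts J2) Y := by
    rw [Real.sq_sqrt hY0]
    have e1 := hL_termsA hq w J2 h ψ
    have e2 := hist_no w h hJ H ψ
    rw [← emb_nsq, ← e1, ← hψ] at e2
    linarith
  have h2 : |q| ≤ a * Real.sqrt (∑ d, Y d ^ 2) * Real.sqrt (∑ d, Z d ^ 2) := by
    refine hq2.trans ?_
    gcongr
  have h3 : -a * Real.sqrt (∑ d, Z d ^ 2) ^ 2 ≤ hL (termsA nq w sts J2) Z := by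
    rw [Real.sq_sqrt hZ0]
    have e1 := (abs_le.1 (hL_abs_le (termsA nq w sts J2) Z)).1
    have e2 := mul_le_mul_of_nonneg_right ha hZ0
    linarith
  have h4 : (J1 : ℝ) * Real.sqrt (∑ d, Z d ^ 2) ^ 2 ≤ hL (termsP nq sts J1) ξ := by
    rw [Real.sq_sqrt hZ0, histC_hL_P h]
    refine mul_le_mul_of_nonneg_left (Finset.sum_le_sum fun x _ => ?_) (Nat.cast_nonneg _)
    rw [hZ]
    dsimp only
    split_ifs with hx
    · rw [histC_pen_legal h hx]
      simp
    · have e1 : (1 : ℝ) ≤ histC_pen nq sts x := by exact_mod_cast histC_pen_pos h hx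
      nlinarith [sq_nonneg (ξ x)]
  have h5 : 1 / (2 * (3 * (sts.length : ℝ) + 2)) - J2 ≤ a := by
    have e1 : 1 / (2 * (3 * (sts.length : ℝ) + 2)) ≤ 1 := by
      rw [div_le_one (by positivity)]
      linarith
    linarith
  have h6 := proj_ineq h1 h2 h3 h4 h5 hJ1
  rw [Real.sq_sqrt hY0, Real.sq_sqrt hZ0, ← hn, ← hq1, ← hξ] at h6
  rw [hL_append]
  linarith

theorem raw_no (c : Raw) (h : ∀ st ∈ c.sts, StepOK c.nq st)
    (H : ∀ v : (Fin c.nq → Bool) → ℝ, AncZero c.2.1 v → 2 / 3 * ∑ d, v d ^ 2 ≤ rej (runS c.sts v))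
    (ξ : (Fin c.nl → Bool) → ℝ) :
    (11 / (24 * (c.tT + 1)) - c.j2) * ∑ d, ξ d ^ 2 ≤ hL c.ts ξ := by
  have hT : (c.tT : ℝ) = 3 * c.sts.length + 1 := by
    unfold Raw.tT
    push_cast
    ring
  have hL0 : (0 : ℝ) ≤ c.sts.length := Nat.cast_nonneg _
  have ha1 : 1 ≤ c.a3 := by
    unfold Raw.a3
    omega
  have ha1' : (1 : ℝ) ≤ c.a3 := by exact_mod_cast ha1
  have hj1 : (c.j1 : ℝ) = 2 * c.a3 + 24 * (3 * c.sts.length + 2) * (c.a3 : ℝ) ^ 2 := by
    unfold Raw.j1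
    push_cast
    rw [hT]
    ring
  have h1 := histC_no (nq := c.nq) (by unfold Raw.nq; omega) c.2.1 h (J1 := c.j1) (J2 := c.j2)
    (a := c.a3) (by
      unfold Raw.j2
      push_cast
      rw [hT]
      linarith) (by exact_mod_cast (histC_lamA c.nq c.2.1 c.sts c.j2).2) (by
      rw [hj1]
      have : 0 < 24 * (3 * (c.sts.length : ℝ) + 2) * (c.a3 : ℝ) ^ 2 := by positivity
      linarith) H ξ
  have e : (11 / (24 * ((c.tT : ℝ) + 1)) - c.j2) =
      1 / (2 * (3 * c.sts.length + 2)) - c.j2 - (c.a3 : ℝ) ^ 2 / (c.j1 - 2 * c.a3) := by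
    rw [hj1, hT, add_sub_cancel_left]
    field_simp
    ring
  rw [e]
  exact h1

theorem histC_hL_smul {n : ℕ} (ts : List Term) (r : ℝ) (ξ : (Fin n → Bool) → ℝ) :
    hL ts (fun d => r * ξ d) = r ^ 2 * hL ts ξ := by
  unfold hL
  rw [← List.sum_map_mul_left]
  refine congrArg List.sum (List.map_congr_left fun t _ => ?_)
  unfold form2
  rw [opQ_smul, opQ_smul, Finset.mul_sum, Finset.mul_sum, Finset.mul_sum]
  refine Finset.sum_congr rfl fun d _ => ?_
  ring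

theorem histC_yes {nq : ℕ} (hq : 1 ≤ nq) (w : ℕ) {sts : List Step} (h : ∀ st ∈ sts, StepOK nq st)
    (J1 J2 : ℕ) {v : (Fin nq → Bool) → ℝ} (hv : AncZero w v) (h1 : ∑ d, v d ^ 2 = 1)
    (h2 : rej (runS sts v) ≤ 1 / 3) :
    ∃ ξ : (Fin (nq + (3 * sts.length + 1)) → Bool) → ℝ, ∑ d, ξ d ^ 2 = 1 ∧
      hL (termsP nq sts J1 ++ termsA nq w sts J2) ξ ≤ 1 / (3 * (3 * sts.length + 2)) - J2 := by
  obtain ⟨ψ, e1, e2⟩ := hist_yes w h J2 hv
  rw [h1, mul_one, ← emb_nsq] at e1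
  have e3 := hL_termsA hq w J2 h ψ
  have hL0 : (0 : ℝ) ≤ sts.length := Nat.cast_nonneg _
  have hp : (0 : ℝ) < 3 * sts.length + 2 := by positivity
  have e4 : hL (termsP nq sts J1) (emb sts ψ) = 0 := by
    rw [histC_hL_P h]
    refine mul_eq_zero_of_right _ (Finset.sum_eq_zero fun x _ => ?_)
    by_cases hx : Legal sts x
    · rw [histC_pen_legal h hx]
      simp
    · rw [emb_legal sts ψ x hx]
      simp
  have e5 : (Real.sqrt (1 / (3 * (sts.length : ℝ) + 2))) ^ 2 = 1 / (3 * sts.length + 2) :=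
    Real.sq_sqrt (by positivity)
  refine ⟨fun x => Real.sqrt (1 / (3 * (sts.length : ℝ) + 2)) * emb sts ψ x, ?_, ?_⟩
  · simp only [mul_pow]
    rw [← Finset.mul_sum, e1, e5]
    field_simp
  · rw [histC_hL_smul, e5, hL_append, e4, zero_add]
    have e6 : hL (termsA nq w sts J2) (emb sts ψ) ≤ 1 / 3 - J2 * (3 * sts.length + 2) := by
      rw [e1, e2] at e3
      linarith
    refine (mul_le_mul_of_nonneg_left e6 (by positivity)).trans (le_of_eq ?_)
    field_simp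

theorem raw_yes (c : Raw) (h : ∀ st ∈ c.sts, StepOK c.nq st) {v : (Fin c.nq → Bool) → ℝ}
    (hv : AncZero c.2.1 v) (h1 : ∑ d, v d ^ 2 = 1) (h2 : rej (runS c.sts v) ≤ 1 / 3) :
    ∃ ξ : (Fin c.nl → Bool) → ℝ, ∑ d, ξ d ^ 2 = 1 ∧ hL c.ts ξ ≤ 1 / (3 * (c.tT + 1)) - c.j2 := by
  have hT : (c.tT : ℝ) + 1 = 3 * c.sts.length + 2 := by
    unfold Raw.tT
    push_cast
    ring
  rw [hT]
  exact histC_yes (nq := c.nq) (by unfold Raw.nq; omega) c.2.1 h c.j1 c.j2 hv h1 h2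

end Vale.Agent.P370
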