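import Vale.Agent.P370.Qop

/-! Two-qubit terms as combinations of occupation numbers. -/

namespace Vale.Agent.P370

open scoped Classical

theorem lin_nat_sqrt (x : ℕ) : |(Nat.sqrt x : ℝ) - √(x : ℝ)| ≤ 1 :=
  abs_le.2 ⟨by linarith [Real.real_sqrt_le_nat_sqrt_succ (a := x)],
    by linarith [Real.nat_sqrt_le_real_sqrt (a := x)]⟩

theorem lin_sqrt_le {u v : ℝ} (hv : 0 ≤ v) (h : u ≤ v + 1) : √u ≤ √v + 1 :=
  Real.sqrt_le_iff.2 ⟨by positivity, by nlinarith [Real.sq_sqrt hv, Real.sqrt_nonneg v]⟩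

theorem lin_comp {x : ℕ} {c K m : ℝ} (hc : 0 ≤ c) (hK : 0 < K) (hm : 2 ≤ m)
    (h : |(x : ℝ) - c * K ^ 2| ≤ 1) : |(Nat.sqrt x : ℝ) / (m * K) - √c / m| ≤ 1 / K := by
  have h1 := abs_le.1 (lin_nat_sqrt x)
  have h2 := abs_le.1 h
  have h3 := lin_sqrt_le (u := x) (v := c * K ^ 2) (by positivity) (by linarith)
  have h4 := lin_sqrt_le (u := c * K ^ 2) (v := x) (by positivity) (by linarith)
  rw [Real.sqrt_mul hc, Real.sqrt_sq hK.le] at h3 h4
  have h5 : |(Nat.sqrt x : ℝ) - √c * K| ≤ m := abs_le.2 ⟨by linarith, by linarith⟩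
  have h6 : 0 < m := by linarith
  rw [show (Nat.sqrt x : ℝ) / (m * K) - √c / m = ((Nat.sqrt x : ℝ) - √c * K) / (m * K) by field_simp,
    abs_div, abs_of_pos (mul_pos h6 hK), div_le_div_iff₀ (mul_pos h6 hK) hK]
  nlinarith

theorem lin_inner (c K : ℕ) : |(Nat.sqrt (c * K ^ 4) : ℝ) - √(c : ℝ) * (K : ℝ) ^ 2| ≤ 1 := by
  have h := lin_nat_sqrt (c * K ^ 4)
  rwa [Nat.cast_mul, Real.sqrt_mul (Nat.cast_nonneg c), Nat.cast_pow,
    show (K : ℝ) ^ 4 = ((K : ℝ) ^ 2) ^ 2 by ring, Real.sqrt_sq (by positivity)] at h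

/-- The exact components of `mat A`. -/
noncomputable def linCmp (A : ℕ) : ℝ × ℝ × ℝ :=
  if A = 0 then (1, 0, 0) else if A = 1 then (1 / 2, 0, 1 / 2)
  else if A = 2 then (1 / 2, 0, -(1 / 2))
  else if A = 3 then (0, √3 / 3, 0)
  else if A = 4 then (0, 0, 1)
  else if A = 5 then (0, √6 / 6, √2 / 2)
  else (0, √(6 - √18) / 6, √(2 + √2) / 2)

/-- The exact coefficient of `nM k` in `mat A`. -/
noncomputable def linCo (A k : ℕ) : ℝ :=
  (linCmp A).1 * (47 / 126) +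
    (linCmp A).2.1 * (if k = 1 then 0 else if k = 2 then 47 / 3 else -(47 / 3)) +
    (linCmp A).2.2 * (if k = 1 then -(94 / 9) else 47 / 9)

theorem lin_s18 : (15 / 4 : ℝ) ≤ √18 ∧ √18 ≤ 6 :=
  ⟨Real.le_sqrt_of_sq_le (by norm_num), Real.sqrt_le_iff.2 ⟨by norm_num, by norm_num⟩⟩

theorem lin_mat (A : ℕ) : mat A = m2 (linCmp A).1 (√3 * (linCmp A).2.1) (linCmp A).2.2 := by
  have h3 : √3 * √3 = 3 := Real.mul_self_sqrt (by norm_num)
  have h6 : √6 = √3 * √2 := by rw [← Real.sqrt_mul (by norm_num)]; norm_num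
  have h18 : √18 = 3 * √2 := by
    rw [show (18 : ℝ) = 3 ^ 2 * 2 by norm_num, Real.sqrt_mul (by norm_num), Real.sqrt_sq (by norm_num)]
  have h7 : √(6 - √18) = √3 * √(2 - √2) := by
    rw [← Real.sqrt_mul (by norm_num), h18]
    congr 1
    ring
  unfold mat linCmp
  split_ifs
  · simp
  · simp
  · simp
  · congr 1
    linarith
  · simp
  · congr 1
    rw [h6]
    linear_combination (-√2 / 6) * h3
  · rw [Real.sin_pi_div_eight, Real.cos_pi_div_eight, h7]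
    congr 1
    linear_combination (-√(2 - √2) / 6) * h3

theorem lin_mat_comb (A : ℕ) : mat A = fun b b' =>
    linCo A 1 * nM 1 b b' + linCo A 2 * nM 2 b b' + linCo A 3 * nM 3 b b' := by
  rw [lin_mat]
  funext b b'
  cases b <;> cases b' <;> simp [linCo, nM, m2] <;> ring

theorem lin_co_le (A k : ℕ) : |linCo A k| ≤ 21 / 2 := by
  have h2 : √2 ≤ 3 / 2 := Real.sqrt_le_iff.2 ⟨by norm_num, by norm_num⟩
  have h3 : √3 ≤ 9 / 5 := Real.sqrt_le_iff.2 ⟨by norm_num, by norm_num⟩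
  have h6 : √6 ≤ 5 / 2 := Real.sqrt_le_iff.2 ⟨by norm_num, by norm_num⟩
  have h7 : √(6 - √18) ≤ 3 / 2 := Real.sqrt_le_iff.2 ⟨by norm_num, by linarith [lin_s18.1]⟩
  have h8 : √(2 + √2) ≤ 2 := Real.sqrt_le_iff.2 ⟨by norm_num, by linarith⟩
  have p2 := Real.sqrt_nonneg 2
  have p3 := Real.sqrt_nonneg 3
  have p6 := Real.sqrt_nonneg 6
  have p7 := Real.sqrt_nonneg (6 - √18)
  have p8 := Real.sqrt_nonneg (2 + √2)
  unfold linCo linCmp
  split_ifs <;> exact abs_le.2 ⟨by dsimp only; linarith, by dsimp only; linarith⟩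

theorem lin_cmp_close {K0 : ℕ} (hK : 0 < K0) (A : ℕ) :
    ((cmpQ K0 A).1 : ℝ) = (linCmp A).1 ∧ |((cmpQ K0 A).2.1 : ℝ) - (linCmp A).2.1| ≤ 1 / K0 ∧
      |((cmpQ K0 A).2.2 : ℝ) - (linCmp A).2.2| ≤ 1 / K0 := by
  have hK' : (0 : ℝ) < K0 := Nat.cast_pos.2 hK
  have h0 : (0 : ℝ) ≤ 1 / K0 := by positivity
  have h1 : ∀ (c : ℕ) (m : ℝ), 2 ≤ m →
      |(Nat.sqrt (c * K0 ^ 2) : ℝ) / (m * K0) - √(c : ℝ) / m| ≤ 1 / K0 :=
    fun c m hm => lin_comp (Nat.cast_nonneg c) hK' hm (by simp)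
  have h2 : Nat.sqrt (18 * K0 ^ 4) ≤ 6 * K0 ^ 2 :=
    (Nat.sqrt_le_sqrt (show 18 * K0 ^ 4 ≤ (6 * K0 ^ 2) ^ 2 by nlinarith [Nat.zero_le (K0 ^ 4)])).trans
      (Nat.sqrt_eq' _).le
  have h3 := lin_comp (x := 6 * K0 ^ 2 - Nat.sqrt (18 * K0 ^ 4)) (c := 6 - √18) (m := 6)
    (by linarith [lin_s18.2]) hK' (by norm_num) (by
      have := abs_le.1 (lin_inner 18 K0)
      rw [Nat.cast_sub h2]
      push_cast at this ⊢
      exact abs_le.2 ⟨by linarith, by linarith⟩)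
  have h4 := lin_comp (x := 2 * K0 ^ 2 + Nat.sqrt (2 * K0 ^ 4)) (c := 2 + √2) (m := 2)
    (by positivity) hK' le_rfl (by
      have := abs_le.1 (lin_inner 2 K0)
      push_cast at this ⊢
      exact abs_le.2 ⟨by linarith, by linarith⟩)
  unfold cmpQ linCmp
  split_ifs
  · simp
  · simp
  · simp
  · exact ⟨by simp, by simpa using h1 3 3 (by norm_num), by simp⟩
  · simp
  · exact ⟨by simp, by simpa using h1 6 6 (by norm_num), by simpa using h1 2 2 le_rfl⟩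
  · exact ⟨by simp, by simpa using h3, by simpa using h4⟩

theorem lin_co_close {K0 : ℕ} (hK : 0 < K0) (A k : ℕ) :
    |(coQ K0 A k : ℝ) - linCo A k| ≤ 30 * (1 / K0) := by
  obtain ⟨h1, h2, h3⟩ := lin_cmp_close hK A
  have h0 : (0 : ℝ) ≤ 1 / K0 := by positivity
  rw [abs_le] at h2 h3 ⊢
  unfold coQ linCo
  split_ifs <;> push_cast <;> rw [h1] <;> constructor <;> linarith [h2.1, h2.2, h3.1, h3.2]

theorem lin_coQ_le {K0 : ℕ} (hK : 100 ≤ K0) (A k : ℕ) : |(coQ K0 A k : ℝ)| ≤ 11 := by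
  have h1 := abs_le.1 (lin_co_close (by omega : 0 < K0) A k)
  have h2 := abs_le.1 (lin_co_le A k)
  have h3 : (1 : ℝ) / K0 ≤ 1 / 100 := one_div_le_one_div_of_le (by norm_num) (by exact_mod_cast hK)
  exact abs_le.2 ⟨by linarith, by linarith⟩

theorem lin_wt (Ks : ℕ) {K0 : ℕ} (hK : 100 ≤ K0) (t : Term) (k l : ℕ) :
    (wtT Ks K0 t k l : ℝ) ≤ 260 * Ks * t.2.2.2.2.natAbs ∧
    |(wtT Ks K0 t k l : ℝ) - Ks * (t.2.2.2.2 * (linCo t.2.1 k * linCo t.2.2.2.1 l) +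
      130 * t.2.2.2.2.natAbs)| ≤ 1 + 660 * Ks * t.2.2.2.2.natAbs * (1 / K0) := by
  obtain ⟨p, A, q, B, z⟩ := t
  dsimp only
  obtain ⟨r, hr⟩ : ∃ r : ℚ, r = (Ks : ℚ) * ((z : ℚ) * coQ K0 A k * coQ K0 B l +
    130 * (z.natAbs : ℚ)) := ⟨_, rfl⟩
  have e1 : wtT Ks K0 (p, A, q, B, z) k l = ⌊r⌋₊ := by rw [hr]; rfl
  have e2 : (r : ℝ) = Ks * (z * (coQ K0 A k * coQ K0 B l) + 130 * z.natAbs) := by
    rw [hr, mul_assoc (z : ℚ)]
    simp only [Rat.cast_mul, Rat.cast_add, Rat.cast_natCast, Rat.cast_intCast, Rat.cast_ofNat]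
  have e3 : ((z.natAbs : ℕ) : ℝ) = |(z : ℝ)| := by rw [Nat.cast_natAbs, Int.cast_abs]
  have a1 := lin_coQ_le hK A k
  have a2 := lin_coQ_le hK B l
  have a3 := lin_co_close (by omega : 0 < K0) A k
  have a4 := lin_co_close (by omega : 0 < K0) B l
  have a5 := lin_co_le A k
  generalize (coQ K0 A k : ℝ) = x at *
  generalize (coQ K0 B l : ℝ) = y at *
  generalize linCo A k = x' at *
  generalize linCo B l = y' at *
  have hKs : (0 : ℝ) ≤ Ks := Nat.cast_nonneg _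
  have b1 : |(z : ℝ) * (x * y)| ≤ |(z : ℝ)| * 130 := by
    rw [abs_mul, abs_mul]
    exact mul_le_mul_of_nonneg_left (by nlinarith [abs_nonneg x, abs_nonneg y]) (abs_nonneg _)
  have b2 : |x * y - x' * y'| ≤ 660 * (1 / K0) := by
    rw [show x * y - x' * y' = (x - x') * y + x' * (y - y') by ring]
    refine (abs_add_le _ _).trans ?_
    rw [abs_mul, abs_mul]
    nlinarith [abs_nonneg (x - x'), abs_nonneg (y - y'), abs_nonneg y, abs_nonneg x']
  have b3 : |(Ks : ℝ) * (z * (x * y - x' * y'))| ≤ Ks * (|(z : ℝ)| * (660 * (1 / K0))) := by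
    rw [abs_mul, abs_mul, abs_of_nonneg hKs]
    gcongr
  rw [abs_le] at b1 b3
  have c0 : (0 : ℝ) ≤ r := by rw [e2, e3]; exact mul_nonneg hKs (by linarith)
  have c1 : ((⌊r⌋₊ : ℕ) : ℝ) ≤ r := by exact_mod_cast Nat.floor_le (show 0 ≤ r by exact_mod_cast c0)
  have c2 : (r : ℝ) < (⌊r⌋₊ : ℕ) + 1 := by exact_mod_cast Nat.lt_floor_add_one r
  rw [e1, e3]
  rw [e2, e3] at c1 c2
  exact ⟨by nlinarith, abs_le.2 ⟨by nlinarith, by nlinarith⟩⟩

theorem lin_pick (n p : ℕ) (G : ℕ → ℝ) :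
    ∑ a : Fin (4 * n), (if p = a.val / 4 ∧ a.val % 4 ≠ 0 then G (a.val % 4) else 0) =
      if p < n then G 1 + G 2 + G 3 else 0 := by
  rw [Fin.sum_univ_eq_sum_range (fun a => if p = a / 4 ∧ a % 4 ≠ 0 then G (a % 4) else 0)]
  induction n with
  | zero => simp
  | succ n ih =>
    rw [show 4 * (n + 1) = 4 * n + 1 + 1 + 1 + 1 by ring]
    simp only [Finset.sum_range_succ, ih]
    rw [show 4 * n % 4 = 0 by omega, show (4 * n + 1) % 4 = 1 by omega,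
      show (4 * n + 1 + 1) % 4 = 2 by omega, show (4 * n + 1 + 1 + 1) % 4 = 3 by omega,
      show (4 * n + 1) / 4 = n by omega, show (4 * n + 1 + 1) / 4 = n by omega,
      show (4 * n + 1 + 1 + 1) / 4 = n by omega]
    rcases lt_trichotomy p n with h | rfl | h
    · simp [h, h.ne, h.le]
    · simp
    · simp [h.ne', h.not_gt, h.not_ge]

/-- The sum over the nine pairs of labels. -/
def linS (H : ℕ → ℕ → ℝ) : ℝ :=
  (H 1 1 + H 1 2 + H 1 3) + (H 2 1 + H 2 2 + H 2 3) + (H 3 1 + H 3 2 + H 3 3)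

theorem lin_pick2 (n p q : ℕ) (H : ℕ → ℕ → ℝ) :
    ∑ a : Fin (4 * n), ∑ b : Fin (4 * n), (if p = a.val / 4 ∧ q = b.val / 4 ∧ a.val % 4 ≠ 0 ∧
      b.val % 4 ≠ 0 then H (a.val % 4) (b.val % 4) else 0) = if p < n ∧ q < n then linS H else 0 := by
  have h1 : ∀ a : Fin (4 * n), ∑ b : Fin (4 * n), (if p = a.val / 4 ∧ q = b.val / 4 ∧
      a.val % 4 ≠ 0 ∧ b.val % 4 ≠ 0 then H (a.val % 4) (b.val % 4) else 0) =
      if p = a.val / 4 ∧ a.val % 4 ≠ 0 then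
        (if q < n then H (a.val % 4) 1 + H (a.val % 4) 2 + H (a.val % 4) 3 else 0) else 0 := by
    intro a
    rw [← lin_pick n q (H (a.val % 4))]
    split_ifs with h
    · exact Finset.sum_congr rfl fun b _ => if_congr (by tauto) rfl rfl
    · exact Finset.sum_eq_zero fun b _ => if_neg (by tauto)
  simp only [h1]
  rw [lin_pick n p fun k => if q < n then H k 1 + H k 2 + H k 3 else 0, linS]
  by_cases hp : p < n <;> by_cases hq : q < n <;> simp [hp, hq]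

theorem lin_sym {N : ℕ} (F : Fin N → Fin N → ℝ) :
    ∑ a : Fin N, ∑ b : Fin N with a < b ∧ a.val / 4 ≠ b.val / 4, (F a b + F b a) =
      ∑ a : Fin N, ∑ b : Fin N, if a.val / 4 ≠ b.val / 4 then F a b else 0 := by
  simp only [Finset.sum_filter, Finset.sum_add_distrib]
  rw [Finset.sum_comm (f := fun a b : Fin N => if a < b ∧ a.val / 4 ≠ b.val / 4 then F b a else 0),
    ← Finset.sum_add_distrib]
  refine Finset.sum_congr rfl fun a _ => ?_
  rw [← Finset.sum_add_distrib]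
  refine Finset.sum_congr rfl fun b _ => ?_
  rcases lt_trichotomy a b with h | rfl | h
  · simp [h, h.not_gt]
  · simp
  · simp [h, h.not_gt, eq_comm]

/-- One half of the weight of a term. -/
def linW (Ks K0 : ℕ) (t : Term) (a b : ℕ) : ℕ :=
  if t.1 = a / 4 ∧ t.2.2.1 = b / 4 ∧ a % 4 ≠ 0 ∧ b % 4 ≠ 0 then wtT Ks K0 t (a % 4) (b % 4) else 0

theorem lin_uT_cons (Ks K0 : ℕ) (t : Term) (ts : List Term) (a b : ℕ) :
    uT Ks K0 (t :: ts) a b = linW Ks K0 t a b + linW Ks K0 t b a + uT Ks K0 ts a b := by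
  simp only [uT, linW, List.map_cons, List.sum_cons]
  congr 2
  exact if_congr (by tauto) rfl rfl

theorem lin_lam_cons (t : Term) (ts : List Term) :
    lamSum (t :: ts) = t.2.2.2.2.natAbs + lamSum ts := by simp [lamSum]

theorem lin_form {n : ℕ} (p q : ℕ) (c c' : ℕ → ℝ) (ξ : (Fin n → Bool) → ℝ) :
    form2 p (fun b b' => c 1 * nM 1 b b' + c 2 * nM 2 b b' + c 3 * nM 3 b b') q
      (fun b b' => c' 1 * nM 1 b b' + c' 2 * nM 2 b b' + c' 3 * nM 3 b b') ξ =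
      linS fun k l => c k * c' l * form2 p (nM k) q (nM l) ξ := by
  simp only [form2, linS, Finset.mul_sum, ← Finset.sum_add_distrib]
  refine Finset.sum_congr rfl fun d _ => ?_
  unfold opQ
  split_ifs
  · simp only [Fintype.sum_bool]
    ring
  · simp
  · simp

theorem lin_term {n : ℕ} {t : Term} (h : TermOK n t) (Ks : ℕ) {K0 : ℕ} (hK : 100 ≤ K0)
    (ξ : (Fin n → Bool) → ℝ) :
    |hU (fun a b => ((linW Ks K0 t a b + linW Ks K0 t b a : ℕ) : ℝ)) ξ -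
        Ks * (t.2.2.2.2 * form2 t.1 (mat t.2.1) t.2.2.1 (mat t.2.2.2.1) ξ +
          130 * t.2.2.2.2.natAbs * (126 / 47) ^ 2 * ∑ d, ξ d ^ 2)| ≤
      (9 + 6000 * Ks * t.2.2.2.2.natAbs / K0) * ∑ d, ξ d ^ 2 := by
  obtain ⟨h1, h2, h3, -⟩ := h
  obtain ⟨F, hF⟩ : ∃ F : ℕ → ℕ → ℝ, ∀ k l, F k l = form2 t.1 (nM k) t.2.2.1 (nM l) ξ :=
    ⟨_, fun _ _ => rfl⟩
  have e1 : hU (fun a b => ((linW Ks K0 t a b + linW Ks K0 t b a : ℕ) : ℝ)) ξ =
      linS fun k l => wtT Ks K0 t k l * F k l := by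
    have e2 := lin_pick2 n t.1 t.2.2.1 fun k l => wtT Ks K0 t k l * F k l
    rw [if_pos ⟨h1, h2⟩] at e2
    rw [← e2, hU, Finset.sum_congr rfl fun a _ => Finset.sum_congr rfl fun b hb => ?_,
      lin_sym fun a b : Fin (4 * n) => linW Ks K0 t a b *
        form2 (a.val / 4) (nM (a.val % 4)) (b.val / 4) (nM (b.val % 4)) ξ]
    · refine Finset.sum_congr rfl fun a _ => Finset.sum_congr rfl fun b _ => ?_
      unfold linW
      by_cases h : t.1 = a.val / 4 ∧ t.2.2.1 = b.val / 4 ∧ a.val % 4 ≠ 0 ∧ b.val % 4 ≠ 0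
      · rw [if_pos h, if_pos h, if_pos (h.1 ▸ h.2.1 ▸ h3), hF, h.1, h.2.1]
      · simp only [if_neg h, Nat.cast_zero, zero_mul, ite_self]
    · rw [form2_swap (Finset.mem_filter.1 hb).2.2.symm, Nat.cast_add, add_mul]
  have e2 : form2 t.1 (mat t.2.1) t.2.2.1 (mat t.2.2.2.1) ξ =
      linS fun k l => linCo t.2.1 k * linCo t.2.2.2.1 l * F k l := by
    rw [lin_mat_comb, lin_mat_comb t.2.2.2.1, lin_form]
    simp only [hF]
  have e3 : ∑ d, ξ d ^ 2 = linS fun k l => 47 / 126 * (47 / 126) * F k l := by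
    have e4 := lin_form t.1 t.2.2.1 (linCo 0) (linCo 0) ξ
    rw [← lin_mat_comb, form2, opQ_mat0 h2, opQ_mat0 h1] at e4
    simpa [linCo, linCmp, hF, sq] using e4
  have b : ∀ k l, |(wtT Ks K0 t k l - Ks * (t.2.2.2.2 * (linCo t.2.1 k * linCo t.2.2.2.1 l) +
      130 * t.2.2.2.2.natAbs)) * F k l| ≤
      (1 + 660 * Ks * t.2.2.2.2.natAbs * (1 / K0)) * ∑ d, ξ d ^ 2 := by
    intro k l
    rw [abs_mul]
    exact mul_le_mul (lin_wt Ks hK t k l).2 (hF k l ▸ form2_abs_le _ _ (nM_contr k) (nM_contr l) ξ)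
      (abs_nonneg _) (by positivity)
  have e5 : hU (fun a b => ((linW Ks K0 t a b + linW Ks K0 t b a : ℕ) : ℝ)) ξ -
      Ks * (t.2.2.2.2 * form2 t.1 (mat t.2.1) t.2.2.1 (mat t.2.2.2.1) ξ +
        130 * t.2.2.2.2.natAbs * (126 / 47) ^ 2 * ∑ d, ξ d ^ 2) =
      linS fun k l => (wtT Ks K0 t k l - Ks * (t.2.2.2.2 * (linCo t.2.1 k * linCo t.2.2.2.1 l) +
        130 * t.2.2.2.2.natAbs)) * F k l := by
    rw [e1, e2, e3]
    simp only [linS]
    ring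
  have p : 0 ≤ (Ks : ℝ) * t.2.2.2.2.natAbs * (1 / K0) * ∑ d, ξ d ^ 2 := by positivity
  rw [e5, linS, div_eq_mul_one_div]
  simp only [abs_le] at b ⊢
  constructor <;> linarith [b 1 1, b 1 2, b 1 3, b 2 1, b 2 2, b 2 3, b 3 1, b 3 2, b 3 3]

theorem lin_approx {n : ℕ} {ts : List Term} (h : ∀ t ∈ ts, TermOK n t) (Ks : ℕ) {K0 : ℕ}
    (hK : 100 ≤ K0) (ξ : (Fin n → Bool) → ℝ) :
    |hU (fun a b => (uT Ks K0 ts a b : ℝ)) ξ -
        Ks * (hL ts ξ + 130 * lamSum ts * (126 / 47) ^ 2 * ∑ d, ξ d ^ 2)| ≤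
      (9 * ts.length + 6000 * Ks * lamSum ts / K0) * ∑ d, ξ d ^ 2 := by
  induction ts with
  | nil => simp [hU, uT, hL, lamSum]
  | cons t ts ih =>
    have h1 := abs_le.1 (ih fun t' ht' => h t' (List.mem_cons_of_mem _ ht'))
    have h2 := abs_le.1 (lin_term (h t List.mem_cons_self) Ks hK ξ)
    have e1 : hU (fun a b => (uT Ks K0 (t :: ts) a b : ℝ)) ξ =
        hU (fun a b => ((linW Ks K0 t a b + linW Ks K0 t b a : ℕ) : ℝ)) ξ +
          hU (fun a b => (uT Ks K0 ts a b : ℝ)) ξ := by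
      simp only [hU, lin_uT_cons, Nat.cast_add (_ + _), add_mul, Finset.sum_add_distrib]
    have e2 : hL (t :: ts) ξ =
        t.2.2.2.2 * form2 t.1 (mat t.2.1) t.2.2.1 (mat t.2.2.2.1) ξ + hL ts ξ := by simp [hL]
    rw [e1, e2, lin_lam_cons, List.length_cons, Nat.cast_add, Nat.cast_add, Nat.cast_one, mul_add (_ * _),
      add_div]
    exact abs_le.2 ⟨by linarith, by linarith⟩

theorem uT_symm (Ks K0 : ℕ) (ts : List Term) (a b : ℕ) : uT Ks K0 ts a b = uT Ks K0 ts b a := by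
  induction ts with
  | nil => rfl
  | cons t ts ih => rw [lin_uT_cons, lin_uT_cons, ih, add_comm (linW Ks K0 t a b)]

theorem uT_le (Ks : ℕ) {K0 : ℕ} (hK : 100 ≤ K0) (ts : List Term) (a b : ℕ) :
    uT Ks K0 ts a b ≤ 2340 * Ks * lamSum ts := by
  induction ts with
  | nil => simp [uT]
  | cons t ts ih =>
    have h : ∀ a b, linW Ks K0 t a b ≤ 260 * Ks * t.2.2.2.2.natAbs := by
      intro a b
      unfold linW
      split_ifs
      · exact_mod_cast (lin_wt Ks hK t _ _).1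
      · exact Nat.zero_le _
    rw [lin_uT_cons, lin_lam_cons]
    nlinarith [h a b, h b a, Nat.zero_le (Ks * t.2.2.2.2.natAbs)]

theorem uT_sum_le {n : ℕ} (Ks : ℕ) {K0 : ℕ} (hK : 100 ≤ K0) (ts : List Term) :
    ∑ a : Fin (4 * n), ∑ b : Fin (4 * n) with a < b ∧ a.val / 4 ≠ b.val / 4,
      (uT Ks K0 ts a.val b.val : ℝ) ≤ 2340 * Ks * lamSum ts := by
  induction ts with
  | nil => simp [uT, lamSum]
  | cons t ts ih =>
    have h1 : ∑ a : Fin (4 * n), ∑ b : Fin (4 * n) with a < b ∧ a.val / 4 ≠ b.val / 4,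
        ((linW Ks K0 t a b : ℝ) + linW Ks K0 t b a) ≤ 2340 * Ks * t.2.2.2.2.natAbs := by
      rw [lin_sym fun a b : Fin (4 * n) => (linW Ks K0 t a b : ℝ)]
      refine (Finset.sum_le_sum fun a _ => Finset.sum_le_sum fun b _ => ?_).trans
        ((lin_pick2 n t.1 t.2.2.1 fun k l => wtT Ks K0 t k l).le.trans ?_)
      · unfold linW
        split_ifs <;> simp
      · have h := fun k l => (lin_wt Ks hK t k l).1
        split_ifs
        · unfold linS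
          linarith [h 1 1, h 1 2, h 1 3, h 2 1, h 2 2, h 2 3, h 3 1, h 3 2, h 3 3]
        · positivity
    simp only [lin_uT_cons, lin_lam_cons, Nat.cast_add, Finset.sum_add_distrib] at h1 ⊢
    linarith

end Vale.Agent.P370
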