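import Vale.Agent.P370.DDefs

/-! The charging energy projects onto valid placements. -/

namespace Vale.Agent.P370

open scoped Classical

theorem p1_deg {K : ℕ} (m : Fin K) :
    ∑ e ∈ E4 K, ((if m = e.1 then (1 : ℝ) else 0) + if m = e.2 then 1 else 0) ≤ 3 := by
  have h1 : ((E4 K).filter fun e => m = e.1).card ≤ (Finset.Ioo m.val (4 * (m.val / 4) + 4)).card := by
    refine Finset.card_le_card_of_injOn (fun e => e.2.val) (fun e he => ?_) fun e he e' he' h => ?_
    · simp only [E4, Finset.coe_filter, Finset.mem_filter, Finset.mem_univ, true_and,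
        Set.mem_ofPred_eq, Fin.lt_def] at he
      obtain ⟨⟨h1, h2⟩, rfl⟩ := he
      simp only [Finset.coe_Ioo, Set.mem_Ioo]
      omega
    · exact Prod.ext ((Finset.mem_filter.1 he).2.symm.trans (Finset.mem_filter.1 he').2) (Fin.ext h)
  have h2 : ((E4 K).filter fun e => m = e.2).card ≤ (Finset.Ico (4 * (m.val / 4)) m.val).card := by
    refine Finset.card_le_card_of_injOn (fun e => e.1.val) (fun e he => ?_) fun e he e' he' h => ?_
    · simp only [E4, Finset.coe_filter, Finset.mem_filter, Finset.mem_univ, true_and,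
        Set.mem_ofPred_eq, Fin.lt_def] at he
      obtain ⟨⟨h1, h2⟩, rfl⟩ := he
      simp only [Finset.coe_Ico, Set.mem_Ico]
      omega
    · exact Prod.ext (Fin.ext h) ((Finset.mem_filter.1 he).2.symm.trans (Finset.mem_filter.1 he').2)
  rw [Nat.card_Ioo] at h1
  rw [Nat.card_Ico] at h2
  rw [Finset.sum_add_distrib, Finset.sum_boole, Finset.sum_boole]
  exact_mod_cast (by omega : ((E4 K).filter fun e => m = e.1).card +
    ((E4 K).filter fun e => m = e.2).card ≤ 3)

theorem p1_upd {N K : ℕ} (f : (Fin N → Fin K) → ℝ) (i : Fin N) (b c : Fin K) :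
    ∑ a with a i = b, f (Function.update a i c) = ∑ a with a i = c, f a := by
  refine Finset.sum_nbij' (fun a => Function.update a i c) (fun a => Function.update a i b)
    (fun a _ => by simp) (fun a _ => by simp) (fun a ha => ?_) (fun a ha => ?_) fun a _ => rfl
  · rw [Function.update_idem, ← (Finset.mem_filter.1 ha).2, Function.update_eq_self]
  · rw [Function.update_idem, ← (Finset.mem_filter.1 ha).2, Function.update_eq_self]

theorem p1_ends {N K : ℕ} (X : Ten N K) :
    ∑ s, ∑ i, ∑ e ∈ E4 K, ∑ a with a i = e.1, (X s a ^ 2 + X s (Function.update a i e.2) ^ 2) ≤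
      3 * N * nrmT X := by
  rw [nrmT, Finset.mul_sum]
  refine Finset.sum_le_sum fun s _ => ?_
  have h : ∀ i : Fin N, ∑ e ∈ E4 K, ∑ a with a i = e.1,
      (X s a ^ 2 + X s (Function.update a i e.2) ^ 2) ≤ 3 * ∑ a, X s a ^ 2 := fun i => by
    have h1 : ∀ e : Fin K × Fin K, ∑ a with a i = e.1,
        (X s a ^ 2 + X s (Function.update a i e.2) ^ 2) =
        ∑ a, ((if a i = e.1 then (1 : ℝ) else 0) + if a i = e.2 then 1 else 0) * X s a ^ 2 :=
      fun e => by
        rw [Finset.sum_add_distrib, p1_upd (fun a => X s a ^ 2), Finset.sum_filter,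
          Finset.sum_filter, ← Finset.sum_add_distrib]
        refine Finset.sum_congr rfl fun a _ => ?_
        rw [add_mul, boole_mul, boole_mul]
    simp only [h1]
    rw [Finset.sum_comm, Finset.mul_sum]
    refine Finset.sum_le_sum fun a _ => ?_
    rw [← Finset.sum_mul]
    exact mul_le_mul_of_nonneg_right (p1_deg (a i)) (sq_nonneg _)
  refine (Finset.sum_le_sum fun i _ => h i).trans (le_of_eq ?_)
  rw [Finset.sum_const, Finset.card_univ, Fintype.card_fin, nsmul_eq_mul]
  ring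

theorem p1_hop {N K : ℕ} {C Y Z : Ten N K} (h1 : ∀ s a, C s a = Y s a + Z s a)
    (h2 : ∀ s a, Y s a * Z s a = 0) {t : ℝ} (ht : 0 < t) :
    hopT (E4 K) Y ≤ hopT (E4 K) C + t * (3 * N * nrmT Y) + t⁻¹ * (3 * N * nrmT Z) := by
  refine le_trans ?_ (add_le_add (add_le_add le_rfl (mul_le_mul_of_nonneg_left (p1_ends Y) ht.le))
    (mul_le_mul_of_nonneg_left (p1_ends Z) (inv_pos.2 ht).le))
  simp only [hopT, Finset.mul_sum, ← Finset.sum_add_distrib]
  refine Finset.sum_le_sum fun s _ => Finset.sum_le_sum fun i _ => Finset.sum_le_sum fun e _ =>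
    Finset.sum_le_sum fun a _ => ?_
  have e1 := h2 s a
  have e2 := h2 s (Function.update a i e.2)
  rw [h1, h1]
  generalize Y s a = y, Z s a = z, Y s (Function.update a i e.2) = y',
    Z s (Function.update a i e.2) = z' at e1 e2 ⊢
  have e3 : ∀ u v : ℝ, 2 * (u * v) ≤ t * u ^ 2 + t⁻¹ * v ^ 2 := fun u v => by
    have h3 : 0 ≤ t⁻¹ * (t * u - v) ^ 2 := mul_nonneg (inv_pos.2 ht).le (sq_nonneg _)
    have h4 : t⁻¹ * (t * u - v) ^ 2 = t * u ^ 2 + t⁻¹ * v ^ 2 - 2 * (u * v) := by
      field_simp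
      ring
    linarith
  nlinarith [e3 y z', e3 y' z, sq_nonneg (z - z')]

theorem p1_pairs {N n : ℕ} (f : Fin N → Fin n) :
    2 * ∑ i, ∑ j with i < j, (if f i = f j then (1 : ℤ) else 0) + N =
      ∑ c, ((Finset.univ.filter fun i => f i = c).card : ℤ) ^ 2 := by
  have h1 : ∀ i j, (if f i = f j then (1 : ℤ) else 0) =
      (if i < j then (if f i = f j then (1 : ℤ) else 0) else 0) +
      (if j < i then (if f j = f i then (1 : ℤ) else 0) else 0) + if i = j then 1 else 0 := by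
    intro i j
    rcases lt_trichotomy i j with h | rfl | h
    · rw [if_pos h, if_neg h.asymm, if_neg h.ne, add_zero, add_zero]
    · simp
    · rw [if_neg h.asymm, if_pos h, if_neg h.ne', add_zero, zero_add]
      simp only [eq_comm]
  have h2 : ∑ c, ((Finset.univ.filter fun i => f i = c).card : ℤ) ^ 2 =
      ∑ i, ∑ j, (if f i = f j then (1 : ℤ) else 0) := by
    simp only [← Finset.sum_boole, sq, Finset.sum_mul_sum]
    rw [Finset.sum_comm]
    refine Finset.sum_congr rfl fun i _ => ?_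
    rw [Finset.sum_comm]
    refine Finset.sum_congr rfl fun j _ => ?_
    simp only [boole_mul, Finset.sum_ite_eq, Finset.mem_univ, if_true]
    simp only [eq_comm]
  rw [h2.trans (Finset.sum_congr rfl fun i _ => Finset.sum_congr rfl fun j _ => h1 i j)]
  simp only [Finset.sum_add_distrib, Finset.sum_filter]
  rw [Finset.sum_comm (f := fun i j => if j < i then (if f j = f i then (1 : ℤ) else 0) else 0)]
  simp only [Finset.sum_ite_eq, Finset.mem_univ, if_true, Finset.sum_const, Finset.card_univ,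
    Fintype.card_fin, nsmul_eq_mul, mul_one]
  ring

theorem p1_var {n : ℕ} (f : Fin (3 * n) → Fin n) :
    2 * ∑ i, ∑ j with i < j, (if f i = f j then (1 : ℤ) else 0) =
      6 * n + ∑ c, (((Finset.univ.filter fun i => f i = c).card : ℤ) - 3) ^ 2 := by
  have h1 := p1_pairs f
  have h2 : ∑ c, ((Finset.univ.filter fun i => f i = c).card : ℤ) = 3 * n := by
    have h3 := Finset.card_eq_sum_card_fiberwise (f := f) (s := Finset.univ) (t := Finset.univ)
      fun _ _ => Finset.mem_univ _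
    rw [Finset.card_univ, Fintype.card_fin] at h3
    exact_mod_cast h3.symm
  simp only [sub_sq, Finset.sum_add_distrib, Finset.sum_sub_distrib, ← Finset.sum_mul,
    ← Finset.mul_sum, h2, ← h1, Finset.sum_const, Finset.card_univ, Fintype.card_fin,
    nsmul_eq_mul]
  push_cast
  ring

/-- The number of charged pairs. -/
noncomputable def p1chg {n : ℕ} (a : Fin (3 * n) → Fin (4 * n)) : ℤ :=
  ∑ i, ∑ j with i < j, (if clOf (a i) = clOf (a j) then (1 : ℤ) else 0) +
    ∑ i, ∑ j with i < j, if a i = a j then (1 : ℤ) else 0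

theorem p1_w {n : ℕ} (Vc : ℝ) (w : Fin (4 * n) → Fin (4 * n) → ℝ) (a : Fin (3 * n) → Fin (4 * n)) :
    ∑ i, ∑ j with i < j, wChg Vc w (a i) (a j) =
      Vc * p1chg a + ∑ i, ∑ j with i < j, w (a i) (a j) := by
  simp only [wChg, p1chg, Finset.sum_add_distrib, Int.cast_add, Int.cast_sum, Int.cast_ite,
    Int.cast_one, Int.cast_zero, mul_add, Finset.mul_sum, mul_boole]

theorem p1_val {n : ℕ} {a : Fin (3 * n) → Fin (4 * n)} (h : ValidT a) : p1chg a = 3 * n := by
  have h1 := p1_var fun i => clOf (a i)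
  have h2 : ∑ i, ∑ j with i < j, (if a i = a j then (1 : ℤ) else 0) = 0 :=
    Finset.sum_eq_zero fun i _ => Finset.sum_eq_zero fun j hj =>
      if_neg fun e => (Finset.mem_filter.1 hj).2.ne (h.1 e)
  simp only [h.2, Nat.cast_ofNat, sub_self, ne_eq, OfNat.ofNat_ne_zero, not_false_eq_true,
    zero_pow, Finset.sum_const_zero] at h1
  rw [p1chg, h2]
  omega

theorem p1_inv {n : ℕ} {a : Fin (3 * n) → Fin (4 * n)} (h : ¬ValidT a) : 3 * n + 1 ≤ p1chg a := by
  have h1 := p1_var fun i => clOf (a i)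
  have h0 : ∀ i j, 0 ≤ (if a i = a j then (1 : ℤ) else 0) := fun i j => by split_ifs <;> norm_num
  have h2 : ∀ i, 0 ≤ ∑ j with i < j, (if a i = a j then (1 : ℤ) else 0) := fun i =>
    Finset.sum_nonneg fun j _ => h0 i j
  have h3 : 0 ≤ ∑ i, ∑ j with i < j, (if a i = a j then (1 : ℤ) else 0) :=
    Finset.sum_nonneg fun i _ => h2 i
  have h4 : 0 ≤ ∑ c, (((Finset.univ.filter fun i => clOf (a i) = c).card : ℤ) - 3) ^ 2 :=
    Finset.sum_nonneg fun c _ => sq_nonneg _
  rw [p1chg]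
  by_cases h5 : Function.Injective a
  · obtain ⟨c, hc⟩ := not_forall.1 fun h6 => h ⟨h5, h6⟩
    have h6 : 0 < ∑ c, (((Finset.univ.filter fun i => clOf (a i) = c).card : ℤ) - 3) ^ 2 :=
      Finset.sum_pos' (fun c _ => sq_nonneg _) ⟨c, Finset.mem_univ _, sq_pos_of_ne_zero
        (sub_ne_zero.2 (by exact_mod_cast hc))⟩
    omega
  · have h6 : ∃ i j, i < j ∧ a i = a j := by
      obtain ⟨i, j, h7, h8⟩ := Function.not_injective_iff.1 h5
      rcases lt_or_gt_of_ne h8 with h9 | h9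
      exacts [⟨i, j, h9, h7⟩, ⟨j, i, h9, h7.symm⟩]
    obtain ⟨i, j, h7, h8⟩ := h6
    have h9 : 0 < ∑ i, ∑ j with i < j, (if a i = a j then (1 : ℤ) else 0) :=
      Finset.sum_pos' (fun i _ => h2 i) ⟨i, Finset.mem_univ _, Finset.sum_pos' (fun j _ => h0 i j)
        ⟨j, Finset.mem_filter.2 ⟨Finset.mem_univ _, h7⟩, by rw [if_pos h8]; exact one_pos⟩⟩
    omega

theorem p1_nrm {N K : ℕ} (c : ℝ) (X : Ten N K) : c * nrmT X = ∑ s, ∑ a, c * X s a ^ 2 := by
  simp only [nrmT, Finset.mul_sum]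

theorem p1_perm {n : ℕ} (a : Fin (3 * n) → Fin (4 * n)) (π : Equiv.Perm (Fin (3 * n))) :
    ValidT (a ∘ π) ↔ ValidT a := by
  refine and_congr (Equiv.injective_comp π a) (forall_congr' fun c => ?_)
  rw [Finset.card_equiv (t := Finset.univ.filter fun i => clOf (a i) = c) π (by simp)]

theorem pen1_low {n : ℕ} {τ Vc a1 lam : ℝ} {w : Fin (4 * n) → Fin (4 * n) → ℝ} (hτ : 0 ≤ τ)
    (h0 : ∀ a b, 0 ≤ w a b) (ha : 9 * n * τ ≤ a1) (hl : lam ≤ a1) (hV : 2 * a1 < Vc)
    (H : ∀ C : Ten (3 * n) (4 * n), AntiT C → SuppV C →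
      lam * nrmT C ≤ τ * hopT (E4 (4 * n)) C + intT w C)
    (C : Ten (3 * n) (4 * n)) (hC : AntiT C) :
    (3 * n * Vc + lam - a1 ^ 2 / (Vc - 2 * a1)) * nrmT C ≤
      τ * hopT (E4 (4 * n)) C + intT (wChg Vc w) C := by
  obtain ⟨Y, hY⟩ : ∃ Y : Ten (3 * n) (4 * n), ∀ s a, Y s a = if ValidT a then C s a else 0 :=
    ⟨_, fun _ _ => rfl⟩
  obtain ⟨Z, hZ⟩ : ∃ Z : Ten (3 * n) (4 * n), ∀ s a, Z s a = if ValidT a then 0 else C s a :=
    ⟨_, fun _ _ => rfl⟩
  have ha0 : 0 ≤ 9 * n * τ := by positivity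
  have hk : 0 < Vc - 2 * a1 := by linarith
  have hy : 0 ≤ nrmT Y := Finset.sum_nonneg fun _ _ => Finset.sum_nonneg fun _ _ => sq_nonneg _
  have hz : 0 ≤ nrmT Z := Finset.sum_nonneg fun _ _ => Finset.sum_nonneg fun _ _ => sq_nonneg _
  have h1 := H Y (fun π s a => by
    rw [hY, hY, p1_perm, hC]
    split_ifs
    exacts [rfl, (mul_zero _).symm]) fun s a h => by rw [hY, if_neg h]
  have h2 : nrmT C = nrmT Y + nrmT Z := by
    simp only [nrmT, ← Finset.sum_add_distrib, hY, hZ]
    refine Finset.sum_congr rfl fun s _ => Finset.sum_congr rfl fun a _ => ?_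
    split_ifs <;> simp
  have h3 : 3 * n * Vc * nrmT C + Vc * nrmT Z + intT w Y ≤ intT (wChg Vc w) C := by
    simp only [p1_nrm, intT, ← Finset.sum_add_distrib, p1_w, hY, hZ]
    refine Finset.sum_le_sum fun s _ => Finset.sum_le_sum fun a _ => ?_
    have h4 : 0 ≤ ∑ i, ∑ j with i < j, w (a i) (a j) :=
      Finset.sum_nonneg fun _ _ => Finset.sum_nonneg fun _ _ => h0 _ _
    split_ifs with h
    · rw [p1_val h]
      push_cast
      exact le_of_eq (by ring)
    · have h5 : (3 * n + 1 : ℝ) ≤ p1chg a := by exact_mod_cast p1_inv h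
      have h6 := mul_le_mul_of_nonneg_left h5 (by linarith : 0 ≤ Vc)
      nlinarith [mul_le_mul_of_nonneg_right h6 (sq_nonneg (C s a)),
        mul_nonneg h4 (sq_nonneg (C s a))]
  have h4 : ∀ t, 0 < t → τ * hopT (E4 (4 * n)) Y ≤
      τ * hopT (E4 (4 * n)) C + t * (a1 * nrmT Y) + t⁻¹ * (a1 * nrmT Z) := fun t ht => by
    have h5 := mul_le_mul_of_nonneg_left (p1_hop (C := C) (Y := Y) (Z := Z)
      (fun s a => by rw [hY, hZ]; split_ifs <;> simp)
      (fun s a => by rw [hY, hZ]; split_ifs <;> simp) ht) hτ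
    have h6 := mul_le_mul_of_nonneg_left (mul_le_mul_of_nonneg_right ha hy) ht.le
    have h7 := mul_le_mul_of_nonneg_left (mul_le_mul_of_nonneg_right ha hz) (inv_pos.2 ht).le
    push_cast at h5
    linarith
  have h5 : τ * hopT (E4 (4 * n)) Y ≤ τ * hopT (E4 (4 * n)) C +
      a1 ^ 2 / (Vc - 2 * a1) * nrmT Y + (Vc - 2 * a1) * nrmT Z := by
    rcases (ha0.trans ha).eq_or_lt with rfl | h6
    · have h7 := h4 1 one_pos
      have h8 := mul_nonneg hk.le hz
      simp only [zero_mul, mul_zero, add_zero, ne_eq, OfNat.ofNat_ne_zero, not_false_eq_true,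
        zero_pow, zero_div] at h7 h8 ⊢
      linarith
    · refine (h4 _ (div_pos h6 hk)).trans (le_of_eq ?_)
      field_simp
  have h6 : 0 ≤ a1 ^ 2 / (Vc - 2 * a1) * nrmT Z := by positivity
  have h7 : lam * nrmT Z ≤ 2 * a1 * nrmT Z := mul_le_mul_of_nonneg_right (by linarith) hz
  rw [h2] at h3 ⊢
  linarith

theorem pen1_valid {n : ℕ} (Vc : ℝ) (w : Fin (4 * n) → Fin (4 * n) → ℝ) (C : Ten (3 * n) (4 * n))
    (hV : SuppV C) : intT (wChg Vc w) C = 3 * n * Vc * nrmT C + intT w C := by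
  simp only [p1_nrm, intT, ← Finset.sum_add_distrib, p1_w]
  refine Finset.sum_congr rfl fun s _ => Finset.sum_congr rfl fun a _ => ?_
  by_cases h : ValidT a
  · rw [p1_val h]
    push_cast
    ring
  · rw [hV s a h]
    ring

end Vale.Agent.P370
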