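import Vale.Agent.P370.DDefs

/-! One-qubit operators on real vectors. -/

namespace Vale.Agent.P370

open scoped Classical

variable {n : ℕ}

theorem qo_sum2 (c : Fin n) (f : (Fin n → Bool) → ℝ) :
    2 * ∑ d, f d = ∑ d, (f (Function.update d c false) + f (Function.update d c true)) := by
  have hi : Function.Involutive fun d : Fin n → Bool => Function.update d c (!d c) := fun d => by
    simp only [Function.update_idem, Function.update_self, Bool.not_not, Function.update_eq_self]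
  have h := Equiv.sum_comp hi.toPerm f
  rw [two_mul]
  nth_rewrite 2 [← h]
  rw [← Finset.sum_add_distrib]
  refine Finset.sum_congr rfl fun d _ => ?_
  show f d + f (Function.update d c (!d c)) = _
  have e := Function.update_eq_self c d
  cases hd : d c
  · rw [hd] at e
    rw [e]
    rfl
  · rw [hd] at e
    rw [e, add_comm]
    rfl

theorem qo_eq {c : ℕ} (hc : c < n) (A : Bool → Bool → ℝ) (ξ : (Fin n → Bool) → ℝ)
    (d : Fin n → Bool) : opQ c A ξ d = A (d ⟨c, hc⟩) false * ξ (Function.update d ⟨c, hc⟩ false)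
      + A (d ⟨c, hc⟩) true * ξ (Function.update d ⟨c, hc⟩ true) := by
  rw [opQ, dif_pos hc, Fintype.sum_bool, add_comm]

theorem qo_upd {c : ℕ} (hc : c < n) (A : Bool → Bool → ℝ) (ξ : (Fin n → Bool) → ℝ)
    (d : Fin n → Bool) (b : Bool) : opQ c A ξ (Function.update d ⟨c, hc⟩ b)
      = A b false * ξ (Function.update d ⟨c, hc⟩ false)
        + A b true * ξ (Function.update d ⟨c, hc⟩ true) := by
  rw [qo_eq hc, Function.update_idem, Function.update_idem, Function.update_self]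

theorem qo_zero {c : ℕ} (hc : ¬ c < n) (A : Bool → Bool → ℝ) (ξ : (Fin n → Bool) → ℝ)
    (d : Fin n → Bool) : opQ c A ξ d = 0 := dif_neg hc

theorem opQ_add (c : ℕ) (A : Bool → Bool → ℝ) (ξ ζ : (Fin n → Bool) → ℝ) :
    opQ c A (fun d => ξ d + ζ d) = fun d => opQ c A ξ d + opQ c A ζ d := by
  funext d
  by_cases hc : c < n
  · simp only [qo_eq hc]
    ring
  · simp only [qo_zero hc]
    ring

theorem opQ_smul (c : ℕ) (A : Bool → Bool → ℝ) (r : ℝ) (ξ : (Fin n → Bool) → ℝ) :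
    opQ c A (fun d => r * ξ d) = fun d => r * opQ c A ξ d := by
  funext d
  by_cases hc : c < n
  · simp only [qo_eq hc]
    ring
  · simp only [qo_zero hc]
    ring

theorem opQ_sub (c : ℕ) (A : Bool → Bool → ℝ) (ξ ζ : (Fin n → Bool) → ℝ) :
    opQ c A (fun d => ξ d - ζ d) = fun d => opQ c A ξ d - opQ c A ζ d := by
  funext d
  by_cases hc : c < n
  · simp only [qo_eq hc]
    ring
  · simp only [qo_zero hc]
    ring

theorem opQ_mat_add (c : ℕ) (A B : Bool → Bool → ℝ) (ξ : (Fin n → Bool) → ℝ) :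
    opQ c (fun b b' => A b b' + B b b') ξ = fun d => opQ c A ξ d + opQ c B ξ d := by
  funext d
  by_cases hc : c < n
  · simp only [qo_eq hc]
    ring
  · simp only [qo_zero hc]
    ring

theorem opQ_mat_smul (c : ℕ) (A : Bool → Bool → ℝ) (r : ℝ) (ξ : (Fin n → Bool) → ℝ) :
    opQ c (fun b b' => r * A b b') ξ = fun d => r * opQ c A ξ d := by
  funext d
  by_cases hc : c < n
  · simp only [qo_eq hc]
    ring
  · simp only [qo_zero hc]
    ring

theorem opQ_symm (c : ℕ) {A : Bool → Bool → ℝ} (hA : A false true = A true false)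
    (ξ ζ : (Fin n → Bool) → ℝ) : ∑ d, ξ d * opQ c A ζ d = ∑ d, opQ c A ξ d * ζ d := by
  by_cases hc : c < n
  · refine mul_left_cancel₀ two_ne_zero ?_
    rw [qo_sum2 ⟨c, hc⟩, qo_sum2 ⟨c, hc⟩]
    refine Finset.sum_congr rfl fun d _ => ?_
    simp only [qo_upd hc, hA]
    ring
  · simp only [qo_zero hc, mul_zero, zero_mul]

theorem opQ_comm {c c' : ℕ} (h : c ≠ c') (A B : Bool → Bool → ℝ) (ξ : (Fin n → Bool) → ℝ) :
    opQ c A (opQ c' B ξ) = opQ c' B (opQ c A ξ) := by
  funext d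
  by_cases hc : c < n
  · by_cases hc' : c' < n
    · have hne : (⟨c, hc⟩ : Fin n) ≠ ⟨c', hc'⟩ := fun e => h (congrArg Fin.val e)
      simp only [qo_eq hc, qo_eq hc', Function.update_of_ne hne, Function.update_of_ne hne.symm,
        Function.update_comm hne]
      ring
    · simp only [qo_eq hc, qo_zero hc', mul_zero, add_zero]
  · by_cases hc' : c' < n
    · simp only [qo_eq hc', qo_zero hc, mul_zero, add_zero]
    · simp only [qo_zero hc', qo_zero hc]

theorem opQ_contr (c : ℕ) {A : Bool → Bool → ℝ} (hA : Contr A) (ξ : (Fin n → Bool) → ℝ) :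
    ∑ d, opQ c A ξ d ^ 2 ≤ ∑ d, ξ d ^ 2 := by
  by_cases hc : c < n
  · refine le_of_mul_le_mul_left ?_ two_pos
    rw [qo_sum2 ⟨c, hc⟩, qo_sum2 ⟨c, hc⟩]
    refine Finset.sum_le_sum fun d _ => ?_
    rw [qo_upd hc, qo_upd hc]
    exact hA _ _
  · simp only [qo_zero hc, ne_eq, OfNat.ofNat_ne_zero, not_false_eq_true, zero_pow,
      Finset.sum_const_zero]
    exact Finset.sum_nonneg fun d _ => sq_nonneg _

theorem opQ_isom {c : ℕ} (hc : c < n) {A : Bool → Bool → ℝ} (hA : Isom A)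
    (ξ : (Fin n → Bool) → ℝ) : ∑ d, opQ c A ξ d ^ 2 = ∑ d, ξ d ^ 2 := by
  refine mul_left_cancel₀ two_ne_zero ?_
  rw [qo_sum2 ⟨c, hc⟩, qo_sum2 ⟨c, hc⟩]
  refine Finset.sum_congr rfl fun d _ => ?_
  rw [qo_upd hc, qo_upd hc]
  exact hA _ _

theorem qo_m2_symm (a x z : ℝ) : m2 a x z false true = m2 a x z true false := rfl

theorem qo_m2_isom {x z : ℝ} (h : x ^ 2 + z ^ 2 = 1) : Isom (m2 0 x z) := fun u v => by
  show ((0 + z) * u + x * v) ^ 2 + (x * u + (0 - z) * v) ^ 2 = _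
  linear_combination (u ^ 2 + v ^ 2) * h

theorem qo_m2_contr {a x z r : ℝ} (ha : 0 ≤ a) (hr : 0 ≤ r) (h : x ^ 2 + z ^ 2 = r ^ 2)
    (h1 : a + r ≤ 1) : Contr (m2 a x z) := fun u v => by
  show ((a + z) * u + x * v) ^ 2 + (x * u + (a - z) * v) ^ 2 ≤ _
  have h2 : z * (u ^ 2 - v ^ 2) + 2 * x * u * v ≤ r * (u ^ 2 + v ^ 2) := by
    refine (le_abs_self _).trans (abs_le_of_sq_le_sq' ?_ (by positivity) |> abs_le.2)
    rw [mul_pow, ← h]
    nlinarith [sq_nonneg (x * (u ^ 2 - v ^ 2) - 2 * z * u * v)]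
  have h3 : (a + r) ^ 2 ≤ 1 := pow_le_one₀ (by positivity) h1
  have h4 := mul_le_mul_of_nonneg_left h2 ha
  have h5 := mul_le_mul_of_nonneg_right h3 (by positivity : 0 ≤ u ^ 2 + v ^ 2)
  have h6 : (x ^ 2 + z ^ 2) * (u ^ 2 + v ^ 2) = r ^ 2 * (u ^ 2 + v ^ 2) := by rw [h]
  nlinarith

theorem qo_contr_of_isom {A : Bool → Bool → ℝ} (h : Isom A) : Contr A := fun x y => (h x y).le

theorem qo_mat_isom {A : ℕ} (h : A = 0 ∨ 3 ≤ A) : Isom (mat A) := by
  unfold mat
  split_ifs with h0 h1 h2 h3 h4 h5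
  · intro u v
    show ((1 + 0) * u + 0 * v) ^ 2 + (0 * u + (1 - 0) * v) ^ 2 = _
    ring
  · omega
  · omega
  · exact qo_m2_isom (by norm_num)
  · exact qo_m2_isom (by norm_num)
  · exact qo_m2_isom (by linear_combination (Real.sq_sqrt (zero_le_two)) / 2)
  · exact qo_m2_isom (Real.sin_sq_add_cos_sq _)

theorem mat_symm (A : ℕ) : mat A false true = mat A true false := by
  unfold mat
  split_ifs <;> rfl

theorem mat_contr (A : ℕ) : Contr (mat A) := by
  by_cases h1 : A = 1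
  · subst h1
    exact qo_m2_contr (r := 1 / 2) (by norm_num) (by norm_num) (by norm_num) (by norm_num)
  by_cases h2 : A = 2
  · subst h2
    exact qo_m2_contr (r := 1 / 2) (by norm_num) (by norm_num) (by norm_num) (by norm_num)
  exact qo_contr_of_isom (qo_mat_isom (by omega))

theorem mat_isom {A : ℕ} (h : A = 0 ∨ 3 ≤ A) : Isom (mat A) := by
  exact qo_mat_isom h

theorem nM_symm (k : ℕ) : nM k false true = nM k true false := by
  unfold nM
  split_ifs <;> rfl

theorem nM_contr (k : ℕ) : Contr (nM k) := by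
  have h3 := Real.sq_sqrt (show (0 : ℝ) ≤ 3 by norm_num)
  unfold nM
  split_ifs
  · exact qo_m2_contr (r := 0) (by norm_num) (by norm_num) (by norm_num) (by norm_num)
  · exact qo_m2_contr (r := 3 / 47) (by norm_num) (by norm_num) (by norm_num) (by norm_num)
  · exact qo_m2_contr (r := 3 / 47) (by norm_num) (by norm_num)
      (by linear_combination 9 / 8836 * h3) (by norm_num)
  · exact qo_m2_contr (r := 3 / 47) (by norm_num) (by norm_num)
      (by linear_combination 9 / 8836 * h3) (by norm_num)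

theorem opQ_mat0 {c : ℕ} (hc : c < n) (ξ : (Fin n → Bool) → ℝ) : opQ c (mat 0) ξ = ξ := by
  funext d
  have e := Function.update_eq_self (⟨c, hc⟩ : Fin n) d
  rw [qo_eq hc]
  cases hd : d ⟨c, hc⟩ <;> rw [hd] at e <;> simp [mat, m2, e]

theorem opQ_mat1 {c : ℕ} (hc : c < n) (ξ : (Fin n → Bool) → ℝ) (d : Fin n → Bool) :
    opQ c (mat 1) ξ d = if bitQ d c = false then ξ d else 0 := by
  have e := Function.update_eq_self (⟨c, hc⟩ : Fin n) d
  rw [qo_eq hc]
  cases hd : d ⟨c, hc⟩ <;> rw [hd] at e <;> simp [mat, m2, e, bitQ, hc, hd] <;> ring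

theorem opQ_mat2 {c : ℕ} (hc : c < n) (ξ : (Fin n → Bool) → ℝ) (d : Fin n → Bool) :
    opQ c (mat 2) ξ d = if bitQ d c = true then ξ d else 0 := by
  have e := Function.update_eq_self (⟨c, hc⟩ : Fin n) d
  rw [qo_eq hc]
  cases hd : d ⟨c, hc⟩ <;> rw [hd] at e <;> simp [mat, m2, e, bitQ, hc, hd] <;> ring

theorem opQ_mat3 {c : ℕ} (hc : c < n) (ξ : (Fin n → Bool) → ℝ) (d : Fin n → Bool) :
    opQ c (mat 3) ξ d = ξ (Function.update d ⟨c, hc⟩ (!d ⟨c, hc⟩)) := by
  have e := Function.update_eq_self (⟨c, hc⟩ : Fin n) d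
  rw [qo_eq hc]
  cases hd : d ⟨c, hc⟩ <;> rw [hd] at e <;> simp [mat, m2, e]

/-- Cauchy-Schwarz for a product of two contractions. -/
theorem bil_le (c c' : ℕ) {A B : Bool → Bool → ℝ} (hA : Contr A) (hB : Contr B)
    (ξ ζ : (Fin n → Bool) → ℝ) :
    |∑ d, ξ d * opQ c A (opQ c' B ζ) d| ≤ Real.sqrt (∑ d, ξ d ^ 2) * Real.sqrt (∑ d, ζ d ^ 2) := by
  have h1 : ∑ d, opQ c A (opQ c' B ζ) d ^ 2 ≤ ∑ d, ζ d ^ 2 :=
    (opQ_contr c hA _).trans (opQ_contr c' hB ζ)
  rw [← Real.sqrt_mul (Finset.sum_nonneg fun d _ => sq_nonneg _)]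
  refine Real.abs_le_sqrt ((Finset.sum_mul_sq_le_sq_mul_sq _ _ _).trans ?_)
  exact mul_le_mul_of_nonneg_left h1 (Finset.sum_nonneg fun d _ => sq_nonneg _)

theorem form2_abs_le (c c' : ℕ) {A B : Bool → Bool → ℝ} (hA : Contr A) (hB : Contr B)
    (ξ : (Fin n → Bool) → ℝ) : |form2 c A c' B ξ| ≤ ∑ d, ξ d ^ 2 := by
  have h := bil_le c c' hA hB ξ ξ
  rwa [Real.mul_self_sqrt (Finset.sum_nonneg fun d _ => sq_nonneg _)] at h

theorem form2_swap {c c' : ℕ} (h : c ≠ c') (A B : Bool → Bool → ℝ) (ξ : (Fin n → Bool) → ℝ) :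
    form2 c A c' B ξ = form2 c' B c A ξ := by
  rw [form2, form2, opQ_comm h]

theorem qo_hL_cons (t : Term) (ts : List Term) (ξ : (Fin n → Bool) → ℝ) :
    hL (t :: ts) ξ
      = (t.2.2.2.2 : ℝ) * form2 t.1 (mat t.2.1) t.2.2.1 (mat t.2.2.2.1) ξ + hL ts ξ := by
  rw [hL, List.map_cons, List.sum_cons]
  rfl

theorem qo_lam_cons (t : Term) (ts : List Term) :
    (lamSum (t :: ts) : ℝ) = |(t.2.2.2.2 : ℝ)| + lamSum ts := by
  rw [lamSum, List.map_cons, List.sum_cons, Nat.cast_add, Nat.cast_natAbs, Int.cast_abs]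
  rfl

/-- Polarisation of `hL` with bounds. -/
theorem hL_split {ts : List Term} (h : ∀ t ∈ ts, TermOK n t) (ξ ζ : (Fin n → Bool) → ℝ) :
    ∃ q : ℝ, hL ts (fun d => ξ d + ζ d) = hL ts ξ + 2 * q + hL ts ζ ∧
      |q| ≤ lamSum ts * Real.sqrt (∑ d, ξ d ^ 2) * Real.sqrt (∑ d, ζ d ^ 2) := by
  clear h
  induction ts with
  | nil => exact ⟨0, by simp [hL], by simp [lamSum]⟩
  | cons t ts ih =>
    obtain ⟨q, h1, h2⟩ := ih
    have b1 := bil_le t.1 t.2.2.1 (mat_contr t.2.1) (mat_contr t.2.2.2.1) ξ ζ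
    have b2 := bil_le t.1 t.2.2.1 (mat_contr t.2.1) (mat_contr t.2.2.2.1) ζ ξ
    refine ⟨(t.2.2.2.2 : ℝ) * ((∑ d, ξ d * opQ t.1 (mat t.2.1) (opQ t.2.2.1 (mat t.2.2.2.1) ζ) d
      + ∑ d, ζ d * opQ t.1 (mat t.2.1) (opQ t.2.2.1 (mat t.2.2.2.1) ξ) d) / 2) + q, ?_, ?_⟩
    · rw [qo_hL_cons, qo_hL_cons, qo_hL_cons, h1]
      simp only [form2, opQ_add, mul_add, add_mul, Finset.sum_add_distrib]
      ring
    · rw [qo_lam_cons, add_mul, add_mul]
      refine (abs_add_le _ _).trans (add_le_add ?_ h2)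
      rw [abs_mul, mul_assoc]
      refine mul_le_mul_of_nonneg_left (abs_le.2 ⟨?_, ?_⟩) (abs_nonneg _)
      · linarith [(abs_le.1 b1).1, (abs_le.1 b2).1]
      · linarith [(abs_le.1 b1).2, (abs_le.1 b2).2]

theorem hL_abs_le (ts : List Term) (ξ : (Fin n → Bool) → ℝ) :
    |hL ts ξ| ≤ lamSum ts * ∑ d, ξ d ^ 2 := by
  induction ts with
  | nil => simp [hL, lamSum]
  | cons t ts ih =>
    rw [qo_hL_cons, qo_lam_cons, add_mul]
    refine (abs_add_le _ _).trans (add_le_add ?_ ih)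
    rw [abs_mul]
    exact mul_le_mul_of_nonneg_left (form2_abs_le _ _ (mat_contr _) (mat_contr _) ξ)
      (abs_nonneg _)

theorem hL_append (ts ts' : List Term) (ξ : (Fin n → Bool) → ℝ) :
    hL (ts ++ ts') ξ = hL ts ξ + hL ts' ξ := by
  rw [hL, List.map_append, List.sum_append]
  rfl

theorem qo_bit_upd {c c' : ℕ} (h : c ≠ c') (hc : c' < n) (d : Fin n → Bool) (b : Bool) :
    bitQ (Function.update d ⟨c', hc⟩ b) c = bitQ d c := by
  unfold bitQ
  split_ifs with h'
  · exact Function.update_of_ne (fun e => h (congrArg Fin.val e)) _ _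
  · rfl

theorem qo_posC (sts : List Step) (d : Fin n → Bool) {t : ℕ} (ht : t % 3 ≠ 0) :
    posC sts d t = t ↔ bitQ d (sts.getD (t / 3) (0, 0, 0, 0)).1 = false := by
  unfold posC
  rw [if_neg ht]
  split_ifs with h1 h2
  · exact iff_of_true rfl h1
  · exact iff_of_false (by omega) h1
  · exact iff_of_false (by omega) h1

theorem qo_ctrl_isom {c c' : ℕ} (h : c ≠ c') (hc : c' < n) {A B : Bool → Bool → ℝ} (hA : Isom A)
    (hB : Isom B) (v : (Fin n → Bool) → ℝ) :
    ∑ d, (if bitQ d c = false then opQ c' A v d else opQ c' B v d) ^ 2 = ∑ d, v d ^ 2 := by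
  refine mul_left_cancel₀ two_ne_zero ?_
  rw [qo_sum2 ⟨c', hc⟩, qo_sum2 ⟨c', hc⟩]
  refine Finset.sum_congr rfl fun d _ => ?_
  simp only [qo_bit_upd h hc, qo_upd hc]
  split_ifs
  · exact hA _ _
  · exact hB _ _

theorem qo_ite {c c' : ℕ} (h : c ≠ c') (hc : c' < n) (A : Bool → Bool → ℝ)
    (f g : (Fin n → Bool) → ℝ) (d : Fin n → Bool) :
    opQ c' A (fun d => if bitQ d c = false then f d else g d) d
      = if bitQ d c = false then opQ c' A f d else opQ c' A g d := by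
  simp only [qo_eq hc, qo_bit_upd h hc]
  split_ifs <;> rfl

theorem qo_getD_mem {sts : List Step} {k : ℕ} (hk : k < sts.length) :
    sts.getD k (0, 0, 0, 0) ∈ sts := by
  rw [List.getD_eq_getElem _ _ hk]
  exact List.getElem_mem hk

theorem qo_half0 (sts : List Step) (k : ℕ) (v : (Fin n → Bool) → ℝ) : half sts (3 * k) v = v := by
  funext d
  rw [half, if_pos (by omega)]

theorem qo_half1 (sts : List Step) (k : ℕ) (v : (Fin n → Bool) → ℝ) :
    half sts (3 * k + 1) v = fun d => if bitQ d (sts.getD k (0, 0, 0, 0)).1 = false then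
      opQ (sts.getD k (0, 0, 0, 0)).2.1 (mat (sts.getD k (0, 0, 0, 0)).2.2.1) v d
      else opQ (sts.getD k (0, 0, 0, 0)).2.1 (mat (sts.getD k (0, 0, 0, 0)).2.2.2) v d := by
  funext d
  have h1 : (3 * k + 1) % 3 = 1 := by omega
  have h2 : (3 * k + 1) / 3 = k := by omega
  simp only [half, qo_posC sts d (show (3 * k + 1) % 3 ≠ 0 by omega), h1, h2, one_ne_zero, if_true,
    if_false]

theorem qo_half2 (sts : List Step) (k : ℕ) (v : (Fin n → Bool) → ℝ) :
    half sts (3 * k + 2) v = fun d => if bitQ d (sts.getD k (0, 0, 0, 0)).1 = false then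
      opQ (sts.getD k (0, 0, 0, 0)).2.1 (mat (sts.getD k (0, 0, 0, 0)).2.2.2) v d
      else opQ (sts.getD k (0, 0, 0, 0)).2.1 (mat (sts.getD k (0, 0, 0, 0)).2.2.1) v d := by
  funext d
  have h1 : (3 * k + 2) % 3 = 2 := by omega
  have h2 : (3 * k + 2) / 3 = k := by omega
  simp only [half, qo_posC sts d (show (3 * k + 2) % 3 ≠ 0 by omega), h1, h2, two_ne_zero,
    OfNat.ofNat_ne_one, if_false]

/-- A half step preserves norms. -/
theorem half_isom {sts : List Step} (h : ∀ st ∈ sts, StepOK n st) {t : ℕ}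
    (ht : t < 3 * sts.length + 1) (v : (Fin n → Bool) → ℝ) :
    ∑ d, half sts t v d ^ 2 = ∑ d, v d ^ 2 := by
  obtain ⟨k, rfl | rfl | rfl⟩ : ∃ k, t = 3 * k ∨ t = 3 * k + 1 ∨ t = 3 * k + 2 :=
    ⟨t / 3, by omega⟩
  · rw [qo_half0]
  · obtain ⟨-, h1, h2, h3, h4⟩ := h _ (qo_getD_mem (show k < sts.length by omega))
    rw [qo_half1]
    exact qo_ctrl_isom h2 h1 (mat_isom (by omega)) (mat_isom (by omega)) v
  · obtain ⟨-, h1, h2, h3, h4⟩ := h _ (qo_getD_mem (show k < sts.length by omega))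
    rw [qo_half2]
    exact qo_ctrl_isom h2 h1 (mat_isom (by omega)) (mat_isom (by omega)) v

theorem half_sub (sts : List Step) (t : ℕ) (v v' : (Fin n → Bool) → ℝ) :
    half sts t (fun d => v d - v' d) = fun d => half sts t v d - half sts t v' d := by
  funext d
  simp only [half, opQ_sub]
  split_ifs <;> rfl

/-- All half steps together run the steps. -/
theorem foldl_half {sts : List Step} (h : ∀ st ∈ sts, StepOK n st) (v : (Fin n → Bool) → ℝ) :
    (List.range (3 * sts.length + 1)).foldl (fun u t => half sts t u) v = runS sts v := by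
  have key : ∀ k, k ≤ sts.length →
      (List.range (3 * k)).foldl (fun u t => half sts t u) v = runS (sts.take k) v := by
    intro k
    induction k with
    | zero => intro _; rfl
    | succ k ih =>
      intro hk
      obtain ⟨-, h1, h2, -⟩ := h _ (qo_getD_mem (show k < sts.length by omega))
      rw [show 3 * (k + 1) = 3 * k + 1 + 1 + 1 by ring, List.range_succ, List.range_succ,
        List.range_succ, List.foldl_append, List.foldl_append, List.foldl_append, ih (by omega),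
        List.take_succ_eq_append_getElem hk, runS, runS, List.foldl_append,
        ← List.getD_eq_getElem _ (0, 0, 0, 0) hk]
      simp only [List.foldl_cons, List.foldl_nil]
      rw [qo_half0, qo_half1, show 3 * k + 1 + 1 = 3 * k + 2 from rfl, qo_half2]
      funext d
      simp only [qo_ite h2 h1, stepAct]
      split_ifs <;> rfl
  rw [List.range_succ, List.foldl_append, key _ le_rfl, List.take_length]
  exact qo_half0 _ _ _

end Vale.Agent.P370
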