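import Mathlib

/-! Tensor products of families of matrices. -/

namespace Vale.Agent.P370

open Matrix Finset Function

variable {ι A B C : Type} [Fintype ι] [DecidableEq ι] [Fintype A] [Fintype B] [Fintype C]

/-- The tensor product of a family of matrices. -/
def tensM (M : ι → Matrix A B ℝ) : Matrix (ι → A) (ι → B) ℝ :=
  Matrix.of fun x y => ∏ c, M c (x c) (y c)

omit [Fintype A] [Fintype C] in
theorem tensM_mul (M : ι → Matrix A B ℝ) (N : ι → Matrix B C ℝ) :
    tensM M * tensM N = tensM fun c => M c * N c := by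
  ext x z
  simp only [tensM, mul_apply, of_apply]
  rw [prod_univ_sum, Fintype.piFinset_univ]
  exact sum_congr rfl fun y _ => prod_mul_distrib.symm

omit [DecidableEq ι] [Fintype A] [Fintype B] in
theorem tensM_transpose (M : ι → Matrix A B ℝ) : (tensM M)ᵀ = tensM fun c => (M c)ᵀ := rfl

omit [DecidableEq ι] [Fintype A] [Fintype B] in
theorem tensM_zero {M : ι → Matrix A B ℝ} {c : ι} (h : M c = 0) : tensM M = 0 := by
  ext x y
  exact prod_eq_zero (mem_univ c) (by rw [h]; rfl)

omit [Fintype A] [Fintype B] in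
theorem tensM_sum (M : ι → C → Matrix A B ℝ) :
    tensM (fun c => ∑ s, M c s) = ∑ σ : ι → C, tensM fun c => M c (σ c) := by
  ext x y
  simp only [tensM, of_apply, Matrix.sum_apply]
  rw [prod_univ_sum, Fintype.piFinset_univ]

variable [DecidableEq A]

omit [DecidableEq ι] [Fintype A] in
theorem tensM_diag (d : ι → A → ℝ) :
    tensM (fun c => diagonal (d c)) = diagonal fun x => ∏ c, d c (x c) := by
  ext x y
  simp only [tensM, of_apply, diagonal_apply]
  split_ifs with h
  · subst h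
    simp
  · obtain ⟨c, hc⟩ := Function.ne_iff.1 h
    exact prod_eq_zero (mem_univ c) (if_neg hc)

omit [DecidableEq ι] [Fintype A] in
theorem tensM_one : tensM (fun _ : ι => (1 : Matrix A A ℝ)) = 1 := by
  have := tensM_diag (ι := ι) (A := A) fun _ _ => 1
  simpa using this

/-- A matrix acting on one factor. -/
def tensL (c : ι) (m : Matrix A A ℝ) : Matrix (ι → A) (ι → A) ℝ :=
  tensM (update (fun _ => 1) c m)

theorem tensL_mulVec (c : ι) (m : Matrix A A ℝ) (G : (ι → A) → ℝ) (x : ι → A) :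
    (tensL c m *ᵥ G) x = ∑ y, m (x c) y * G (update x c y) := by
  have e : ∀ z : ι → A, tensL c m x z = ∑ y, if z = update x c y then m (x c) y else 0 := by
    intro z
    rw [sum_eq_single (z c) (fun y _ hy => if_neg fun h => hy (by rw [h, update_self]))
      (by simp)]
    simp only [tensL, tensM, of_apply]
    split_ifs with h
    · rw [Fintype.prod_eq_single c fun c' hc => by
        rw [update_of_ne hc, h, update_of_ne hc, one_apply_eq], update_self]
    · obtain ⟨c', hc⟩ := Function.ne_iff.1 h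
      have h1 : c' ≠ c := fun k => hc (by rw [k, update_self])
      rw [update_of_ne h1] at hc
      exact prod_eq_zero (mem_univ c') (by rw [update_of_ne h1, one_apply_ne' hc])
  simp only [mulVec, dotProduct, e, sum_mul]
  rw [sum_comm]
  simp

omit [DecidableEq A] in
theorem tens_fib (c : ι) (F : (ι → A) → ℝ) :
    (Fintype.card A : ℝ) * ∑ x, F x = ∑ x, ∑ z, F (update x c z) := by
  have h := Fintype.sum_bijective (fun p : (ι → A) × A => (update p.1 c p.2, p.1 c))
    (Function.Involutive.bijective fun p => by simp) (fun p => F (update p.1 c p.2))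
    (fun p => F p.1) fun _ => rfl
  rw [Fintype.sum_prod_type, Fintype.sum_prod_type] at h
  rw [h]
  simp [mul_sum]

theorem tensL_mono [Nonempty A] (c : ι) {m m' : Matrix A A ℝ}
    (h : ∀ g, g ⬝ᵥ m *ᵥ g ≤ g ⬝ᵥ m' *ᵥ g) (G : (ι → A) → ℝ) :
    G ⬝ᵥ tensL c m *ᵥ G ≤ G ⬝ᵥ tensL c m' *ᵥ G := by
  have e : ∀ m : Matrix A A ℝ, (Fintype.card A : ℝ) * (G ⬝ᵥ tensL c m *ᵥ G)
      = ∑ x, (fun y => G (update x c y)) ⬝ᵥ m *ᵥ fun y => G (update x c y) := by
    intro m
    rw [dotProduct, tens_fib c]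
    simp only [tensL_mulVec, update_self, update_idem]
    rfl
  refine le_of_mul_le_mul_left ?_ (Nat.cast_pos.2 (Fintype.card_pos (α := A)))
  rw [e, e]
  exact sum_le_sum fun x _ => h _

omit [DecidableEq A] in
theorem tens_idem {Q : Matrix A A ℝ} (h : Q * Q = Q) (h' : Qᵀ = Q) (g : A → ℝ) :
    ∑ x, (Q *ᵥ g) x ^ 2 = g ⬝ᵥ Q *ᵥ g := by
  conv_rhs => rw [← h, ← mulVec_mulVec, dotProduct_mulVec, ← mulVec_transpose, h']
  simp only [dotProduct, sq]

/-- The operator inequality for commuting projections. -/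
theorem tens_proj {p : Matrix A A ℝ} (h : p * p = p) (h' : pᵀ = p) (G : (ι → A) → ℝ) :
    G ⬝ᵥ G - G ⬝ᵥ tensM (fun _ => p) *ᵥ G ≤ ∑ c, (G ⬝ᵥ G - G ⬝ᵥ tensL c p *ᵥ G) := by
  obtain ⟨P, hP⟩ : ∃ P : Finset ι → Matrix (ι → A) (ι → A) ℝ,
      P = fun S => tensM fun c => if c ∈ S then p else 1 := ⟨_, rfl⟩
  have h1 : ∀ S T, P S * P T = P (S ∪ T) := by
    intro S T
    rw [hP]
    refine (tensM_mul _ _).trans (congrArg tensM (funext fun c => ?_))
    by_cases a1 : c ∈ S <;> by_cases a2 : c ∈ T <;> simp [a1, a2, h]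
  have h2 : ∀ S, (P S)ᵀ = P S := by
    intro S
    rw [hP]
    refine (tensM_transpose _).trans (congrArg tensM (funext fun c => ?_))
    by_cases a1 : c ∈ S <;> simp [a1, h']
  have h3 : ∀ c, tensL c p = P {c} := by
    intro c
    rw [hP]
    refine congrArg tensM (funext fun c' => ?_)
    simp [update_apply]
  have h4 : ∀ S, G ⬝ᵥ G - G ⬝ᵥ P S *ᵥ G ≤ ∑ c ∈ S, (G ⬝ᵥ G - G ⬝ᵥ P {c} *ᵥ G) := by
    intro S
    induction S using Finset.induction_on with
    | empty => simp [hP, tensM_one]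
    | insert c S hc ih =>
      have a1 : IsIdempotentElem (P S) := (h1 S S).trans (by rw [union_self])
      have a2 : IsIdempotentElem (P {c}) := (h1 _ _).trans (by rw [union_self])
      have a3 : Commute (P {c}) (P S) := (h1 _ _).trans (by rw [union_comm, h1])
      have a4 : Commute (1 - P {c}) (1 - P S) :=
        (Commute.one_left _).sub_left ((Commute.one_right _).sub_right a3)
      have a5 := tens_idem (a2.one_sub.mul_of_commute a4 a1.one_sub)
        (by rw [transpose_mul, transpose_sub, transpose_sub, h2, h2, transpose_one, a4.eq]) G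
      have a6 : 0 ≤ G ⬝ᵥ ((1 - P {c}) * (1 - P S)) *ᵥ G :=
        a5 ▸ sum_nonneg fun _ _ => sq_nonneg _
      rw [mul_sub, sub_mul, sub_mul, h1, ← insert_eq] at a6
      simp only [mul_one, one_mul, sub_mulVec, one_mulVec, dotProduct_sub] at a6
      rw [sum_insert hc]
      linarith
  have h5 := h4 univ
  simp only [← h3] at h5
  simpa [hP] using h5

omit [DecidableEq A] [Fintype C] in
theorem tens_quad [DecidableEq C] (S : Finset C) (J : C → Matrix A B ℝ) (D : Matrix A A ℝ)
    (N : Matrix B B ℝ) (h : ∀ s s', (J s)ᵀ * D * J s' = if s = s' then N else 0)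
    (ξ : C → B → ℝ) :
    (∑ s ∈ S, J s *ᵥ ξ s) ⬝ᵥ D *ᵥ (∑ s ∈ S, J s *ᵥ ξ s) = ∑ s ∈ S, ξ s ⬝ᵥ N *ᵥ ξ s := by
  have e : ∀ s s', (J s *ᵥ ξ s) ⬝ᵥ D *ᵥ J s' *ᵥ ξ s'
      = ξ s ⬝ᵥ (if s = s' then N else 0) *ᵥ ξ s' := fun s s' => by
    rw [← h, ← mulVec_mulVec, ← mulVec_mulVec, dotProduct_mulVec (ξ s), vecMul_transpose]
  rw [sum_dotProduct]
  refine sum_congr rfl fun s hs => ?_
  rw [mulVec_sum, dotProduct_sum, sum_eq_single_of_mem s hs fun s' _ hs' => by
    rw [e, if_neg hs'.symm, zero_mulVec, dotProduct_zero], e, if_pos rfl]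

end Vale.Agent.P370
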