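import Vale.Agent.P370.Clu
import Vale.Agent.P370.Qop
import Vale.Agent.P370.TensA

/-! From clusters to logical qubits. -/

namespace Vale.Agent.P370

open scoped Classical

open Matrix Finset Function

/-- The ground states with a given spin label. -/
noncomputable def tensj (s : Bool) : Matrix Cl Bool ℝ := Matrix.of fun y l => jm y l s

/-- The product ground states. -/
noncomputable def tensJ {n : ℕ} (σ : Fin n → Bool) : Matrix (Fin n → Cl) (Fin n → Bool) ℝ :=
  tensM fun c => tensj (σ c)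

/-- The projection onto the ground states. -/
noncomputable def tensp : Matrix Cl Cl ℝ := ∑ s, tensj s * (tensj s)ᵀ

/-- The shifted cluster Hamiltonian. -/
noncomputable def tensb : Matrix Cl Cl ℝ :=
  diagonal (fun y => 3 - if y.1 = 0 then 15 / 8 else 0) -
    Matrix.of fun y z => ∑ t, if z = hopC y t then (sgZ y.1 t : ℝ) else 0

/-- The inter-cluster weight of a configuration. -/
noncomputable def tensW {n : ℕ} (u : ℕ → ℕ → ℝ) (x : Fin n → Cl) : ℝ :=
  ∑ a : Fin (4 * n), ∑ b : Fin (4 * n) with a < b ∧ a.val / 4 ≠ b.val / 4,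
    if occ x a ∧ occ x b then u a.val b.val else 0

theorem tensj_ortho (s s' : Bool) : (tensj s)ᵀ * tensj s' = if s = s' then 1 else 0 := by
  ext l l'
  refine (jm_ortho l s l' s').trans ?_
  by_cases h : s = s' <;> simp [h, one_apply]

theorem tensj_dens (k : ℕ) (hk : k < 4) (s s' : Bool) :
    (tensj s)ᵀ * diagonal (fun y : Cl => if y.1.val ≠ k then (1 : ℝ) else 0) * tensj s'
      = if s = s' then Matrix.of (nM k) else 0 := by
  ext l l'
  have h := jm_dens ⟨k, hk⟩ l s l' s'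
  rw [sum_filter] at h
  rw [mul_apply]
  simp only [mul_diagonal, transpose_apply, tensj, of_apply]
  refine Eq.trans (sum_congr rfl fun y _ => ?_) (h.trans ?_)
  · simp only [ne_eq, Fin.ext_iff]
    split_ifs <;> simp
  · split_ifs <;> rfl

theorem tensp_idem : tensp * tensp = tensp := by
  simp only [tensp, sum_mul, mul_sum]
  refine sum_congr rfl fun s _ => ?_
  have e : ∀ s', tensj s' * (tensj s')ᵀ * (tensj s * (tensj s)ᵀ)
      = if s' = s then tensj s' * (tensj s)ᵀ else 0 := by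
    intro s'
    rw [Matrix.mul_assoc, ← Matrix.mul_assoc (tensj s')ᵀ, tensj_ortho]
    split_ifs <;> simp
  simp [e]

theorem tensp_symm : tenspᵀ = tensp := by
  simp only [tensp, transpose_sum, transpose_mul, transpose_transpose]

theorem tensb_mulVec (g : Cl → ℝ) (y : Cl) : (tensb *ᵥ g) y
    = 3 * g y - ∑ t, (sgZ y.1 t : ℝ) * g (hopC y t) - (if y.1 = 0 then 15 / 8 else 0) * g y := by
  have e : ((Matrix.of fun y z : Cl => ∑ t, if z = hopC y t then (sgZ y.1 t : ℝ) else 0) *ᵥ g) y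
      = ∑ t, (sgZ y.1 t : ℝ) * g (hopC y t) := by
    simp only [mulVec, dotProduct, of_apply, sum_mul]
    rw [sum_comm]
    simp only [ite_mul, zero_mul, sum_ite_eq', mem_univ, if_true]
  rw [tensb, sub_mulVec, Pi.sub_apply, e, mulVec_diagonal]
  ring

theorem tensb_j (s : Bool) : tensb * tensj s = 0 := by
  ext y l
  have h := tensb_mulVec (fun y => jm y l s) y
  have h' := jm_eigen y l s
  exact h.trans (by rw [Matrix.zero_apply]; linarith)

theorem tensb_gap (g : Cl → ℝ) : g ⬝ᵥ ((1 / 3 : ℝ) • (1 - tensp)) *ᵥ g ≤ g ⬝ᵥ tensb *ᵥ g := by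
  have e1 : g ⬝ᵥ tensp *ᵥ g = ∑ l, ∑ s, (∑ y, jm y l s * g y) ^ 2 := by
    rw [tensp, sum_mulVec, dotProduct_sum, sum_comm]
    refine sum_congr rfl fun s _ => ?_
    rw [← mulVec_mulVec, dotProduct_mulVec, ← mulVec_transpose]
    exact sum_congr rfl fun l _ => (sq _).symm
  have e2 : g ⬝ᵥ tensb *ᵥ g
      = 3 * ∑ y, g y ^ 2 - xC g - 15 / 8 * ∑ y : Cl with y.1 = 0, g y ^ 2 := by
    rw [sum_filter, xC, mul_sum, mul_sum, ← sum_sub_distrib, ← sum_sub_distrib]
    refine sum_congr rfl fun y _ => ?_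
    rw [tensb_mulVec, mul_sub, mul_sub, mul_sum]
    simp only [mul_assoc]
    split_ifs <;> ring
  have e3 : g ⬝ᵥ g = ∑ y, g y ^ 2 := sum_congr rfl fun l _ => (sq _).symm
  rw [smul_mulVec, sub_mulVec, one_mulVec, dotProduct_smul, dotProduct_sub, e1, e2, e3]
  exact clu_gap g

variable {n : ℕ}

theorem tens_key (S : Finset (Fin n → Bool)) {d : Fin n → Cl → ℝ} {m : Fin n → Matrix Bool Bool ℝ}
    (h : ∀ c s s', (tensj s)ᵀ * diagonal (d c) * tensj s' = if s = s' then m c else 0)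
    (ξ : (Fin n → Bool) → (Fin n → Bool) → ℝ) :
    ∑ x, (∏ c, d c (x c)) * (∑ σ ∈ S, tensJ σ *ᵥ ξ σ) x ^ 2 = ∑ σ ∈ S, ξ σ ⬝ᵥ tensM m *ᵥ ξ σ := by
  rw [← tens_quad S tensJ (tensM fun c => diagonal (d c)) (tensM m) (fun σ σ' => ?_) ξ, tensM_diag]
  · refine sum_congr rfl fun x _ => ?_
    rw [mulVec_diagonal]
    ring
  · rw [tensJ, tensJ, tensM_transpose, tensM_mul, tensM_mul]
    simp only [h]
    split_ifs with h1
    · simp [h1]
    · obtain ⟨c, hc⟩ := Function.ne_iff.1 h1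
      exact tensM_zero (c := c) (if_neg hc)

theorem tens_nrm (S : Finset (Fin n → Bool)) (ξ : (Fin n → Bool) → (Fin n → Bool) → ℝ) :
    ∑ x, (∑ σ ∈ S, tensJ σ *ᵥ ξ σ) x ^ 2 = ∑ σ ∈ S, ∑ l, ξ σ l ^ 2 := by
  have h := tens_key S (d := fun _ _ => 1) (m := fun _ => 1)
    (fun c s s' => by rw [diagonal_one, Matrix.mul_one, tensj_ortho]) ξ
  simpa only [prod_const_one, one_mul, tensM_one, one_mulVec, dotProduct, ← sq] using h

theorem tens_opQ (c : Fin n) (A : Bool → Bool → ℝ) (ξ : (Fin n → Bool) → ℝ) :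
    opQ c.val A ξ = tensL c (Matrix.of A) *ᵥ ξ := by
  funext d
  rw [tensL_mulVec, opQ, dif_pos c.2]
  rfl

theorem tens_U (S : Finset (Fin n → Bool)) (u : ℕ → ℕ → ℝ)
    (ξ : (Fin n → Bool) → (Fin n → Bool) → ℝ) :
    ∑ x, tensW u x * (∑ σ ∈ S, tensJ σ *ᵥ ξ σ) x ^ 2 = ∑ σ ∈ S, hU u (ξ σ) := by
  simp only [tensW, hU, sum_mul]
  rw [sum_comm, sum_comm (s := S)]
  refine sum_congr rfl fun a _ => ?_
  rw [sum_comm, sum_comm (s := S)]
  refine sum_congr rfl fun b hb => ?_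
  have hab : clOf a ≠ clOf b := fun h => (mem_filter.1 hb).2.2 (congrArg Fin.val h)
  have h := tens_key S (d := fun c y =>
    update (β := fun _ => Cl → ℝ) (fun _ _ => 1) (clOf a)
      (fun y => if y.1.val ≠ a.val % 4 then 1 else 0) c y *
    update (β := fun _ => Cl → ℝ) (fun _ _ => 1) (clOf b)
      (fun y => if y.1.val ≠ b.val % 4 then 1 else 0) c y)
    (m := fun c => update (β := fun _ => Matrix Bool Bool ℝ) (fun _ => 1) (clOf a)
      (Matrix.of (nM (a.val % 4))) c * update (β := fun _ => Matrix Bool Bool ℝ) (fun _ => 1)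
      (clOf b) (Matrix.of (nM (b.val % 4))) c) (fun c s s' => by
      by_cases h1 : c = clOf a
      · subst h1
        simp only [update_self, update_of_ne hab, mul_one]
        exact tensj_dens _ (by omega) s s'
      · by_cases h2 : c = clOf b
        · subst h2
          simp only [update_self, update_of_ne h1, one_mul]
          exact tensj_dens _ (by omega) s s'
        · simp only [update_of_ne h1, update_of_ne h2, one_mul, diagonal_one, Matrix.mul_one,
            tensj_ortho]) ξ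
  rw [← mul_sum, ← tensM_mul] at *
  have e : ∀ σ, form2 (a.val / 4) (nM (a.val % 4)) (b.val / 4) (nM (b.val % 4)) (ξ σ)
      = ξ σ ⬝ᵥ (tensL (clOf a) (Matrix.of (nM (a.val % 4))) *
        tensL (clOf b) (Matrix.of (nM (b.val % 4)))) *ᵥ ξ σ := fun σ => by
    rw [← mulVec_mulVec, ← tens_opQ, ← tens_opQ]
    rfl
  simp only [e, tensL]
  rw [← h, mul_sum]
  refine sum_congr rfl fun x _ => ?_
  rw [prod_mul_distrib, Fintype.prod_eq_single (clOf a) fun c hc => by rw [update_of_ne hc],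
    Fintype.prod_eq_single (clOf b) fun c hc => by rw [update_of_ne hc], update_self, update_self]
  unfold occ
  by_cases h1 : (x (clOf a)).1.val = a.val % 4 <;> by_cases h2 : (x (clOf b)).1.val = b.val % 4 <;>
    simp [h1, h2]

/-- Modes as pairs. -/
def tensE (n : ℕ) : Fin n × Fin 4 ≃ Fin (4 * n) where
  toFun p := ⟨4 * p.1.val + p.2.val, by have := p.1.2; have := p.2.2; omega⟩
  invFun a := (clOf a, ⟨a.val % 4, by omega⟩)
  left_inv p := Prod.ext (Fin.ext (by have := p.2.2; simp only [clOf]; omega))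
    (Fin.ext (by have := p.2.2; simp only; omega))
  right_inv a := Fin.ext (by simp only [clOf]; omega)

theorem tens_wDiag (t0 : ℝ) (u : ℕ → ℕ → ℝ) (x : Fin n → Cl) :
    wDiag (wMod t0 u) x = tensW u x + ∑ c, (30 * t0 - 16 * t0 * if (x c).1 = 0 then 15 / 8 else 0) := by
  have e1 : wDiag (wMod t0 u) x = tensW u x + ∑ a : Fin (4 * n), ∑ b : Fin (4 * n),
      if a < b ∧ a.val / 4 = b.val / 4 ∧ occ x a ∧ occ x b ∧ (a.val % 4 = 0 ∨ b.val % 4 = 0)
        then 15 * t0 else 0 := by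
    rw [wDiag, tensW, ← sum_add_distrib]
    refine sum_congr rfl fun a _ => ?_
    rw [sum_filter, sum_filter, ← sum_add_distrib]
    refine sum_congr rfl fun b _ => ?_
    by_cases h : a < b
    · by_cases h1 : a.val / 4 = b.val / 4 <;> by_cases h2 : occ x a <;> by_cases h3 : occ x b <;>
        simp [wMod, h, h.ne, h1, h2, h3]
    · simp [h]
  rw [e1, ← (tensE n).sum_comp, Fintype.sum_prod_type]
  congr 1
  refine sum_congr rfl fun c _ => ?_
  have e2 : ∀ k : Fin 4, (∑ b : Fin (4 * n), if tensE n (c, k) < b ∧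
      (tensE n (c, k)).val / 4 = b.val / 4 ∧ occ x (tensE n (c, k)) ∧ occ x b ∧
        ((tensE n (c, k)).val % 4 = 0 ∨ b.val % 4 = 0) then 15 * t0 else 0)
      = ∑ k' : Fin 4, if k < k' ∧ (x c).1 ≠ k ∧ (x c).1 ≠ k' ∧ (k = 0 ∨ k' = 0)
        then 15 * t0 else 0 := by
    intro k
    have a1 : ∀ c k, clOf (tensE n (c, k)) = c := fun c k =>
      congrArg Prod.fst ((tensE n).left_inv (c, k))
    have a2 : ∀ c k, (tensE n (c, k)).val = 4 * c.val + k.val := fun _ _ => rfl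
    rw [← (tensE n).sum_comp, Fintype.sum_prod_type, Fintype.sum_eq_single c fun c' hc =>
      sum_eq_zero fun k' _ => if_neg fun h => hc (Fin.ext (by
        have := h.2.1
        rw [a2, a2] at this
        omega))]
    refine sum_congr rfl fun k' _ => if_congr ?_ rfl rfl
    simp only [occ, a1, a2, Fin.lt_def, ne_eq, Fin.ext_iff, Fin.val_zero]
    omega
  simp only [e2]
  generalize (x c).1 = h
  fin_cases h <;> simp [Fin.sum_univ_four] <;> ring

theorem tens_form (t0 : ℝ) (u : ℕ → ℕ → ℝ) (G : (Fin n → Cl) → ℝ) :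
    clForm t0 u G = 126 * n * t0 * ∑ x, G x ^ 2 + 16 * t0 * ∑ c, G ⬝ᵥ tensL c tensb *ᵥ G
      + ∑ x, tensW u x * G x ^ 2 := by
  have e : ∀ c, G ⬝ᵥ tensL c tensb *ᵥ G = 3 * ∑ x, G x ^ 2
      - ∑ x, ∑ s, G x * (sgZ (x c).1 s : ℝ) * G (update x c (hopC (x c) s))
      - ∑ x, (if (x c).1 = 0 then 15 / 8 else 0) * G x ^ 2 := by
    intro c
    rw [mul_sum, ← sum_sub_distrib, ← sum_sub_distrib]
    refine sum_congr rfl fun x _ => ?_
    have h := tensb_mulVec (fun y => G (update x c y)) (x c)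
    rw [update_eq_self] at h
    rw [tensL_mulVec, show ∑ y, tensb (x c) y * G (update x c y) = _ from h, mul_sub, mul_sub,
      mul_sum]
    simp only [mul_assoc]
    ring
  simp only [clForm, e, tens_wDiag, add_mul, sum_add_distrib, sum_sub_distrib, sum_const, card_univ,
    Fintype.card_fin, nsmul_eq_mul, sub_mul, ← mul_sum, mul_assoc, xN]
  rw [sum_comm (s := (univ : Finset (Fin n)))
    (f := fun c x => (if (x c).1 = 0 then 15 / 8 else 0) * G x ^ 2)]
  simp only [← sum_mul]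
  ring

theorem tens_low {n : ℕ} {t0 a2 lam : ℝ} {u : ℕ → ℕ → ℝ} (hu : ∀ a b, 0 ≤ u a b)
    (hs : ∑ a : Fin (4 * n), ∑ b : Fin (4 * n) with a < b ∧ a.val / 4 ≠ b.val / 4,
      u a.val b.val ≤ a2) (hl : lam ≤ a2) (ht : 2 * a2 < 16 * t0 / 3)
    (H : ∀ ξ : (Fin n → Bool) → ℝ, lam * ∑ d, ξ d ^ 2 ≤ hU u ξ) (G : (Fin n → Cl) → ℝ) :
    (126 * n * t0 + lam - a2 ^ 2 / (16 * t0 / 3 - 2 * a2)) * ∑ x, G x ^ 2 ≤ clForm t0 u G := by
  have hW0 : ∀ x : Fin n → Cl, 0 ≤ tensW u x := fun x =>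
    sum_nonneg fun a _ => sum_nonneg fun b _ => by
      split_ifs
      exacts [hu _ _, le_rfl]
  have hW1 : ∀ x : Fin n → Cl, tensW u x ≤ a2 := fun x =>
    le_trans (sum_le_sum fun a _ => sum_le_sum fun b _ => by
      split_ifs
      exacts [le_rfl, hu _ _]) hs
  have ha : 0 ≤ a2 := (sum_nonneg fun a _ => sum_nonneg fun b _ => hu _ _).trans hs
  obtain ⟨P, hP⟩ : ∃ P, P = tensM fun _ : Fin n => tensp := ⟨_, rfl⟩
  obtain ⟨Y, hY⟩ : ∃ Y, Y = P *ᵥ G := ⟨_, rfl⟩
  have hY' : Y = ∑ σ, tensJ σ *ᵥ (tensJ σ)ᵀ *ᵥ G := by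
    rw [hY, hP, tensp, tensM_sum, sum_mulVec]
    refine sum_congr rfl fun σ _ => ?_
    rw [mulVec_mulVec, tensJ, tensM_transpose, tensM_mul]
  have h1 : ∑ x, Y x ^ 2 = G ⬝ᵥ Y := by
    rw [hY]
    refine tens_idem ?_ ?_ G
    · rw [hP, tensM_mul, tensp_idem]
    · rw [hP, tensM_transpose, tensp_symm]
  have e0 : G ⬝ᵥ G = ∑ x, G x ^ 2 := sum_congr rfl fun l _ => (sq _).symm
  have h2 : ∑ x, (G x - Y x) ^ 2 = ∑ x, G x ^ 2 - ∑ x, Y x ^ 2 := by
    simp only [sub_sq, sum_add_distrib, sum_sub_distrib, mul_assoc, ← mul_sum]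
    rw [show ∑ x, G x * Y x = _ from h1.symm]
    ring
  have h3 : lam * ∑ x, Y x ^ 2 ≤ ∑ x, tensW u x * Y x ^ 2 := by
    rw [hY', tens_nrm, tens_U, mul_sum]
    exact sum_le_sum fun σ _ => H _
  have h4 : 1 / 3 * ∑ x, (G x - Y x) ^ 2 ≤ ∑ c, G ⬝ᵥ tensL c tensb *ᵥ G := by
    have a1 := tens_proj tensp_idem tensp_symm G
    rw [← hP, ← hY, ← h1] at a1
    rw [h2, ← e0]
    refine (mul_le_mul_of_nonneg_left a1 (by norm_num)).trans ?_
    rw [mul_sum]
    refine sum_le_sum fun c _ => le_trans (le_of_eq ?_) (tensL_mono c tensb_gap G)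
    simp only [dotProduct]
    rw [← sum_sub_distrib, mul_sum]
    refine sum_congr rfl fun x _ => ?_
    have a2 : ((1 : Matrix Cl Cl ℝ) *ᵥ fun y => G (update x c y)) (x c) = G x := by
      rw [one_mulVec, update_eq_self]
    rw [tensL_mulVec, tensL_mulVec, ← a2]
    simp only [Matrix.smul_apply, Matrix.sub_apply, smul_eq_mul, mul_assoc, sub_mul, ← mul_sum,
      sum_sub_distrib, mulVec, dotProduct]
    ring
  have n1 := Real.sq_sqrt (sum_nonneg fun x (_ : x ∈ univ) => sq_nonneg (Y x))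
  have n2 := Real.sq_sqrt (sum_nonneg fun x (_ : x ∈ univ) => sq_nonneg (G x - Y x))
  have h5 : |∑ x, tensW u x * (Y x * (G x - Y x))|
      ≤ a2 * √(∑ x, Y x ^ 2) * √(∑ x, (G x - Y x) ^ 2) := by
    have a1 := Real.sum_mul_le_sqrt_mul_sqrt univ (fun x => |Y x|) fun x => |G x - Y x|
    simp only [sq_abs] at a1
    rw [mul_assoc]
    refine (abs_sum_le_sum_abs _ _).trans (le_trans ?_ (mul_le_mul_of_nonneg_left a1 ha))
    rw [mul_sum]
    refine sum_le_sum fun x _ => ?_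
    rw [abs_mul, abs_mul, abs_of_nonneg (hW0 x)]
    exact mul_le_mul_of_nonneg_right (hW1 x) (by positivity)
  have h6 : 0 ≤ ∑ x, tensW u x * (G x - Y x) ^ 2 :=
    sum_nonneg fun x _ => mul_nonneg (hW0 x) (sq_nonneg _)
  have h7 := proj_ineq (B := 16 * t0 * ∑ c, G ⬝ᵥ tensL c tensb *ᵥ G) (n1.symm ▸ h3) h5
    (le_trans (by rw [neg_mul, neg_nonpos]; positivity) h6) (by
      rw [n2]
      have := mul_le_mul_of_nonneg_left h4 (by linarith : 0 ≤ 16 * t0)
      linarith) hl ht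
  have h8 : ∑ x, tensW u x * G x ^ 2 = ∑ x, tensW u x * Y x ^ 2
      + 2 * ∑ x, tensW u x * (Y x * (G x - Y x)) + ∑ x, tensW u x * (G x - Y x) ^ 2 := by
    rw [mul_sum, ← sum_add_distrib, ← sum_add_distrib]
    exact sum_congr rfl fun x _ => by ring
  rw [n1, n2, h2, add_sub_cancel] at h7
  rw [tens_form, h8]
  linarith

theorem tens_up {n : ℕ} (t0 : ℝ) (u : ℕ → ℕ → ℝ) (ξ : (Fin n → Bool) → ℝ) :
    ∃ G : (Fin n → Cl) → ℝ, ∑ x, G x ^ 2 = ∑ d, ξ d ^ 2 ∧
      clForm t0 u G = 126 * n * t0 * ∑ d, ξ d ^ 2 + hU u ξ := by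
  have h1 := tens_nrm {fun _ => false} fun _ => ξ
  have h2 := tens_U {fun _ => false} u fun _ => ξ
  simp only [sum_singleton] at h1 h2
  refine ⟨_, h1, ?_⟩
  rw [tens_form, h1, h2, sum_eq_zero (s := (univ : Finset (Fin n))) fun c _ => ?_, mul_zero,
    add_zero]
  have h3 : tensL c tensb * tensJ (fun _ : Fin n => false)
      = (0 : Matrix (Fin n → Cl) (Fin n → Bool) ℝ) := by
    rw [tensL, tensJ, tensM_mul]
    exact tensM_zero (c := c) (by rw [update_self, tensb_j])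
  rw [mulVec_mulVec, h3, zero_mulVec, dotProduct_zero]

end Vale.Agent.P370
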