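import Vale.Agent.P370.Tup
import Vale.Agent.P370.Pen1
import Vale.Agent.P370.Tens
import Vale.Agent.P370.Lin
import Vale.Agent.P370.HistC
import Vale.Agent.P370.Gates

/-! The discrete instance of a circuit. -/

namespace Vale.Agent.P370

open scoped Classical

theorem dm_wt (c : Raw) (a b : ℕ) :
    c.disc.wt a b = if a < 4 * c.nl ∧ b < 4 * c.nl then c.wt a b else 0 := by
  simp only [Disc.wt, Raw.disc, Raw.tab, List.getD_eq_getElem?_getD, List.getElem?_map]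
  by_cases ha : a < 4 * c.nl
  · by_cases hb : b < 4 * c.nl <;> simp [ha, hb]
  · simp [ha]

theorem dm_k0 (c : Raw) : 100 ≤ c.k0 := Nat.le_add_left _ _

theorem dm_nl (c : Raw) : 1 ≤ c.nl := by
  unfold Raw.nl
  omega

/-- The inter-cluster weights as real numbers. -/
noncomputable def dmU (c : Raw) (a b : ℕ) : ℝ := (uT c.ks c.k0 c.ts a b : ℝ)

theorem dm_w (c : Raw) (a b : Fin (4 * c.nl)) :
    (c.disc.wt a.val b.val : ℝ) = wChg c.vc (wMod c.t0 (dmU c)) a b := by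
  simp only [dm_wt, a.2, b.2, and_self, if_true, Raw.wt, wChg, wMod, clOf, Fin.ext_iff, dmU]
  by_cases h : a.val = b.val
  · simp [h, two_mul]
  · split_ifs <;> simp

theorem dm_form (c : Raw) (D : Ten (3 * c.nl) (4 * c.nl)) : c.disc.form D =
    16 * c.t0 * hopT (E4 (4 * c.nl)) D + intT (wChg c.vc (wMod c.t0 (dmU c))) D := by
  rw [← funext₂ (dm_w c), show (16 : ℝ) * c.t0 = ((16 * c.t0 : ℕ) : ℝ) by simp]
  rfl

theorem dm_corr {n : ℕ} {C : Ten (3 * n) (4 * n)} {G : (Fin n → Cl) → ℝ} (h : Corr C G) (t0 : ℝ)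
    {u : ℕ → ℕ → ℝ} (hu : ∀ a b, u a b = u b a) :
    16 * t0 * hopT (E4 (4 * n)) C + intT (wMod t0 u) C = (3 * n).factorial * clForm t0 u G := by
  rw [h.2.1, h.2.2 _ fun a b => by
    simp only [wMod, hu a.val, eq_comm (a := a), eq_comm (a := a.val / 4), or_comm], clForm]
  ring

theorem dmU_symm (c : Raw) (a b : ℕ) : dmU c a b = dmU c b a := by
  rw [dmU, uT_symm, dmU]

theorem dm_yes_core {n : ℕ} (t0 vc : ℝ) {u : ℕ → ℕ → ℝ} (hu : ∀ a b, u a b = u b a)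
    {ξ : (Fin n → Bool) → ℝ} (hξ : ∑ d, ξ d ^ 2 = 1) :
    ∃ D : Ten (3 * n) (4 * n), AntiT D ∧ HardT D ∧ nrmT D = 1 ∧
      16 * t0 * hopT (E4 (4 * n)) D + intT (wChg vc (wMod t0 u)) D =
        3 * n * vc + 126 * n * t0 + hU u ξ := by
  obtain ⟨G, hG, hG'⟩ := tens_up t0 u ξ
  obtain ⟨D, hD, hV, hC⟩ := tup_exists_C G
  have h4 := dm_corr hC t0 hu
  have h5 := pen1_valid vc (wMod t0 u) D hV
  have h6 := hC.1
  rw [hG, hξ, mul_one] at h6
  rw [hG', hξ] at h4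
  have hF : (0 : ℝ) < (3 * n).factorial := by exact_mod_cast Nat.factorial_pos _
  obtain ⟨r, hr⟩ : ∃ r : ℝ, r ^ 2 * (3 * n).factorial = 1 :=
    ⟨(√(3 * n).factorial)⁻¹, by rw [inv_pow, Real.sq_sqrt hF.le, inv_mul_cancel₀ hF.ne']⟩
  have e1 : nrmT (fun s a => r * D s a) = r ^ 2 * nrmT D := by
    simp only [nrmT, mul_pow, Finset.mul_sum]
  have e2 : hopT (E4 (4 * n)) (fun s a => r * D s a) = r ^ 2 * hopT (E4 (4 * n)) D := by
    simp only [hopT, ← mul_sub, mul_pow, Finset.mul_sum]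
  have e3 : ∀ w, intT w (fun s a => r * D s a) = r ^ 2 * intT w D := fun w => by
    simp only [intT, mul_pow, Finset.mul_sum (a := r ^ 2), mul_left_comm]
  refine ⟨fun s a => r * D s a, fun π s a => ?_, fun s a ha => ?_, ?_, ?_⟩
  · beta_reduce
    rw [hD π s a, mul_left_comm]
  · beta_reduce
    rw [hV s a fun h => ha h.1, mul_zero]
  · rw [e1, h6, hr]
  · rw [e2, e3]
    linear_combination r ^ 2 * h5 + r ^ 2 * h4 + r ^ 2 * (3 * n * vc) * h6 +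
      (3 * n * vc + 126 * n * t0 + hU u ξ) * hr

theorem dm_no_core {n : ℕ} (hn : 1 ≤ n) {t0 a2 a1 vc lam : ℝ} {u : ℕ → ℕ → ℝ}
    (hu0 : ∀ a b, 0 ≤ u a b) (hu : ∀ a b, u a b = u b a)
    (hs : ∑ a : Fin (4 * n), ∑ b : Fin (4 * n) with a < b ∧ a.val / 4 ≠ b.val / 4,
      u a.val b.val ≤ a2) (ha2 : 0 ≤ a2) (ht0 : t0 = a2 ^ 2 + a2 + 1)
    (ha1 : a1 = 4 * (3 * n) * (16 * t0) + (3 * n) ^ 2 * (15 * t0 + a2))
    (hvc : vc = a1 ^ 2 + 2 * a1) (hl : lam ≤ a2)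
    (H : ∀ ξ : (Fin n → Bool) → ℝ, lam * ∑ d, ξ d ^ 2 ≤ hU u ξ)
    (D : Ten (3 * n) (4 * n)) (hD : AntiT D) :
    (3 * n * vc + 126 * n * t0 + lam - 2) * nrmT D ≤
      16 * t0 * hopT (E4 (4 * n)) D + intT (wChg vc (wMod t0 u)) D := by
  have hn' : (1 : ℝ) ≤ n := by exact_mod_cast hn
  have ht1 : 0 < t0 := by rw [ht0]; positivity
  have hnt0 : 0 < n * t0 := by positivity
  have h9 : a2 ≤ (3 * n) ^ 2 * (15 * t0 + a2) :=
    le_trans (by linarith) (le_mul_of_one_le_left (by positivity) (by nlinarith))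
  have hsq := sq_nonneg a2
  have h5 := tens_low (t0 := t0) hu0 hs hl (by linarith) H
  have h6 : a2 ^ 2 / (16 * t0 / 3 - 2 * a2) ≤ 1 := div_le_one_of_le₀ (by linarith) (by linarith)
  have ha0 : 0 < a1 := by linarith
  have h7 := pen1_low (τ := 16 * t0) (Vc := vc) (a1 := a1) (lam := 126 * n * t0 + lam - 1)
    (w := wMod t0 u) (by positivity)
    (fun a b => by have := hu0 a b; unfold wMod; split_ifs <;> positivity) (by linarith)
    (by linarith) (by linarith [pow_pos ha0 2]) (fun D hD hV => by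
      obtain ⟨G, hG⟩ := tup_exists_G D hD hV
      rw [dm_corr hG t0 hu, hG.1, mul_left_comm]
      refine mul_le_mul_of_nonneg_left (le_trans (mul_le_mul_of_nonneg_right (by linarith)
        (Finset.sum_nonneg fun x _ => sq_nonneg _)) (h5 G)) (Nat.cast_nonneg _)) D hD
  rw [show vc - 2 * a1 = a1 ^ 2 by linarith, div_self (pow_ne_zero 2 ha0.ne')] at h7
  exact (le_of_eq (by ring)).trans h7

theorem dm_lin (c : Raw) (h : ∀ st ∈ c.sts, StepOK c.nq st) (ξ : (Fin c.nl → Bool) → ℝ) :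
    |hU (dmU c) ξ -
        c.ks * (hL c.ts ξ + 130 * lamSum c.ts * (126 / 47) ^ 2 * ∑ d, ξ d ^ 2)| ≤
      (9 * c.ts.length + 1) * ∑ d, ξ d ^ 2 := by
  refine (lin_approx (raw_termOK c h) c.ks (dm_k0 c) ξ).trans
    (mul_le_mul_of_nonneg_right (add_le_add_right (div_le_one_of_le₀ ?_ (Nat.cast_nonneg _)) _)
      (Finset.sum_nonneg fun d _ => sq_nonneg _))
  simp only [Raw.k0]
  push_cast
  linarith

/-- The real number whose ceiling is the threshold. -/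
noncomputable def dmX (c : Raw) : ℝ :=
  3 * c.nl * c.vc + 126 * c.nl * c.t0 + 9 * c.ts.length + 1 + c.ks *
    (130 * lamSum c.ts * (126 / 47) ^ 2 - c.j2 + 1 / (3 * (c.tT + 1)))

theorem dm_al (c : Raw) : c.al = ⌈dmX c⌉₊ := by
  have h : ∀ q : ℚ, ⌈q⌉₊ = ⌈(q : ℝ)⌉₊ := fun q => eq_of_forall_ge_iff fun m => by
    rw [Nat.ceil_le, Nat.ceil_le]
    norm_cast
  rw [Raw.al, h, dmX]
  push_cast
  rfl

theorem dmX_nonneg (c : Raw) : 0 ≤ dmX c := by
  have h1 : (c.j2 : ℝ) ≤ lamSum c.ts := by exact_mod_cast raw_j2_le c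
  have h2 : (0 : ℝ) ≤ lamSum c.ts := Nat.cast_nonneg _
  have h3 : (0 : ℝ) ≤ 130 * lamSum c.ts * (126 / 47) ^ 2 - c.j2 := by linarith
  unfold dmX
  positivity

theorem disc_le (c : Raw) {M : ℕ} (h : c.bnd ≤ M) : c.disc.Le M := by
  have h1 := dm_nl c
  unfold Raw.bnd at h
  refine ⟨h1, by change 4 * c.nl ≤ M; omega, ?_, by change 16 * c.t0 ≤ M; omega,
    by change c.al + 2 ≤ M; omega, fun a b => ?_, fun a b => ?_⟩
  · change 1 ≤ 16 * (c.a2 ^ 2 + c.a2 + 1)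
    omega
  · have h2 : uT c.ks c.k0 c.ts a b ≤ c.a2 := uT_le c.ks (dm_k0 c) c.ts a b
    rw [dm_wt, Raw.wt]
    split_ifs <;> omega
  · simp only [dm_wt, Raw.wt, uT_symm _ _ _ a, eq_comm (a := a), eq_comm (a := a / 4), or_comm,
      and_comm]

theorem disc_yes (C : Circ) (h : ∃ ψ, C.Input ψ ∧ 2 / 3 ≤ C.acc ψ) : C.raw.disc.Yes := by
  obtain ⟨v, hv, h1, h2⟩ := gates_yes C h (raw_nq C)
  obtain ⟨ξ, hξ, hL⟩ := raw_yes C.raw (gates_ok C) hv h1 h2
  have h3 := (abs_le.1 (dm_lin C.raw (gates_ok C) ξ)).2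
  generalize C.raw = c at *
  obtain ⟨D, h4, h5, h6, h7⟩ := dm_yes_core c.t0 c.vc (dmU_symm c) hξ
  refine ⟨D, h4, h5, h6, ((dm_form c D).trans h7).le.trans ?_⟩
  change _ ≤ (c.al : ℝ)
  rw [dm_al]
  refine le_trans ?_ (Nat.le_ceil _)
  have h8 := mul_le_mul_of_nonneg_left hL (Nat.cast_nonneg (α := ℝ) c.ks)
  rw [hξ] at h3
  rw [dmX]
  linarith

theorem disc_no (C : Circ) (h : ∀ ψ, C.Input ψ → C.acc ψ ≤ 1 / 3) : C.raw.disc.No := by
  have h1 := raw_no C.raw (gates_ok C) (gates_no C h (raw_nq C))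
  have h2 := dm_lin C.raw (gates_ok C)
  generalize C.raw = c at *
  have hks : (0 : ℝ) ≤ c.ks := Nat.cast_nonneg _
  have ha2 : (c.a2 : ℝ) = 2340 * c.ks * lamSum c.ts := by simp [Raw.a2]
  obtain ⟨lam, hlam⟩ : ∃ lam : ℝ, lam = c.ks * (130 * lamSum c.ts * (126 / 47) ^ 2 - c.j2 +
    11 / (24 * (c.tT + 1))) - (9 * c.ts.length + 1) := ⟨_, rfl⟩
  have h3 : ∀ ξ : (Fin c.nl → Bool) → ℝ, lam * ∑ d, ξ d ^ 2 ≤ hU (dmU c) ξ := fun ξ => by
    have h4 := mul_le_mul_of_nonneg_left (h1 ξ) hks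
    rw [hlam]
    linarith [(abs_le.1 (h2 ξ)).1]
  clear h1 h2
  have h4 : lam ≤ c.a2 := by
    have h5 : (11 : ℝ) / (24 * (c.tT + 1)) ≤ c.j2 := by
      refine (div_le_one_of_le₀ (by linarith [Nat.cast_nonneg (α := ℝ) c.tT])
        (by positivity)).trans ?_
      exact_mod_cast (show 1 ≤ c.j2 by unfold Raw.j2; omega)
    have h6 : (0 : ℝ) ≤ lamSum c.ts := Nat.cast_nonneg _
    have h7 := mul_le_mul_of_nonneg_left (show 130 * (lamSum c.ts : ℝ) * (126 / 47) ^ 2 - c.j2 +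
      11 / (24 * (c.tT + 1)) ≤ 2340 * lamSum c.ts by linarith) hks
    linarith [Nat.cast_nonneg (α := ℝ) c.ts.length]
  intro D hD
  have h7 := dm_no_core (dm_nl c) (t0 := c.t0) (a1 := c.a1) (vc := c.vc)
    (fun a b => Nat.cast_nonneg _) (dmU_symm c)
    ((uT_sum_le c.ks (dm_k0 c) c.ts).trans ha2.ge) (Nat.cast_nonneg _) (by simp [Raw.t0])
    (by simp [Raw.a1]) (by simp [Raw.vc]) h4 h3 D hD
  refine le_trans (mul_le_mul_of_nonneg_right ?_ (Finset.sum_nonneg fun s _ =>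
    Finset.sum_nonneg fun a _ => sq_nonneg _)) (h7.trans (dm_form c D).ge)
  have h8 : (c.al : ℝ) < dmX c + 1 := by
    rw [dm_al]
    exact Nat.ceil_lt_add_one (dmX_nonneg c)
  have h10 : (c.ks : ℝ) * (11 / (24 * (c.tT + 1))) =
      c.ks * (1 / (3 * (c.tT + 1))) + (18 * c.ts.length + 10) := by
    simp only [Raw.ks]
    push_cast
    field_simp
    ring
  change (c.al : ℝ) + 2 ≤ _
  rw [dmX] at h8
  linarith

end Vale.Agent.P370
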