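import Vale.Agent.P325.PTools
import Vale.Agent.Lib.PolyTime.More

/-! Polynomial-time arithmetic on integers and rationals. -/

namespace Vale.Agent.P370

open Vale.Agent.Lib.PolyTime

instance encInt : Enc ℤ :=
  ⟨fun z => enc (z.toNat, (-z).toNat), fun z => sz (z.toNat, (-z).toNat), fun _ => Enc.size_le _,
    fun a b h => by
      have h1 := Enc.inj h
      simp only [Prod.mk.injEq] at h1
      omega⟩

instance encRat : Enc ℚ :=
  ⟨fun q => enc (q.num, q.den), fun q => sz (q.num, q.den), fun _ => Enc.size_le _,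
    fun a b h => by
      have h1 := Enc.inj h
      simp only [Prod.mk.injEq] at h1
      exact Rat.ext h1.1 h1.2⟩

variable {α : Type} [Enc α]

/-- One step of the Euclidean algorithm. -/
def ptqStep (s : ℕ × ℕ) : ℕ × ℕ := if s.2 = 0 then s else (s.2, s.1 % s.2)

theorem ptq_step_gcd (s : ℕ × ℕ) : Nat.gcd (ptqStep s).1 (ptqStep s).2 = Nat.gcd s.1 s.2 := by
  unfold ptqStep
  split_ifs
  · rfl
  · rw [Nat.gcd_comm s.1, Nat.gcd_rec s.2 s.1, Nat.gcd_comm]

theorem ptq_step_half (s : ℕ × ℕ) : 2 * (ptqStep (ptqStep s)).2 ≤ s.2 := by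
  obtain ⟨a, b⟩ := s
  by_cases h : b = 0
  · simp [ptqStep, h]
  by_cases h' : a % b = 0
  · simp [ptqStep, h, h']
  have h1 := Nat.mod_lt a (Nat.pos_of_ne_zero h)
  have h2 := Nat.mod_lt b (Nat.pos_of_ne_zero h')
  have h3 := Nat.mod_le (b - a % b) (a % b)
  rw [← Nat.mod_eq_sub_mod h1.le] at h3
  simp only [ptqStep, h, h', if_false]
  omega

theorem ptq_iter (k : ℕ) : ∀ s : ℕ × ℕ, s.2 < 2 ^ k → (ptqStep^[k + k] s).1 = Nat.gcd s.1 s.2 := by
  induction k with
  | zero =>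
    intro s h
    have : s.2 = 0 := by omega
    simp [this]
  | succ k ih =>
    intro s h
    have h1 := ptq_step_half s
    rw [show k + 1 + (k + 1) = k + k + 1 + 1 by ring, Function.iterate_succ_apply,
      Function.iterate_succ_apply, ih _ (by rw [pow_succ] at h; omega), ptq_step_gcd, ptq_step_gcd]

theorem ptq_iter_le (k c : ℕ) : ∀ s : ℕ × ℕ, s.1 ≤ c → s.2 ≤ c →
    (ptqStep^[k] s).1 ≤ c ∧ (ptqStep^[k] s).2 ≤ c := by
  induction k with
  | zero => exact fun s h1 h2 => ⟨h1, h2⟩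
  | succ k ih =>
    intro s h1 h2
    rw [Function.iterate_succ_apply]
    refine ih _ ?_ ?_ <;> unfold ptqStep <;> split_ifs
    exacts [h1, h2, h2, (Nat.mod_le _ _).trans h1]

@[fun_prop] theorem pt_gcd {f g : α → ℕ} (hf : PT f) (hg : PT g) :
    PT fun a => Nat.gcd (f a) (g a) := by
  have h := PT.iterate (f := fun _ : α => ptqStep)
    (n := fun a => (g a).bits.length + (g a).bits.length) (i := fun a => (f a, g a))
    (B := fun a => 3 * sz (f a + g a) + 1) (by unfold ptqStep; fun_prop) (by fun_prop)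
    (hg.bits.pb_length.add hg.bits.pb_length) (by fun_prop) ((hf.add hg).szb.lin 3 1)
    fun a k _ => by
      obtain ⟨h1, h2⟩ := ptq_iter_le k (f a + g a) (f a, g a) (Nat.le_add_right _ _)
        (Nat.le_add_left _ _)
      have h3 := sz_nat_mono h1
      have h4 := sz_nat_mono h2
      rw [sz_prod]
      omega
  refine h.fst.congr fun a => (ptq_iter _ (f a, g a) ?_).symm
  rw [Nat.size_eq_bits_len]
  exact Nat.lt_size_self _

theorem ptq_iffZ {f : α → ℤ} : PT f ↔ PT fun a => ((f a).toNat, (-f a).toNat) := Iff.rfl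

theorem ptq_neg {f : α → ℤ} (hf : PT f) : PT fun a => (-f a).toNat := (ptq_iffZ.1 hf).snd

theorem ptq_mkZ {p n : α → ℕ} (hp : PT p) (hn : PT n) : PT fun a => (p a : ℤ) - n a :=
  ptq_iffZ.2 (((hp.sub hn).mk (hn.sub hp)).congr fun _ => Prod.ext (by dsimp only; omega)
    (by dsimp only; omega))

@[fun_prop] theorem pt_natCastZ {f : α → ℕ} (hf : PT f) : PT fun a => ((f a : ℕ) : ℤ) :=
  (ptq_mkZ hf (PT.const 0)).congr fun _ => by simp

@[fun_prop] theorem pt_toNat {f : α → ℤ} (hf : PT f) : PT fun a => (f a).toNat :=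
  (ptq_iffZ.1 hf).fst

@[fun_prop] theorem pt_natAbs {f : α → ℤ} (hf : PT f) : PT fun a => (f a).natAbs :=
  ((pt_toNat hf).add (ptq_neg hf)).congr fun _ => by omega

@[fun_prop] theorem pt_negZ {f : α → ℤ} (hf : PT f) : PT fun a => -f a :=
  (ptq_mkZ (ptq_neg hf) (pt_toNat hf)).congr fun _ => by omega

@[fun_prop] theorem pt_addZ {f g : α → ℤ} (hf : PT f) (hg : PT g) : PT fun a => f a + g a :=
  (ptq_mkZ ((pt_toNat hf).add (pt_toNat hg)) ((ptq_neg hf).add (ptq_neg hg))).congr fun _ => by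
    omega

@[fun_prop] theorem pt_subZ {f g : α → ℤ} (hf : PT f) (hg : PT g) : PT fun a => f a - g a :=
  (pt_addZ hf (pt_negZ hg)).congr fun _ => sub_eq_add_neg _ _

@[fun_prop] theorem pt_mulZ {f g : α → ℤ} (hf : PT f) (hg : PT g) : PT fun a => f a * g a := by
  refine (ptq_mkZ (((pt_toNat hf).mul (pt_toNat hg)).add ((ptq_neg hf).mul (ptq_neg hg)))
    (((pt_toNat hf).mul (ptq_neg hg)).add ((ptq_neg hf).mul (pt_toNat hg)))).congr fun a => ?_
  conv_lhs => rw [← Int.toNat_sub_toNat_neg (f a), ← Int.toNat_sub_toNat_neg (g a)]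
  push_cast
  ring

@[fun_prop] theorem pt_leZ {f g : α → ℤ} (hf : PT f) (hg : PT g) : PT fun a => f a ≤ g a :=
  ((pt_toNat (pt_subZ hf hg)).eq (PT.const 0)).congr fun _ => propext (by omega)

@[fun_prop] theorem pt_ltZ {f g : α → ℤ} (hf : PT f) (hg : PT g) : PT fun a => f a < g a :=
  (pt_leZ hg hf).not.congr fun _ => propext not_le.symm

@[fun_prop] theorem pt_absZ {f : α → ℤ} (hf : PT f) : PT fun a => |f a| :=
  (pt_natCastZ (pt_natAbs hf)).congr fun _ => (Int.natCast_natAbs _).symm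

theorem ptq_divN {f : α → ℤ} {m : α → ℕ} (hf : PT f) (hm : PT m) :
    PT fun a => f a / (m a : ℤ) := by
  have h1 := P325.pt_div (pt_toNat hf) hm
  have h2 := P325.pt_div (((ptq_neg hf).add hm).sub (PT.const 1)) hm
  refine (PT.ite (pt_leZ (PT.const 0) hf) (pt_natCastZ h1) (pt_negZ (pt_natCastZ h2))).congr
    fun a => ?_
  split_ifs with h
  · rw [Int.natCast_div, Int.toNat_of_nonneg h]
  rcases Nat.eq_zero_or_pos (m a) with h0 | h0
  · simp [h0]
  have h3 := Nat.div_add_mod ((-f a).toNat + m a - 1) (m a)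
  have h4 := Nat.mod_lt ((-f a).toNat + m a - 1) h0
  generalize ((-f a).toNat + m a - 1) / m a = q at *
  generalize ((-f a).toNat + m a - 1) % m a = r at *
  have h5 : (m a : ℤ) * q + r = -f a + m a - 1 := by
    have := congrArg (fun x : ℕ => (x : ℤ)) h3
    simp only [Nat.cast_add, Nat.cast_mul] at this
    omega
  rw [Int.ediv_eq_iff_of_pos (by omega)]
  constructor <;> nlinarith

@[fun_prop] theorem pt_divZ {f g : α → ℤ} (hf : PT f) (hg : PT g) : PT fun a => f a / g a := by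
  have h1 := ptq_divN hf (pt_natAbs hg)
  refine (PT.ite (pt_leZ (PT.const 0) hg) h1 (pt_negZ h1)).congr fun a => ?_
  split_ifs with h
  · rw [Int.natAbs_of_nonneg h]
  · rw [Int.ofNat_natAbs_of_nonpos (not_le.1 h).le, Int.ediv_neg, neg_neg]

@[fun_prop] theorem pt_modZ {f g : α → ℤ} (hf : PT f) (hg : PT g) : PT fun a => f a % g a :=
  (pt_subZ hf (pt_mulZ hg (pt_divZ hf hg))).congr fun _ => Int.emod_def _ _

@[fun_prop] theorem pt_sumZ {l : α → List ℤ} (hl : PT l) : PT fun a => (l a).sum := by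
  have h1 := PT.sum (PT.map (f := fun _ (y : ℤ) => y.toNat) (pt_toNat PT.id.snd) hl)
  have h2 := PT.sum (PT.map (f := fun _ (y : ℤ) => (-y).toNat) (ptq_neg PT.id.snd) hl)
  refine (ptq_mkZ h1 h2).congr fun a => ?_
  induction l a with
  | nil => rfl
  | cons y L ih =>
    simp only [List.sum_cons, List.map_cons, Nat.cast_add] at ih ⊢
    omega

theorem ptq_iffQ {f : α → ℚ} : PT f ↔ PT fun a => ((f a).num, (f a).den) := Iff.rfl

@[fun_prop] theorem pt_num {f : α → ℚ} (hf : PT f) : PT fun a => (f a).num :=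
  (ptq_iffQ.1 hf).fst

@[fun_prop] theorem pt_den {f : α → ℚ} (hf : PT f) : PT fun a => (f a).den :=
  (ptq_iffQ.1 hf).snd

@[fun_prop] theorem pt_natCastQ {f : α → ℕ} (hf : PT f) : PT fun a => ((f a : ℕ) : ℚ) :=
  ptq_iffQ.2 (((pt_natCastZ hf).mk (PT.const 1)).congr fun _ => by simp)

@[fun_prop] theorem pt_intCastQ {f : α → ℤ} (hf : PT f) : PT fun a => ((f a : ℤ) : ℚ) :=
  ptq_iffQ.2 ((hf.mk (PT.const 1)).congr fun _ => by simp)

@[fun_prop] theorem pt_negQ {f : α → ℚ} (hf : PT f) : PT fun a => -f a :=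
  ptq_iffQ.2 (((pt_negZ (pt_num hf)).mk (pt_den hf)).congr fun _ => by simp)

theorem ptq_mkRat {n : α → ℤ} {d : α → ℕ} (hn : PT n) (hd : PT d) :
    PT fun a => mkRat (n a) (d a) := by
  have h1 := pt_gcd hd (pt_natAbs hn)
  have h2 := hd.eq (PT.const 0)
  refine ptq_iffQ.2 (((PT.ite h2 (PT.const 0) (ptq_divN hn h1)).mk
    (PT.ite h2 (PT.const 1) (P325.pt_div hd h1))).congr fun a => ?_)
  rw [Rat.num_mkRat, Rat.den_mkRat]

@[fun_prop] theorem pt_addQ {f g : α → ℚ} (hf : PT f) (hg : PT g) : PT fun a => f a + g a := by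
  have h1 := pt_num hf
  have h2 := pt_num hg
  have h3 := pt_den hf
  have h4 := pt_den hg
  exact (ptq_mkRat (pt_addZ (pt_mulZ h1 (pt_natCastZ h4)) (pt_mulZ h2 (pt_natCastZ h3)))
    (h3.mul h4)).congr fun _ => Rat.add_def' _ _

@[fun_prop] theorem pt_subQ {f g : α → ℚ} (hf : PT f) (hg : PT g) : PT fun a => f a - g a :=
  (pt_addQ hf (pt_negQ hg)).congr fun _ => sub_eq_add_neg _ _

@[fun_prop] theorem pt_mulQ {f g : α → ℚ} (hf : PT f) (hg : PT g) : PT fun a => f a * g a :=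
  (ptq_mkRat (pt_mulZ (pt_num hf) (pt_num hg)) ((pt_den hf).mul (pt_den hg))).congr fun _ =>
    Rat.mul_def' _ _

@[fun_prop] theorem pt_invQ {f : α → ℚ} (hf : PT f) : PT fun a => (f a)⁻¹ := by
  have h1 := pt_num hf
  have h2 := pt_natCastZ (pt_den hf)
  refine (ptq_mkRat (PT.ite (pt_leZ (PT.const 0) h1) h2 (pt_negZ h2)) (pt_natAbs h1)).congr
    fun a => ?_
  rw [Rat.mkRat_eq_div, Nat.cast_natAbs]
  conv_lhs => rw [← Rat.num_div_den (f a), inv_div]
  split_ifs with h
  · rw [abs_of_nonneg h, Int.cast_natCast]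
  · rw [abs_of_neg (not_le.1 h), Int.cast_neg, Int.cast_neg, neg_div_neg_eq, Int.cast_natCast]

@[fun_prop] theorem pt_divQ {f g : α → ℚ} (hf : PT f) (hg : PT g) : PT fun a => f a / g a :=
  (pt_mulQ hf (pt_invQ hg)).congr fun _ => div_eq_mul_inv _ _

@[fun_prop] theorem pt_leQ {f g : α → ℚ} (hf : PT f) (hg : PT g) : PT fun a => f a ≤ g a :=
  (pt_leZ (pt_num (pt_subQ hf hg)) (PT.const 0)).congr fun a => by
    rw [Rat.num_nonpos, sub_nonpos]

@[fun_prop] theorem pt_ltQ {f g : α → ℚ} (hf : PT f) (hg : PT g) : PT fun a => f a < g a :=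
  (pt_leQ hg hf).not.congr fun _ => propext not_le.symm

@[fun_prop] theorem pt_maxQ {f g : α → ℚ} (hf : PT f) (hg : PT g) :
    PT fun a => max (f a) (g a) :=
  (PT.ite (pt_leQ hf hg) hg hf).congr fun _ => max_def _ _

@[fun_prop] theorem pt_absQ {f : α → ℚ} (hf : PT f) : PT fun a => |f a| :=
  (pt_maxQ hf (pt_negQ hf)).congr fun _ => abs_eq_max_neg

@[fun_prop] theorem pt_floorQ {f : α → ℚ} (hf : PT f) : PT fun a => ⌊f a⌋ :=
  (ptq_divN (pt_num hf) (pt_den hf)).congr fun _ => Rat.floor_def' 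

@[fun_prop] theorem pt_floorNat {f : α → ℚ} (hf : PT f) : PT fun a => ⌊f a⌋₊ :=
  (pt_toNat (pt_floorQ hf)).congr fun _ => (Int.floor_toNat _).symm

@[fun_prop] theorem pt_ceilNat {f : α → ℚ} (hf : PT f) : PT fun a => ⌈f a⌉₊ :=
  (pt_toNat (pt_negZ (pt_floorQ (pt_negQ hf)))).congr fun _ => by
    rw [Int.floor_neg, neg_neg, Int.ceil_toNat]

@[fun_prop] theorem pt_powQ_const {f : α → ℚ} (k : ℕ) (hf : PT f) : PT fun a => f a ^ k := by
  induction k with
  | zero => exact (PT.const 1).congr fun _ => pow_zero _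
  | succ c ih => exact (pt_mulQ ih hf).congr fun _ => pow_succ _ _

theorem pt_powQ {f : α → ℚ} {k : α → ℕ} (hf : PT f) (hk : PT k) (hb : PB k) :
    PT fun a => f a ^ k a := by
  have h1 := P325.pt_pow (pt_natAbs (pt_num hf)) hk hb
  have h2 := P325.pt_pow (pt_den hf) hk hb
  have h3 := (pt_leZ (PT.const 0) (pt_num hf)).or ((hk.mod (PT.const 2)).eq (PT.const 0))
  refine ptq_iffQ.2 (((PT.ite h3 (pt_natCastZ h1) (pt_negZ (pt_natCastZ h1))).mk h2).congr
    fun a => ?_)
  rw [Rat.num_pow, Rat.den_pow, Nat.cast_pow, Int.natCast_natAbs]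
  refine Prod.ext ?_ rfl
  dsimp only
  split_ifs with h
  · rcases h with h | h
    · rw [abs_of_nonneg h]
    · rw [(Nat.even_iff.2 h).pow_abs]
  · rw [not_or] at h
    rw [abs_of_neg (not_le.1 h.1), (Nat.odd_iff.2 (by omega)).neg_pow, neg_neg]

/-- The height of a rational number. -/
def ptqHt (q : ℚ) : ℕ := max (Nat.size q.num.natAbs) (Nat.size q.den)

theorem ptq_sz (q : ℚ) :
    sz q = 2 * (2 * Nat.size q.num.toNat + Nat.size (-q.num).toNat + 1) + Nat.size q.den + 1 := rfl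

theorem ptq_sz_le (q : ℚ) : sz q ≤ 7 * ptqHt q + 3 := by
  have h1 : Nat.size q.num.toNat ≤ Nat.size q.num.natAbs := Nat.size_le_size (by omega)
  have h2 : Nat.size (-q.num).toNat ≤ Nat.size q.num.natAbs := Nat.size_le_size (by omega)
  rw [ptq_sz, ptqHt]
  omega

theorem ptq_ht_le (q : ℚ) : ptqHt q ≤ sz q := by
  have h1 : Nat.size q.num.natAbs ≤ max (Nat.size q.num.toNat) (Nat.size (-q.num).toNat) := by
    rcases le_total 0 q.num with h | h
    · exact le_max_of_le_left (Nat.size_le_size (by omega))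
    · exact le_max_of_le_right (Nat.size_le_size (by omega))
  rw [ptq_sz, ptqHt]
  omega

theorem ptq_size_mul (a b : ℕ) : Nat.size (a * b) ≤ Nat.size a + Nat.size b := by
  rw [Nat.size_le, pow_add]
  exact Nat.mul_lt_mul'' (Nat.lt_size_self a) (Nat.lt_size_self b)

theorem ptq_size_add {a b k : ℕ} (ha : Nat.size a ≤ k) (hb : Nat.size b ≤ k) :
    Nat.size (a + b) ≤ k + 1 := by
  rw [Nat.size_le] at *
  rw [pow_succ]
  omega

theorem ptq_ht_mkRat (n : ℤ) {d : ℕ} (hd : d ≠ 0) :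
    ptqHt (mkRat n d) ≤ max (Nat.size n.natAbs) (Nat.size d) := by
  rw [ptqHt, Rat.num_mkRat, Rat.den_mkRat, if_neg hd, if_neg hd]
  exact max_le_max (Nat.size_le_size (Int.natAbs_ediv_le_natAbs _ _))
    (Nat.size_le_size (Nat.div_le_self _ _))

theorem ptq_ht_add (a b : ℚ) : ptqHt (a + b) ≤ ptqHt a + ptqHt b + 1 := by
  have h := ptq_ht_mkRat (a.num * b.den + b.num * a.den) (mul_ne_zero a.den_nz b.den_nz)
  rw [← Rat.add_def'] at h
  have h1 := ptq_size_mul a.num.natAbs b.den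
  have h2 := ptq_size_mul b.num.natAbs a.den
  have h3 := ptq_size_mul a.den b.den
  have h4 : Nat.size (a.num * b.den + b.num * a.den).natAbs ≤ ptqHt a + ptqHt b + 1 := by
    refine le_trans (Nat.size_le_size (Int.natAbs_add_le _ _)) (ptq_size_add ?_ ?_)
    · rw [Int.natAbs_mul, Int.natAbs_natCast]; unfold ptqHt; omega
    · rw [Int.natAbs_mul, Int.natAbs_natCast]; unfold ptqHt; omega
  have h5 : Nat.size a.den + Nat.size b.den ≤ ptqHt a + ptqHt b := by unfold ptqHt; omega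
  omega

theorem ptq_ht_foldl (L : List ℚ) :
    ∀ s : ℚ, ptqHt (L.foldl (fun s y => s + y) s) ≤ ptqHt s + sz L := by
  induction L with
  | nil => exact fun _ => le_rfl
  | cons y L ih =>
    intro s
    have h1 := ih (s + y)
    have h2 := ptq_ht_add s y
    have h3 := ptq_ht_le y
    rw [List.foldl_cons, sz_cons]
    omega

@[fun_prop] theorem pt_sumQ {l : α → List ℚ} (hl : PT l) : PT fun a => (l a).sum := by
  refine (PT.foldl (f := fun _ (s y : ℚ) => s + y) (i := fun _ => 0)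
    (pt_addQ PT.id.snd.fst PT.id.snd.snd) hl (PT.const _) (hl.szb.lin 7 10)
    fun a k => ?_).congr fun _ => List.sum_eq_foldl
  have h1 := ptq_ht_foldl ((l a).take k) 0
  have h2 := sz_sublist (List.take_sublist k (l a))
  have h3 := ptq_sz_le (((l a).take k).foldl (fun s y => s + y) 0)
  have h4 : ptqHt 0 = 1 := by simp [ptqHt]
  omega

end Vale.Agent.P370
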