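import Vale.Agent.P370.DDefs
import Vale.Agent.P370.PTQ

/-! The discrete instance is computed in polynomial time. -/

namespace Vale.Agent.P370

open Vale.Agent.Lib.PolyTime

attribute [local irreducible] Raw.nq Raw.sts Raw.tT Raw.nl Raw.j2 Raw.a3 Raw.j1 Raw.ts Raw.ks
  Raw.k0 Raw.a2 Raw.t0 Raw.a1 Raw.vc Raw.al lamSum

namespace Dpt

variable {α β : Type} [Enc α] [Enc β]

/-- Polynomially bounded values. -/
@[fun_prop] def Pb (g : α → ℕ) : Prop := PB g

@[fun_prop] theorem b_const (c : ℕ) : Pb (fun _ : α => c) := PB.const c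
@[fun_prop] theorem b_comp {g : β → ℕ} {f : α → β} (hg : Pb g) (hf : PT f) :
    Pb (fun a => g (f a)) := PB.comp hg hf
@[fun_prop] theorem b_add {f g : α → ℕ} (hf : Pb f) (hg : Pb g) : Pb (fun a => f a + g a) :=
  PB.add hf hg
@[fun_prop] theorem b_mul {f g : α → ℕ} (hf : Pb f) (hg : Pb g) : Pb (fun a => f a * g a) :=
  PB.mul hf hg
@[fun_prop] theorem b_pow {f : α → ℕ} (k : ℕ) (hf : Pb f) : Pb (fun a => f a ^ k) := PB.pow hf k
@[fun_prop] theorem b_sub {f g : α → ℕ} (hf : Pb f) : Pb (fun a => f a - g a) :=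
  PB.of_le hf fun _ => Nat.sub_le _ _
@[fun_prop] theorem b_div {f g : α → ℕ} (hf : Pb f) : Pb (fun a => f a / g a) :=
  PB.of_le hf fun _ => Nat.div_le_self _ _
@[fun_prop] theorem b_sqrt {f : α → ℕ} (hf : Pb f) : Pb (fun a => Nat.sqrt (f a)) :=
  PB.of_le hf fun _ => Nat.sqrt_le_self _
@[fun_prop] theorem b_len {l : α → List β} (hl : PT l) : Pb (fun a => (l a).length) :=
  hl.pb_length
@[fun_prop] theorem t_range {n : α → ℕ} (hn : PT n) (hb : Pb n) :
    PT (fun a => List.range (n a)) := PT.range hn hb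
@[fun_prop] theorem t_sqrt {n : α → ℕ} (hn : PT n) (hb : Pb n) :
    PT (fun a => Nat.sqrt (n a)) := P325.pt_sqrt hn hb

@[fun_prop] theorem t_stepsOf {r : α → ℕ} {g : α → ℕ × ℕ × ℕ} (hr : PT r) (hg : PT g) :
    PT fun a => stepsOf (r a) (g a) := by
  unfold stepsOf; fun_prop
@[fun_prop] theorem t_termsP {n J : α → ℕ} {s : α → List Step} (hn : PT n) (hs : PT s)
    (hJ : PT J) : PT fun a => termsP (n a) (s a) (J a) := by
  unfold termsP; fun_prop
@[fun_prop] theorem t_termsA {n w J : α → ℕ} {s : α → List Step} (hn : PT n) (hb : Pb n)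
    (hw : PT w) (hs : PT s) (hJ : PT J) : PT fun a => termsA (n a) (w a) (s a) (J a) := by
  unfold termsA; fun_prop
@[fun_prop] theorem t_lamSum {l : α → List Term} (hl : PT l) : PT fun a => lamSum (l a) := by
  unfold lamSum; fun_prop
@[fun_prop] theorem t_cmpQ {K A : α → ℕ} (hK : PT K) (hb : Pb K) (hA : PT A) :
    PT fun a => cmpQ (K a) (A a) := by
  unfold cmpQ; fun_prop
@[fun_prop] theorem t_coQ {K A k : α → ℕ} (hK : PT K) (hb : Pb K) (hA : PT A) (hk : PT k) :
    PT fun a => coQ (K a) (A a) (k a) := by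
  unfold coQ; fun_prop
@[fun_prop] theorem t_wtT {S K k l : α → ℕ} {t : α → Term} (hS : PT S) (hK : PT K) (hb : Pb K)
    (ht : PT t) (hk : PT k) (hl : PT l) : PT fun a => wtT (S a) (K a) (t a) (k a) (l a) := by
  unfold wtT; fun_prop
@[fun_prop] theorem t_uT {S K k l : α → ℕ} {t : α → List Term} (hS : PT S) (hK : PT K)
    (hb : Pb K) (ht : PT t) (hk : PT k) (hl : PT l) :
    PT fun a => uT (S a) (K a) (t a) (k a) (l a) := by
  unfold uT; fun_prop

@[fun_prop] theorem t_nq : PT Raw.nq := by unfold Raw.nq; fun_prop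
@[fun_prop] theorem b_nq : Pb Raw.nq := by unfold Raw.nq; fun_prop
@[fun_prop] theorem t_sts : PT Raw.sts := by unfold Raw.sts; fun_prop
@[fun_prop] theorem t_tT : PT Raw.tT := by unfold Raw.tT; fun_prop
@[fun_prop] theorem b_tT : Pb Raw.tT := by unfold Raw.tT; fun_prop
@[fun_prop] theorem t_nl : PT Raw.nl := by unfold Raw.nl; fun_prop
@[fun_prop] theorem b_nl : Pb Raw.nl := by unfold Raw.nl; fun_prop
@[fun_prop] theorem t_j2 : PT Raw.j2 := by unfold Raw.j2; fun_prop
@[fun_prop] theorem b_j2 : Pb Raw.j2 := by unfold Raw.j2; fun_prop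
@[fun_prop] theorem t_a3 : PT Raw.a3 := by unfold Raw.a3; fun_prop
@[fun_prop] theorem b_a3 : Pb Raw.a3 := by unfold Raw.a3; fun_prop
@[fun_prop] theorem t_j1 : PT Raw.j1 := by unfold Raw.j1; fun_prop
@[fun_prop] theorem b_j1 : Pb Raw.j1 := by unfold Raw.j1; fun_prop
@[fun_prop] theorem t_ts : PT Raw.ts := by unfold Raw.ts; fun_prop

theorem lam_le (c : Raw) : lamSum c.ts ≤ c.ts.length * (c.j1 + c.j2 + 1) := by
  have h : ∀ t ∈ c.ts, t.2.2.2.2.natAbs ≤ c.j1 + c.j2 + 1 := by
    intro t ht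
    simp only [Raw.ts, termsP, termsA, List.mem_append, List.mem_flatMap, List.mem_map,
      List.mem_cons, List.not_mem_nil, or_false] at ht
    rcases ht with ⟨k, -, h⟩ | (⟨k, -, h⟩ | h) | ⟨k, -, h⟩
    · rcases h with rfl | rfl | rfl | rfl | rfl | rfl | rfl <;> dsimp only <;> omega
    · rcases h with rfl | rfl | rfl <;> dsimp only <;> omega
    · rcases h with rfl | rfl | rfl | rfl <;> dsimp only <;> omega
    · rw [← h]; dsimp only; omega
  have := List.sum_le_card_nsmul (c.ts.map fun t => t.2.2.2.2.natAbs) (c.j1 + c.j2 + 1)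
    fun x hx => by
      obtain ⟨t, ht, rfl⟩ := List.mem_map.1 hx
      exact h t ht
  unfold lamSum
  rwa [List.length_map, smul_eq_mul] at this

theorem b_lam : Pb fun c : Raw => lamSum c.ts :=
  PB.of_le (show Pb fun c : Raw => c.ts.length * (c.j1 + c.j2 + 1) by fun_prop) lam_le

@[fun_prop] theorem t_ks : PT Raw.ks := by unfold Raw.ks; fun_prop
@[fun_prop] theorem b_ks : Pb Raw.ks := by unfold Raw.ks; fun_prop
@[fun_prop] theorem t_k0 : PT Raw.k0 := by unfold Raw.k0; fun_prop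
@[fun_prop] theorem b_k0 : Pb Raw.k0 := by
  unfold Raw.k0; exact b_add (b_mul (by fun_prop) b_lam) (b_const _)
@[fun_prop] theorem t_a2 : PT Raw.a2 := by unfold Raw.a2; fun_prop
@[fun_prop] theorem b_a2 : Pb Raw.a2 := by
  unfold Raw.a2; exact b_mul (by fun_prop) b_lam
@[fun_prop] theorem t_t0 : PT Raw.t0 := by unfold Raw.t0; fun_prop
@[fun_prop] theorem b_t0 : Pb Raw.t0 := by unfold Raw.t0; fun_prop
@[fun_prop] theorem t_a1 : PT Raw.a1 := by unfold Raw.a1; fun_prop
@[fun_prop] theorem b_a1 : Pb Raw.a1 := by unfold Raw.a1; fun_prop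
@[fun_prop] theorem t_vc : PT Raw.vc := by unfold Raw.vc; fun_prop
@[fun_prop] theorem b_vc : Pb Raw.vc := by unfold Raw.vc; fun_prop
@[fun_prop] theorem t_al : PT Raw.al := by unfold Raw.al; fun_prop

theorem al_le (c : Raw) : c.al ≤ 3 * c.nl * c.vc + 126 * c.nl * c.t0 + 9 * c.ts.length + 1
    + c.ks * (1000 * lamSum c.ts + 1) := by
  unfold Raw.al
  refine Nat.ceil_le.2 ?_
  push_cast
  refine add_le_add le_rfl (mul_le_mul_of_nonneg_left ?_ (Nat.cast_nonneg _))
  have h1 : (0 : ℚ) ≤ lamSum c.ts := Nat.cast_nonneg _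
  have h2 : (0 : ℚ) ≤ c.j2 := Nat.cast_nonneg _
  have h3 : (0 : ℚ) ≤ c.tT := Nat.cast_nonneg _
  have h4 : 1 / (3 * ((c.tT : ℚ) + 1)) ≤ 1 := (div_le_one (by positivity)).2 (by linarith)
  linarith

@[fun_prop] theorem b_al : Pb Raw.al :=
  PB.of_le (b_add (by fun_prop) (b_mul b_ks (b_add (b_mul (b_const _) b_lam) (b_const _)))) al_le

@[fun_prop] theorem t_wt {c : α → Raw} {k l : α → ℕ} (hc : PT c) (hk : PT k) (hl : PT l) :
    PT fun a => (c a).wt (k a) (l a) := by
  unfold Raw.wt; fun_prop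
theorem t_tab : PT Raw.tab := by unfold Raw.tab; fun_prop

theorem parse_gates {n : ℕ} (G : List (Gate n)) :
    (List.range ((G.flatMap Gate.code).length / 3)).map (fun i =>
      ((G.flatMap Gate.code).getD (3 * i) 0, (G.flatMap Gate.code).getD (3 * i + 1) 0,
        (G.flatMap Gate.code).getD (3 * i + 2) 0)) = G.map Gate.raw := by
  induction G with
  | nil => simp
  | cons g G ih =>
    have e : (g :: G).flatMap Gate.code
        = g.raw.1 :: g.raw.2.1 :: g.raw.2.2 :: G.flatMap Gate.code := by cases g <;> rfl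
    rw [e]
    simp only [List.length_cons]
    rw [show ((G.flatMap Gate.code).length + 1 + 1 + 1) / 3 = (G.flatMap Gate.code).length / 3 + 1
      by omega, List.range_succ_eq_map, List.map_cons, List.map_map, List.map_cons]
    refine congrArg₂ List.cons rfl (Eq.trans (List.map_congr_left fun i _ => ?_) ih)
    have e0 : 3 * (i + 1) = 3 * i + 1 + 1 + 1 := by omega
    simp only [Function.comp_apply, Nat.succ_eq_add_one, e0, List.getD_cons_succ]

theorem take_rep (n : ℕ) (l : List ℕ) :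
    (List.replicate n 1 ++ 0 :: l).takeWhile (· ≠ 0) = List.replicate n 1 ∧
      (List.replicate n 1 ++ 0 :: l).dropWhile (· ≠ 0) = 0 :: l := by
  induction n with
  | zero => simp
  | succ n ih => simp [List.replicate_succ]

end Dpt

open Dpt

theorem pt_parseR : PT parseR := by
  unfold parseR; fun_prop

theorem parseR_code (C : Circ) : parseR C.code = C.raw := by
  unfold parseR Circ.code Circ.raw
  rw [(take_rep _ _).1, (take_rep _ _).2]
  exact Prod.ext rfl (Prod.ext rfl (parse_gates C.gates))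

theorem pb_bnd : PB Raw.bnd := by
  change Pb Raw.bnd
  unfold Raw.bnd; fun_prop

theorem pt_bnd : PT Raw.bnd := by
  unfold Raw.bnd; fun_prop

theorem pt_disc : PT fun c : Raw => (c.disc.n, c.disc.tau, c.disc.al, c.disc.tab) :=
  t_nl.mk (((PT.const 16).mul t_t0).mk (t_al.mk t_tab))

end Vale.Agent.P370
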