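import Vale.Agent.P370.FarB

/-! The potential of the homogeneous slab. -/

namespace Vale.Agent.P370

open MeasureTheory Filter
open scoped Classical

theorem far_Vs (M : ℕ) (p : E3) : Vs M p = farW ![(RR M : ℝ), RR M, 3] p := by
  have : slab M = farBox ![(RR M : ℝ), RR M, 3] := by
    ext y
    simp [slab, farBox, Fin.forall_fin_succ]
  rw [Vs, this, farW]

theorem far_axis_pt (p : E3) : p - EuclideanSpace.single 0 (p 0) -
    EuclideanSpace.single 1 ((p - EuclideanSpace.single 0 (p 0) : E3) 1) = !₂[0, 0, p 2] := by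
  ext j
  fin_cases j <;> simp

theorem far_err : ∀ᶠ M : ℕ in atTop, (0 : ℝ) < RR M ∧ 2 * (DD M : ℝ) ≤ RR M ∧
    3000 / (RR M : ℝ) + 960 * (DD M : ℝ) ^ 2 / RR M ≤ ip M 3150 := by
  filter_upwards [ev_le 4000, eventually_ge_atTop 1] with M h hM
  have h1 : (1 : ℝ) ≤ M := by exact_mod_cast hM
  have h2 := ip_absorb hM h (j := 110) (k := 3300) (k' := 3150) (by norm_num)
  have h3 : (1 : ℝ) ≤ (M : ℝ) ^ 110 := one_le_pow₀ h1
  have e1 : (RR M : ℝ) = (M : ℝ) ^ 3300 := Nat.cast_pow _ _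
  have e2 : (DD M : ℝ) = (M : ℝ) ^ 55 := Nat.cast_pow _ _
  rw [e1, e2]
  refine ⟨by positivity, ?_, le_trans ?_ h2⟩
  · calc 2 * (M : ℝ) ^ 55 ≤ M * (M : ℝ) ^ 55 := by gcongr; linarith
      _ = (M : ℝ) ^ 56 := (pow_succ' _ _).symm
      _ ≤ _ := pow_le_pow_right₀ h1 (by norm_num)
  · rw [← add_div, ← pow_mul, ip, ← div_eq_mul_inv, show 55 * 2 = 110 from rfl]
    exact div_le_div_of_nonneg_right (by linarith) (by positivity)

theorem far_up : ∀ᶠ M : ℕ in atTop, ∀ p : E3,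
    Vs M p - Vs M xs ≤ 2 * Real.pi * (27 - min (p 2 ^ 2) 9) + ip M 3150 := by
  filter_upwards [far_err] with M ⟨hR, _, he⟩ p
  rw [far_Vs, far_Vs]
  generalize (RR M : ℝ) = R at hR he
  have h1 := far_shift_ge (w := ![R, R, 3]) (i := 0) hR p
  have h2 := far_shift_ge (w := ![R, R, 3]) (i := 1) hR (p - EuclideanSpace.single 0 (p 0))
  rw [far_axis_pt] at h2
  have h3 := far_clamp R (p 2)
  have h4 := (abs_le.1 (far_axis hR (z := max (-3) (min (p 2) 3))
    (abs_le.2 ⟨le_max_left _ _, max_le (by norm_num) (min_le_right _ _)⟩))).2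
  have h5 : max (-3) (min (p 2) 3) ^ 2 = min (p 2 ^ 2) 9 := by
    rcases le_total (p 2) 3 with a | a
    · rw [min_eq_left a]
      rcases le_total (p 2) (-3) with b | b
      · rw [max_eq_left b, min_eq_right (by nlinarith)]; norm_num
      · rw [max_eq_right b, min_eq_left (by nlinarith)]
    · rw [min_eq_right a, max_eq_right (by norm_num), min_eq_right (by nlinarith)]; norm_num
  have h6 : 0 ≤ 960 * (DD M : ℝ) ^ 2 / R := by positivity
  rw [h5] at h4
  linarith

theorem far_low : ∀ᶠ M : ℕ in atTop, ∀ p ∈ box M 2,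
    2 * Real.pi * (27 - p 2 ^ 2) - ip M 3150 ≤ Vs M p - Vs M xs := by
  filter_upwards [far_err] with M ⟨hR, hD, he⟩ p ⟨a1, a2, a3, a4, a5⟩
  rw [far_Vs, far_Vs]
  generalize (RR M : ℝ) = R at hR he hD
  generalize (DD M : ℝ) = D at he hD a2 a4
  have hw : (0 : Fin 3 → ℝ) ≤ ![R, R, 3] := fun j => by fin_cases j <;> simp [hR.le]
  have h1 := far_shift_le hw (i := 0) hR p ((abs_of_nonneg a1).trans_le a2) hD
  have h2 := far_shift_le hw (i := 1) hR (p - EuclideanSpace.single 0 (p 0)) (D := D)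
    (by simpa [abs_of_nonneg a3] using a4) hD
  rw [far_axis_pt] at h2
  have h4 := (abs_le.1 (far_axis hR (z := p 2) (by linarith))).1
  have e0 : Finset.univ.erase (0 : Fin 3) = {1, 2} := by decide
  have e1 : Finset.univ.erase (1 : Fin 3) = {0, 2} := by decide
  have e2 : 10 * D / R ^ 2 * (4 * D * (2 * R * (2 * 3))) = 960 * D ^ 2 / R / 2 := by
    field_simp
    ring
  rw [e0, Finset.prod_pair (by decide)] at h1
  rw [e1, Finset.prod_pair (by decide)] at h2
  have h5 := h1.trans_eq e2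
  have h6 := h2.trans_eq e2
  linarith

end Vale.Agent.P370
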