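import Vale.Agent.P370.KerI

/-! Boxes and lateral shifts of the potential of a homogeneous box. -/

namespace Vale.Agent.P370

open MeasureTheory Filter Set

/-- Centred boxes. -/
def farBox (w : Fin 3 → ℝ) : Set E3 := {y | ∀ j, |y j| ≤ w j}

/-- The potential of a centred box. -/
noncomputable def farW (w : Fin 3 → ℝ) (p : E3) : ℝ := ∫ y in farBox w, 1 / ‖p - y‖

theorem far_box_eq (w : Fin 3 → ℝ) : farBox w = WithLp.ofLp ⁻¹' Icc (-w) w := by
  ext y
  simp only [farBox, abs_le, mem_ofPred_eq, forall_and, mem_preimage, mem_Icc]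
  rfl

theorem far_compact (w : Fin 3 → ℝ) : IsCompact (farBox w) := by
  rw [far_box_eq]
  exact (EuclideanSpace.equiv (Fin 3) ℝ).toHomeomorph.isCompact_preimage.2 isCompact_Icc

theorem far_meas (w : Fin 3 → ℝ) : MeasurableSet (farBox w) := (far_compact w).measurableSet

theorem far_vol {w : Fin 3 → ℝ} (hw : 0 ≤ w) : volume.real (farBox w) = ∏ j, 2 * w j := by
  rw [far_box_eq, Measure.real, (PiLp.volume_preserving_ofLp (Fin 3)).measure_preimage
    measurableSet_Icc.nullMeasurableSet, Real.volume_Icc_pi_toReal ((neg_nonpos.2 hw).trans hw)]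
  exact Finset.prod_congr rfl fun j _ => by rw [Pi.neg_apply]; ring

theorem far_int {S : Set E3} (hS : IsCompact S) (p : E3) :
    IntegrableOn (fun y => 1 / ‖p - y‖) S :=
  let ⟨_, _, h⟩ := pot_int
  (h S hS p).1

theorem far_sqrt_sub {m a b : ℝ} (hm : 0 < m) (ha : m ^ 2 ≤ a) (hb : m ^ 2 ≤ b) :
    |√a - √b| ≤ |a - b| / (2 * m) := by
  have h1 := Real.le_sqrt_of_sq_le ha
  have h2 := Real.le_sqrt_of_sq_le hb
  have h3 : a - b = (√a - √b) * (√a + √b) := by
    have := Real.sq_sqrt ((sq_nonneg m).trans ha)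
    have := Real.sq_sqrt ((sq_nonneg m).trans hb)
    linarith
  rw [le_div_iff₀ (by positivity), h3, abs_mul, abs_of_pos (show 0 < √a + √b by linarith)]
  exact mul_le_mul_of_nonneg_left (by linarith) (abs_nonneg _)

theorem far_inv_sub {m a b : ℝ} (hm : 0 < m) (ha : m ^ 2 ≤ a) (hb : m ^ 2 ≤ b) :
    |1 / √a - 1 / √b| ≤ |a - b| / (2 * m ^ 3) := by
  have h1 := Real.le_sqrt_of_sq_le ha
  have h2 := Real.le_sqrt_of_sq_le hb
  have h3 := hm.trans_le h1
  have h4 := hm.trans_le h2
  rw [div_sub_div _ _ h3.ne' h4.ne', one_mul, mul_one, abs_div, abs_of_pos (mul_pos h3 h4),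
    abs_sub_comm]
  calc _ ≤ |a - b| / (2 * m) / (m * m) := by gcongr; exact far_sqrt_sub hm ha hb
    _ = _ := by rw [div_div]; congr 1; ring

theorem far_norm (i : Fin 3) (p u : E3) : ‖p - EuclideanSpace.single i (p i) - u‖ =
    √(u i ^ 2 + ∑ j ∈ Finset.univ.erase i, (p j - u j) ^ 2) := by
  rw [EuclideanSpace.norm_eq, ← Finset.add_sum_erase _ _ (Finset.mem_univ i)]
  congr 2
  · simp
  · exact Finset.sum_congr rfl fun j hj => by simp [Finset.ne_of_mem_erase hj]

theorem far_mem {w : Fin 3 → ℝ} (i : Fin 3) {u : E3} :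
    u ∈ farBox w ↔ |u i| ≤ w i ∧ ∀ j, j ≠ i → |u j| ≤ w j :=
  ⟨fun h => ⟨h i, fun j _ => h j⟩, fun h j => by
    by_cases hj : j = i
    · exact hj ▸ h.1
    · exact h.2 j hj⟩

theorem far_mem_add {w : Fin 3 → ℝ} (i : Fin 3) (a : ℝ) {u : E3} :
    u + EuclideanSpace.single i a ∈ farBox w ↔ |u i + a| ≤ w i ∧ ∀ j, j ≠ i → |u j| ≤ w j := by
  rw [far_mem i]
  exact and_congr (by simp) (forall₂_congr fun j hj => by simp [hj])

theorem far_mem_upd {w : Fin 3 → ℝ} (i : Fin 3) (c : ℝ) {u : E3} :
    u ∈ farBox (Function.update w i c) ↔ |u i| ≤ c ∧ ∀ j, j ≠ i → |u j| ≤ w j := by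
  rw [far_mem i]
  exact and_congr (by simp) (forall₂_congr fun j hj => by simp [hj])

/-- The comparison level on the faces of the box. -/
noncomputable def farLam (w : Fin 3 → ℝ) (i : Fin 3) (p u : E3) : ℝ :=
  1 / √(w i ^ 2 + ∑ j ∈ Finset.univ.erase i, (p j - u j) ^ 2)

/-- The integrand of the difference of two potentials. -/
noncomputable def farG (w : Fin 3 → ℝ) (i : Fin 3) (p u : E3) : ℝ :=
  ((farBox w).indicator 1 u - (farBox w).indicator 1 (u + EuclideanSpace.single i (p i))) *
    (1 / ‖p - EuclideanSpace.single i (p i) - u‖ - farLam w i p u)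

theorem far_shift {w : Fin 3 → ℝ} {i : Fin 3} (hw : 0 < w i) (p : E3) : Integrable (farG w i p) ∧
    farW w (p - EuclideanSpace.single i (p i)) - farW w p = ∫ u, farG w i p u := by
  set v : E3 := EuclideanSpace.single i (p i) with hv
  have hc : Continuous (farLam w i p) := by
    refine continuous_const.div (by fun_prop) fun u => (Real.sqrt_pos.2 ?_).ne'
    positivity
  have hl : ∀ u, farLam w i p (u + v) = farLam w i p u := fun u => by
    unfold farLam
    congr 3
    exact Finset.sum_congr rfl fun j hj => by simp [hv, Finset.ne_of_mem_erase hj]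
  have i1 := (integrable_indicator_iff (far_meas w)).2 (far_int (far_compact w) (p - v))
  have i2 := ((integrable_indicator_iff (far_meas w)).2 (far_int (far_compact w) p)).comp_add_right v
  have i3 := (integrable_indicator_iff (far_meas w)).2
    (hc.continuousOn.integrableOn_compact (μ := volume) (far_compact w))
  have i4 := i3.comp_add_right v
  have e : farG w i p = fun u => ((farBox w).indicator (fun y => 1 / ‖p - v - y‖) u -
      (farBox w).indicator (fun y => 1 / ‖p - y‖) (u + v)) -
      ((farBox w).indicator (farLam w i p) u - (farBox w).indicator (farLam w i p) (u + v)) := by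
    funext u
    have h1 : p - (u + v) = p - v - u := by abel
    unfold farG
    rw [← hv]
    by_cases a : u ∈ farBox w <;> by_cases b : u + v ∈ farBox w <;>
      simp [a, b, h1, hl, neg_add_eq_sub]
  rw [e]
  refine ⟨(i1.sub i2).sub (i3.sub i4), ?_⟩
  refine Eq.trans ?_ (integral_sub (i1.sub i2) (i3.sub i4)).symm
  rw [integral_sub' i1 i2, integral_sub' i3 i4,
    integral_add_right_eq_self, integral_add_right_eq_self, sub_self, sub_zero,
    integral_indicator (far_meas w), integral_indicator (far_meas w)]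
  rfl

theorem far_shift_ge {w : Fin 3 → ℝ} {i : Fin 3} (hw : 0 < w i) (p : E3) :
    farW w p ≤ farW w (p - EuclideanSpace.single i (p i)) := by
  rw [← sub_nonneg, (far_shift hw p).2]
  refine integral_nonneg_of_ae ?_
  filter_upwards [compl_mem_ae_iff.2 (measure_singleton (p - EuclideanSpace.single i (p i)))]
    with u hu
  have h0 : 0 < ‖p - EuclideanSpace.single i (p i) - u‖ :=
    norm_pos_iff.2 (sub_ne_zero.2 fun h => hu h.symm)
  have hT : 0 ≤ ∑ j ∈ Finset.univ.erase i, (p j - u j) ^ 2 := by positivity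
  unfold farG farLam
  rw [far_norm] at h0 ⊢
  by_cases a : u ∈ farBox w <;> by_cases b : u + EuclideanSpace.single i (p i) ∈ farBox w
  · simp [a, b]
  · rw [indicator_of_mem a, indicator_of_notMem b, Pi.one_apply, sub_zero, one_mul, Pi.zero_apply,
      sub_nonneg]
    refine one_div_le_one_div_of_le h0 (Real.sqrt_le_sqrt (add_le_add ?_ le_rfl))
    exact sq_le_sq' (abs_le.1 (a i)).1 (abs_le.1 (a i)).2
  · rw [indicator_of_mem b, indicator_of_notMem a, Pi.one_apply, zero_sub, neg_one_mul,
      Pi.zero_apply, neg_nonneg, sub_nonpos]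
    refine one_div_le_one_div_of_le (Real.sqrt_pos.2 (by positivity))
      (Real.sqrt_le_sqrt (add_le_add ?_ le_rfl))
    rw [far_mem i, not_and] at a
    rw [← sq_abs (u i)]
    exact pow_le_pow_left₀ hw.le (not_le.1 fun h => a h ((far_mem_add i _).1 b).2).le 2
  · simp [a, b]

theorem far_point {R D x T : ℝ} (hR : 0 < R) (hD : 2 * D ≤ R) (hT : 0 ≤ T) (h1 : R - D ≤ |x|)
    (h2 : |x| ≤ R + D) : |1 / √(x ^ 2 + T) - 1 / √(R ^ 2 + T)| ≤ 10 * D / R ^ 2 := by
  rw [← sq_abs x]
  generalize |x| = s at h1 h2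
  refine (far_inv_sub (half_pos hR) (by nlinarith) (by nlinarith)).trans ?_
  rw [div_le_div_iff₀ (by positivity) (by positivity)]
  have h3 : |s ^ 2 + T - (R ^ 2 + T)| ≤ D * (5 / 2 * R) := by
    rw [show s ^ 2 + T - (R ^ 2 + T) = (s - R) * (s + R) by ring, abs_mul]
    exact mul_le_mul (abs_le.2 ⟨by linarith, by linarith⟩) (abs_le.2 ⟨by linarith, by linarith⟩)
      (abs_nonneg _) (by linarith)
  exact (mul_le_mul_of_nonneg_right h3 (sq_nonneg R)).trans_eq (by ring)

theorem far_shift_le {w : Fin 3 → ℝ} (hw0 : 0 ≤ w) {i : Fin 3} (hw : 0 < w i) (p : E3) {D : ℝ}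
    (hp : |p i| ≤ D) (hD : 2 * D ≤ w i) :
    farW w (p - EuclideanSpace.single i (p i)) - farW w p ≤
      10 * D / w i ^ 2 * (4 * D * ∏ j ∈ Finset.univ.erase i, 2 * w j) := by
  have hD0 : 0 ≤ D := (abs_nonneg _).trans hp
  have hε : 0 ≤ 10 * D / w i ^ 2 := by positivity
  have ii : ∀ c, Integrable ((farBox (Function.update w i c)).indicator (1 : E3 → ℝ)) := fun c =>
    (integrable_indicator_iff (far_meas _)).2
      (continuousOn_const.integrableOn_compact (far_compact _))
  have vv : ∀ c, 0 ≤ c → ∫ u, (farBox (Function.update w i c)).indicator (1 : E3 → ℝ) u =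
      2 * c * ∏ j ∈ Finset.univ.erase i, 2 * w j := fun c hc => by
    rw [integral_indicator_one (far_meas _), far_vol (fun j => by
      by_cases hj : j = i
      · simpa [hj] using hc
      · simpa [hj] using hw0 j), ← Finset.mul_prod_erase _ _ (Finset.mem_univ i),
      Function.update_self]
    congr 1
    exact Finset.prod_congr rfl fun j hj => by rw [Function.update_of_ne (Finset.ne_of_mem_erase hj)]
  rw [(far_shift hw p).2]
  refine (integral_mono (far_shift hw p).1 (((ii (w i + D)).sub (ii (w i - D))).const_mul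
    (10 * D / w i ^ 2)) fun u => ?_).trans_eq ?_
  · obtain ⟨p1, p2⟩ := abs_le.1 hp
    have t1 := abs_add_le (u i) (p i)
    have t2 := abs_add_le (u i + p i) (-p i)
    rw [add_neg_cancel_right, abs_neg] at t2
    change farG w i p u ≤ _ * (indicator _ 1 u - indicator _ 1 u)
    unfold farG farLam
    rw [far_norm]
    by_cases c : u ∈ farBox (Function.update w i (w i - D))
    · obtain ⟨c1, c2⟩ := (far_mem_upd i _).1 c
      rw [indicator_of_mem c, indicator_of_mem ((far_mem_upd i _).2 ⟨by linarith, c2⟩),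
        indicator_of_mem ((far_mem i).2 ⟨by linarith, c2⟩),
        indicator_of_mem ((far_mem_add i _).2 ⟨by linarith, c2⟩)]
      simp
    by_cases d : u ∈ farBox (Function.update w i (w i + D))
    · obtain ⟨d1, d2⟩ := (far_mem_upd i _).1 d
      rw [indicator_of_mem d, indicator_of_notMem c, Pi.one_apply, sub_zero, mul_one]
      refine (le_abs_self _).trans ?_
      rw [abs_mul]
      refine (mul_le_of_le_one_left (abs_nonneg _) ?_).trans (far_point hw hD (by positivity)
        (not_le.1 fun h => c ((far_mem_upd i _).2 ⟨h, d2⟩)).le d1)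
      by_cases a : u ∈ farBox w <;> by_cases b : u + EuclideanSpace.single i (p i) ∈ farBox w <;>
        simp [a, b]
    · rw [indicator_of_notMem d, indicator_of_notMem c,
        indicator_of_notMem fun h => d ((far_mem_upd i _).2
          ⟨by linarith [((far_mem i).1 h).1], ((far_mem i).1 h).2⟩),
        indicator_of_notMem fun h => d ((far_mem_upd i _).2
          ⟨by linarith [((far_mem_add i _).1 h).1], ((far_mem_add i _).1 h).2⟩)]
      simp
  · rw [integral_const_mul]
    simp only [Pi.sub_apply]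
    rw [integral_sub (ii _) (ii _), vv _ (by linarith), vv _ (by linarith)]
    ring

end Vale.Agent.P370
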