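import Vale.Agent.P370.FarA

/-! The potential of the slab on its axis. -/

namespace Vale.Agent.P370

open MeasureTheory Filter Set Real

/-- The inscribed cylinder. -/
def farCyl (R : ℝ) : Set E3 := {y | y 0 ^ 2 + y 1 ^ 2 ≤ R ^ 2 ∧ |y 2| ≤ 3}

theorem far_cyl_sub {R : ℝ} (hR : 0 ≤ R) : farCyl R ⊆ farBox ![R, R, 3] := fun y hy j => by
  have h0 : |y 0| ≤ R := abs_le_of_sq_le_sq (by linarith [hy.1, sq_nonneg (y 1)]) hR
  have h1 : |y 1| ≤ R := abs_le_of_sq_le_sq (by linarith [hy.1, sq_nonneg (y 0)]) hR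
  fin_cases j
  exacts [h0, h1, hy.2]

theorem far_cyl_meas (R : ℝ) : MeasurableSet (farCyl R) :=
  ((isClosed_le (f := fun y : E3 => y 0 ^ 2 + y 1 ^ 2) (by fun_prop) continuous_const).inter
    (isClosed_le (f := fun y : E3 => |y 2|) (by fun_prop) continuous_const)).measurableSet

theorem far_norm_axis (z : ℝ) (y : E3) :
    ‖(!₂[0, 0, z] : E3) - y‖ = √(y 0 ^ 2 + y 1 ^ 2 + (z - y 2) ^ 2) := by
  rw [← Real.sqrt_sq (norm_nonneg _), norm_E3_sq]
  simp

theorem far_radial {R c : ℝ} (hR : 0 ≤ R) (hc : c ≠ 0) :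
    ∫ r in Ioi (0 : ℝ), (Iic R).indicator (fun r => r / √(r ^ 2 + c ^ 2)) r =
      √(R ^ 2 + c ^ 2) - |c| := by
  have hp : ∀ r : ℝ, 0 < r ^ 2 + c ^ 2 := fun r => by positivity
  rw [setIntegral_indicator measurableSet_Iic, Ioi_inter_Iic, ← intervalIntegral.integral_of_le hR,
    intervalIntegral.integral_eq_sub_of_hasDerivAt (f := fun r => √(r ^ 2 + c ^ 2))]
  · simp [Real.sqrt_sq_eq_abs]
  · intro r _
    refine (((hasDerivAt_pow 2 r).add_const (c ^ 2)).sqrt (hp r).ne').congr_deriv ?_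
    simp [mul_div_mul_left]
  · exact (continuous_id.div (by fun_prop) fun r => (Real.sqrt_pos.2 (hp r)).ne').intervalIntegrable
      _ _

theorem far_disc {R c : ℝ} (hR : 0 ≤ R) (hc : c ≠ 0) :
    ∫ q : ℝ × ℝ, (if q.1 ^ 2 + q.2 ^ 2 ≤ R ^ 2 then 1 / √(q.1 ^ 2 + q.2 ^ 2 + c ^ 2) else 0) =
      2 * π * (√(R ^ 2 + c ^ 2) - |c|) := by
  have h1 : ∫ θ in Ioo (-π) π, (1 : ℝ) = 2 * π := by
    rw [setIntegral_const, volume_real_Ioo_of_le (by linarith [pi_pos]), smul_eq_mul]
    ring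
  rw [← integral_comp_polarCoord_symm, ← far_radial hR hc, ← h1, mul_comm,
    ← setIntegral_prod_mul]
  refine setIntegral_congr_fun (measurableSet_Ioi.prod measurableSet_Ioo) fun q hq => ?_
  have h2 : (q.1 * cos q.2) ^ 2 + (q.1 * sin q.2) ^ 2 = q.1 ^ 2 := by
    rw [mul_pow, mul_pow, ← mul_add, cos_sq_add_sin_sq, mul_one]
  simp only [polarCoord_symm_apply, h2, smul_eq_mul, mul_one, indicator_apply, mem_Iic,
    sq_le_sq₀ (le_of_lt hq.1) hR, mul_ite, mul_zero, mul_one_div]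

theorem far_cyl {R : ℝ} (hR : 0 ≤ R) (z : ℝ) : ∫ y in farCyl R, 1 / ‖(!₂[0, 0, z] : E3) - y‖ =
    ∫ t in (-3 : ℝ)..3, 2 * π * (√(R ^ 2 + (z - t) ^ 2) - |z - t|) := by
  have i1 := (integrable_indicator_iff (far_cyl_meas R)).2
    ((far_int (far_compact _) !₂[0, 0, z]).mono_set (far_cyl_sub hR))
  have i2 := (volume_preserving_prodAssoc.integrable_comp_emb
    MeasurableEquiv.prodAssoc.measurableEmbedding).2 ((integrable_E3 _).1 i1)
  rw [← integral_indicator (far_cyl_meas R), integral_E3,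
    ← volume_preserving_prodAssoc.integral_comp', intervalIntegral.integral_of_le (by norm_num),
    ← integral_Icc_eq_integral_Ioc, ← integral_indicator measurableSet_Icc]
  refine (integral_prod_symm _ i2).trans (integral_congr_ae ?_)
  filter_upwards [compl_mem_ae_iff.2 (measure_singleton z)] with t ht
  by_cases h : t ∈ Icc (-3 : ℝ) 3
  · rw [indicator_of_mem h, ← far_disc hR (sub_ne_zero.2 fun e => ht e.symm)]
    refine integral_congr_ae (.of_forall fun q => ?_)
    simp [indicator_apply, farCyl, far_norm_axis, abs_le.2 h, MeasurableEquiv.prodAssoc]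
  · rw [indicator_of_notMem h]
    refine integral_eq_zero_of_ae (.of_forall fun q => ?_)
    exact indicator_of_notMem (s := farCyl R) (a := !₂[q.1, q.2, t])
      (fun hq => h (abs_le.1 hq.2)) fun y => 1 / ‖(!₂[0, 0, z] : E3) - y‖

theorem far_abs {z : ℝ} (hz : |z| ≤ 3) : ∫ t in (-3 : ℝ)..3, (|6 - t| - |z - t|) = 27 - z ^ 2 := by
  obtain ⟨h1, h2⟩ := abs_le.1 hz
  have hc : Continuous fun t : ℝ => |6 - t| - |z - t| := by fun_prop
  rw [← intervalIntegral.integral_add_adjacent_intervals (hc.intervalIntegrable (-3) z)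
    (hc.intervalIntegrable z 3), intervalIntegral.integral_congr (g := fun _ => 6 - z),
    intervalIntegral.integral_congr (a := z) (g := fun t => 6 + z - 2 * t),
    intervalIntegral.integral_sub (f := fun _ => 6 + z) (g := fun t => 2 * t) (by simp)
      (Continuous.intervalIntegrable (by fun_prop) _ _), intervalIntegral.integral_const_mul]
  · simp
    ring
  · intro t ht
    rw [uIcc_of_le h2] at ht
    simp only
    rw [abs_of_nonneg (by linarith [ht.2]), abs_of_nonpos (by linarith [ht.1])]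
    ring
  · intro t ht
    rw [uIcc_of_le h1] at ht
    simp only
    rw [abs_of_nonneg (by linarith [ht.2]), abs_of_nonneg (by linarith [ht.2])]
    ring

theorem far_sq {z t : ℝ} (hz : |z| ≤ 3) (ht : |t| ≤ 3) (a : ℝ) :
    |a + (z - t) ^ 2 - (a + (6 - t) ^ 2)| ≤ 81 := by
  obtain ⟨h1, h2⟩ := abs_le.1 hz
  obtain ⟨h3, h4⟩ := abs_le.1 ht
  rw [abs_le]
  constructor <;> nlinarith [sq_nonneg (z - t), sq_nonneg (6 - t)]

theorem far_axis {R z : ℝ} (hR : 0 < R) (hz : |z| ≤ 3) :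
    |farW ![R, R, 3] !₂[0, 0, z] - farW ![R, R, 3] xs - 2 * π * (27 - z ^ 2)| ≤ 3000 / R := by
  have iz := far_int (far_compact ![R, R, 3]) !₂[0, 0, z]
  have i6 := far_int (far_compact ![R, R, 3]) xs
  have e1 := setIntegral_sdiff (far_cyl_meas R) (iz.sub i6) (far_cyl_sub hR.le)
  rw [integral_sub' iz i6, integral_sub' (iz.mono_set (far_cyl_sub hR.le))
    (i6.mono_set (far_cyl_sub hR.le)), xs, far_cyl hR.le, far_cyl hR.le, ← xs] at e1
  have c : ∀ s : ℝ, Continuous fun t : ℝ => 2 * π * (√(R ^ 2 + (s - t) ^ 2) - |s - t|) :=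
    fun s => by fun_prop
  have e2 : (∫ t in (-3 : ℝ)..3, 2 * π * (√(R ^ 2 + (z - t) ^ 2) - |z - t|)) -
      (∫ t in (-3 : ℝ)..3, 2 * π * (√(R ^ 2 + (6 - t) ^ 2) - |6 - t|)) - 2 * π * (27 - z ^ 2) =
      ∫ t in (-3 : ℝ)..3, 2 * π * (√(R ^ 2 + (z - t) ^ 2) - √(R ^ 2 + (6 - t) ^ 2)) := by
    rw [← far_abs hz, ← intervalIntegral.integral_const_mul, ← intervalIntegral.integral_sub
      ((c z).intervalIntegrable _ _) ((c 6).intervalIntegrable _ _), ← intervalIntegral.integral_sub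
      (Continuous.intervalIntegrable (by fun_prop) _ _)
      (Continuous.intervalIntegrable (by fun_prop) _ _)]
    exact intervalIntegral.integral_congr fun t _ => by ring
  have b1 := intervalIntegral.norm_integral_le_of_norm_le_const (a := -3) (b := 3)
    (f := fun t => 2 * π * (√(R ^ 2 + (z - t) ^ 2) - √(R ^ 2 + (6 - t) ^ 2)))
    (C := 2 * 4 * (81 / (2 * R))) fun t ht => by
      rw [uIoc_of_le (by norm_num)] at ht
      rw [norm_eq_abs, abs_mul, abs_of_pos two_pi_pos]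
      refine mul_le_mul (by linarith [pi_le_four]) ((far_sqrt_sub hR (by nlinarith)
        (by nlinarith)).trans ?_) (abs_nonneg _) (by norm_num)
      gcongr
      exact far_sq hz (abs_le.2 ⟨ht.1.le, ht.2⟩) _
  have hfin := (far_compact ![R, R, 3]).measure_lt_top (μ := volume)
  have b2 := norm_setIntegral_le_of_norm_le_const (μ := volume)
    (s := farBox ![R, R, 3] \ farCyl R) (C := 81 / (2 * R ^ 3))
    (f := (fun y => 1 / ‖(!₂[0, 0, z] : E3) - y‖) - fun y => 1 / ‖xs - y‖)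
    ((measure_mono sdiff_subset).trans_lt hfin) fun y hy => by
      have h1 : |y 2| ≤ 3 := hy.1 2
      have h2 : R ^ 2 < y 0 ^ 2 + y 1 ^ 2 := not_le.1 fun h => hy.2 ⟨h, h1⟩
      rw [Pi.sub_apply, xs, far_norm_axis, far_norm_axis, norm_eq_abs]
      refine (far_inv_sub hR (by nlinarith) (by nlinarith)).trans ?_
      gcongr
      exact far_sq hz h1 _
  have b3 : volume.real (farBox ![R, R, 3] \ farCyl R) ≤ 24 * R ^ 2 := by
    refine (measureReal_mono sdiff_subset hfin.ne).trans_eq ?_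
    rw [far_vol (fun j => by fin_cases j <;> simp [hR.le]), Fin.prod_univ_three]
    simp
    ring
  have b4 := b2.trans (mul_le_mul_of_nonneg_left b3 (by positivity))
  rw [e1, norm_eq_abs, abs_le] at b4
  rw [← e2, norm_eq_abs, abs_le] at b1
  have n1 : 81 / (2 * R ^ 3) * (24 * R ^ 2) = 972 * (1 / R) := by field_simp; norm_num
  have n2 : 2 * 4 * (81 / (2 * R)) * |3 - -3| = 1944 * (1 / R) := by
    rw [abs_of_pos (by norm_num)]; field_simp; norm_num
  have n3 : 3000 / R = 3000 * (1 / R) := by ring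
  have n4 : 0 < 1 / R := by positivity
  rw [n1] at b4
  rw [n2] at b1
  unfold farW
  rw [n3, abs_le]
  constructor <;> linarith [b1.1, b1.2, b4.1, b4.2]

theorem far_clamp (R z : ℝ) :
    farW ![R, R, 3] !₂[0, 0, z] ≤ farW ![R, R, 3] !₂[0, 0, max (-3) (min z 3)] := by
  refine setIntegral_mono_on_ae (far_int (far_compact _) _) (far_int (far_compact _) _)
    (far_meas _) ?_
  filter_upwards [compl_mem_ae_iff.2 (measure_singleton (!₂[0, 0, max (-3) (min z 3)] : E3))]
    with y hy h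
  refine one_div_le_one_div_of_le (norm_pos_iff.2 (sub_ne_zero.2 fun e => hy e.symm)) ?_
  rw [far_norm_axis, far_norm_axis]
  refine Real.sqrt_le_sqrt (add_le_add le_rfl ?_)
  obtain ⟨h1, h2⟩ : -3 ≤ y 2 ∧ y 2 ≤ 3 := abs_le.1 (h 2)
  rcases le_total z 3 with a | a
  · rw [min_eq_left a]
    rcases le_total z (-3) with b | b
    · rw [max_eq_left b]; nlinarith
    · rw [max_eq_right b]
  · rw [min_eq_right a, max_eq_right (by norm_num)]; nlinarith

end Vale.Agent.P370
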