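import Vale.Agent.P370.MBa

/-! The ground state representation and one-particle Hilbert space tools. -/

namespace Vale.Agent.P370

open MeasureTheory Filter
open scoped Classical

theorem gsr_pd_mul {f g : E3 → ℝ} {p : E3} (hf : DifferentiableAt ℝ f p)
    (hg : DifferentiableAt ℝ g p) (k : Fin 3) :
    pd k (fun p => f p * g p) p = pd k f p * g p + f p * pd k g p := by
  unfold pd
  rw [fderiv_fun_mul hf hg]
  simp only [add_apply, smul_apply, smul_eq_mul]
  ring

theorem gsr_pd_add {f g : E3 → ℝ} {p : E3} (hf : DifferentiableAt ℝ f p)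
    (hg : DifferentiableAt ℝ g p) (k : Fin 3) :
    pd k (fun p => f p + g p) p = pd k f p + pd k g p := by
  unfold pd
  rw [fderiv_fun_add hf hg, add_apply]

theorem gsr_pd_sub {f g : E3 → ℝ} {p : E3} (hf : DifferentiableAt ℝ f p)
    (hg : DifferentiableAt ℝ g p) (k : Fin 3) :
    pd k (fun p => f p - g p) p = pd k f p - pd k g p := by
  unfold pd
  rw [fderiv_fun_sub hf hg, sub_apply]

theorem gsr_pd_one {f : E3 → ℝ} (hf : ContDiff ℝ 2 f) (k : Fin 3) : ContDiff ℝ 1 (pd k f) :=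
  (hf.fderiv_right (m := 1) (by norm_num)).clm_apply contDiff_const

theorem gsr_pd_cont {f : E3 → ℝ} (hf : ContDiff ℝ 1 f) (k : Fin 3) : Continuous (pd k f) :=
  (hf.continuous_fderiv one_ne_zero).clm_apply continuous_const

theorem gsr_c {f : E3 → ℝ} (hf : Sm f) (k : Fin 3) : MBaC (pd k f) :=
  mba_of (gsr_pd_cont hf.1 k) (hf.2.fderiv_apply ℝ (ev k))

theorem gsr {Θ f : E3 → ℝ} (hΘ : ContDiff ℝ 2 Θ) (hf : Sm f) :
    kin1 (fun p => Θ p * f p) + (∫ p, lap Θ p * Θ p * f p ^ 2) / 2 =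
      (∑ k, ∫ p, Θ p ^ 2 * pd k f p ^ 2) / 2 := by
  have hΘ1 : ContDiff ℝ 1 Θ := hΘ.of_le (by norm_num)
  have dΘ := hΘ1.differentiable one_ne_zero
  have df := hf.1.differentiable one_ne_zero
  have fc : MBaC f := mba_of hf.1.continuous hf.2
  have hg : Sm fun p => Θ p * (f p * f p) :=
    ⟨hΘ1.mul (hf.1.mul hf.1), ((fc.mul fc.1).mul hΘ1.continuous).supp⟩
  have i1 : ∀ k, Integrable fun p => pd k (pd k Θ) p * (Θ p * (f p * f p)) := fun k =>
    (((fc.mul fc.1).mul hΘ1.continuous).mul (gsr_pd_cont (gsr_pd_one hΘ k) k)).int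
  have e1 : ∫ p, lap Θ p * Θ p * f p ^ 2 = ∑ k, ∫ p, pd k (pd k Θ) p * (Θ p * (f p * f p)) := by
    rw [← integral_finsetSum _ fun k _ => i1 k]
    refine integral_congr_ae (.of_forall fun p => ?_)
    simp only [lap, ← Finset.sum_mul]
    ring
  rw [kin1, e1, ← add_div, ← Finset.sum_add_distrib]
  refine congrArg (· / 2) (Finset.sum_congr rfl fun k _ => ?_)
  rw [integral_pd_mul (gsr_pd_one hΘ k) hg k, ← sub_eq_add_neg,
    ← integral_sub (gsr_c ⟨hΘ1.mul hf.1, (fc.mul hΘ1.continuous).supp⟩ k).sq.int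
      ((gsr_c hg k).mul (gsr_pd_cont hΘ1 k)).int]
  refine integral_congr_ae (.of_forall fun p => ?_)
  simp only
  rw [gsr_pd_mul (dΘ p) (df p), gsr_pd_mul (dΘ p) ((df p).fun_mul (df p)),
    gsr_pd_mul (df p) (df p)]
  ring

theorem gsr_pd_vert {g : ℝ → ℝ} (hg : Differentiable ℝ g) (k : Fin 3) (p : E3) :
    pd k (fun p : E3 => g (p 2)) p = if k = 2 then deriv g (p 2) else 0 := by
  have h := (hg (p 2)).hasDerivAt.comp_hasFDerivAt p
    (EuclideanSpace.proj (2 : Fin 3) : E3 →L[ℝ] ℝ).hasFDerivAt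
  have h1 := congrArg (fun L : E3 →L[ℝ] ℝ => L (ev k)) h.fderiv
  refine h1.trans ?_
  split_ifs with hk
  · simp [ev, hk]
  · simp [ev, Ne.symm hk]

/-- The Laplacian of a product of a lateral and a vertical function. -/
theorem lap_mul_vert {Ψ : E3 → ℝ} {g : ℝ → ℝ} (hΨ : ContDiff ℝ 2 Ψ) (hg : ContDiff ℝ 2 g)
    (h : ∀ (p : E3) (t : ℝ), Ψ (p + t • ev 2) = Ψ p) (p : E3) :
    lap (fun p => Ψ p * g (p 2)) p = lap Ψ p * g (p 2) + Ψ p * deriv (deriv g) (p 2) := by
  have dΨ := hΨ.differentiable two_ne_zero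
  have dg := hg.differentiable two_ne_zero
  have dg' : Differentiable ℝ (deriv g) := hg.differentiable_deriv_two
  have dp : Differentiable ℝ fun p : E3 => p 2 :=
    (EuclideanSpace.proj (2 : Fin 3) : E3 →L[ℝ] ℝ).differentiable
  have dG : Differentiable ℝ fun p : E3 => g (p 2) := dg.comp dp
  have dG' : Differentiable ℝ fun p : E3 => deriv g (p 2) := dg'.comp dp
  have h2 : pd 2 Ψ = fun _ => 0 := funext fun q => by
    have h3 := hasDerivAt_line dΨ 2 q 0
    simp only [h, zero_smul, add_zero] at h3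
    exact h3.unique (hasDerivAt_const _ _)
  have e : ∀ k, k ≠ 2 → pd k (pd k fun p => Ψ p * g (p 2)) p = pd k (pd k Ψ) p * g (p 2) := by
    intro k hk
    have e1 : (pd k fun p => Ψ p * g (p 2)) = fun p => pd k Ψ p * g (p 2) := funext fun q => by
      rw [gsr_pd_mul (dΨ q) (dG q), gsr_pd_vert dg, if_neg hk, mul_zero, add_zero]
    rw [e1, gsr_pd_mul ((gsr_pd_one hΨ k).differentiable one_ne_zero p) (dG p), gsr_pd_vert dg,
      if_neg hk, mul_zero, add_zero]
  have e2 : (pd 2 fun p => Ψ p * g (p 2)) = fun p => Ψ p * deriv g (p 2) := funext fun q => by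
    rw [gsr_pd_mul (dΨ q) (dG q), gsr_pd_vert dg, if_pos rfl, h2, zero_mul, zero_add]
  have e3 : pd 2 (pd 2 Ψ) p = 0 := by
    rw [h2]
    simp [pd]
  rw [lap, lap, Fin.sum_univ_three, Fin.sum_univ_three, e 0 (by decide), e 1 (by decide), e2,
    gsr_pd_mul (dΨ p) (dG' p), gsr_pd_vert dg', if_pos rfl, e3, h2]
  ring

theorem kin1_nonneg (u : E3 → ℝ) : 0 ≤ kin1 u :=
  div_nonneg (Finset.sum_nonneg fun _ _ => integral_nonneg fun _ => sq_nonneg _) zero_le_two

theorem nsq1_nonneg (u : E3 → ℝ) : 0 ≤ nsq1 u := integral_nonneg fun _ => sq_nonneg _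

theorem kin1_sub_le {u v : E3 → ℝ} (hu : Sm u) (hv : Sm v) :
    kin1 (fun p => u p - v p) ≤ 2 * kin1 u + 2 * kin1 v := by
  have key : ∀ k, ∫ p, pd k (fun p => u p - v p) p ^ 2 ≤
      2 * (∫ p, pd k u p ^ 2) + 2 * ∫ p, pd k v p ^ 2 := by
    intro k
    have i1 : Integrable fun p => 2 * pd k u p ^ 2 := (gsr_c hu k).sq.int.const_mul 2
    have i2 : Integrable fun p => 2 * pd k v p ^ 2 := (gsr_c hv k).sq.int.const_mul 2
    rw [← integral_const_mul, ← integral_const_mul, ← integral_add i1 i2]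
    refine integral_mono_of_nonneg (.of_forall fun p => sq_nonneg _) (i1.add i2)
      (.of_forall fun p => ?_)
    simp only
    rw [gsr_pd_sub (hu.1.differentiable one_ne_zero p) (hv.1.differentiable one_ne_zero p)]
    nlinarith [sq_nonneg (pd k u p + pd k v p)]
  have := Finset.sum_le_sum fun k (_ : k ∈ Finset.univ) => key k
  rw [Finset.sum_add_distrib, ← Finset.mul_sum, ← Finset.mul_sum] at this
  unfold kin1
  linarith

/-- Kinetic energy of a function with bounded gradient and small support. -/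
theorem kin1_le_of_bd {u : E3 → ℝ} {C : ℝ} (hu : Bd 1 C u) {S : Set E3} (hS : IsCompact S)
    (h : ∀ p, p ∉ S → u p = 0) : kin1 u ≤ 2 * C ^ 2 * volume.real S := by
  have key : ∀ k, ∫ p, pd k u p ^ 2 ≤ C ^ 2 * volume.real S := by
    intro k
    rw [← setIntegral_eq_integral_of_forall_compl_eq_zero (s := S) fun p hp => ?_]
    · refine (Real.le_norm_self _).trans (norm_setIntegral_le_of_norm_le_const hS.measure_lt_top
        fun p _ => ?_)
      rw [Real.norm_of_nonneg (sq_nonneg _)]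
      exact sq_le_sq' (abs_le.1 ((hu.pd k).abs_le p)).1 (abs_le.1 ((hu.pd k).abs_le p)).2
    · have : u =ᶠ[nhds p] fun _ => 0 :=
        mem_of_superset (hS.isClosed.isOpen_compl.mem_nhds hp) fun q hq => h q hq
      simp [pd, this.fderiv_eq]
  have h1 := key 0
  have h2 := key 1
  have h3 := key 2
  have h4 : 0 ≤ C ^ 2 * volume.real S := by positivity
  rw [kin1, Fin.sum_univ_three]
  linarith

variable {K : ℕ} {φ : Fin K → E3 → ℝ}

theorem gsr_sq (hφ : ONF φ) (b : Fin K → ℝ) (p : E3) :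
    (∑ a, b a * φ a p) ^ 2 = ∑ a, b a ^ 2 * φ a p ^ 2 := by
  rw [pow_two, Finset.sum_mul_sum]
  refine Finset.sum_congr rfl fun a _ => ?_
  rw [Finset.sum_eq_single a (fun c _ hc => by
    rw [mul_mul_mul_comm, hφ.disj a c p hc.symm, mul_zero]) (by simp)]
  ring

theorem onf_nsq (hφ : ONF φ) (b : Fin K → ℝ) : ∫ p, (∑ a, b a * φ a p) ^ 2 = ∑ a, b a ^ 2 := by
  simp only [gsr_sq hφ]
  rw [integral_finsetSum _ fun a _ => (hφ.c a).sq.int.const_mul _]
  simp only [integral_const_mul, hφ.nrm, mul_one]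

theorem onf_pyth (hφ : ONF φ) {u : E3 → ℝ} (hu : Continuous u) (hc : HasCompactSupport u) :
    ∫ p, (u p - ∑ a, cf φ u a * φ a p) ^ 2 = nsq1 u - ∑ a, cf φ u a ^ 2 := by
  simpa only [mul_comm (cf φ u _), nsq1] using mba_pyth hφ (mba_of hu hc)

theorem onf_bessel (hφ : ONF φ) {u : E3 → ℝ} (hu : Continuous u) (hc : HasCompactSupport u) :
    ∑ a, cf φ u a ^ 2 ≤ nsq1 u := by
  rw [← sub_nonneg, ← onf_pyth hφ hu hc]
  exact integral_nonneg fun _ => sq_nonneg _

/-- The distance to any element of the span splits orthogonally. -/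
theorem onf_dist (hφ : ONF φ) {u : E3 → ℝ} (hu : Continuous u) (hc : HasCompactSupport u)
    (b : Fin K → ℝ) : ∫ p, (u p - ∑ a, b a * φ a p) ^ 2 =
      nsq1 u - ∑ a, cf φ u a ^ 2 + ∑ a, (cf φ u a - b a) ^ 2 := by
  have hu' := mba_of hu hc
  have e : ∀ p, (u p - ∑ a, b a * φ a p) ^ 2 =
      u p ^ 2 - ∑ a, (2 * b a * (φ a p * u p) - b a ^ 2 * φ a p ^ 2) := by
    intro p
    have e2 : ∑ a, 2 * b a * (φ a p * u p) = 2 * u p * ∑ a, b a * φ a p := by
      rw [Finset.mul_sum]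
      exact Finset.sum_congr rfl fun a _ => by ring
    rw [sub_sq, gsr_sq hφ, Finset.sum_sub_distrib, e2]
    ring
  have i1 : ∀ a, Integrable fun p => 2 * b a * (φ a p * u p) :=
    fun a => (hu'.mul (hφ.cont a)).int.const_mul _
  have i2 : ∀ a, Integrable fun p => b a ^ 2 * φ a p ^ 2 := fun a => (hφ.c a).sq.int.const_mul _
  have i3 : ∀ a, Integrable fun p => 2 * b a * (φ a p * u p) - b a ^ 2 * φ a p ^ 2 :=
    fun a => (i1 a).sub (i2 a)
  simp only [e]
  rw [integral_sub hu'.sq.int (integrable_finsetSum _ fun a _ => i3 a),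
    integral_finsetSum _ fun a _ => i3 a, sub_add, ← Finset.sum_sub_distrib]
  refine congrArg (nsq1 u - ·) (Finset.sum_congr rfl fun a _ => ?_)
  rw [integral_sub (i1 a) (i2 a), integral_const_mul, integral_const_mul, hφ.nrm]
  change 2 * b a * cf φ u a - _ = _
  ring

end Vale.Agent.P370
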