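import Vale.Agent.P370.Deriv
import Vale.Agent.P370.GSR

/-! The model energy dominates the weighted Dirichlet energy and the penalty. -/

namespace Vale.Agent.P370

open MeasureTheory Filter
open scoped Classical

theorem low0_lap_cont {f : E3 → ℝ} (hf : ContDiff ℝ 8 f) : Continuous (lap f) := by
  have h1 : ∀ k, ContDiff ℝ 1 (pd k f) := fun k =>
    (hf.fderiv_right (m := 1) (by norm_num)).clm_apply contDiff_const
  have h2 : ∀ k, Continuous (pd k (pd k f)) := fun k =>
    ((h1 k).continuous_fderiv (by norm_num)).clm_apply continuous_const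
  exact continuous_finsetSum _ fun k _ => h2 k

theorem low0_int {V u : E3 → ℝ} (hV : Continuous V) (hu : Continuous u)
    (hc : HasCompactSupport u) : Integrable fun p => V p * u p ^ 2 := by
  refine (hV.mul (hu.pow 2)).integrable_of_hasCompactSupport (hc.mono fun p hp h0 => hp ?_)
  simp [h0]

theorem low0_deriv (M : ℕ) (z : ℝ) :
    deriv (deriv (Gam M)) z = ((M : ℝ) ^ 2 * z ^ 2 - M) * gam M z := by
  have h1 : deriv (Gam M) = fun z => -(M * z) * gam M z :=
    funext fun z => ((gam_hasDerivAt M z).add_const _).deriv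
  have h2 : HasDerivAt (fun z : ℝ => -(M * z)) (-(M : ℝ)) z := by
    simpa using ((hasDerivAt_id' z).const_mul (M : ℝ)).fun_neg
  rw [h1, (h2.fun_mul (gam_hasDerivAt M z)).deriv]
  ring

theorem low0_lap_TH (M : ℕ) (L : Lay) (p : E3) : lap (TH M L) p =
    lap (PS M L) p * Gam M (p 2) + PS M L p * (((M : ℝ) ^ 2 * p 2 ^ 2 - M) * gam M (p 2)) := by
  rw [← low0_deriv]
  refine lap_mul_vert ((PS_contDiff M L).of_le (by norm_num))
    (((gam_contDiff M).add contDiff_const).of_le (by norm_num)) (fun p t => ?_) p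
  simp [PS, ev]

theorem low0_near {M : ℕ} (z : ℝ) : ((M : ℝ) ^ 2 * z ^ 2 - M) * gam M z / Gam M z - 2 * M * om M ≤
    (M : ℝ) ^ 2 * z ^ 2 - M := by
  have hg := gam_pos M z
  have ho := om_pos M
  have hM : (0 : ℝ) ≤ M := Nat.cast_nonneg M
  have hG : 0 < Gam M z := add_pos hg ho
  rw [sub_le_iff_le_add, div_le_iff₀ hG, Gam]
  rcases le_or_gt 1 (M * z ^ 2) with h | h
  · have h1 : 0 ≤ (M : ℝ) ^ 2 * z ^ 2 - M := by nlinarith
    have h2 : 0 ≤ 2 * M * om M * (gam M z + om M) := by positivity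
    nlinarith [mul_nonneg h1 ho.le]
  · have h1 : 1 / 2 ≤ gam M z := by
      have := Real.add_one_le_exp (-(M * z ^ 2 / 2))
      unfold gam
      linarith
    have h2 : 0 ≤ (M : ℝ) ^ 2 * z ^ 2 * om M := by positivity
    have h3 : (0 : ℝ) ≤ M * om M * om M := by positivity
    have h4 := mul_le_mul_of_nonneg_left h1 (mul_nonneg hM ho.le)
    nlinarith

theorem low0_tail {M : ℕ} (hM : 1 ≤ M) {z : ℝ} (hz : 2 ≤ z ^ 2) :
    z ^ 2 * gam M z ≤ 2 * om M := by
  have hM' : (1 : ℝ) ≤ M := by exact_mod_cast hM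
  have h1 : (2 : ℝ) ^ M ≤ Real.exp M := by
    rw [← mul_one (M : ℝ), Real.exp_nat_mul]
    refine pow_le_pow_left₀ zero_le_two ?_ M
    have := Real.add_one_le_exp (1 : ℝ)
    linarith
  have h2 : z ^ 2 / 2 ≤ Real.exp (M * z ^ 2 / 2 - M) := by
    have := Real.add_one_le_exp (M * z ^ 2 / 2 - M)
    nlinarith
  have h3 : z ^ 2 / 2 * 2 ^ M ≤ Real.exp (M * z ^ 2 / 2) := by
    have := mul_le_mul h2 h1 (by positivity) (Real.exp_pos _).le
    rwa [← Real.exp_add, sub_add_cancel] at this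
  unfold gam om
  rw [Real.exp_neg, ← div_eq_mul_inv, ← div_eq_mul_inv,
    div_le_div_iff₀ (Real.exp_pos _) (by positivity)]
  linarith

theorem low0_far {M : ℕ} (hM : 1 ≤ M) {z : ℝ} (hz : 2 ≤ z ^ 2) :
    ((M : ℝ) ^ 2 * z ^ 2 - M) * gam M z / Gam M z ≤ 2 * (M : ℝ) ^ 2 := by
  have hg := gam_pos M z
  have ho := om_pos M
  have hG : 0 < Gam M z := add_pos hg ho
  rw [div_le_iff₀ hG, Gam]
  have h1 := mul_le_mul_of_nonneg_left (low0_tail hM hz) (sq_nonneg (M : ℝ))
  have h2 : 0 ≤ M * gam M z := by positivity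
  have h3 : 0 ≤ (M : ℝ) ^ 2 * gam M z := by positivity
  nlinarith

theorem low0_V1 {M : ℕ} {L : Lay} {p : E3} (h : |vlat M L p| ≤ M / 4) :
    -(M / 4 : ℝ) ≤ V1 M L p := by
  have h1 := plat_nonneg (show (-2 : ℝ) ≤ 2 by norm_num) (p 2)
  have h2 := plat_le_one (-2) 2 (p 2)
  have h3 := (abs_le.1 h).1
  have h4 : (0 : ℝ) ≤ M := Nat.cast_nonneg M
  unfold V1
  nlinarith

theorem low0_pt {M : ℕ} (hM : 2 ≤ M) {L : Lay} {p : E3} (h1 : |vlat M L p| ≤ M / 4)
    (h2 : |lap (PS M L) p / PS M L p| ≤ M) :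
    lap (TH M L) p / TH M L p / 2 + Wt M L p - M * om M ≤ Vm M L p := by
  have hP := PS_pos M L p
  have hG : 0 < Gam M (p 2) := add_pos (gam_pos M _) (om_pos M)
  have e : lap (TH M L) p / TH M L p = lap (PS M L) p / PS M L p +
      ((M : ℝ) ^ 2 * p 2 ^ 2 - M) * gam M (p 2) / Gam M (p 2) := by
    rw [low0_lap_TH, TH]
    field_simp
  rw [e, Wt, Vm]
  split_ifs with hz
  · have h3 : p 2 ^ 2 ≤ 9 := by
      have := abs_le.1 hz
      nlinarith
    have h4 := low0_near (M := M) (p 2)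
    rw [V1, plat_eq_one (abs_le.1 hz).1 (abs_le.1 hz).2, min_eq_left h3, vlat,
      add_div (lap (PS M L) p / 2), div_right_comm (lap (PS M L) p) 2]
    linarith
  · have h3 : 4 ≤ p 2 ^ 2 := by
      rw [← sq_abs]
      nlinarith [not_le.1 hz]
    have h4 := low0_far (M := M) (by omega) (z := p 2) (by linarith)
    have h5 : 4 ≤ min (p 2 ^ 2) 9 := le_min h3 (by norm_num)
    have h6 := low0_V1 h1
    have h7 := (abs_le.1 h2).2
    have h8 : (2 : ℝ) ≤ M := by exact_mod_cast hM
    have h9 : 0 ≤ (M : ℝ) * om M := mul_nonneg (by linarith) (om_pos M).le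
    have h10 := mul_le_mul_of_nonneg_left h5 (sq_nonneg (M : ℝ))
    nlinarith

theorem sm_div_TH (M : ℕ) (L : Lay) {u : E3 → ℝ} (hu : Sm u) : Sm fun p => u p / TH M L p := by
  refine ⟨hu.1.div ((TH_contDiff M L).of_le (by norm_num)) fun p => (TH_pos M L p).ne', ?_⟩
  simp only [div_eq_mul_inv]
  exact hu.2.mul_right

theorem EE_nonneg (M : ℕ) (L : Lay) (f : E3 → ℝ) : 0 ≤ EE M L f :=
  div_nonneg (Finset.sum_nonneg fun _ _ => integral_nonneg fun _ =>
    mul_nonneg (sq_nonneg _) (sq_nonneg _)) zero_le_two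

theorem Wt_mem (M : ℕ) (L : Lay) (p : E3) : 0 ≤ Wt M L p ∧ Wt M L p ≤ 1 := by
  unfold Wt
  split_ifs
  · exact ⟨div_nonneg (om_pos M).le (PS_pos M L p).le,
      (div_le_one (PS_pos M L p)).2 (om_le_PS M L p)⟩
  · exact ⟨zero_le_one, le_rfl⟩

theorem Wt_int (M : ℕ) (L : Lay) {u : E3 → ℝ} (hu : Continuous u) (hc : HasCompactSupport u) :
    Integrable fun p => Wt M L p * u p ^ 2 := by
  have h1 : Integrable fun p => u p ^ 2 := by
    simpa using low0_int (V := fun _ => 1) continuous_const hu hc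
  have h2 : Measurable (Wt M L) :=
    Measurable.ite (isClosed_le (by fun_prop) continuous_const).measurableSet
      (measurable_const.div (PS_contDiff M L).continuous.measurable) measurable_const
  refine h1.bdd_mul (c := 1) h2.aestronglyMeasurable (Eventually.of_forall fun p => ?_)
  rw [Real.norm_eq_abs, abs_of_nonneg (Wt_mem M L p).1]
  exact (Wt_mem M L p).2

theorem Vm_continuous (M : ℕ) (L : Lay) : Continuous (Vm M L) := by
  have h0 : Continuous fun p : E3 => p 2 := by fun_prop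
  have h1 : Continuous (vlat M L) :=
    ((((low0_lap_cont (PS_contDiff M L)).div_const 2).add continuous_const).div
      (PS_contDiff M L).continuous fun p => (PS_pos M L p).ne').sub continuous_const
  have h2 : Continuous (V1 M L) := ((plat_contDiff (-2) 2).continuous.comp h0).mul h1
  exact ((h2.add (continuous_const.mul ((h0.pow 2).min continuous_const))).sub
    continuous_const).add continuous_const

theorem Vm_ge : ∀ᶠ M : ℕ in atTop, ∀ L : Lay, L.K ≤ M → ∀ p, -(M : ℝ) ≤ Vm M L p := by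
  filter_upwards [V1_bd] with M h L hL p
  have h1 := low0_V1 ((h L hL).2.1 p)
  have h2 : 0 ≤ (M : ℝ) ^ 2 / 2 * min (p 2 ^ 2) 9 :=
    mul_nonneg (by positivity) (le_min (sq_nonneg _) (by norm_num))
  have h3 : (0 : ℝ) ≤ M := Nat.cast_nonneg M
  unfold Vm
  linarith

theorem low0 : ∀ᶠ M : ℕ in atTop, ∀ L : Lay, L.K ≤ M → ∀ u : E3 → ℝ, Sm u →
    EE M L (fun p => u p / TH M L p) + (∫ p, Wt M L p * u p ^ 2) - ip M 4000 * nsq1 u ≤
      kin1 u + ∫ p, Vm M L p * u p ^ 2 := by
  filter_upwards [V1_bd, ev_om (4000 + 1), eventually_ge_atTop 2] with M h ho hM L hL u hu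
  have h0 : (M : ℝ) * om M ≤ ip M 4000 := by
    rw [← ip_mul_pow (by omega) 4000 1, pow_one, mul_comm]
    exact mul_le_mul_of_nonneg_right ho (Nat.cast_nonneg M)
  generalize (ip M 4000 : ℝ) = ε at h0
  have hT := TH_pos M L
  have h1 := gsr ((TH_contDiff M L).of_le (by norm_num)) (sm_div_TH M L hu)
  have e1 : (fun p => TH M L p * (u p / TH M L p)) = u :=
    funext fun p => mul_div_cancel₀ _ (hT p).ne'
  have e2 : ∫ p, lap (TH M L) p * TH M L p * (u p / TH M L p) ^ 2 =
      (∫ p, lap (TH M L) p / TH M L p / 2 * u p ^ 2) * 2 := by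
    rw [← integral_mul_const]
    refine integral_congr_ae (Eventually.of_forall fun p => ?_)
    have := (hT p).ne'
    field_simp
  rw [e1, e2] at h1
  have hc := hu.1.continuous
  have i1 := low0_int (((low0_lap_cont (TH_contDiff M L)).div (TH_contDiff M L).continuous
    fun p => (hT p).ne').div_const 2) hc hu.2
  have i2 := Wt_int M L hc hu.2
  have i3 := low0_int (V := fun _ => ε) continuous_const hc hu.2
  have h2 := integral_mono ((i1.add i2).sub i3) (low0_int (Vm_continuous M L) hc hu.2) fun p => by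
    have h3 := low0_pt hM ((h L hL).2.1 p) ((h L hL).2.2 p)
    have h4 := mul_le_mul_of_nonneg_right (show lap (TH M L) p / TH M L p / 2 + Wt M L p - ε ≤
      Vm M L p by linarith) (sq_nonneg (u p))
    simp only [Pi.add_apply, Pi.sub_apply, Pi.div_apply]
    linarith
  rw [integral_sub' (i1.add i2) i3, integral_add' i1 i2, integral_const_mul] at h2
  simp only [Pi.div_apply] at h2
  unfold EE nsq1
  linarith

end Vale.Agent.P370
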