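import Vale.Agent.P370.Node
import Vale.Agent.P370.Low0

/-! The distance to the span of the modes. -/

namespace Vale.Agent.P370

open MeasureTheory Filter
open scoped Classical

/-- Square integrable on the layer with a bound. -/
def GapB (g : E3 → ℝ) (c : ℝ) : Prop :=
  Continuous g ∧ IntegrableOn (fun p => g p ^ 2) {p : E3 | |p 2| ≤ 2} ∧
    ∫ p in {p : E3 | |p 2| ≤ 2}, g p ^ 2 ≤ c

theorem gap_meas : MeasurableSet {p : E3 | |p 2| ≤ 2} :=
  (isClosed_le (by fun_prop) continuous_const).measurableSet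

theorem GapB.mono {g : E3 → ℝ} {c d : ℝ} (h : GapB g c) (hc : c ≤ d) : GapB g d :=
  ⟨h.1, h.2.1, h.2.2.trans hc⟩

theorem GapB.congr {g g' : E3 → ℝ} {c : ℝ} (h : GapB g c) (hg : ∀ p, g' p = g p) : GapB g' c := by
  rwa [show g' = g from funext hg]

theorem GapB.of_le {g w : E3 → ℝ} {c : ℝ} (hg : Continuous g)
    (hw : IntegrableOn w {p : E3 | |p 2| ≤ 2}) (h : ∀ p : E3, |p 2| ≤ 2 → g p ^ 2 ≤ w p)
    (hc : ∫ p in {p : E3 | |p 2| ≤ 2}, w p ≤ c) : GapB g c := by
  have h1 : IntegrableOn (fun p => g p ^ 2) {p : E3 | |p 2| ≤ 2} :=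
    Integrable.mono' hw (hg.pow 2).aestronglyMeasurable ((ae_restrict_iff' gap_meas).2
      (Eventually.of_forall fun p hp => by
        rw [Real.norm_of_nonneg (sq_nonneg _)]
        exact h p hp))
  exact ⟨hg, h1, (setIntegral_mono_on h1 hw gap_meas h).trans hc⟩

theorem GapB.add {g h : E3 → ℝ} {c d : ℝ} (hg : GapB g c) (hh : GapB h d) :
    GapB (fun p => g p + h p) (2 * c + 2 * d) := by
  have h1 : Integrable (fun p => 2 * g p ^ 2 + 2 * h p ^ 2) (volume.restrict {p : E3 | |p 2| ≤ 2}) :=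
    (hg.2.1.const_mul 2).add (hh.2.1.const_mul 2)
  refine GapB.of_le (hg.1.add hh.1) h1 (fun p _ => by nlinarith [sq_nonneg (g p - h p)]) ?_
  rw [integral_add (hg.2.1.const_mul 2) (hh.2.1.const_mul 2), integral_const_mul,
    integral_const_mul]
  linarith [hg.2.2, hh.2.2]

theorem GapB.sum {ι : Type} {s : Finset ι} {g : ι → E3 → ℝ} {c n : ℝ} (hc : 0 ≤ c)
    (hn : (s.card : ℝ) ≤ n) (hg : ∀ i ∈ s, GapB (g i) c) :
    GapB (fun p => ∑ i ∈ s, g i p) (n ^ 2 * c) := by
  have h1 : ∀ i ∈ s, Integrable (fun p => g i p ^ 2) (volume.restrict {p : E3 | |p 2| ≤ 2}) :=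
    fun i hi => (hg i hi).2.1
  refine GapB.of_le (w := fun p => s.card * ∑ i ∈ s, g i p ^ 2)
    (continuous_finsetSum _ fun i hi => (hg i hi).1)
    ((integrable_finsetSum _ h1).const_mul _) (fun p _ => sq_sum_le_card_mul_sum_sq) ?_
  rw [integral_const_mul, integral_finsetSum _ h1]
  have h2 := Finset.sum_le_card_nsmul s _ c fun i hi => (hg i hi).2.2
  rw [nsmul_eq_mul] at h2
  calc _ ≤ s.card * (s.card * c) := by gcongr
    _ = (s.card : ℝ) ^ 2 * c := by ring
    _ ≤ _ := by gcongr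

theorem GapB.ite {g : E3 → ℝ} {c : ℝ} {P : Prop} [Decidable P] (hc : 0 ≤ c) (h : P → GapB g c) :
    GapB (fun p => if P then g p else 0) c := by
  by_cases hP : P
  · simpa only [if_pos hP] using h hP
  · simp only [if_neg hP]
    exact ⟨continuous_const, by simp, by simpa using hc⟩

theorem gap_cont_node (M i j : ℕ) :
    Continuous fun p : E3 => gk M (p 0 - (i : ℝ)) * gk M (p 1 - (j : ℝ)) := by
  have h := (gk_contDiff M).continuous
  fun_prop

theorem gap_node_zero {M : ℕ} (hM : 1 ≤ M) (i j : ℕ) {p : E3} (hp : |p 2| ≤ 2)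
    (h : p ∉ cube !₂[(i : ℝ), (j : ℝ), 0] (rr M)) :
    gk M (p 0 - (i : ℝ)) * gk M (p 1 - (j : ℝ)) = 0 := by
  by_contra h0
  obtain ⟨h1, h2⟩ := mul_ne_zero_iff.1 h0
  refine h fun k => ?_
  fin_cases k
  · exact (not_le.1 fun hh => h1 (gk_eq_zero M hh)).le
  · exact (not_le.1 fun hh => h2 (gk_eq_zero M hh)).le
  · have : (1 : ℝ) ≤ M := by exact_mod_cast hM
    simp only [rr, Fin.reduceFinMk, Matrix.cons_val, sub_zero]
    push_cast
    linarith

theorem gap_int {M : ℕ} (hM : 1 ≤ M) (i j : ℕ) {h : E3 → ℝ} (hh : Continuous h) :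
    IntegrableOn (fun p : E3 => (gk M (p 0 - (i : ℝ)) * gk M (p 1 - (j : ℝ)) * h p) ^ 2)
      {p : E3 | |p 2| ≤ 2} :=
  ((((gap_cont_node M i j).mul hh).pow 2).continuousOn.integrableOn_compact
    (cube_isCompact !₂[(i : ℝ), (j : ℝ), 0] (rr M))).of_forall_sdiff_eq_zero gap_meas fun p hp => by
      simp only [Pi.pow_apply, Pi.mul_apply, gap_node_zero hM i j hp.1 hp.2, zero_mul,
        zero_pow two_ne_zero]

theorem gap_bdd {M : ℕ} (hM : 1 ≤ M) (i j : ℕ) {h : E3 → ℝ} (hh : Continuous h) {c : ℝ}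
    (hc : ∀ p, h p ^ 2 ≤ c) :
    GapB (fun p : E3 => gk M (p 0 - (i : ℝ)) * gk M (p 1 - (j : ℝ)) * h p) (216 * M ^ 3 * c) := by
  have hK := cube_isCompact !₂[(i : ℝ), (j : ℝ), 0] (rr M)
  have h0 : 0 ≤ c := (sq_nonneg _).trans (hc 0)
  have h1 : Integrable ((cube !₂[(i : ℝ), (j : ℝ), 0] (rr M)).indicator fun _ => c) :=
    (integrable_indicator_iff hK.measurableSet).2 (integrableOn_const hK.measure_lt_top.ne)
  refine GapB.of_le ((gap_cont_node M i j).mul hh) h1.integrableOn (fun p hp => ?_)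
    ((setIntegral_le_integral h1 (Eventually.of_forall fun p =>
      Set.indicator_nonneg (fun _ _ => h0) p)).trans ?_)
  · by_cases hp' : p ∈ cube !₂[(i : ℝ), (j : ℝ), 0] (rr M)
    · rw [Set.indicator_of_mem hp', mul_pow]
      refine (mul_le_of_le_one_left (sq_nonneg _) ?_).trans (hc p)
      exact pow_le_one₀ (mul_nonneg (gk_nonneg _ _) (gk_nonneg _ _))
        (mul_le_one₀ (gk_le_one _ _) (gk_nonneg _ _) (gk_le_one _ _))
    · rw [Set.indicator_of_notMem hp', gap_node_zero hM i j hp hp']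
      simp
  · have : (1 : ℝ) ≤ M := by exact_mod_cast hM
    rw [integral_indicator_const _ hK.measurableSet, cube_volume _ (by positivity), smul_eq_mul]
    have h2 : (2 * (rr M : ℝ)) ≤ 6 * M := by
      unfold rr
      push_cast
      linarith
    calc _ ≤ (6 * (M : ℝ)) ^ 3 * c := by gcongr
      _ = _ := by ring

theorem gap_Gam (M : ℕ) (z : ℝ) : 0 ≤ Gam M z ∧ Gam M z ≤ 2 := by
  unfold Gam
  constructor <;> linarith [gam_pos M z, gam_le_one M z, om_pos M, om_le_one M]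

theorem gap_Gam_cont (M : ℕ) : Continuous (Gam M) :=
  (gam_contDiff M).continuous.add continuous_const

theorem gap_node : ∀ᶠ M : ℕ in atTop, ∀ (L : Lay) (α : ℝ) (i j : ℕ), 0 ≤ α →
    (∀ p : E3, α * (gk M (p 0 - (i : ℝ)) * gk M (p 1 - (j : ℝ))) ≤ PS M L p) →
    ∀ f : E3 → ℝ, Sm f → ∀ (w : ℝ → ℝ) (b S : ℝ) (k : ℕ), Continuous w →
      (∀ z, |α * (Gam M z - w z)| ≤ 2 * ip M (k + 5)) → b ^ 2 ≤ S →
      α ^ 2 * (avg M i j f - b) ^ 2 ≤ 4 * (M : ℝ) ^ 295 * EE M L f →
      GapB (fun p : E3 => α * (gk M (p 0 - (i : ℝ)) * gk M (p 1 - (j : ℝ))) *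
        (Gam M (p 2) * f p - w (p 2) * b)) ((M : ℝ) ^ 299 * EE M L f + ip M (2 * k) * S) := by
  filter_upwards [node1, ev_le 20000, eventually_ge_atTop 1] with M h1 hM hM1 L α i j hα hd f hf w
    b S k hw hη hb hav
  have hG := gap_Gam_cont M
  have hfc := hf.1.continuous
  have hE := EE_nonneg M L f
  have hS := (sq_nonneg _).trans hb
  have t1 : GapB (fun p : E3 => gk M (p 0 - (i : ℝ)) * gk M (p 1 - (j : ℝ)) *
      (α * Gam M (p 2) * (f p - avg M i j f))) ((M : ℝ) ^ 7 * EE M L f) := by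
    refine ⟨(gap_cont_node M i j).mul (by fun_prop), gap_int hM1 i j (by fun_prop),
      le_trans (le_of_eq ?_) (h1 L α i j hα hd f hf)⟩
    refine integral_congr_ae (Eventually.of_forall fun p => ?_)
    ring
  have t2 := gap_bdd hM1 i j
    (h := fun p : E3 => Gam M (p 2) * (α * (avg M i j f - b)) + α * (Gam M (p 2) - w (p 2)) * b)
    (by fun_prop) (c := 32 * (M : ℝ) ^ 295 * EE M L f + 8 * ip M (2 * k + 10) * S) fun p => by
      have k1 : (Gam M (p 2) * (α * (avg M i j f - b))) ^ 2 ≤ 2 ^ 2 * (4 * (M : ℝ) ^ 295 * EE M L f) := by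
        have := gap_Gam M (p 2)
        rw [mul_pow, mul_pow]
        gcongr
        exacts [this.1, this.2]
      have k2 : (α * (Gam M (p 2) - w (p 2)) * b) ^ 2 ≤ (2 * ip M (k + 5)) ^ 2 * S := by
        rw [mul_pow, ← sq_abs]
        gcongr
        exact hη _
      rw [show 2 * k + 10 = (k + 5) + (k + 5) by ring, ip_add]
      nlinarith [sq_nonneg (Gam M (p 2) * (α * (avg M i j f - b)) - α * (Gam M (p 2) - w (p 2)) * b)]
  refine ((t1.add t2).congr fun p => by ring).mono ?_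
  have k1 := ip_absorb hM1 (show 3456 ≤ (M : ℝ) by linarith) (show 2 * k + 3 + 1 ≤ 2 * k + 10 by omega)
  have k2 : (M : ℝ) ^ 7 ≤ (M : ℝ) ^ 298 := pow_le_pow_right₀ (by linarith) (by norm_num)
  have k3 : 20000 * (M : ℝ) ^ 298 ≤ (M : ℝ) ^ 299 := by
    rw [pow_succ' _ 298]
    gcongr
  have k4 : (0 : ℝ) ≤ (M : ℝ) ^ 298 := by positivity
  calc _ = (2 * (M : ℝ) ^ 7 + 13824 * (M : ℝ) ^ 298) * EE M L f
        + 3456 * (M : ℝ) ^ 3 * ip M (2 * k + 10) * S := by ring
    _ ≤ _ := by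
      gcongr
      linarith

theorem gap_own : ∀ᶠ M : ℕ in atTop, ∀ (L : Lay) (Pi : ℕ) (v : ℕ → ℕ → ℕ), L.OK M Pi v →
    ∀ f : E3 → ℝ, Sm f → ∀ S : ℝ, ∀ a : Fin L.K, fb M L f a ^ 2 ≤ S →
      GapB (fun p : E3 => own M L a.val (p 0) (p 1) *
        (Gam M (p 2) * f p - gam M (p 2) * chz (p 2) * fb M L f a))
        (4 * (M : ℝ) ^ 220 * ((M : ℝ) ^ 299 * EE M L f + ip M 3190 * S)) := by
  filter_upwards [gap_node, chain_bus, ev_om 1600, ev_exp 1600, eventually_ge_atTop 1]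
    with M h1 h2 ho he hM L Pi v hL f hf S a hS
  have hM1 : (1 : ℝ) ≤ M := by exact_mod_cast hM
  have hE := EE_nonneg M L f
  have hS0 := (sq_nonneg _).trans hS
  have hi := ip_pos hM 3190
  have hX : 0 ≤ (M : ℝ) ^ 299 * EE M L f + ip M 3190 * S :=
    add_nonneg (by positivity) (mul_nonneg hi.le hS0)
  have hw : ∀ z, |Gam M z - gam M z * chz z| ≤ 2 * ip M 1600 := fun z => by
    have k1 := chz_mem z
    have k2 := gam_pos M z
    have k3 := om_pos M
    have k4 : gam M z * (1 - chz z) ≤ ip M 1600 := by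
      rcases le_total |z| 1 with hz | hz
      · rw [chz_eq_one hz, sub_self, mul_zero]
        exact (ip_pos hM _).le
      · exact (mul_le_of_le_one_right k2.le (by linarith [k1.1])).trans ((gam_small M hz).trans he)
    have k5 : 0 ≤ gam M z * (1 - chz z) := mul_nonneg k2.le (by linarith [k1.2])
    unfold Gam
    rw [abs_le]
    constructor <;> linarith
  have key : ∀ (α : ℝ) (i j : ℕ), 0 ≤ α → α ≤ 1 → L.bus a.val i j = true →
      (∀ p : E3, α * (gk M (p 0 - (i : ℝ)) * gk M (p 1 - (j : ℝ))) ≤ PS M L p) →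
      GapB (fun p : E3 => α * (gk M (p 0 - (i : ℝ)) * gk M (p 1 - (j : ℝ))) *
        (Gam M (p 2) * f p - gam M (p 2) * chz (p 2) * fb M L f a))
        ((M : ℝ) ^ 299 * EE M L f + ip M 3190 * S) := fun α i j hα hα1 hb hd => by
    refine h1 L α i j hα hd f hf (fun z => gam M z * chz z) _ S 1595 (gamchz_contDiff M).continuous
      (fun z => ?_) hS ?_
    · rw [abs_mul, abs_of_nonneg hα]
      exact (mul_le_of_le_one_left (abs_nonneg _) hα1).trans (hw z)
    · refine (mul_le_of_le_one_left (sq_nonneg _) (pow_le_one₀ hα hα1)).trans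
        ((h2 L Pi v hL f hf a i j hb).trans ?_)
      have : 0 ≤ (M : ℝ) ^ 295 * EE M L f := by positivity
      linarith
  generalize (M : ℝ) ^ 299 * EE M L f + ip M 3190 * S = X at hX key ⊢
  have t1 := GapB.sum (s := Finset.range (NC M)) (n := (M : ℝ) ^ 4) (mul_nonneg (sq_nonneg _) hX)
    (by simp [NC]) fun c hc => GapB.ite (P := L.has a.val c = true) (mul_nonneg (sq_nonneg _) hX)
      fun hh =>
      GapB.sum (s := Finset.range (LL M)) (n := (M : ℝ) ^ 20) hX (by simp [LL]) fun k hk =>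
        key 1 _ _ zero_le_one le_rfl
          (hL.port_bus _ c k a.2 (Finset.mem_range.1 hc) hh (Finset.mem_range.1 hk))
          (port_dom a.2 (Finset.mem_range.1 hc) hh (Finset.mem_range.1 hk))
  have t2 := GapB.sum (s := Finset.range (DD M)) (n := (M : ℝ) ^ 55) (mul_nonneg (sq_nonneg _) hX)
    (by simp [DD]) fun i _ => GapB.sum (s := Finset.range (DD M)) (n := (M : ℝ) ^ 55) hX
      (by simp [DD]) fun j _ => GapB.ite (P := L.bus a.val i j = true) hX fun hh =>
        key (ip M 90) i j (ip_pos hM _).le (by simpa [ip] using ip_anti hM (Nat.zero_le 90)) hh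
          (hL.bus_dom a.2 hh)
  refine ((t1.add t2).congr fun p => ?_).mono ?_
  · simp only [own, ports, portF, run, busF, add_mul, Finset.sum_mul, Finset.mul_sum, ite_mul,
      mul_ite, zero_mul, mul_zero, one_mul, mul_comm (gk M (p 1 - _))]
  · have k1 : (M : ℝ) ^ 48 ≤ (M : ℝ) ^ 220 := pow_le_pow_right₀ hM1 (by norm_num)
    calc _ = (2 * (M : ℝ) ^ 48 + 2 * (M : ℝ) ^ 220) * X := by ring
      _ ≤ _ := by
        gcongr
        linarith

theorem gap_link : ∀ᶠ M : ℕ in atTop, ∀ (L : Lay) (Pi : ℕ) (v : ℕ → ℕ → ℕ), L.OK M Pi v →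
    ∀ f : E3 → ℝ, Sm f → ∀ S : ℝ, ∀ a : Fin L.K, ∀ b, Edge L.K a.val b → fb M L f a ^ 2 ≤ S →
      GapB (fun p : E3 => linkF M L a.val b (p 0) (p 1) * (Gam M (p 2) * f p))
        (4 * (M : ℝ) ^ 40 * ((M : ℝ) ^ 299 * EE M L f + ip M 3030 * S)) := by
  filter_upwards [gap_node, chain_bus, chain_link, eventually_ge_atTop 1]
    with M h1 h2 h3 hM L Pi v hL f hf S a b he hS
  have hM1 : (1 : ℝ) ≤ M := by exact_mod_cast hM
  have hE := EE_nonneg M L f
  have hS0 := (sq_nonneg _).trans hS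
  have hi := ip_pos hM 3030
  have hα := ip_pos hM 1520
  have hX : 0 ≤ (M : ℝ) ^ 299 * EE M L f + ip M 3030 * S :=
    add_nonneg (by positivity) (mul_nonneg hi.le hS0)
  have t1 := GapB.sum (s := Finset.range (LL M + 1)) (n := 2 * (M : ℝ) ^ 20) hX
    (by
      have : (1 : ℝ) ≤ (M : ℝ) ^ 20 := one_le_pow₀ hM1
      simp only [LL, Finset.card_range]
      push_cast
      linarith) fun k hk =>
    h1 L (ip M 1520) (L.li a.val b + k) (L.lj a.val b) hα.le
      (link_dom he (Nat.lt_succ_iff.1 (Finset.mem_range.1 hk))) f hf (fun _ => 0) (fb M L f a) S 1515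
      continuous_const (fun z => by
        rw [sub_zero, abs_of_nonneg (mul_nonneg hα.le (gap_Gam M z).1), mul_comm]
        exact mul_le_mul_of_nonneg_right (gap_Gam M z).2 hα.le) hS (by
        have hk' := Nat.lt_succ_iff.1 (Finset.mem_range.1 hk)
        have k1 := h3 L f hf a b he 0 k k.zero_le hk'
        have k2 := h2 L Pi v hL f hf a _ _ (hL.link_l _ _ he)
        have k3 : (k : ℝ) ≤ (M : ℝ) ^ 20 := by exact_mod_cast hk'
        have k4 : ((k : ℝ) - (0 : ℕ)) ^ 2 * (M : ℝ) ^ 4 * EE M L f ≤ (M : ℝ) ^ 295 * EE M L f := by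
          rw [Nat.cast_zero, sub_zero]
          calc _ ≤ ((M : ℝ) ^ 20) ^ 2 * (M : ℝ) ^ 4 * EE M L f := by gcongr
            _ = (M : ℝ) ^ 44 * EE M L f := by ring
            _ ≤ _ := mul_le_mul_of_nonneg_right (pow_le_pow_right₀ hM1 (by norm_num)) hE
        have k5 : (ip M 3040 : ℝ) ≤ 1 := by simpa [ip] using ip_anti hM (Nat.zero_le 3040)
        have k6 := (mul_le_of_le_one_left (sq_nonneg _) k5).trans k2
        have k7 := (ip_pos hM 3040).le
        rw [sq, ← ip_add]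
        rw [add_zero] at k1
        nlinarith [mul_nonneg k7 (sq_nonneg (avg M (L.li a.val b + k) (L.lj a.val b) f
          - 2 * avg M (L.li a.val b) (L.lj a.val b) f + fb M L f a))])
  refine (t1.congr fun p => ?_).mono (le_of_eq (by ring))
  simp only [linkF, run, Finset.sum_mul, Finset.mul_sum, zero_mul, sub_zero,
    mul_comm (gk M (p 1 - _))]

theorem gap_est : ∀ᶠ M : ℕ in atTop, ∀ (L : Lay) (Pi : ℕ) (v : ℕ → ℕ → ℕ), L.OK M Pi v →
    ∀ u : E3 → ℝ, Sm u →
      ∫ p, (u p - ∑ a : Fin L.K, fb M L (fun p => u p / TH M L p) a * phh M L a.val p) ^ 2 ≤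
        (M : ℝ) ^ 530 * (EE M L (fun p => u p / TH M L p) + ∫ p, Wt M L p * u p ^ 2) +
          ip M 2900 * ∑ a, fb M L (fun p => u p / TH M L p) a ^ 2 := by
  filter_upwards [gap_own, gap_link, ev_le 64, eventually_ge_atTop 1] with M h1 h2 hM hM1 L Pi v hL
    u hu
  have hf := sm_div_TH M L hu
  have hTH : ∀ p, u p = PS M L p * Gam M (p 2) * (fun p => u p / TH M L p) p := fun p =>
    (mul_div_cancel₀ _ (TH_pos M L p).ne').symm
  generalize (fun p => u p / TH M L p) = f at hf hTH ⊢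
  obtain ⟨S, hS⟩ : ∃ S, S = ∑ a, fb M L f a ^ 2 := ⟨_, rfl⟩
  rw [← hS]
  have hSa : ∀ a, fb M L f a ^ 2 ≤ S := fun a =>
    hS ▸ Finset.single_le_sum (f := fun a => fb M L f a ^ 2) (fun _ _ => sq_nonneg _)
      (Finset.mem_univ a)
  have hS0 : 0 ≤ S := hS ▸ Finset.sum_nonneg fun _ _ => sq_nonneg _
  have hE := EE_nonneg M L f
  have hW := Wt_int M L hu.1.continuous hu.2
  have hW0 : ∀ p, 0 ≤ Wt M L p * u p ^ 2 := fun p => mul_nonneg (Wt_mem M L p).1 (sq_nonneg _)
  have hI : 0 ≤ ∫ p, Wt M L p * u p ^ 2 := integral_nonneg hW0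
  have hK : (L.K : ℝ) ≤ M := by exact_mod_cast hL.K_le
  have hG := gap_Gam_cont M
  have hfc := hf.1.continuous
  have t0 : GapB (fun p => om M * Gam M (p 2) * f p) (∫ p, Wt M L p * u p ^ 2) := by
    refine GapB.of_le (by fun_prop) hW.integrableOn (fun p hp => ?_)
      (setIntegral_le_integral hW (Eventually.of_forall hW0))
    have k1 := Wt_mem M L p
    have k2 : om M * Gam M (p 2) * f p = Wt M L p * u p := by
      have := (PS_pos M L p).ne'
      rw [Wt, if_pos hp, hTH p]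
      field_simp
    rw [k2, mul_pow]
    exact mul_le_mul_of_nonneg_right (by nlinarith) (sq_nonneg _)
  have t1 := GapB.sum (s := Finset.univ) (n := (M : ℝ)) (mul_nonneg (by positivity)
    (add_nonneg (by positivity) (mul_nonneg (ip_pos hM1 _).le hS0))) (by simpa using hK)
    fun a _ => h1 L Pi v hL f hf S a (hSa a)
  have t2 := GapB.sum (s := E4 L.K) (n := (M : ℝ) ^ 2) (mul_nonneg (by positivity)
    (add_nonneg (by positivity) (mul_nonneg (ip_pos hM1 _).le hS0))) (by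
      have k1 : ((E4 L.K).card : ℝ) ≤ L.K * L.K := by
        exact_mod_cast (Finset.card_le_univ _).trans_eq (by simp)
      refine k1.trans ?_
      rw [sq]
      gcongr) fun e he => h2 L Pi v hL f hf S e.1 e.2.val ((edge_iff e).1 he) (hSa _)
  have t3 := (t0.add (t1.add t2)).congr
    (g' := fun p => u p - ∑ a : Fin L.K, fb M L f a * phh M L a.val p) fun p => by
      simp only [hTH p, PS, psi_eq, phh, mul_sub, Finset.sum_sub_distrib, add_mul, Finset.sum_mul,
        mul_assoc, mul_comm (fb M L f _)]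
      ring
  have t4 : ∫ p, (u p - ∑ a : Fin L.K, fb M L f a * phh M L a.val p) ^ 2 ≤
      (∫ p in {p : E3 | |p 2| ≤ 2}, (u p - ∑ a : Fin L.K, fb M L f a * phh M L a.val p) ^ 2) +
        ∫ p, Wt M L p * u p ^ 2 := by
    have k1 := (integrable_indicator_iff gap_meas).2 t3.2.1
    rw [← integral_indicator gap_meas, ← integral_add k1 hW]
    refine integral_mono_of_nonneg (Eventually.of_forall fun p => sq_nonneg _) (k1.add hW)
      (Eventually.of_forall fun p => ?_)
    by_cases hp : |p 2| ≤ 2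
    · simp only [Set.indicator_of_mem (show p ∈ {p : E3 | |p 2| ≤ 2} from hp)]
      exact le_add_of_nonneg_right (hW0 p)
    · simp only [Set.indicator_of_notMem (show p ∉ {p : E3 | |p 2| ≤ 2} from hp), Wt, if_neg hp, phh,
        chz_eq_zero (not_le.1 hp).le, mul_zero, Finset.sum_const_zero, sub_zero, zero_add, one_mul,
        le_refl]
  refine t4.trans ((add_le_add t3.2.2 le_rfl).trans ?_)
  have k1 := ip_absorb hM1 (show 32 ≤ (M : ℝ) by linarith) (show 2900 + 222 + 1 ≤ 3190 by omega)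
  have k2 := ip_absorb hM1 (show 32 ≤ (M : ℝ) by linarith) (show 2900 + 44 + 1 ≤ 3030 by omega)
  have k3 : (M : ℝ) ^ 343 ≤ (M : ℝ) ^ 521 := pow_le_pow_right₀ (by linarith) (by norm_num)
  have k4 : (M : ℝ) ^ 521 ≤ (M : ℝ) ^ 529 := pow_le_pow_right₀ (by linarith) (by norm_num)
  have k5 : (1 : ℝ) ≤ (M : ℝ) ^ 529 := one_le_pow₀ (by linarith)
  have k6 : 64 * (M : ℝ) ^ 529 ≤ (M : ℝ) ^ 530 := by
    rw [pow_succ' _ 529]
    exact mul_le_mul_of_nonneg_right hM (by linarith)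
  generalize (ip M 3190 : ℝ) = i1 at k1 ⊢
  generalize (ip M 3030 : ℝ) = i2 at k2 ⊢
  generalize (ip M 2900 : ℝ) = i3 at k1 k2 ⊢
  calc _ = (16 * (M : ℝ) ^ 521 + 16 * (M : ℝ) ^ 343) * EE M L f + 3 * (∫ p, Wt M L p * u p ^ 2)
        + (16 * (M : ℝ) ^ 222 * i1 + 16 * (M : ℝ) ^ 44 * i2) * S := by ring
    _ ≤ (M : ℝ) ^ 530 * EE M L f + (M : ℝ) ^ 530 * (∫ p, Wt M L p * u p ^ 2) + i3 * S :=
        add_le_add (add_le_add (mul_le_mul_of_nonneg_right (by linarith) hE)
          (mul_le_mul_of_nonneg_right (by linarith) hI)) (mul_le_mul_of_nonneg_right (by linarith) hS0)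
    _ = _ := by ring

end Vale.Agent.P370
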