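import Vale.Agent.P370.KerK

/-! The fundamental solution of the Laplacian. -/

namespace Vale.Agent.P370

open MeasureTheory Filter
open scoped Classical

theorem green_pd {f : E3 → ℝ} (hf : ContDiff ℝ 2 f) (k : Fin 3) : ContDiff ℝ 1 (pd k f) :=
  (hf.fderiv_right (m := 1) (by norm_num)).clm_apply contDiff_const

theorem green_pd0 {f : E3 → ℝ} (hf : ContDiff ℝ 1 f) (k : Fin 3) : Continuous (pd k f) :=
  (hf.continuous_fderiv one_ne_zero).clm_apply continuous_const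

theorem green_supp {f : E3 → ℝ} (hc : HasCompactSupport f) (k : Fin 3) :
    HasCompactSupport (pd k f) := hc.fderiv_apply ℝ (ev k)

/-- symmetry of the Laplacian -/
theorem green_symm {K V : E3 → ℝ} (hK : ContDiff ℝ 2 K) (hV : ContDiff ℝ 2 V)
    (hc : HasCompactSupport V) : ∫ y, lap V y * K y = ∫ y, lap K y * V y := by
  unfold lap
  simp only [Finset.sum_mul]
  rw [integral_finsetSum (f := fun k y => pd k (pd k V) y * K y) _ fun k _ =>
      ((green_pd0 (green_pd hV k) k).mul hK.continuous).integrable_of_hasCompactSupport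
        (green_supp (green_supp hc k) k).mul_right,
    integral_finsetSum (f := fun k y => pd k (pd k K) y * V y) _ fun k _ =>
      ((green_pd0 (green_pd hK k) k).mul hV.continuous).integrable_of_hasCompactSupport
        hc.mul_left]
  refine Finset.sum_congr rfl fun k _ => ?_
  have h1 := integral_pd_mul (hK.of_le (by norm_num)) ⟨green_pd hV k, green_supp hc k⟩ k
  have h2 := integral_pd_mul (green_pd hK k) ⟨hV.of_le (by norm_num), hc⟩ k
  rw [h2, h1, neg_neg]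
  simp only [mul_comm]

theorem green_der (p : E3) {ε : ℝ} (hε : 0 < ε) (a : ℝ) (y : E3) :
    HasFDerivAt (fun y : E3 => (‖y - p‖ ^ 2 + ε ^ 2) ^ a)
      ((a * (‖y - p‖ ^ 2 + ε ^ 2) ^ (a - 1)) • (2 • innerSL ℝ (y - p))) y := by
  have h1 : HasFDerivAt (fun y : E3 => ‖y - p‖ ^ 2 + ε ^ 2) (2 • innerSL ℝ (y - p)) y := by
    simpa using (((hasFDerivAt_id y).sub_const p).norm_sq).add_const (ε ^ 2)
  exact h1.rpow_const (Or.inl (by positivity))

theorem green_inner (v : E3) (k : Fin 3) : (2 • innerSL ℝ v) (ev k) = 2 * v k := by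
  simp [ev, EuclideanSpace.inner_single_right]

theorem green_lap (p : E3) {ε : ℝ} (hε : 0 < ε) (y : E3) :
    lap (fun y : E3 => (‖y - p‖ ^ 2 + ε ^ 2) ^ (-1 / 2 : ℝ)) y =
      -(3 * ε ^ 2 * (‖y - p‖ ^ 2 + ε ^ 2) ^ (-5 / 2 : ℝ)) := by
  have h1 : ∀ k, pd k (fun y : E3 => (‖y - p‖ ^ 2 + ε ^ 2) ^ (-1 / 2 : ℝ)) =
      fun y => (‖y - p‖ ^ 2 + ε ^ 2) ^ (-3 / 2 : ℝ) * (p k - y k) := fun k => by
    funext y
    rw [pd, (green_der p hε _ y).fderiv, smul_apply, green_inner, smul_eq_mul, PiLp.sub_apply,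
      show (-1 / 2 - 1 : ℝ) = -3 / 2 by norm_num]
    ring
  have h2 : ∀ k, pd k (fun y : E3 => (‖y - p‖ ^ 2 + ε ^ 2) ^ (-3 / 2 : ℝ) * (p k - y k)) y =
      3 * (‖y - p‖ ^ 2 + ε ^ 2) ^ (-5 / 2 : ℝ) * (y - p) k ^ 2 -
        (‖y - p‖ ^ 2 + ε ^ 2) ^ (-3 / 2 : ℝ) := fun k => by
    have h3 : HasFDerivAt (fun y : E3 => p k - y k) (-(EuclideanSpace.proj k : E3 →L[ℝ] ℝ)) y :=
      (EuclideanSpace.proj k : E3 →L[ℝ] ℝ).hasFDerivAt.const_sub (p k)
    have h4 := ((green_der p hε (-3 / 2) y).mul h3).fderiv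
    have h5 : (EuclideanSpace.proj k : E3 →L[ℝ] ℝ) (ev k) = 1 := by simp [ev]
    rw [pd]
    erw [h4]
    rw [add_apply, smul_apply, smul_apply, smul_apply, green_inner, neg_apply, h5,
      show (-3 / 2 - 1 : ℝ) = -5 / 2 by norm_num]
    simp only [smul_eq_mul, PiLp.sub_apply]
    ring
  have h3 : (‖y - p‖ ^ 2 + ε ^ 2) ^ (-3 / 2 : ℝ) =
      (‖y - p‖ ^ 2 + ε ^ 2) ^ (-5 / 2 : ℝ) * (‖y - p‖ ^ 2 + ε ^ 2) := by
    rw [← Real.rpow_add_one (by positivity)]
    norm_num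
  unfold lap
  simp only [h1, h2, Finset.sum_sub_distrib, ← Finset.mul_sum, ← EuclideanSpace.real_norm_sq_eq]
  rw [h3]
  simp only [Finset.sum_const, Finset.card_univ, Fintype.card_fin, nsmul_eq_mul]
  push_cast
  ring

theorem green_rad : IntegrableOn (fun r : ℝ => r ^ 2 * (3 * (r ^ 2 + 1) ^ (-5 / 2 : ℝ)))
    (Set.Ioi 0) ∧ ∫ r in Set.Ioi (0 : ℝ), r ^ 2 * (3 * (r ^ 2 + 1) ^ (-5 / 2 : ℝ)) = 1 := by
  have h1 : ∀ r : ℝ, HasDerivAt (fun r : ℝ => r ^ 3 * (r ^ 2 + 1) ^ (-3 / 2 : ℝ))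
      (r ^ 2 * (3 * (r ^ 2 + 1) ^ (-5 / 2 : ℝ))) r := fun r => by
    have h2 := (hasDerivAt_pow 3 r).mul (((hasDerivAt_pow 2 r).add_const 1).rpow_const
      (p := -3 / 2) (Or.inl (by positivity)))
    refine h2.congr_deriv ?_
    have h3 : (r ^ 2 + 1) ^ (-3 / 2 : ℝ) = (r ^ 2 + 1) ^ (-5 / 2 : ℝ) * (r ^ 2 + 1) := by
      rw [← Real.rpow_add_one (by positivity)]
      norm_num
    rw [h3, show (-3 / 2 - 1 : ℝ) = -5 / 2 by norm_num]
    push_cast
    ring
  have h2 : Tendsto (fun r : ℝ => r ^ 3 * (r ^ 2 + 1) ^ (-3 / 2 : ℝ)) atTop (nhds 1) := by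
    have h3 : Continuous fun t : ℝ => (1 + t ^ 2) ^ (-3 / 2 : ℝ) :=
      Continuous.rpow_const (by fun_prop) fun t => Or.inl (by positivity)
    have h4 := (h3.tendsto 0).comp tendsto_inv_atTop_zero
    simp only [ne_eq, OfNat.ofNat_ne_zero, not_false_eq_true, zero_pow, add_zero,
      Real.one_rpow] at h4
    refine h4.congr' ?_
    filter_upwards [eventually_gt_atTop 0] with r hr
    have h5 : r ^ 2 + 1 = r ^ 2 * (1 + r⁻¹ ^ 2) := by field_simp
    have h6 : (r ^ 2) ^ (-3 / 2 : ℝ) = (r ^ 3)⁻¹ := by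
      rw [← Real.rpow_natCast, ← Real.rpow_mul hr.le, ← Real.rpow_natCast, ← Real.rpow_neg hr.le]
      norm_num
    rw [h5, Real.mul_rpow (by positivity) (by positivity), h6, ← mul_assoc,
      mul_inv_cancel₀ (by positivity), one_mul]
    rfl
  have h3 : ∀ r ∈ Set.Ioi (0 : ℝ), 0 ≤ r ^ 2 * (3 * (r ^ 2 + 1) ^ (-5 / 2 : ℝ)) :=
    fun r _ => by positivity
  refine ⟨integrableOn_Ioi_deriv_of_nonneg' (fun r _ => h1 r) h3 h2, ?_⟩
  rw [integral_Ioi_of_hasDerivAt_of_nonneg' (fun r _ => h1 r) h3 h2]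
  simp

theorem green_phi : Integrable (fun s : E3 => 3 * (‖s‖ ^ 2 + 1) ^ (-5 / 2 : ℝ)) ∧
    ∫ s : E3, 3 * (‖s‖ ^ 2 + 1) ^ (-5 / 2 : ℝ) = 4 * Real.pi := by
  have hd : Module.finrank ℝ E3 = 3 := by simp
  constructor
  · refine (integrable_fun_norm_addHaar volume
      (f := fun r : ℝ => 3 * (r ^ 2 + 1) ^ (-5 / 2 : ℝ))).2 ?_
    rw [hd]
    exact green_rad.1
  · rw [integral_fun_norm_addHaar volume fun r : ℝ => 3 * (r ^ 2 + 1) ^ (-5 / 2 : ℝ), hd]
    erw [green_rad.2]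
    rw [Measure.real, EuclideanSpace.volume_ball_fin_three]
    simp only [ENNReal.ofReal_one, one_pow, one_mul, smul_eq_mul, mul_one, nsmul_eq_mul]
    rw [ENNReal.toReal_ofReal (by positivity)]
    push_cast
    ring

theorem green_scale (V : E3 → ℝ) (p : E3) {ε : ℝ} (hε : 0 < ε) :
    ∫ y, 3 * ε ^ 2 * (‖y - p‖ ^ 2 + ε ^ 2) ^ (-5 / 2 : ℝ) * V y =
      ∫ s : E3, 3 * (‖s‖ ^ 2 + 1) ^ (-5 / 2 : ℝ) * V (p + ε • s) := by
  have hd : Module.finrank ℝ E3 = 3 := by simp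
  have h1 := Measure.integral_comp_smul (volume : Measure E3)
    (fun s => 3 * ε ^ 2 * (‖p + s - p‖ ^ 2 + ε ^ 2) ^ (-5 / 2 : ℝ) * V (p + s)) ε
  rw [integral_add_left_eq_self
    (fun y => 3 * ε ^ 2 * (‖y - p‖ ^ 2 + ε ^ 2) ^ (-5 / 2 : ℝ) * V y) p, hd,
    abs_of_pos (by positivity), smul_eq_mul, eq_inv_mul_iff_mul_eq₀ (by positivity)] at h1
  rw [← h1, ← integral_const_mul]
  refine integral_congr_ae (Eventually.of_forall fun s => ?_)
  have h5 : ‖p + ε • s - p‖ ^ 2 + ε ^ 2 = ε ^ 2 * (‖s‖ ^ 2 + 1) := by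
    rw [add_sub_cancel_left, norm_smul, Real.norm_of_nonneg hε.le]
    ring
  have h6 : (ε ^ 2) ^ (-5 / 2 : ℝ) = (ε ^ 5)⁻¹ := by
    rw [← Real.rpow_natCast, ← Real.rpow_mul hε.le, ← Real.rpow_natCast, ← Real.rpow_neg hε.le]
    norm_num
  beta_reduce
  rw [h5, Real.mul_rpow (by positivity) (by positivity), h6]
  field_simp

theorem green {V : E3 → ℝ} (hV : ContDiff ℝ 2 V) (hc : HasCompactSupport V) (p : E3) :
    ∫ y, lap V y / ‖p - y‖ = -(4 * Real.pi) * V p := by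
  have hL : Continuous (lap V) :=
    continuous_finsetSum _ fun k _ => green_pd0 (green_pd hV k) k
  have hLc : HasCompactSupport (lap V) := by
    refine hc.mono' fun y hy => ?_
    by_contra h
    refine hy (Finset.sum_eq_zero fun k _ => ?_)
    exact image_eq_zero_of_notMem_tsupport fun h' =>
      h (tsupport_fderiv_apply_subset ℝ _ (tsupport_fderiv_apply_subset ℝ _ h'))
  have hinv : ∀ y : E3, (‖y - p‖ ^ 2) ^ (-1 / 2 : ℝ) = ‖y - p‖⁻¹ := fun y => by
    rw [← Real.rpow_natCast, ← Real.rpow_mul (norm_nonneg _), ← Real.rpow_neg_one]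
    norm_num
  have hne : ∀ᵐ y : E3, y ≠ p := by simp [ae_iff]
  have h1 : Tendsto (fun ε : ℝ => ∫ y, lap V y * (‖y - p‖ ^ 2 + ε ^ 2) ^ (-1 / 2 : ℝ))
      (nhdsWithin 0 (Set.Ioi 0)) (nhds (∫ y, lap V y / ‖p - y‖)) := by
    refine tendsto_integral_filter_of_dominated_convergence (fun y => ‖lap V y / ‖y - p‖‖)
      ?_ ?_ (integrable_inv_norm hL hLc p).norm ?_
    · filter_upwards [self_mem_nhdsWithin] with ε hε
      have hε' : 0 < ε := hε
      exact (hL.mul (Continuous.rpow_const (by fun_prop) fun y =>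
        Or.inl (by positivity))).aestronglyMeasurable
    · refine Eventually.of_forall fun ε => ?_
      filter_upwards [hne] with y hy
      have h0 : 0 < ‖y - p‖ := norm_pos_iff.2 (sub_ne_zero.2 hy)
      rw [div_eq_mul_inv (lap V y), norm_mul, norm_mul, ← hinv,
        Real.norm_of_nonneg (Real.rpow_nonneg (by positivity) _),
        Real.norm_of_nonneg (Real.rpow_nonneg (by positivity) _)]
      exact mul_le_mul_of_nonneg_left (Real.rpow_le_rpow_of_nonpos (by positivity)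
        (le_add_of_nonneg_right (sq_nonneg ε)) (by norm_num)) (norm_nonneg _)
    · filter_upwards [hne] with y hy
      have h0 : 0 < ‖y - p‖ := norm_pos_iff.2 (sub_ne_zero.2 hy)
      have h3 : Continuous fun ε : ℝ => lap V y * (‖y - p‖ ^ 2 + ε ^ 2) ^ (-1 / 2 : ℝ) :=
        continuous_const.mul (Continuous.rpow_const (by fun_prop) fun t => Or.inl (by positivity))
      have h4 := (h3.tendsto 0).mono_left (nhdsWithin_le_nhds (s := Set.Ioi 0))
      rw [zero_pow two_ne_zero, add_zero, hinv, ← div_eq_mul_inv] at h4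
      rwa [norm_sub_rev p]
  obtain ⟨C, hC⟩ := hV.continuous.bounded_above_of_compact_support hc
  have h2 : Tendsto (fun ε : ℝ => ∫ s : E3, 3 * (‖s‖ ^ 2 + 1) ^ (-5 / 2 : ℝ) * V (p + ε • s))
      (nhdsWithin 0 (Set.Ioi 0)) (nhds (∫ s : E3, 3 * (‖s‖ ^ 2 + 1) ^ (-5 / 2 : ℝ) * V p)) := by
    have hV0 := hV.continuous
    refine tendsto_integral_filter_of_dominated_convergence
      (fun s => 3 * (‖s‖ ^ 2 + 1) ^ (-5 / 2 : ℝ) * C) (Eventually.of_forall fun ε => ?_)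
      (Eventually.of_forall fun ε => Eventually.of_forall fun s => ?_) (green_phi.1.mul_const C)
      (Eventually.of_forall fun s => ?_)
    · exact green_phi.1.aestronglyMeasurable.mul (Continuous.aestronglyMeasurable (by fun_prop))
    · rw [norm_mul, Real.norm_of_nonneg (by positivity)]
      exact mul_le_mul_of_nonneg_left (hC _) (by positivity)
    · have h3 : Continuous fun ε : ℝ => 3 * (‖s‖ ^ 2 + 1) ^ (-5 / 2 : ℝ) * V (p + ε • s) := by
        fun_prop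
      simpa using (h3.tendsto 0).mono_left (nhdsWithin_le_nhds (s := Set.Ioi 0))
  rw [integral_mul_const, green_phi.2] at h2
  rw [neg_mul]
  refine tendsto_nhds_unique_of_eventuallyEq h1 h2.neg ?_
  filter_upwards [self_mem_nhdsWithin] with ε hε
  have hε' : 0 < ε := hε
  have hK : ContDiff ℝ 2 fun y : E3 => (‖y - p‖ ^ 2 + ε ^ 2) ^ (-1 / 2 : ℝ) :=
    ContDiff.rpow_const_of_ne (((contDiff_id.sub contDiff_const).norm_sq ℝ).add contDiff_const)
      fun y => by positivity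
  rw [green_symm hK hV hc, ← green_scale V p hε', ← integral_neg]
  simp only [green_lap p hε', neg_mul]

end Vale.Agent.P370
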