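import Vale.Agent.P370.Qop

/-! The history Hamiltonian on legal clock states. -/

namespace Vale.Agent.P370

open scoped Classical

section Clock

variable {nq : ℕ} (sts : List Step)

theorem ha_div (d : Fin nq → Bool) (j : ℕ) : posC sts d j / 3 = j / 3 := by
  unfold posC
  split_ifs <;> omega

theorem ha_zero (d : Fin nq → Bool) {j : ℕ} (h : j % 3 = 0) : posC sts d j = j := by
  rw [posC, if_pos h]

theorem ha_inv (d : Fin nq → Bool) (j : ℕ) : posC sts d (posC sts d j) = j := by
  by_cases h0 : j % 3 = 0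
  · rw [ha_zero sts d h0, ha_zero sts d h0]
  by_cases hb : bitQ d (sts.getD (j / 3) (0, 0, 0, 0)).1 = false
  · have : posC sts d j = j := by rw [posC, if_neg h0, if_pos hb]
    rw [this, this]
  by_cases h1 : j % 3 = 1
  · have : posC sts d j = j + 1 := by rw [posC, if_neg h0, if_neg hb, if_pos h1]
    rw [this, posC, if_neg (by omega), show (j + 1) / 3 = j / 3 by omega, if_neg hb,
      if_neg (by omega)]
    rfl
  · have : posC sts d j = j - 1 := by rw [posC, if_neg h0, if_neg hb, if_neg h1]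
    rw [this, posC, if_neg (by omega), show (j - 1) / 3 = j / 3 by omega, if_neg hb,
      if_pos (by omega)]
    omega

theorem ha_lt (d : Fin nq → Bool) {j : ℕ} (h : j < 3 * sts.length + 1) :
    posC sts d j < 3 * sts.length + 1 := by
  have h1 := ha_div sts d j
  by_cases h0 : j % 3 = 0
  · rwa [ha_zero sts d h0]
  · omega

/-- The clock pattern at time `t`. -/
def haPat (d : Fin nq → Bool) (t : ℕ) (j : Fin (3 * sts.length + 1)) : Bool :=
  decide (posC sts d j.val < t)

/-- The basis state with data `d` at time `t`. -/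
def haClk (t : ℕ) (d : Fin nq → Bool) : Fin (nq + (3 * sts.length + 1)) → Bool :=
  Fin.append d (haPat sts d t)

theorem ha_data {m : ℕ} (d : Fin nq → Bool) (y : Fin m → Bool) :
    (fun i => Fin.append d y (Fin.castAdd m i)) = d := funext fun i => Fin.append_left d y i

theorem ha_atTime (t : ℕ) (d : Fin nq → Bool) (y : Fin (3 * sts.length + 1) → Bool) :
    AtTime sts t (Fin.append d y) ↔ y = haPat sts d t := by
  rw [AtTime, ha_data, funext_iff]
  simp only [Fin.append_right, haPat]

theorem ha_pat_inj (d : Fin nq → Bool) {t t' : ℕ} (ht : t ≤ 3 * sts.length + 1)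
    (ht' : t' ≤ 3 * sts.length + 1) (h : haPat sts d t = haPat sts d t') : t = t' := by
  by_contra hne
  have hm : min t t' < 3 * sts.length + 1 := by omega
  have := congrFun h ⟨posC sts d (min t t'), ha_lt sts d hm⟩
  simp only [haPat, ha_inv, decide_eq_decide] at this
  omega

theorem ha_emb_append (ψ : ℕ → (Fin nq → Bool) → ℝ) (d : Fin nq → Bool)
    (y : Fin (3 * sts.length + 1) → Bool) : emb sts ψ (Fin.append d y) =
      ∑ t ∈ Finset.range (3 * sts.length + 2), if y = haPat sts d t then ψ t d else 0 := by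
  rw [emb]
  simp only [ha_atTime, ha_data]

theorem ha_emb_clk (ψ : ℕ → (Fin nq → Bool) → ℝ) (d : Fin nq → Bool) {t : ℕ}
    (ht : t ≤ 3 * sts.length + 1) : emb sts ψ (haClk sts t d) = ψ t d := by
  rw [haClk, ha_emb_append, Finset.sum_eq_single t, if_pos rfl]
  · intro t' ht' hne
    exact if_neg fun h => hne (ha_pat_inj sts d ht (by simp at ht'; omega) h).symm
  · intro h
    exact absurd (Finset.mem_range.2 (by omega)) h

theorem ha_sum (ψ : ℕ → (Fin nq → Bool) → ℝ) (F : (Fin (nq + (3 * sts.length + 1)) → Bool) → ℝ) :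
    ∑ x, emb sts ψ x * F x =
      ∑ t ∈ Finset.range (3 * sts.length + 2), ∑ d, ψ t d * F (haClk sts t d) := by
  rw [← (Fin.appendEquiv nq (3 * sts.length + 1)).sum_comp, Fintype.sum_prod_type,
    Finset.sum_comm (s := Finset.range _)]
  refine Finset.sum_congr rfl fun d _ => ?_
  have e : ∀ y, Fin.appendEquiv nq (3 * sts.length + 1) (d, y) = Fin.append d y := fun _ => rfl
  simp only [e, ha_emb_append, Finset.sum_mul]
  rw [Finset.sum_comm]
  refine Finset.sum_congr rfl fun t _ => ?_
  simp [haClk]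

theorem ha_aux {f f' : ℕ → ℕ} {T j t t' : ℕ} (h1 : ∀ i, f i / 3 = i / 3)
    (h1' : ∀ i, f' i / 3 = i / 3) (h2 : ∀ i, f (f i) = i) (h2' : ∀ i, f' (f' i) = i)
    (h3 : ∀ i < T, f i < T) (h3' : ∀ i < T, f' i < T) (H : ∀ i, i / 3 = j / 3 → f i = f' i)
    (h : ∀ i < T, i ≠ j → (f i < t ↔ f' i < t')) (ht : t ≤ T) (a : t' ≤ f j) (b : f j < t) :
    t = f j + 1 ∧ t' = f j := by
  have e := H j rfl
  have e1 := h1 j
  constructor
  · by_contra hne
    have k1 := h (f (t - 1)) (h3 _ (by omega)) (fun hh => by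
      have := h2 (t - 1)
      rw [hh] at this
      omega)
    have k2 := H (f (t - 1))
    have k3 := h1' (f (t - 1))
    have k4 := h1 (t - 1)
    rw [h2] at k1 k2
    omega
  · by_contra hne
    have k1 := h (f' t') (h3' _ (by omega)) (fun hh => by
      have := h2' t'
      rw [hh] at this
      omega)
    have k2 := H (f' t')
    have k3 := h1 (f' t')
    have k4 := h1' t'
    rw [h2'] at k1 k2
    omega

theorem ha_flip_iff {d d' : Fin nq → Bool} {j : Fin (3 * sts.length + 1)}
    (H : ∀ i, i / 3 = j.val / 3 → posC sts d i = posC sts d' i) {t t' : ℕ}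
    (ht : t ≤ 3 * sts.length + 1) (ht' : t' ≤ 3 * sts.length + 1) :
    Function.update (haPat sts d t) j (!haPat sts d t j) = haPat sts d' t' ↔
      (t = posC sts d j ∧ t' = posC sts d j + 1) ∨ (t = posC sts d j + 1 ∧ t' = posC sts d j) := by
  have e := H j rfl
  rw [Function.update_eq_iff]
  constructor
  · rintro ⟨h1, h2⟩
    have h3 : ∀ i < 3 * sts.length + 1, i ≠ j.val → (posC sts d i < t ↔ posC sts d' i < t') :=
      fun i hi hne => by simpa [haPat] using h2 ⟨i, hi⟩ fun hh => hne (congrArg Fin.val hh)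
    have h4 : ¬ posC sts d j < t ↔ posC sts d' j < t' := by
      simp only [haPat] at h1
      rw [← decide_not, decide_eq_decide] at h1
      exact h1
    by_cases h5 : posC sts d j < t
    · exact Or.inr (ha_aux (ha_div sts d) (ha_div sts d') (ha_inv sts d) (ha_inv sts d')
        (fun i => ha_lt sts d) (fun i => ha_lt sts d') H h3 ht (by omega) h5)
    · have := ha_aux (ha_div sts d') (ha_div sts d) (ha_inv sts d') (ha_inv sts d)
        (fun i => ha_lt sts d') (fun i => ha_lt sts d) (fun i hi => (H i hi).symm)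
        (fun i hi hne => (h3 i hi hne).symm) ht' (by omega) (h4.1 h5)
      omega
  · intro h
    constructor
    · simp only [haPat]
      rw [← decide_not, decide_eq_decide]
      omega
    · intro i hi
      have k0 : posC sts d i ≠ posC sts d j := fun hh => hi (Fin.ext (by
        rw [← ha_inv sts d i, hh, ha_inv]))
      have k1 := H i
      have k2 := ha_div sts d i
      have k3 := ha_div sts d' i
      have k4 := ha_div sts d j
      simp only [haPat, decide_eq_decide]
      omega

theorem ha_emb_flip (ψ : ℕ → (Fin nq → Bool) → ℝ) {d d' : Fin nq → Bool}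
    {j : Fin (3 * sts.length + 1)}
    (H : ∀ i, i / 3 = j.val / 3 → posC sts d i = posC sts d' i) {t : ℕ}
    (ht : t ≤ 3 * sts.length + 1) :
    emb sts ψ (Fin.append d' (Function.update (haPat sts d t) j (!haPat sts d t j))) =
      (if t = posC sts d j then ψ (posC sts d j + 1) d' else 0) +
        if t = posC sts d j + 1 then ψ (posC sts d j) d' else 0 := by
  have hp := ha_lt sts d j.2
  by_cases h1 : t = posC sts d j
  · rw [(ha_flip_iff sts H ht (by omega)).2 (Or.inl ⟨h1, rfl⟩), if_pos h1, if_neg (by omega),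
      add_zero]
    exact ha_emb_clk sts ψ d' (by omega)
  by_cases h2 : t = posC sts d j + 1
  · rw [(ha_flip_iff sts H ht (by omega)).2 (Or.inr ⟨h2, rfl⟩), if_neg h1, if_pos h2, zero_add]
    exact ha_emb_clk sts ψ d' (by omega)
  rw [if_neg h1, if_neg h2, add_zero, ha_emb_append]
  refine Finset.sum_eq_zero fun t' ht' => if_neg fun h => ?_
  have := (ha_flip_iff sts H ht (by simp at ht'; omega)).1 h
  omega

theorem ha_upd_left {m : ℕ} (d : Fin nq → Bool) (y : Fin m → Bool) (c : Fin nq) (b : Bool) :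
    Function.update (Fin.append d y) (Fin.castAdd m c) b =
      Fin.append (Function.update d c b) y := by
  funext i
  induction i using Fin.addCases with
  | left i => simp [Function.update_apply]
  | right i =>
    rw [Function.update_of_ne (fun h => by
      have := congrArg Fin.val h
      simp at this
      omega)]
    simp

theorem ha_upd_right {m : ℕ} (d : Fin nq → Bool) (y : Fin m → Bool) (c : Fin m) (b : Bool) :
    Function.update (Fin.append d y) (Fin.natAdd nq c) b =
      Fin.append d (Function.update y c b) := by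
  funext i
  induction i using Fin.addCases with
  | left i =>
    rw [Function.update_of_ne (fun h => by
      have := congrArg Fin.val h
      simp at this
      omega)]
    simp
  | right i => simp [Function.update_apply, Fin.ext_iff]

theorem ha_bit_left {m : ℕ} (d : Fin nq → Bool) (y : Fin m → Bool) {i : ℕ} (hi : i < nq) :
    bitQ (Fin.append d y) i = bitQ d i := by
  rw [bitQ, bitQ, dif_pos (by omega), dif_pos hi]
  exact Fin.append_left d y ⟨i, hi⟩

theorem ha_bit_right {m : ℕ} (d : Fin nq → Bool) (y : Fin m → Bool) (j : Fin m) :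
    bitQ (Fin.append d y) (nq + j) = y j := by
  rw [bitQ, dif_pos (by omega)]
  exact Fin.append_right d y j

theorem ha_flip {m : ℕ} (ξ : (Fin (nq + m) → Bool) → ℝ) (d : Fin nq → Bool) (y : Fin m → Bool)
    (j : Fin m) : opQ (nq + j) (mat 3) ξ (Fin.append d y) =
      ξ (Fin.append d (Function.update y j (!y j))) := by
  rw [opQ_mat3 (by omega), ← ha_upd_right, ← Fin.append_right d y j]
  rfl

theorem ha_pair (d : Fin nq → Bool) {j : ℕ} (hj : j < 3 * sts.length + 1) (u : ℕ → ℝ) (a b : ℝ) :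
    ∑ t ∈ Finset.range (3 * sts.length + 2),
      u t * ((if t = posC sts d j then a else 0) + if t = posC sts d j + 1 then b else 0) =
      u (posC sts d j) * a + u (posC sts d j + 1) * b := by
  have hp := ha_lt sts d hj
  simp only [mul_add, mul_ite, mul_zero, Finset.sum_add_distrib, Finset.sum_ite_eq',
    Finset.mem_range]
  rw [if_pos (by omega), if_pos (by omega)]

/-- The hopping term of a clock bit without a gate. -/
theorem ha_X0 (hq : 1 ≤ nq) (ψ : ℕ → (Fin nq → Bool) → ℝ) {j : ℕ} (hj : j < 3 * sts.length + 1)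
    (h0 : j % 3 = 0) : form2 (nq - 1) (mat 0) (nq + j) (mat 3) (emb sts ψ) =
      2 * ∑ d, ψ (j + 1) d * half sts j (ψ j) d := by
  rw [form2, opQ_mat0 (by omega), ha_sum, Finset.sum_comm, Finset.mul_sum]
  refine Finset.sum_congr rfl fun d _ => ?_
  rw [Finset.sum_congr rfl fun t ht => by
    rw [haClk, ha_flip _ _ _ ⟨j, hj⟩, ha_emb_flip sts ψ (fun _ _ => rfl) (by simp at ht; omega)]]
  rw [ha_pair sts d hj (fun t => ψ t d), ha_zero sts d h0, half, if_pos h0]
  ring

/-- The hopping term of a clock bit with a gate. -/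
theorem ha_X1 (ψ : ℕ → (Fin nq → Bool) → ℝ) {j : ℕ} (hj : j < 3 * sts.length + 1) {c : ℕ}
    (hc : c < nq) (hne : (sts.getD (j / 3) (0, 0, 0, 0)).1 ≠ c) (A : ℕ) :
    form2 c (mat A) (nq + j) (mat 3) (emb sts ψ) =
      2 * ∑ d, ψ (posC sts d j + 1) d * opQ c (mat A) (ψ (posC sts d j)) d := by
  have H : ∀ (d : Fin nq → Bool) (b : Bool) (i : ℕ), i / 3 = j / 3 →
      posC sts d i = posC sts (Function.update d ⟨c, hc⟩ b) i := by
    intro d b i hi
    have : bitQ (Function.update d ⟨c, hc⟩ b) (sts.getD (j / 3) (0, 0, 0, 0)).1 =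
        bitQ d (sts.getD (j / 3) (0, 0, 0, 0)).1 := by
      unfold bitQ
      split_ifs
      · exact Function.update_of_ne (fun h => hne (congrArg Fin.val h)) _ _
      · rfl
    rw [posC, posC, hi, this]
  have key : ∀ (s : ℕ) (d : Fin nq → Bool), opQ c (mat A) (ψ (posC sts d j + s)) d =
      opQ c (mat A) (fun d => ψ (posC sts d j + s) d) d := by
    intro s d
    rw [opQ, opQ, dif_pos hc, dif_pos hc]
    exact Finset.sum_congr rfl fun b _ => by rw [← H d b j rfl]
  have e1 : form2 c (mat A) (nq + j) (mat 3) (emb sts ψ) =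
      ∑ d, ψ (posC sts d j) d * opQ c (mat A) (ψ (posC sts d j + 1)) d +
        ∑ d, ψ (posC sts d j + 1) d * opQ c (mat A) (ψ (posC sts d j)) d := by
    rw [form2, ha_sum, Finset.sum_comm, ← Finset.sum_add_distrib]
    refine Finset.sum_congr rfl fun d _ => ?_
    rw [← ha_pair sts d hj (fun t => ψ t d)]
    refine Finset.sum_congr rfl fun t ht => ?_
    congr 1
    have e2 : ∀ b, opQ (nq + j) (mat 3) (emb sts ψ)
        (Function.update (haClk sts t d) ⟨c, by omega⟩ b) = _ := fun b => by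
      rw [haClk, show (⟨c, by omega⟩ : Fin (nq + (3 * sts.length + 1))) =
        Fin.castAdd _ ⟨c, hc⟩ from rfl, ha_upd_left, ha_flip _ _ _ ⟨j, hj⟩,
        ha_emb_flip sts ψ (H d b) (by simp at ht; omega)]
    have e3 : haClk sts t d ⟨c, by omega⟩ = d ⟨c, hc⟩ := Fin.append_left d _ ⟨c, hc⟩
    rw [opQ, dif_pos (by omega)]
    simp only [e2, e3]
    simp only [opQ, dif_pos hc, mul_add, Finset.sum_add_distrib]
    congr 1 <;> split_ifs <;> simp
  rw [e1, two_mul]
  congr 1
  simp only [key 1]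
  rw [opQ_symm c (mat_symm A)]
  exact Finset.sum_congr rfl fun d _ => by rw [mul_comm]; exact congrArg _ (key 0 d).symm

theorem ha_diag (ψ : ℕ → (Fin nq → Bool) → ℝ)
    (P : (Fin (nq + (3 * sts.length + 1)) → Bool) → Prop) [DecidablePred P] :
    ∑ x, emb sts ψ x * (if P x then emb sts ψ x else 0) =
      ∑ t ∈ Finset.range (3 * sts.length + 2), ∑ d, if P (haClk sts t d) then ψ t d ^ 2 else 0 := by
  rw [ha_sum]
  refine Finset.sum_congr rfl fun t ht => Finset.sum_congr rfl fun d _ => ?_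
  rw [ha_emb_clk sts ψ d (by simp at ht; omega)]
  split_ifs <;> ring

theorem ha_bit0 (t : ℕ) (d : Fin nq → Bool) : bitQ (haClk sts t d) nq = decide (0 < t) := by
  have := ha_bit_right d (haPat sts d t) ⟨0, by omega⟩
  rw [haPat, ha_zero sts d (by simp)] at this
  exact this

theorem ha_bitL (t : ℕ) (d : Fin nq → Bool) :
    bitQ (haClk sts t d) (nq + 3 * sts.length) = decide (3 * sts.length < t) := by
  have := ha_bit_right d (haPat sts d t) ⟨3 * sts.length, by omega⟩
  rw [haPat, ha_zero sts d (by simp)] at this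
  exact this

theorem ha_D1 (hq : 1 ≤ nq) (ψ : ℕ → (Fin nq → Bool) → ℝ) :
    form2 nq (mat 2) (nq - 1) (mat 0) (emb sts ψ) =
      ∑ t ∈ Finset.range (3 * sts.length + 1), ∑ d, ψ (t + 1) d ^ 2 := by
  rw [form2, opQ_mat0 (by omega)]
  simp only [opQ_mat2 (show nq < nq + (3 * sts.length + 1) by omega)]
  rw [ha_diag, Finset.sum_range_succ']
  simp [ha_bit0]

theorem ha_D2 (hq : 1 ≤ nq) (ψ : ℕ → (Fin nq → Bool) → ℝ) :
    form2 (nq + 3 * sts.length) (mat 2) (nq - 1) (mat 0) (emb sts ψ) =
      ∑ d, ψ (3 * sts.length + 1) d ^ 2 := by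
  rw [form2, opQ_mat0 (by omega)]
  simp only [opQ_mat2 (show nq + 3 * sts.length < nq + (3 * sts.length + 1) by omega)]
  rw [ha_diag, Finset.sum_range_succ, Finset.sum_eq_zero]
  · simp [ha_bitL]
  · intro t ht
    have : ¬ 3 * sts.length < t := by simp at ht; omega
    simp [ha_bitL, this]

theorem ha_D3 (hq : 1 ≤ nq) (ψ : ℕ → (Fin nq → Bool) → ℝ) :
    form2 (nq + 3 * sts.length) (mat 2) 0 (mat 1) (emb sts ψ) = rej (ψ (3 * sts.length + 1)) := by
  rw [form2]
  simp only [opQ_mat2 (show nq + 3 * sts.length < nq + (3 * sts.length + 1) by omega),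
    opQ_mat1 (show 0 < nq + (3 * sts.length + 1) by omega), ← ite_and]
  rw [ha_diag, Finset.sum_range_succ, Finset.sum_eq_zero, rej, Finset.sum_filter, zero_add]
  · refine Finset.sum_congr rfl fun d _ => ?_
    rw [ha_bitL, haClk, ha_bit_left _ _ (show 0 < nq by omega)]
    simp
  · intro t ht
    have : ¬ 3 * sts.length < t := by simp at ht; omega
    simp [ha_bitL, this]

theorem ha_D4 (ψ : ℕ → (Fin nq → Bool) → ℝ) {i : ℕ} (hi : i < nq) :
    form2 nq (mat 1) i (mat 2) (emb sts ψ) = ∑ d with bitQ d i = true, ψ 0 d ^ 2 := by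
  rw [form2]
  simp only [opQ_mat1 (show nq < nq + (3 * sts.length + 1) by omega),
    opQ_mat2 (show i < nq + (3 * sts.length + 1) by omega), ← ite_and]
  rw [ha_diag, Finset.sum_range_succ', Finset.sum_eq_zero, Finset.sum_filter, zero_add]
  · refine Finset.sum_congr rfl fun d _ => ?_
    rw [ha_bit0, haClk, ha_bit_left _ _ hi]
    simp
  · intro t _
    simp [ha_bit0]

theorem ha_step (ψ : ℕ → (Fin nq → Bool) → ℝ) (k : ℕ) (d : Fin nq → Bool) :
    ψ (posC sts d (3 * k + 1) + 1) d * opQ (sts.getD k (0, 0, 0, 0)).2.1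
        (mat (sts.getD k (0, 0, 0, 0)).2.2.1) (ψ (posC sts d (3 * k + 1))) d +
      ψ (posC sts d (3 * k + 2) + 1) d * opQ (sts.getD k (0, 0, 0, 0)).2.1
        (mat (sts.getD k (0, 0, 0, 0)).2.2.2) (ψ (posC sts d (3 * k + 2))) d =
      ψ (3 * k + 1 + 1) d * half sts (3 * k + 1) (ψ (3 * k + 1)) d +
        ψ (3 * k + 2 + 1) d * half sts (3 * k + 2) (ψ (3 * k + 2)) d := by
  have a1 : (3 * k + 1) % 3 = 1 := by omega
  have a2 : (3 * k + 2) % 3 = 2 := by omega
  have b1 : (3 * k + 1) / 3 = k := by omega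
  have b2 : (3 * k + 2) / 3 = k := by omega
  by_cases hb : bitQ d (sts.getD k (0, 0, 0, 0)).1 = false
  · have p1 : posC sts d (3 * k + 1) = 3 * k + 1 := by rw [posC, a1, b1, if_pos hb]; simp
    have p2 : posC sts d (3 * k + 2) = 3 * k + 2 := by rw [posC, a2, b2, if_pos hb]; simp
    simp only [half, p1, p2, a1, a2, b1, b2]
    simp
  · have p1 : posC sts d (3 * k + 1) = 3 * k + 2 := by rw [posC, a1, b1, if_neg hb]; simp
    have p2 : posC sts d (3 * k + 2) = 3 * k + 1 := by rw [posC, a2, b2, if_neg hb]; simp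
    simp only [half, p1, p2, a1, a2, b1, b2]
    simp [add_comm]

end Clock

theorem ha_flatMap {n : ℕ} (f : ℕ → List Term) (ξ : (Fin n → Bool) → ℝ) (m : ℕ) :
    hL ((List.range m).flatMap f) ξ = ∑ k ∈ Finset.range m, hL (f k) ξ := by
  induction m with
  | zero => simp [hL]
  | succ m ih => rw [List.range_succ, List.flatMap_append, hL_append, ih, Finset.sum_range_succ]; simp

theorem ha_filter {n : ℕ} (f : ℕ → Term) (ξ : (Fin n → Bool) → ℝ) (w m : ℕ) :
    hL (((List.range m).filter fun i => decide (w ≤ i)).map f) ξ =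
      ∑ k ∈ Finset.range m with w ≤ k, hL [f k] ξ := by
  rw [Finset.sum_filter]
  induction m with
  | zero => simp [hL]
  | succ m ih =>
    rw [List.range_succ, List.filter_append, List.map_append, hL_append, ih, Finset.sum_range_succ]
    by_cases h : w ≤ m <;> simp [h, hL]

theorem ha_three (g : ℕ → ℝ) (m : ℕ) : ∑ t ∈ Finset.range (3 * m + 1), g t =
    ∑ k ∈ Finset.range m, (g (3 * k) + g (3 * k + 1) + g (3 * k + 2)) + g (3 * m) := by
  induction m with
  | zero => simp
  | succ m ih =>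
    rw [show 3 * (m + 1) + 1 = 3 * m + 1 + 1 + 1 + 1 by ring, Finset.sum_range_succ,
      Finset.sum_range_succ, Finset.sum_range_succ, ih, Finset.sum_range_succ]
    ring_nf

theorem emb_nsq {nq : ℕ} (sts : List Step) (ψ : ℕ → (Fin nq → Bool) → ℝ) :
    ∑ x, emb sts ψ x ^ 2 = ∑ t ∈ Finset.range (3 * sts.length + 2), ∑ d, ψ t d ^ 2 := by
  simpa [sq] using ha_diag sts ψ fun _ => True

theorem emb_legal {nq : ℕ} (sts : List Step) (ψ : ℕ → (Fin nq → Bool) → ℝ)
    (x : Fin (nq + (3 * sts.length + 1)) → Bool) (hx : ¬ Legal sts x) : emb sts ψ x = 0 := by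
  refine Finset.sum_eq_zero fun t ht => if_neg fun h => hx ⟨t, ?_, h⟩
  simp at ht
  omega

theorem exists_emb {nq : ℕ} (sts : List Step) (ξ : (Fin (nq + (3 * sts.length + 1)) → Bool) → ℝ)
    (h : ∀ x, ¬ Legal sts x → ξ x = 0) : ∃ ψ, ξ = emb sts ψ := by
  refine ⟨fun t d => ξ (haClk sts t d), funext fun x => ?_⟩
  by_cases hx : Legal sts x
  · obtain ⟨t, ht, hx⟩ := hx
    obtain ⟨⟨d, y⟩, rfl⟩ := (Fin.appendEquiv nq (3 * sts.length + 1)).surjective x
    obtain rfl := (ha_atTime sts t d y).1 hx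
    exact (ha_emb_clk sts (fun t d => ξ (haClk sts t d)) d ht).symm
  · rw [h x hx, emb_legal sts _ x hx]

theorem hL_termsA {nq : ℕ} (hq : 1 ≤ nq) (w J2 : ℕ) {sts : List Step}
    (h : ∀ st ∈ sts, StepOK nq st) (ψ : ℕ → (Fin nq → Bool) → ℝ) :
    hL (termsA nq w sts J2) (emb sts ψ) + J2 * ∑ x, emb sts ψ x ^ 2 = histE w sts J2 ψ := by
  set g : ℕ → ℝ := fun t => ∑ d, ψ (t + 1) d * half sts t (ψ t) d with hg
  have e1 : ∑ t ∈ Finset.range (3 * sts.length + 1), ∑ d, (ψ (t + 1) d - half sts t (ψ t) d) ^ 2 =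
      ∑ t ∈ Finset.range (3 * sts.length + 1), ∑ d, ψ (t + 1) d ^ 2 +
        ∑ t ∈ Finset.range (3 * sts.length + 1), ∑ d, ψ t d ^ 2 -
        2 * ∑ t ∈ Finset.range (3 * sts.length + 1), g t := by
    rw [Finset.mul_sum, ← Finset.sum_add_distrib, ← Finset.sum_sub_distrib]
    refine Finset.sum_congr rfl fun t ht => ?_
    rw [← half_isom h (Finset.mem_range.1 ht) (ψ t), hg, Finset.mul_sum, ← Finset.sum_add_distrib,
      ← Finset.sum_sub_distrib]
    exact Finset.sum_congr rfl fun d _ => by ring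
  have e2 : ∀ k ∈ Finset.range sts.length, hL
      [((sts.getD k (0, 0, 0, 0)).2.1, (sts.getD k (0, 0, 0, 0)).2.2.1, nq + 3 * k + 1, 3, -(J2 : ℤ)),
      ((sts.getD k (0, 0, 0, 0)).2.1, (sts.getD k (0, 0, 0, 0)).2.2.2, nq + 3 * k + 2, 3, -(J2 : ℤ)),
      (nq - 1, 0, nq + 3 * k, 3, -(J2 : ℤ))] (emb sts ψ) =
      -2 * J2 * (g (3 * k) + g (3 * k + 1) + g (3 * k + 2)) := by
    intro k hk
    have hk' := Finset.mem_range.1 hk
    obtain ⟨-, s2, s3, -⟩ := h (sts.getD k (0, 0, 0, 0)) (by
      rw [List.getD_eq_getElem _ _ hk']; exact List.getElem_mem hk')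
    have x0 := ha_X0 sts hq ψ (j := 3 * k) (by omega) (by omega)
    have x1 := ha_X1 sts ψ (j := 3 * k + 1) (by omega) s2
      (by rwa [show (3 * k + 1) / 3 = k by omega]) (sts.getD k (0, 0, 0, 0)).2.2.1
    have x2 := ha_X1 sts ψ (j := 3 * k + 2) (by omega) s2
      (by rwa [show (3 * k + 2) / 3 = k by omega]) (sts.getD k (0, 0, 0, 0)).2.2.2
    have x3 := Finset.sum_congr (rfl : Finset.univ = Finset.univ) fun d _ => ha_step sts ψ k d
    rw [Finset.sum_add_distrib, Finset.sum_add_distrib] at x3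
    simp only [hL, List.map_cons, List.map_nil, List.sum_cons, List.sum_nil, add_assoc, x0, x1, x2,
      hg]
    simp only [add_assoc] at x3
    push_cast
    linear_combination (-2 * J2 : ℝ) * x3
  have e3 : ∀ i ∈ (Finset.range (nq - 1)).filter (w ≤ ·), hL [(nq, 1, i, 2, (J2 : ℤ))] (emb sts ψ) =
      J2 * ∑ d with bitQ d i = true, ψ 0 d ^ 2 := by
    intro i hi
    have hi' : i < nq := by simp at hi; omega
    simp [hL, ha_D4 sts ψ hi']
  have x0 := ha_X0 sts hq ψ (j := 3 * sts.length) (by omega) (by omega)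
  rw [termsA, hL_append, hL_append, ha_flatMap, ha_filter, Finset.sum_congr rfl e2,
    Finset.sum_congr rfl e3, histE, e1, emb_nsq, Finset.sum_range_succ _ (3 * sts.length + 1),
    ha_three g, ← Finset.mul_sum, ← Finset.mul_sum]
  simp only [hL, List.map_cons, List.map_nil, List.sum_cons, List.sum_nil, x0, ha_D1 sts hq,
    ha_D2 sts hq, ha_D3 sts hq]
  push_cast
  ring

end Vale.Agent.P370
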