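import Vale.Agent.P370.Defs

/-! Internal definitions: real smooth states, the discrete model. -/

namespace Vale.Agent.P370

open MeasureTheory
open scoped Classical

/-- Continuously differentiable with compact support. -/
def Sm {X : Type} [NormedAddCommGroup X] [NormedSpace ℝ X] (f : X → ℝ) : Prop :=
  ContDiff ℝ 1 f ∧ HasCompactSupport f

/-- Coordinate vectors of three-space. -/
noncomputable def ev (k : Fin 3) : E3 := EuclideanSpace.single k (1 : ℝ)

/-- Coordinate derivative. -/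
noncomputable def pd (k : Fin 3) (f : E3 → ℝ) (p : E3) : ℝ := fderiv ℝ f p (ev k)

/-- The Laplacian. -/
noncomputable def lap (f : E3 → ℝ) (p : E3) : ℝ := ∑ k, pd k (pd k f) p

/-- One-particle kinetic energy. -/
noncomputable def kin1 (u : E3 → ℝ) : ℝ := (∑ k, ∫ p, pd k u p ^ 2) / 2

/-- One-particle squared norm. -/
noncomputable def nsq1 (u : E3 → ℝ) : ℝ := ∫ p, u p ^ 2

/-- Attraction to point charges `z j` at the points `r j`, `j ∈ s`. -/
noncomputable def coul {ι : Type} (s : Finset ι) (z : ι → ℝ) (r : ι → E3) (x : E3) : ℝ :=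
  ∑ j ∈ s, z j / ‖x - r j‖

/-- One-particle energy in the attractive potential `A`. -/
noncomputable def en1 (A : E3 → ℝ) (u : E3 → ℝ) : ℝ := kin1 u - ∫ p, A p * u p ^ 2

/-- Real spinor functions. -/
abbrev RS (N : ℕ) : Type := Spin N → Conf N → ℝ

/-- Smooth compactly supported antisymmetric real spinor functions. -/
def SmA {N : ℕ} (F : RS N) : Prop :=
  (∀ s, Sm (F s)) ∧ ∀ (π : Equiv.Perm (Fin N)) (s : Spin N) (x : Conf N),
    F (s ∘ π) (x ∘ π) = ((Equiv.Perm.sign π : ℤ) : ℝ) * F s x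

/-- Squared norm. -/
noncomputable def nsq {N : ℕ} (F : RS N) : ℝ := ∑ s, ∫ x, F s x ^ 2

/-- Kinetic energy. -/
noncomputable def kinN {N : ℕ} (F : RS N) : ℝ :=
  (∑ s, ∑ i, ∑ k, ∫ x, fderiv ℝ (F s) x (dir i k) ^ 2) / 2

/-- Many-particle energy with one-particle attraction `A` and pair repulsion `W`. -/
noncomputable def enN {N : ℕ} (A : E3 → ℝ) (W : E3 → E3 → ℝ) (F : RS N) : ℝ :=
  kinN F - (∑ s, ∑ i, ∫ x, A (x i) * F s x ^ 2) +
    ∑ s, ∑ i, ∑ j with i < j, ∫ x, W (x i) (x j) * F s x ^ 2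

/-- The truncated repulsion. -/
noncomputable def wlow (l : ℝ) (x y : E3) : ℝ := l / max 1 ‖x - y‖

/-- The full repulsion. -/
noncomputable def wfull (l : ℝ) (x y : E3) : ℝ := l / ‖x - y‖

/-- The scaled attraction of a list of nuclei: lengths are measured in units of `l`. -/
noncomputable def attL (l : ℝ) (nuc : List ((ℚ × ℚ × ℚ) × ℕ)) (x : E3) : ℝ :=
  (nuc.map fun p => l * (p.2 : ℝ) / ‖x - l⁻¹ • pt p.1‖).sum

/-- Coefficient tensors. -/
abbrev Ten (N K : ℕ) : Type := Spin N → (Fin N → Fin K) → ℝ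

/-- Antisymmetric tensors. -/
def AntiT {N K : ℕ} (C : Ten N K) : Prop :=
  ∀ (π : Equiv.Perm (Fin N)) (s : Spin N) (a : Fin N → Fin K),
    C (s ∘ π) (a ∘ π) = ((Equiv.Perm.sign π : ℤ) : ℝ) * C s a

/-- Tensors without double occupancy. -/
def HardT {N K : ℕ} (C : Ten N K) : Prop :=
  ∀ (s : Spin N) (a : Fin N → Fin K), ¬ Function.Injective a → C s a = 0

/-- Squared norm of a tensor. -/
noncomputable def nrmT {N K : ℕ} (C : Ten N K) : ℝ := ∑ s, ∑ a, C s a ^ 2

/-- The hopping form. -/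
noncomputable def hopT {N K : ℕ} (E : Finset (Fin K × Fin K)) (C : Ten N K) : ℝ :=
  ∑ s, ∑ i, ∑ e ∈ E, ∑ a with a i = e.1, (C s a - C s (Function.update a i e.2)) ^ 2

/-- The interaction form. -/
noncomputable def intT {N K : ℕ} (w : Fin K → Fin K → ℝ) (C : Ten N K) : ℝ :=
  ∑ s, ∑ a, (∑ i, ∑ j with i < j, w (a i) (a j)) * C s a ^ 2

/-- The one-particle hopping form. -/
noncomputable def hop1 {K : ℕ} (E : Finset (Fin K × Fin K)) (c : Fin K → ℝ) : ℝ :=
  ∑ e ∈ E, (c e.1 - c e.2) ^ 2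

/-- The edges of the clusters: all pairs inside each block of four modes. -/
def E4 (K : ℕ) : Finset (Fin K × Fin K) :=
  Finset.univ.filter fun e => e.1 < e.2 ∧ e.1.val / 4 = e.2.val / 4

/-- Coefficients of a function along a family. -/
noncomputable def cf {K : ℕ} (φ : Fin K → E3 → ℝ) (u : E3 → ℝ) (a : Fin K) : ℝ := ∫ p, φ a p * u p

/-- Derivatives up to order `n` are bounded by `C`. -/
def Bd (n : ℕ) (C : ℝ) (f : E3 → ℝ) : Prop :=
  ContDiff ℝ n f ∧ ∀ i ≤ n, ∀ p, ‖iteratedFDeriv ℝ i f p‖ ≤ C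

/-- Data of a discrete instance: `n` clusters, hopping `tau`, weights `wt`, threshold `al`. -/
structure Disc : Type where
  n : ℕ
  tau : ℕ
  al : ℕ
  tab : List (List ℕ)

/-- The weight of a pair of modes. -/
def Disc.wt (d : Disc) (a b : ℕ) : ℕ := (d.tab.getD a []).getD b 0

/-- The weights as a real function. -/
noncomputable def Disc.w (d : Disc) (a b : Fin (4 * d.n)) : ℝ := (d.wt a.val b.val : ℝ)

/-- The energy form of a discrete instance. -/
noncomputable def Disc.form (d : Disc) (C : Ten (3 * d.n) (4 * d.n)) : ℝ :=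
  d.tau * hopT (E4 (4 * d.n)) C + intT d.w C

/-- Size conditions. -/
structure Disc.Le (d : Disc) (M : ℕ) : Prop where
  n_pos : 1 ≤ d.n
  n_le : 4 * d.n ≤ M
  tau_pos : 1 ≤ d.tau
  tau_le : d.tau ≤ M
  al_le : d.al + 2 ≤ M
  wt_le : ∀ a b, d.wt a b ≤ M
  symm : ∀ a b, d.wt a b = d.wt b a

/-- Yes-instances of the discrete problem. -/
def Disc.Yes (d : Disc) : Prop :=
  ∃ C : Ten (3 * d.n) (4 * d.n), AntiT C ∧ HardT C ∧ nrmT C = 1 ∧ d.form C ≤ d.al

/-- No-instances of the discrete problem. -/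
def Disc.No (d : Disc) : Prop :=
  ∀ C : Ten (3 * d.n) (4 * d.n), AntiT C → ((d.al : ℝ) + 2) * nrmT C ≤ d.form C

end Vale.Agent.P370
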