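import Vale.Agent.P370.CDefs
import Vale.Agent.P370.PTQ

/-! The continuum instance is computed in polynomial time. -/

namespace Vale.Agent.P370

open MeasureTheory Filter
open scoped Classical

open Vale.Agent.Lib.PolyTime

section Aux

variable {α β γ : Type} [Enc α] [Enc β] [Enc γ]

theorem ipt_fst : PT fun p : α × β => p.1 := PT.id.fst

theorem ipt_map [Inhabited β] {f : α → ℕ → β} {n : α → ℕ} (hn : PT n) (hb : PB n)
    (hf : ∀ i : α × ℕ → ℕ, PT i → PB i → PT fun p : α × ℕ => f p.1 (i p)) :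
    PT fun a => (List.range (n a)).map (f a) := by
  have h1 : PT fun p : α × ℕ => min p.2 (n p.1) := by fun_prop
  have h2 := hf _ h1 ((hb.comp ipt_fst).of_le fun p => min_le_right _ _)
  refine (PT.map (f := fun a i => f a (min i (n a))) h2 (PT.range hn hb)).congr fun a => ?_
  exact List.map_congr_left fun i hi => by rw [min_eq_left (List.mem_range.1 hi).le]

theorem ipt_flatMap [Inhabited β] {f : α → ℕ → List β} {n : α → ℕ} (hn : PT n) (hb : PB n)
    (hf : ∀ i : α × ℕ → ℕ, PT i → PB i → PT fun p : α × ℕ => f p.1 (i p)) :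
    PT fun a => (List.range (n a)).flatMap (f a) :=
  (PT.flatten (ipt_map hn hb hf)).congr fun _ => List.flatMap_def

theorem ipt_sumQ {f : α → ℕ → ℚ} {n : α → ℕ} (hn : PT n) (hb : PB n)
    (hf : ∀ i : α × ℕ → ℕ, PT i → PB i → PT fun p : α × ℕ => f p.1 (i p)) :
    PT fun a => ∑ i ∈ Finset.range (n a), f a i :=
  (pt_sumQ (ipt_map hn hb hf)).congr fun _ => rfl

theorem ipt_sumZ {f : α → ℕ → ℤ} {n : α → ℕ} (hn : PT n) (hb : PB n)
    (hf : ∀ i : α × ℕ → ℕ, PT i → PB i → PT fun p : α × ℕ => f p.1 (i p)) :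
    PT fun a => ∑ i ∈ Finset.range (n a), f a i :=
  (pt_sumZ (ipt_map hn hb hf)).congr fun _ => rfl

variable {M : α → ℕ} {x y z u v w : α → ℚ} {i j k c : α → ℕ}

@[fun_prop] theorem ipt_pw (hx : PT x) : PT fun a => pw (x a) := by
  unfold pw
  fun_prop

@[fun_prop] theorem ipt_sst (hx : PT x) : PT fun a => sst (x a) := by
  unfold sst
  fun_prop

@[fun_prop] theorem ipt_plat (hx : PT x) (hy : PT y) (hz : PT z) :
    PT fun a => plat (x a) (y a) (z a) := by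
  unfold plat
  fun_prop

@[fun_prop] theorem ipt_ip (k : ℕ) (hM : PT M) : PT fun a => (ip (M a) k : ℚ) :=
  pt_invQ (pt_powQ_const k (pt_natCastQ hM))

theorem ipt_om (hM : PT M) (hb : PB M) : PT fun a => (om (M a) : ℚ) :=
  pt_invQ (pt_powQ (PT.const 2) hM hb)

theorem ipt_gk (hM : PT M) (hb : PB M) (hx : PT x) : PT fun a => gk (M a) (x a) := by
  refine ipt_sumQ (by fun_prop) (hb.lin 4 1) fun j hj hjb => ?_
  have h1 := pt_powQ (k := fun p : α × ℕ => 2 * M p.1 - j p + (j p - 2 * M p.1)) (PT.const 2)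
    (by fun_prop) ((((hb.comp ipt_fst).lin 2 0).add hjb).of_le fun p => by omega)
  exact pt_mulQ (pt_invQ h1) (by fun_prop)

@[fun_prop] theorem ipt_rr (hM : PT M) : PT fun a => rr (M a) := by
  unfold rr
  fun_prop

@[fun_prop] theorem ipt_LL (hM : PT M) : PT fun a => LL (M a) := P325.pt_pow_const _ hM

@[fun_prop] theorem ipt_SS (hM : PT M) : PT fun a => SS (M a) := P325.pt_pow_const _ hM

@[fun_prop] theorem ipt_D0 (hM : PT M) : PT fun a => D0 (M a) := P325.pt_pow_const _ hM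

@[fun_prop] theorem ipt_DD (hM : PT M) : PT fun a => DD (M a) := P325.pt_pow_const _ hM

@[fun_prop] theorem ipt_NC (hM : PT M) : PT fun a => NC (M a) := P325.pt_pow_const _ hM

@[fun_prop] theorem ipt_RR (hM : PT M) : PT fun a => RR (M a) := P325.pt_pow_const _ hM

@[fun_prop] theorem ipt_HH (hM : PT M) : PT fun a => HH (M a) :=
  (PT.const 3).mul (P325.pt_pow_const _ hM)

@[fun_prop] theorem ipt_NX (hM : PT M) : PT fun a => NX (M a) :=
  ((PT.const 2).mul (ipt_RR hM)).mul (ipt_HH hM)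

@[fun_prop] theorem ipt_NZ (hM : PT M) : PT fun a => NZ (M a) := (PT.const 6).mul (ipt_HH hM)

@[fun_prop] theorem ipt_row (hM : PT M) (hi : PT i) : PT fun a => row (M a) (i a) := by
  unfold row
  fun_prop

theorem ipb_NX (hb : PB M) : PB fun a => NX (M a) :=
  ((PB.const 2).mul (hb.pow 3300)).mul ((PB.const 3).mul (hb.pow 1000))

theorem ipb_NZ (hb : PB M) : PB fun a => NZ (M a) :=
  (PB.const 6).mul ((PB.const 3).mul (hb.pow 1000))

theorem ipt_run (hM : PT M) (hb : PB M) (hi : PT i) (hj : PT j) (hk : PT k) (hkb : PB k)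
    (hx : PT x) (hy : PT y) : PT fun a => run (M a) (i a) (j a) (k a) (x a) (y a) :=
  pt_mulQ (ipt_gk hM hb (by fun_prop)) (ipt_sumQ hk hkb fun l hl _ =>
    ipt_gk (hM.comp ipt_fst) (hb.comp ipt_fst) (by fun_prop))

@[fun_prop] theorem ipt_combLi (hM : PT M) (hi : PT i) (hj : PT j) :
    PT fun a => combLi (M a) (i a) (j a) := by
  unfold combLi
  fun_prop

@[fun_prop] theorem ipt_combLj (hM : PT M) (hi : PT i) (hj : PT j) :
    PT fun a => combLj (M a) (i a) (j a) := by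
  unfold combLj
  fun_prop

@[fun_prop] theorem ipt_combLo (hM : PT M) (hi : PT i) : PT fun a => combLo (M a) (i a) := by
  unfold combLo
  fun_prop

@[fun_prop] theorem ipt_combHi (hM : PT M) (hi : PT i) : PT fun a => combHi (M a) (i a) := by
  unfold combHi
  fun_prop

theorem ipt_combBus (hM : PT M) (hc : PT c) (hi : PT i) (hj : PT j) :
    PT fun a => combBus (M a) (c a) (i a) (j a) := by
  unfold combBus
  fun_prop

theorem ipt_combHas {t : α → List (List ℕ)} (hM : PT M) (hk : PT k) (ht : PT t) (hi : PT i)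
    (hc : PT c) :
    PT fun a => combHas (M a) (k a) (fun r s => ((t a).getD r []).getD s 0) (i a) (c a) := by
  unfold combHas
  fun_prop

/-- Polynomial-time families of layouts. -/
structure IptL (M : α → ℕ) (L : α → Lay) : Prop where
  m : PT M
  b : PB M
  K : PT fun a => (L a).K
  Kb : PB fun a => (L a).K
  x0 : PT fun a => (L a).x0
  bus : PT fun p : α × ℕ × ℕ × ℕ => (L p.1).bus p.2.1 p.2.2.1 p.2.2.2
  has : PT fun p : α × ℕ × ℕ => (L p.1).has p.2.1 p.2.2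
  li : PT fun p : α × ℕ × ℕ => (L p.1).li p.2.1 p.2.2
  lj : PT fun p : α × ℕ × ℕ => (L p.1).lj p.2.1 p.2.2

variable {L : α → Lay}

theorem IptL.comp (h : IptL M L) {f : β → α} (hf : PT f) :
    IptL (fun b => M (f b)) (fun b => L (f b)) :=
  ⟨h.m.comp hf, h.b.comp hf, h.K.comp hf, h.Kb.comp hf, h.x0.comp hf,
    h.bus.comp (f := fun p : β × ℕ × ℕ × ℕ => (f p.1, p.2)) (by fun_prop),
    h.has.comp (f := fun p : β × ℕ × ℕ => (f p.1, p.2)) (by fun_prop),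
    h.li.comp (f := fun p : β × ℕ × ℕ => (f p.1, p.2)) (by fun_prop),
    h.lj.comp (f := fun p : β × ℕ × ℕ => (f p.1, p.2)) (by fun_prop)⟩

theorem IptL.fst (h : IptL M L) : IptL (fun p : α × β => M p.1) (fun p => L p.1) :=
  h.comp ipt_fst

theorem ipt_ports (h : IptL M L) (hi : PT i) (hx : PT x) (hy : PT y) :
    PT fun a => ports (M a) (L a) (i a) (x a) (y a) := by
  have h1 := h.m
  refine ipt_sumQ (ipt_NC h.m) (h.b.pow 4) fun c hc _ => PT.ite ?_ ?_ (PT.const 0)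
  · exact (h.has.comp (f := fun p : α × ℕ => (p.1, i p.1, c p)) (by fun_prop)).eq (PT.const _)
  · exact ipt_run h.fst.m h.fst.b (h.fst.x0.add (by fun_prop)) (by fun_prop) (by fun_prop)
      (h.fst.b.pow 20) (by fun_prop) (by fun_prop)

theorem ipt_busF (h : IptL M L) (hi : PT i) (hx : PT x) (hy : PT y) :
    PT fun a => busF (M a) (L a) (i a) (x a) (y a) := by
  refine ipt_sumQ (ipt_DD h.m) (h.b.pow 55) fun r hr _ =>
    ipt_sumQ (ipt_DD h.fst.m) (h.fst.b.pow 55) fun s hs _ => PT.ite ?_ ?_ (PT.const 0)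
  · exact (h.bus.comp (f := fun p : (α × ℕ) × ℕ => (p.1.1, i p.1.1, r p.1, s p))
      (by fun_prop)).eq (PT.const _)
  · exact pt_mulQ (ipt_gk h.fst.fst.m h.fst.fst.b (by fun_prop))
      (ipt_gk h.fst.fst.m h.fst.fst.b (by fun_prop))

theorem ipt_own (h : IptL M L) (hi : PT i) (hx : PT x) (hy : PT y) :
    PT fun a => own (M a) (L a) (i a) (x a) (y a) :=
  pt_addQ (ipt_ports h hi hx hy) (pt_mulQ (ipt_ip 90 h.m) (ipt_busF h hi hx hy))

theorem ipt_linkF (h : IptL M L) (hi : PT i) (hj : PT j) (hx : PT x) (hy : PT y) :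
    PT fun a => linkF (M a) (L a) (i a) (j a) (x a) (y a) :=
  pt_mulQ (ipt_ip 1520 h.m) (ipt_run h.m h.b
    (h.li.comp (f := fun a => (a, i a, j a)) (by fun_prop))
    (h.lj.comp (f := fun a => (a, i a, j a)) (by fun_prop))
    ((ipt_LL h.m).add (PT.const 1)) ((h.b.pow 20).add (PB.const 1)) hx hy)

theorem ipt_psi (h : IptL M L) (hx : PT x) (hy : PT y) :
    PT fun a => psi (M a) (L a) (x a) (y a) :=
  pt_addQ (pt_addQ (ipt_om h.m h.b) (ipt_sumQ h.K h.Kb fun r hr _ =>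
    ipt_own h.fst hr (by fun_prop) (by fun_prop)))
    (ipt_sumQ h.K h.Kb fun r hr _ => ipt_sumQ h.fst.K h.fst.Kb fun s hs _ =>
      PT.ite (by fun_prop) (ipt_linkF h.fst.fst (by fun_prop) hs (by fun_prop) (by fun_prop))
        (PT.const 0))

theorem ipt_lapQ {f : α → ℚ → ℚ → ℚ → ℚ}
    (hf : ∀ x y z : α → ℚ, PT x → PT y → PT z → PT fun a => f a (x a) (y a) (z a))
    (hu : PT u) (hx : PT x) (hy : PT y) (hz : PT z) :
    PT fun a => lapQ (u a) (f a) (x a) (y a) (z a) :=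
  pt_divQ (pt_subQ (pt_addQ (pt_addQ (pt_addQ (pt_addQ (pt_addQ
    (hf _ _ _ (pt_addQ hx hu) hy hz) (hf _ _ _ (pt_subQ hx hu) hy hz))
    (hf _ _ _ hx (pt_addQ hy hu) hz)) (hf _ _ _ hx (pt_subQ hy hu) hz))
    (hf _ _ _ hx hy (pt_addQ hz hu))) (hf _ _ _ hx hy (pt_subQ hz hu)))
    (pt_mulQ (PT.const 6) (hf _ _ _ hx hy hz))) (pt_powQ_const 2 hu)

theorem ipt_V1Q (h : IptL M L) (hx : PT x) (hy : PT y) (hz : PT z) :
    PT fun a => V1Q (M a) (L a) (x a) (y a) (z a) :=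
  pt_mulQ (ipt_plat (PT.const _) (PT.const _) hz) (pt_subQ (pt_divQ (pt_addQ (pt_divQ
    (ipt_lapQ (f := fun a x y _ => psi (M a) (L a) x y) (fun _ _ _ h1 h2 _ => ipt_psi h h1 h2)
      (pt_mulQ (ipt_ip 44040 h.m) (ipt_om h.m h.b)) hx hy hz) (PT.const 2)) (ipt_om h.m h.b))
    (ipt_psi h hx hy)) (PT.const 1))

theorem ipt_piQ (hM : PT M) (hb : PB M) : PT fun a => piQ (M a) :=
  pt_mulQ (PT.const 4) (ipt_sumQ (f := fun _ i => (if i % 2 = 0 then 1 else -1) / (2 * (i : ℚ) + 1))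
    (P325.pt_pow_const 11010 hM) (hb.pow 11010) fun r hr _ => by fun_prop)

@[fun_prop] theorem ipt_gx (hM : PT M) (hi : PT i) : PT fun a => (gx (M a) (i a) : ℚ) := by
  unfold gx
  fun_prop

@[fun_prop] theorem ipt_gz (hM : PT M) (hi : PT i) : PT fun a => (gz (M a) (i a) : ℚ) := by
  unfold gz
  fun_prop

@[fun_prop] theorem ipt_ws (hi : PT i) : PT fun a => (ws (i a) : ℚ) := by
  unfold ws
  fun_prop

theorem ipt_wt3 (hM : PT M) (hi : PT i) (hj : PT j) (hk : PT k) :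
    PT fun a => (wt3 (M a) (i a, j a, k a) : ℚ) := by
  unfold wt3
  fun_prop

theorem ipt_qQ (h : IptL M L) (hu : PT u) (hi : PT i) (hj : PT j) (hk : PT k) :
    PT fun a => qQ (M a) (L a) (u a) (i a) (j a) (k a) :=
  pt_divQ (pt_mulQ (ipt_wt3 h.m hi hj hk) (pt_divQ (pt_addQ (pt_powQ_const 2 (pt_natCastQ h.m))
    (ipt_lapQ (f := fun a => V1Q (M a) (L a)) (fun _ _ _ => ipt_V1Q h) (ipt_ip 11010 h.m)
      (ipt_gx h.m hi) (ipt_gx h.m hj) (ipt_gz h.m hk)))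
    (pt_mulQ (PT.const 4) (ipt_piQ h.m h.b)))) hu

variable {q : α → ℕ → ℕ → ℕ → ℚ}

theorem ipt_cum (hq : PT fun p : α × ℕ × ℕ × ℕ => q p.1 p.2.1 p.2.2.1 p.2.2.2) (hi : PT i)
    (hib : PB i) (hj : PT j) (hjb : PB j) (hk : PT k) :
    PT fun a => cum (q a) (i a) (j a) (k a) :=
  ipt_sumQ (hi.add (PT.const 1)) (hib.add (PB.const 1)) fun r hr _ =>
    ipt_sumQ ((hj.comp ipt_fst).add (PT.const 1)) ((hjb.comp ipt_fst).add (PB.const 1))
      fun s hs _ => pt_mulQ (by fun_prop)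
        (hq.comp (f := fun p : (α × ℕ) × ℕ => (p.1.1, r p.1, s p, k p.1.1)) (by fun_prop))

theorem ipt_q1 (hq : PT fun p : α × ℕ × ℕ × ℕ => q p.1 p.2.1 p.2.2.1 p.2.2.2) :
    PT fun p : (α × β) × ℕ × ℕ × ℕ => q p.1.1 p.2.1 p.2.2.1 p.2.2.2 :=
  hq.comp (f := fun p : (α × β) × ℕ × ℕ × ℕ => (p.1.1, p.2)) (by fun_prop)

theorem ipt_zz (hq : PT fun p : α × ℕ × ℕ × ℕ => q p.1 p.2.1 p.2.2.1 p.2.2.2) (hi : PT i)
    (hib : PB i) (hj : PT j) (hjb : PB j) (hk : PT k) :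
    PT fun a => zz (q a) (i a, j a, k a) := by
  refine ipt_sumZ (n := fun _ => 5) (PT.const 5) (PB.const 5) fun r hr _ => ?_
  have h1 : PT fun p : α × ℕ => i p.1 - r p := by fun_prop
  have h2 : PB fun p : α × ℕ => i p.1 - r p := (hib.comp ipt_fst).of_le fun _ => Nat.sub_le _ _
  refine PT.ite (by fun_prop) (pt_mulZ (by unfold cf4; fun_prop) (pt_subZ (pt_floorQ ?_)
    (PT.ite (by fun_prop) (pt_floorQ ?_) (PT.const 0)))) (PT.const 0)
  · exact ipt_cum (q := fun p : α × ℕ => q p.1) (ipt_q1 hq) h1 h2 (hj.comp ipt_fst)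
      (hjb.comp ipt_fst) (hk.comp ipt_fst)
  · exact ipt_cum (q := fun p : α × ℕ => q p.1) (ipt_q1 hq) h1 h2
      ((hj.comp ipt_fst).sub (PT.const 1)) ((hjb.comp ipt_fst).of_le fun _ => Nat.sub_le _ _)
      (hk.comp ipt_fst)

/-- A truncated form of `isq`. -/
def iptSq (M A B : ℕ) (ρ : ℚ) : ℚ :=
  (Nat.sqrt (min ⌊(M : ℚ) ^ A / ρ⌋₊ (M ^ A)) : ℚ) / (M : ℚ) ^ B

theorem ipt_sq (A B : ℕ) (hM : PT M) (hb : PB M) (hx : PT x) :
    PT fun a => iptSq (M a) A B (x a) :=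
  pt_divQ (pt_natCastQ (P325.pt_sqrt (by fun_prop) ((hb.pow A).of_le fun _ => min_le_right _ _)))
    (pt_powQ_const B (pt_natCastQ hM))

theorem ipt_sq_eq (M A B : ℕ) {ρ : ℚ} (h : 1 ≤ ρ) :
    (Nat.sqrt ⌊(M : ℚ) ^ A / ρ⌋₊ : ℚ) / (M : ℚ) ^ B = iptSq M A B ρ := by
  rw [iptSq, min_eq_left]
  refine Nat.floor_le_of_le ?_
  rw [Nat.cast_pow]
  exact div_le_self (by positivity) h

theorem ipt_gz_le {M k : ℕ} (h : k < NZ M) : (gz M k : ℚ) ≤ 3 := by
  rw [NZ] at h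
  have h1 : (0 : ℚ) < HH M := by
    have : 0 < HH M := by omega
    exact_mod_cast this
  have h2 : (k : ℚ) + 1 ≤ 6 * HH M := by exact_mod_cast h
  rw [gz, sub_le_iff_le_add, div_le_iff₀ h1]
  linarith

theorem ipt_sum3 {f : α → ℕ → ℕ → ℕ → ℚ} (hM : PT M) (hb : PB M)
    (hf : ∀ i j k : ((α × ℕ) × ℕ) × ℕ → ℕ, PT i → PB i → PT j → PB j → PT k →
      PT fun p => f p.1.1.1 (i p) (j p) (k p)) :
    PT fun a => ∑ i ∈ Finset.range (NX (M a)), ∑ j ∈ Finset.range (NX (M a)),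
      ∑ k ∈ Finset.range (NZ (M a)), f a i j k :=
  ipt_sumQ (ipt_NX hM) (ipb_NX hb) fun _ hr hrb =>
    ipt_sumQ (ipt_NX (hM.comp ipt_fst)) (ipb_NX (hb.comp ipt_fst)) fun _ hs hsb =>
      ipt_sumQ (ipt_NZ ((hM.comp ipt_fst).comp ipt_fst))
        (ipb_NZ ((hb.comp ipt_fst).comp ipt_fst)) fun _ ht _ =>
          hf _ _ _ ((hr.comp ipt_fst).comp ipt_fst) ((hrb.comp ipt_fst).comp ipt_fst)
            (hs.comp ipt_fst) (hsb.comp ipt_fst) ht

theorem ipt_list3 [Inhabited β] {f : α → ℕ → ℕ → ℕ → β} (hM : PT M) (hb : PB M)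
    (hf : ∀ i j k : ((α × ℕ) × ℕ) × ℕ → ℕ, PT i → PB i → PT j → PB j → PT k →
      PT fun p => f p.1.1.1 (i p) (j p) (k p)) :
    PT fun a => (List.range (NX (M a))).flatMap fun i => (List.range (NX (M a))).flatMap fun j =>
      (List.range (NZ (M a))).map fun k => f a i j k :=
  ipt_flatMap (ipt_NX hM) (ipb_NX hb) fun _ hr hrb =>
    ipt_flatMap (ipt_NX (hM.comp ipt_fst)) (ipb_NX (hb.comp ipt_fst)) fun _ hs hsb =>
      ipt_map (ipt_NZ ((hM.comp ipt_fst).comp ipt_fst))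
        (ipb_NZ ((hb.comp ipt_fst).comp ipt_fst)) fun _ ht _ =>
          hf _ _ _ ((hr.comp ipt_fst).comp ipt_fst) ((hrb.comp ipt_fst).comp ipt_fst)
            (hs.comp ipt_fst) (hsb.comp ipt_fst) ht

theorem ipt_zz3 (hq : PT fun p : α × ℕ × ℕ × ℕ => q p.1 p.2.1 p.2.2.1 p.2.2.2)
    {i j k : ((α × ℕ) × ℕ) × ℕ → ℕ} (hi : PT i) (hib : PB i) (hj : PT j) (hjb : PB j)
    (hk : PT k) : PT fun p => zz (q p.1.1.1) (i p, j p, k p) := by
  have h1 := ipt_q1 (β := ℕ) hq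
  have h2 := ipt_q1 (β := ℕ) (q := fun p : α × ℕ => q p.1) h1
  have h3 := ipt_q1 (β := ℕ) (q := fun p : (α × ℕ) × ℕ => q p.1.1) h2
  exact ipt_zz (q := fun p : ((α × ℕ) × ℕ) × ℕ => q p.1.1.1) h3 hi hib hj hjb hk

theorem ipt_e0Q (hM : PT M) (hb : PB M) (hu : PT u)
    (hq : PT fun p : α × ℕ × ℕ × ℕ => q p.1 p.2.1 p.2.2.1 p.2.2.2) :
    PT fun a => e0Q (M a) (u a) (q a) := by
  have h1 : PT fun a => ∑ i ∈ Finset.range (NX (M a)), ∑ j ∈ Finset.range (NX (M a)),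
      ∑ k ∈ Finset.range (NZ (M a)), u a * (zz (q a) (i, j, k) : ℚ) * iptSq (M a) 20000 10000
        (gx (M a) i ^ 2 + gx (M a) j ^ 2 + (6 - gz (M a) k) ^ 2) :=
    ipt_sum3 hM hb fun r s t hr hrb hs hsb ht => by
      have h3 : PT fun p : ((α × ℕ) × ℕ) × ℕ => p.1.1.1 := by fun_prop
      have h4 := hM.comp h3
      exact pt_mulQ (pt_mulQ (hu.comp h3) (pt_intCastQ (ipt_zz3 hq hr hrb hs hsb ht)))
        (ipt_sq _ _ h4 (hb.comp h3) (pt_addQ (pt_addQ (pt_powQ_const 2 (ipt_gx h4 hr))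
          (pt_powQ_const 2 (ipt_gx h4 hs)))
          (pt_powQ_const 2 (pt_subQ (PT.const 6) (ipt_gz h4 ht)))))
  have h2 : PT fun a => ∑ i ∈ Finset.range (NX (M a)), ∑ j ∈ Finset.range (NX (M a)),
      ∑ k ∈ Finset.range (NZ (M a)), u a * (zz (q a) (i, j, k) : ℚ) * isq (M a)
        (gx (M a) i ^ 2 + gx (M a) j ^ 2 + (6 - gz (M a) k) ^ 2) := by
    refine h1.congr fun a => Finset.sum_congr rfl fun i _ => Finset.sum_congr rfl fun j _ =>
      Finset.sum_congr rfl fun k hk => congrArg _ (ipt_sq_eq _ _ _ ?_)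
    have := ipt_gz_le (Finset.mem_range.1 hk)
    nlinarith [sq_nonneg (gx (M a) i : ℚ), sq_nonneg (gx (M a) j : ℚ)]
  exact pt_subQ (pt_addQ (pt_subQ (pt_negQ h2) (by fun_prop)) (by fun_prop)) (PT.const 1)

@[fun_prop] theorem ipt_ratCode (hx : PT x) : PT fun a => ratCode (x a) := by
  unfold ratCode
  fun_prop

end Aux

theorem pt_inst {α : Type} [Enc α] {M : α → ℕ} {d : α → Disc} (hM : PT M) (hb : PB M)
    (hd : PT fun a => ((d a).n, (d a).tau, (d a).al, (d a).tab)) (hn : ∀ a, 4 * (d a).n ≤ M a) :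
    PT fun a => (inst (M a) (d a)).code := by
  have d1 : PT fun a => (d a).n := hd.fst
  have d2 : PT fun a => (d a).tau := hd.snd.fst
  have d3 : PT fun a => (d a).al := hd.snd.snd.fst
  have d4 : PT fun a => (d a).tab := hd.snd.snd.snd
  have hL : IptL M fun a => comb (M a) (d a) :=
    ⟨hM, hb, (PT.const 4).mul d1, hb.of_le hn, (ipt_LL hM).add ((PT.const 8).mul (ipt_rr hM)),
      ipt_combBus (hM.comp ipt_fst) (by fun_prop) (by fun_prop) (by fun_prop),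
      ipt_combHas (hM.comp ipt_fst) ((PT.const 4).mul (d1.comp ipt_fst)) (d4.comp ipt_fst)
        (by fun_prop) (by fun_prop),
      ipt_combLi (hM.comp ipt_fst) (by fun_prop) (by fun_prop),
      ipt_combLj (hM.comp ipt_fst) (by fun_prop) (by fun_prop)⟩
  have hpi : PT fun a => piN (M a) (d a) :=
    (((PT.const 4).mul d1).sub (PT.const 1)).mul (((PT.const 4).mul d1).mul hM)
  have hl : PT fun a => ellQ (M a) (d a) :=
    pt_divQ (pt_mulQ (ipt_ip 3040 hM) (pt_natCastQ hpi)) (pt_mulQ (PT.const 2) (pt_natCastQ d2))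
  have hq : PT fun p : α × ℕ × ℕ × ℕ => qI (M p.1) (d p.1) p.2.1 p.2.2.1 p.2.2.2 :=
    ipt_qQ hL.fst (hl.comp ipt_fst) (by fun_prop) (by fun_prop) (by fun_prop)
  have hnuc : PT fun a => nucI (M a) (d a) :=
    ipt_list3 (f := fun a i j k => ((ellQ (M a) (d a) * gx (M a) i, ellQ (M a) (d a) * gx (M a) j,
      ellQ (M a) (d a) * gz (M a) k), (zz (qI (M a) (d a)) (i, j, k)).toNat)) hM hb
      fun r s t hr hrb hs hsb ht => by
        have h3 : PT fun p : ((α × ℕ) × ℕ) × ℕ => p.1.1.1 := by fun_prop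
        have h1 := hl.comp h3
        have h2 := hM.comp h3
        exact ((pt_mulQ h1 (ipt_gx h2 hr)).mk ((pt_mulQ h1 (ipt_gx h2 hs)).mk
          (pt_mulQ h1 (ipt_gz h2 ht)))).mk
            (pt_toNat (ipt_zz3 (q := fun a => qI (M a) (d a)) hq hr hrb hs hsb ht))
  have ha : PT fun a => aI (M a) (d a) :=
    pt_divQ (pt_addQ (pt_mulQ (pt_mulQ (PT.const 3) (pt_natCastQ d1))
      (ipt_e0Q (q := fun a => qI (M a) (d a)) hM hb hl hq))
      (pt_mulQ (pt_divQ hl (pt_mulQ (pt_powQ_const 2 (pt_natCastQ hpi))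
        (pt_natCastQ (ipt_SS hM)))) (pt_addQ (pt_natCastQ d3) (PT.const 1))))
      (pt_powQ_const 2 hl)
  have h1 := PT.flatMap (f := fun _ (p : (ℚ × ℚ × ℚ) × ℕ) =>
    ratCode p.1.1 ++ ratCode p.1.2.1 ++ ratCode p.1.2.2 ++ [p.2]) (by fun_prop) hnuc
  have h2 := PT.replicate (y := fun _ => 1) ((PT.const 3).mul d1)
    (hb.of_le fun a => by have := hn a; omega) (PT.const _)
  exact (((hnuc.length.cons h1).append h2).append ((PT.const 0).cons (ipt_ratCode ha))).append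
    (ipt_ratCode (pt_addQ ha (PT.const 1)))

end Vale.Agent.P370
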