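import Vale.Agent.P370.Norms

/-! Lower bound for the interaction of two modes. -/

namespace Vale.Agent.P370

open MeasureTheory Filter
open scoped Classical

theorem intl_wlow_nonneg {l : ℝ} (hl : 0 ≤ l) (x y : E3) : 0 ≤ wlow l x y :=
  div_nonneg hl (zero_le_one.trans (le_max_left _ _))

theorem intl_gen {f g : E3 → ℝ} (hf : Integrable f) (hg : Integrable g) {l : ℝ} (hl : 0 ≤ l)
    {S : Finset ℕ} {P Q : ℕ → E3 → ℝ} (hP : ∀ c, Integrable (P c)) (hQ : ∀ c, Integrable (Q c))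
    (κ : ℝ) (h : ∀ x y, ∑ c ∈ S, κ * (P c x * Q c y) ≤ f x * g y * wlow l x y) :
    ∑ c ∈ S, κ * ((∫ x, P c x) * ∫ y, Q c y) ≤ ∫ x, ∫ y, f x * g y * wlow l x y := by
  have hw : Continuous fun z : E3 × E3 => wlow l z.1 z.2 := by
    unfold wlow
    refine continuous_const.div (by fun_prop) fun z => ?_
    exact (zero_lt_one.trans_le (le_max_left _ _)).ne'
  have h1 : Integrable (fun z : E3 × E3 => f z.1 * g z.2 * wlow l z.1 z.2)
      (Measure.prod volume volume) := by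
    refine (hf.mul_prod hg).mul_bdd (c := l) hw.aestronglyMeasurable
      (Eventually.of_forall fun z => ?_)
    rw [Real.norm_of_nonneg (intl_wlow_nonneg hl _ _)]
    exact div_le_self hl (le_max_left _ _)
  have h2 : ∀ c ∈ S, Integrable (fun z : E3 × E3 => κ * (P c z.1 * Q c z.2))
      (Measure.prod volume volume) := fun c _ => ((hP c).mul_prod (hQ c)).const_mul κ
  rw [integral_integral (f := fun x y => f x * g y * wlow l x y) h1]
  refine le_trans (le_of_eq ?_) (integral_mono (integrable_finsetSum S h2) h1 fun z => h z.1 z.2)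
  rw [integral_finsetSum S h2]
  refine Finset.sum_congr rfl fun c _ => ?_
  rw [integral_const_mul, integral_prod_mul]

/-- The density of one port. -/
noncomputable def intlP (M : ℕ) (L : Lay) (a c : ℕ) (p : E3) : ℝ :=
  (portF M L a c (p 0) (p 1) * (gam M (p 2) * chz (p 2))) ^ 2

theorem intl_phh {M : ℕ} (hM : 2 ≤ M) (L : Lay) (a : ℕ) {S : Finset ℕ}
    (hS : ∀ c ∈ S, c < NC M ∧ L.has a c = true) (p : E3) :
    ∑ c ∈ S, intlP M L a c p ≤ phh M L a p ^ 2 := by
  have h1 : ports M L a (p 0) (p 1) ≤ own M L a (p 0) (p 1) :=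
    le_add_of_nonneg_right (mul_nonneg (ip_pos (by omega) _).le (busF_mem M L a _ _).1)
  have h2 := pow_le_pow_left₀ (ports_nonneg M L a (p 0) (p 1)) h1 2
  rw [ports_sq hM, ← Finset.sum_filter] at h2
  have h3 : ∑ c ∈ S, portF M L a c (p 0) (p 1) ^ 2 ≤ own M L a (p 0) (p 1) ^ 2 := by
    refine le_trans (Finset.sum_le_sum_of_subset_of_nonneg ?_ fun _ _ _ => sq_nonneg _) h2
    intro c hc
    exact Finset.mem_filter.2 ⟨Finset.mem_range.2 (hS c hc).1, (hS c hc).2⟩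
  unfold intlP phh
  simp only [mul_pow (portF M L a _ _ _), mul_pow (own M L a _ _)]
  rw [← Finset.sum_mul]
  exact mul_le_mul_of_nonneg_right h3 (sq_nonneg _)

theorem intl_supp {M : ℕ} {L : Lay} {a c : ℕ} {p : E3} (h : intlP M L a c p ≠ 0) :
    ((L.x0 + D0 M * c : ℕ) : ℝ) - rr M < p 0 ∧
      p 0 + 1 < ((L.x0 + D0 M * c : ℕ) : ℝ) + LL M + rr M ∧
      |p 1 - row M a| < rr M ∧ |p 2| < 2 := by
  have h1 : portF M L a c (p 0) (p 1) * (gam M (p 2) * chz (p 2)) ≠ 0 := fun h0 =>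
    h (by unfold intlP; rw [h0]; simp)
  obtain ⟨a1, a2, a3⟩ := run_supp (left_ne_zero_of_mul h1)
  refine ⟨a1, a2, a3, ?_⟩
  by_contra h2
  exact right_ne_zero_of_mul (right_ne_zero_of_mul h1) (chz_eq_zero (not_lt.1 h2))

theorem intl_norm_le (p : E3) : ‖p‖ ≤ |p 0| + |p 1| + |p 2| := by
  refine (pow_le_pow_iff_left₀ (norm_nonneg _) (by positivity) two_ne_zero).1 ?_
  rw [norm_E3_sq, ← sq_abs (p 0), ← sq_abs (p 1), ← sq_abs (p 2)]
  nlinarith [mul_nonneg (abs_nonneg (p 0)) (abs_nonneg (p 1)),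
    mul_nonneg (abs_nonneg (p 0)) (abs_nonneg (p 2)),
    mul_nonneg (abs_nonneg (p 1)) (abs_nonneg (p 2))]

theorem intl_row (M a b : ℕ) :
    |(row M a : ℝ) - row M b| = SS M * ((a - b + (b - a) : ℕ) : ℝ) := by
  have h : (row M a : ℝ) - row M b = SS M * ((a : ℝ) - b) := by
    unfold row
    push_cast
    ring
  rw [h, abs_mul, Nat.abs_cast]
  rcases le_total a b with h1 | h1
  · rw [Nat.sub_eq_zero_of_le h1, zero_add, Nat.cast_sub h1, abs_sub_comm,
      abs_of_nonneg (sub_nonneg.2 (by exact_mod_cast h1))]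
  · rw [Nat.sub_eq_zero_of_le h1, add_zero, Nat.cast_sub h1,
      abs_of_nonneg (sub_nonneg.2 (by exact_mod_cast h1))]

theorem intl_dist {M : ℕ} (hL : 4 * (rr M : ℝ) + 4 ≤ LL M) {L : Lay} {a b c : ℕ} {x y : E3}
    (hx : intlP M L a c x ≠ 0) (hy : intlP M L b c y ≠ 0) :
    max 1 ‖x - y‖ ≤ SS M * ((a - b + (b - a) : ℕ) : ℝ) + 2 * LL M := by
  obtain ⟨a1, a2, a3, a4⟩ := intl_supp hx
  obtain ⟨b1, b2, b3, b4⟩ := intl_supp hy
  have h0 : (0 : ℝ) ≤ rr M := Nat.cast_nonneg _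
  have h1 := intl_norm_le (x - y)
  rw [← intl_row]
  simp only [PiLp.sub_apply] at h1
  have c0 : |x 0 - y 0| ≤ LL M + 2 * rr M := abs_le.2 ⟨by linarith, by linarith⟩
  have c1 : |x 1 - y 1| ≤ |(row M a : ℝ) - row M b| + 2 * rr M := by
    have e : x 1 - y 1 = (x 1 - row M a) + ((row M a : ℝ) - row M b) - (y 1 - row M b) := by ring
    have d1 := abs_sub (x 1 - row M a + ((row M a : ℝ) - row M b)) (y 1 - row M b)
    have d2 := abs_add_le (x 1 - row M a) ((row M a : ℝ) - row M b)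
    rw [e]
    linarith
  have c2 := abs_sub (x 2) (y 2)
  have c3 := abs_nonneg ((row M a : ℝ) - row M b)
  exact max_le (by linarith) (by linarith)

theorem intl_pt {M : ℕ} (hM : 2 ≤ M) (hL : 4 * (rr M : ℝ) + 4 ≤ LL M) (L : Lay) (a b : ℕ)
    {S : Finset ℕ} (hS : ∀ c ∈ S, c < NC M ∧ L.has a c = true ∧ L.has b c = true) {l : ℝ}
    (hl : 0 ≤ l) (x y : E3) :
    ∑ c ∈ S, l / (SS M * ((a - b + (b - a) : ℕ) : ℝ) + 2 * LL M) *
      (intlP M L a c x * intlP M L b c y) ≤ phh M L a x ^ 2 * phh M L b y ^ 2 * wlow l x y := by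
  have h1 := intl_phh hM L a (S := S) (fun c hc => ⟨(hS c hc).1, (hS c hc).2.1⟩) x
  have h2 := intl_phh hM L b (S := S) (fun c hc => ⟨(hS c hc).1, (hS c hc).2.2⟩) y
  have hw := intl_wlow_nonneg hl x y
  have p0 : ∀ a c p, 0 ≤ intlP M L a c p := fun a c p => sq_nonneg _
  refine le_trans (Finset.sum_le_sum (g := fun c => intlP M L a c x *
    (phh M L b y ^ 2 * wlow l x y)) fun c hc => ?_) ?_
  · by_cases hx : intlP M L a c x = 0
    · simp [hx]
    by_cases hy : intlP M L b c y = 0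
    · rw [hy, mul_zero, mul_zero]
      exact mul_nonneg (p0 _ _ _) (mul_nonneg (sq_nonneg _) hw)
    have h3 : l / (SS M * ((a - b + (b - a) : ℕ) : ℝ) + 2 * LL M) ≤ wlow l x y :=
      div_le_div_of_nonneg_left hl (zero_lt_one.trans_le (le_max_left _ _)) (intl_dist hL hx hy)
    have h4 : intlP M L b c y ≤ phh M L b y ^ 2 :=
      (Finset.single_le_sum (f := fun c => intlP M L b c y) (fun c _ => p0 _ _ _) hc).trans h2
    rw [mul_comm, mul_assoc]
    exact mul_le_mul_of_nonneg_left (mul_le_mul h4 h3 (by positivity) (sq_nonneg _)) (p0 _ _ _)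
  · rw [← Finset.sum_mul, mul_assoc]
    exact mul_le_mul_of_nonneg_right h1 (mul_nonneg (sq_nonneg _) hw)

/-- The final numerical estimate. -/
theorem intl_num {δ η l P S Lg R m n v d Na Nb : ℝ} (hδ : 0 ≤ δ) (hδ1 : δ ≤ 1 / 10)
    (hη : 5 * δ ≤ η) (hl : 0 ≤ l) (hP : 0 < P) (hS : 0 < S) (hL : 0 < Lg) (hm : 0 < m)
    (hv : 0 ≤ v) (hn : 0 ≤ n) (hd : 0 < d) (hR : R ≤ δ * Lg) (h1 : v * d ≤ n * S * (1 + δ))
    (a0 : 0 < Na) (a1 : Na ≤ (1 + δ) * (P * Lg * m)) (b0 : 0 < Nb)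
    (b1 : Nb ≤ (1 + δ) * (P * Lg * m)) :
    (1 - η) * (l / (P ^ 2 * S)) * v ≤ n * (l / d / (Na * Nb) * ((Lg - R) * m * ((Lg - R) * m))) := by
  have c1 : (1 - δ) * (Lg * m) ≤ (Lg - R) * m := by nlinarith
  have c0 : 0 ≤ (1 - δ) * (Lg * m) := mul_nonneg (by linarith) (by positivity)
  have c2 := mul_le_mul c1 c1 c0 (c0.trans c1)
  have c3 := mul_le_mul a1 b1 b0.le (a0.le.trans a1)
  have c4 : v / (S * (1 + δ)) ≤ n / d := by
    rw [div_le_div_iff₀ (by positivity) hd]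
    linarith
  have c5 : (1 - η) * (1 + δ) ^ 3 ≤ (1 - δ) ^ 2 := by
    have e1 : (1 - η) * (1 + δ) ^ 3 ≤ (1 - 5 * δ) * (1 + δ) ^ 3 :=
      mul_le_mul_of_nonneg_right (by linarith) (by positivity)
    nlinarith [mul_nonneg hδ hδ, mul_nonneg hδ (mul_nonneg hδ hδ),
      mul_nonneg (mul_nonneg hδ hδ) (mul_nonneg hδ hδ)]
  have c6 : 1 - η ≤ (1 - δ) ^ 2 / (1 + δ) ^ 3 := by rwa [le_div_iff₀ (by positivity)]
  calc (1 - η) * (l / (P ^ 2 * S)) * v ≤ (1 - δ) ^ 2 / (1 + δ) ^ 3 * (l / (P ^ 2 * S)) * v := by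
        gcongr
    _ = v / (S * (1 + δ)) * (l / ((1 + δ) * (P * Lg * m) * ((1 + δ) * (P * Lg * m))) *
        ((1 - δ) * (Lg * m) * ((1 - δ) * (Lg * m)))) := by field_simp
    _ ≤ n / d * (l / (Na * Nb) * ((Lg - R) * m * ((Lg - R) * m))) := by gcongr
    _ = _ := by ring

theorem int_low : ∀ᶠ M : ℕ in atTop, ∀ (L : Lay) (Pi : ℕ) (v : ℕ → ℕ → ℕ), L.OK M Pi v →
    ∀ l : ℝ, 0 ≤ l → ∀ a b : Fin L.K,
      (1 - ip M 4) * (l / ((Pi : ℝ) ^ 2 * SS M)) * v a.val b.val ≤
        ∫ x, ∫ y, phi M L a x ^ 2 * phi M L b y ^ 2 * wlow l x y := by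
  filter_upwards [phh_norm, eventually_ge_atTop 2, ev_le 20] with M hN hM h20 L Pi v h l hl a b
  have hM1 : 1 ≤ M := by omega
  have M1 : (1 : ℝ) ≤ M := by linarith
  have eL : (LL M : ℝ) = (M : ℝ) ^ 20 := by unfold LL; push_cast; rfl
  have eS : (SS M : ℝ) = (M : ℝ) ^ 40 := by unfold SS; push_cast; rfl
  have eR : (rr M : ℝ) = 2 * M + 1 := by unfold rr; push_cast; rfl
  have δ0 := ip_pos hM1 18
  have δ1 : (ip M 18 : ℝ) ≤ 1 / 10 := by
    have := ip_absorb hM1 (C := 10) (by linarith) (j := 0) (k := 18) (k' := 0) (by norm_num)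
    rw [show (ip M 0 : ℝ) = 1 by simp [ip]] at this
    linarith
  have δ2 : 5 * ip M 18 ≤ (ip M 4 : ℝ) := by
    simpa using ip_absorb hM1 (C := 5) (by linarith) (j := 0) (k := 18) (k' := 4) (by norm_num)
  have e18 : (ip M 18 : ℝ) * (M : ℝ) ^ 18 = 1 := by
    have := ip_mul_pow hM1 0 18
    rwa [show (ip M 0 : ℝ) = 1 by simp [ip], zero_add] at this
  have eL2 : ip M 18 * (LL M : ℝ) = (M : ℝ) ^ 2 := by
    rw [eL, show (M : ℝ) ^ 20 = M ^ 18 * M ^ 2 by ring, ← mul_assoc, e18, one_mul]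
  have eS2 : ip M 18 * (SS M : ℝ) = (M : ℝ) ^ 2 * LL M := by
    rw [eS, eL, show (M : ℝ) ^ 40 = M ^ 18 * (M ^ 2 * M ^ 20) by ring, ← mul_assoc, e18, one_mul]
  have L0 : (0 : ℝ) < LL M := by rw [eL]; positivity
  have S0 : (0 : ℝ) < SS M := by rw [eS]; positivity
  have M2 : 20 * (M : ℝ) ≤ (M : ℝ) ^ 2 := by nlinarith
  have hR : 2 * (rr M : ℝ) ≤ ip M 18 * LL M := by rw [eL2, eR]; linarith
  have hL : 4 * (rr M : ℝ) + 4 ≤ LL M := by
    have := mul_le_mul_of_nonneg_right δ1 L0.le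
    rw [eL2] at this
    rw [eR]
    linarith
  have hLS : 2 * (LL M : ℝ) ≤ ip M 18 * SS M := by
    rw [eS2]
    exact mul_le_mul_of_nonneg_right (by linarith) L0.le
  have PM : (M : ℝ) ≤ Pi := by exact_mod_cast h.Pi_ge
  have P0 : (0 : ℝ) < Pi := by linarith
  set m : ℝ := ginf M ^ 2 * beta M * gam0 M with hm
  have m0 : 0 < m := by
    have b1 := one_le_ginf M
    have b2 := beta_ge hM1
    have b3 := gam0_ge hM1
    have b4 : (0 : ℝ) < 1 / (2 * M) := by positivity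
    have b5 : 0 < beta M := by linarith
    have b6 : 0 < gam0 M := by linarith
    positivity
  have en : n0sq M Pi = Pi * LL M * m := by unfold n0sq; rw [hm]; ring
  have N0 : ∀ c : Fin L.K, 0 < nsq1 (phh M L c.val) := fun c => by
    refine lt_of_lt_of_le ?_ (hN L Pi v h c.val c.2).1
    rw [en]
    exact mul_pos (by linarith) (by positivity)
  have N1 : ∀ c : Fin L.K, nsq1 (phh M L c.val) ≤ (1 + ip M 18) * (Pi * LL M * m) := fun c => by
    rw [← en]
    exact (hN L Pi v h c.val c.2).2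
  have eφ : ∀ (c : Fin L.K) p, phi M L c p ^ 2 = phh M L c.val p ^ 2 / nsq1 (phh M L c.val) :=
    fun c p => by unfold phi; rw [div_pow, Real.sq_sqrt (N0 c).le]
  have iφ : ∀ c : Fin L.K, Integrable fun p => phi M L c p ^ 2 := fun c => by
    simp only [eφ]
    obtain ⟨s1, s2⟩ := h.phh_sm c.2
    refine Integrable.div_const ?_ _
    simp only [sq]
    exact (s1.continuous.mul s1.continuous).integrable_of_hasCompactSupport s2.mul_left
  set S := (Finset.range (NC M)).filter fun c => L.has a.val c = true ∧ L.has b.val c = true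
    with hS
  set d : ℝ := SS M * ((a.val - b.val + (b.val - a.val) : ℕ) : ℝ) + 2 * LL M with hd
  have d0 : 0 < d := by positivity
  have key := intl_gen (iφ a) (iφ b) hl (S := S) (P := intlP M L a.val) (Q := intlP M L b.val)
    (fun c => (port_mass hM L a.val c).1) (fun c => (port_mass hM L b.val c).1)
    (l / d / (nsq1 (phh M L a.val) * nsq1 (phh M L b.val))) (by
      intro x y
      have c1 := intl_pt hM hL L a.val b.val (S := S) (fun c hc => by
        have := Finset.mem_filter.1 hc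
        exact ⟨Finset.mem_range.1 this.1, this.2⟩) hl x y
      have c2 := div_le_div_of_nonneg_right c1 (mul_pos (N0 a) (N0 b)).le
      rw [Finset.sum_div] at c2
      rw [eφ, eφ]
      refine le_trans (le_of_eq (Finset.sum_congr rfl fun c _ => ?_)) (c2.trans (le_of_eq ?_))
      · ring
      · have := (N0 a).ne'
        have := (N0 b).ne'
        field_simp)
  refine le_trans ?_ key
  have r0 : 0 ≤ ((LL M : ℝ) - 2 * rr M) * m := mul_nonneg (by linarith [eR]) m0.le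
  refine le_trans ?_ (Finset.card_nsmul_le_sum S _
    (l / d / (nsq1 (phh M L a.val) * nsq1 (phh M L b.val)) *
      (((LL M : ℝ) - 2 * rr M) * m * (((LL M : ℝ) - 2 * rr M) * m))) fun c _ => ?_)
  · rw [nsmul_eq_mul]
    refine intl_num δ0.le δ1 δ2 hl P0 S0 L0 m0 (Nat.cast_nonneg _) (Nat.cast_nonneg _) d0 hR ?_
      (N0 a) (N1 a) (N0 b) (N1 b)
    have v0 : (0 : ℝ) ≤ v a.val b.val := Nat.cast_nonneg _
    rcases eq_or_ne a.val b.val with e | e
    · have c1 : S.card = Pi := by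
        rw [hS, ← e]
        simpa only [and_self] using h.cnt a.val a.2
      have c2 : (v a.val b.val : ℝ) ≤ Pi := le_trans (by exact_mod_cast h.v_le _ _) PM
      have c3 : d = 2 * LL M := by rw [hd, e]; simp
      rw [c1, c3, mul_assoc]
      exact mul_le_mul c2 (by linarith) (by positivity) P0.le
    · have c1 := h.cnt2 a.val b.val a.2 b.2 e
      have c2 : (1 : ℝ) ≤ ((a.val - b.val + (b.val - a.val) : ℕ) : ℝ) := by
        exact_mod_cast (by omega : 1 ≤ a.val - b.val + (b.val - a.val))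
      rw [hS, c1, Nat.cast_mul, mul_assoc, mul_assoc, hd]
      refine mul_le_mul_of_nonneg_left ?_ v0
      have c3 := mul_le_mul_of_nonneg_left c2 (mul_pos δ0 S0).le
      linarith
  · have c1 := (port_mass hM L a.val c).2.1
    have c2 := (port_mass hM L b.val c).2.1
    have := N0 a
    have := N0 b
    exact mul_le_mul_of_nonneg_left (mul_le_mul c1 c2 r0 (r0.trans c1)) (by positivity)

end Vale.Agent.P370
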