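import Vale.Agent.P370.KerK

/-! Integrals of the kernels. -/

namespace Vale.Agent.P370

open MeasureTheory Filter
open scoped Classical

theorem KerI_le {f g : E3 → ℝ} {S : Set E3} (hS : MeasurableSet S) (hf : Measurable f)
    (hg : Integrable g) (f0 : ∀ y, 0 ≤ f y) (g0 : ∀ y, 0 ≤ g y) (h : ∀ y ∈ S, f y ≤ g y) :
    IntegrableOn f S ∧ ∫ y in S, f y ≤ ∫ y, g y := by
  have h1 : IntegrableOn f S := hg.integrableOn.mono' hf.aestronglyMeasurable
    (ae_restrict_of_forall_mem hS fun y hy => (Real.norm_of_nonneg (f0 y)).trans_le (h y hy))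
  exact ⟨h1, (setIntegral_mono_on h1 hg.integrableOn hS h).trans
    (setIntegral_le_integral hg (.of_forall g0))⟩

theorem KerI_scale (g : E3 → ℝ) {r : ℝ} (hr : 0 < r) : ∫ s, g (r⁻¹ • s) = r ^ 3 * ∫ s, g s := by
  rw [Measure.integral_comp_smul]
  simp [abs_of_pos hr]

theorem KerI_ball {α : ℝ} (hα : α < 3) :
    Integrable ((Metric.ball (0 : E3) 1).indicator fun s => ‖s‖ ^ (-α)) :=
  (integrableOn_ball_of_norm_le_rpow (C := 1) (α := α) (by simp) (by simpa using hα)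
    (.of_forall fun s => by rw [one_mul, Real.norm_of_nonneg (by positivity)])
    (measurable_norm.pow_const _).aestronglyMeasurable).integrable_indicator measurableSet_ball

theorem KerI_ball_nonneg (α : ℝ) (s : E3) :
    0 ≤ (Metric.ball (0 : E3) 1).indicator (fun s => ‖s‖ ^ (-α)) s :=
  Set.indicator_nonneg (fun _ _ => by positivity) _

theorem KerI_prod {f g h : ℝ → ℝ} (hf : Integrable f) (hg : Integrable g) (hh : Integrable h) :
    Integrable fun p : E3 => f (p 0) * g (p 1) * h (p 2) := by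
  rw [integrable_E3]
  exact (hf.mul_prod (hg.mul_prod hh)).congr (.of_forall fun q => by simp [mul_assoc])

theorem KerI_near {ε t : ℝ} (h0 : 0 < ε) (ht : 0 ≤ t) :
    min (1 / t) (ε ^ 2 / t ^ 3) ≤ ε ^ (15 / 8 : ℝ) * t ^ (-(23 / 8) : ℝ) := by
  rcases ht.eq_or_lt with rfl | ht
  · exact (min_le_left _ _).trans (by rw [div_zero]; positivity)
  rcases le_total t ε with h | h
  · refine (min_le_left _ _).trans (le_trans (le_of_eq ?_) (mul_le_mul_of_nonneg_right
      (Real.rpow_le_rpow ht.le h (by norm_num)) (by positivity)))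
    rw [← Real.rpow_add ht, one_div, ← Real.rpow_neg_one]
    norm_num
  · refine (min_le_right _ _).trans ?_
    have e1 : ε ^ 2 = ε ^ (15 / 8 : ℝ) * ε ^ (1 / 8 : ℝ) := by
      rw [← Real.rpow_add h0, ← Real.rpow_two]
      norm_num
    have e2 : t ^ (-(23 / 8) : ℝ) = t ^ (1 / 8 : ℝ) / t ^ 3 := by
      rw [← Real.rpow_natCast, ← Real.rpow_sub ht]
      norm_num
    rw [e1, e2, mul_div_assoc]
    gcongr

theorem KerI_far {s : E3} (h : 1 ≤ ‖s‖) :
    1 / ‖s‖ ^ 3 ≤ 8 * ((1 + ‖s 0‖) ^ (-(3 / 2) : ℝ) * (1 + ‖s 1‖) ^ (-(3 / 2) : ℝ)) := by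
  have h1 : ∀ k, (2 * ‖s‖) ^ (-(3 / 2) : ℝ) ≤ (1 + ‖s k‖) ^ (-(3 / 2) : ℝ) := fun k =>
    Real.rpow_le_rpow_of_nonpos (by positivity) (by linarith [PiLp.norm_apply_le s k])
      (by norm_num)
  refine le_trans (le_of_eq ?_) (mul_le_mul_of_nonneg_left
    (mul_le_mul (h1 0) (h1 1) (by positivity) (by positivity)) (by norm_num))
  rw [← Real.rpow_add (by positivity), show (-(3 / 2) + -(3 / 2) : ℝ) = -(3 : ℕ) by norm_num,
    Real.rpow_neg (by positivity), Real.rpow_natCast]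
  field_simp
  norm_num

theorem kk5_int : ∃ C : ℝ, 0 ≤ C ∧ ∀ ε : ℝ, 0 < ε → ∀ p : E3,
    Integrable (fun y => kk ε (p - y) ^ 5) ∧ ∫ y, kk ε (p - y) ^ 5 ≤ C / ε ^ 2 := by
  have hg : Integrable fun s : E3 => kk 1 s ^ 5 := by
    refine (integrable_rpow_neg_one_add_norm_sq (E := E3) (μ := volume) (r := 5)
      (by norm_num)).congr (.of_forall fun s => ?_)
    simp only [kk]
    rw [one_pow, add_comm (‖s‖ ^ 2), one_div, Real.sqrt_eq_rpow, ← Real.rpow_neg (by positivity),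
      ← Real.rpow_natCast _ 5, ← Real.rpow_mul (by positivity)]
    norm_num
  refine ⟨∫ s, kk 1 s ^ 5, integral_nonneg fun s => pow_nonneg (kk_nonneg _ _) _, fun ε hε p => ?_⟩
  have e : ∀ s, kk ε s ^ 5 = ε⁻¹ ^ 5 * kk 1 (ε⁻¹ • s) ^ 5 := fun s => by
    have e1 : ‖s‖ ^ 2 + ε ^ 2 = ε ^ 2 * (‖ε⁻¹ • s‖ ^ 2 + 1 ^ 2) := by
      rw [norm_smul, norm_inv, Real.norm_of_nonneg hε.le]
      field_simp
    rw [← mul_pow, kk, kk, e1, Real.sqrt_mul (by positivity), Real.sqrt_sq hε.le, one_div, one_div,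
      mul_inv]
  simp only [e]
  refine ⟨((hg.comp_smul (inv_pos.2 hε).ne').const_mul _).comp_sub_left p, le_of_eq ?_⟩
  rw [integral_sub_left_eq_self (fun s => ε⁻¹ ^ 5 * kk 1 (ε⁻¹ • s) ^ 5), integral_const_mul,
    KerI_scale (fun s => kk 1 s ^ 5) hε]
  field_simp

theorem jj_int : ∃ C : ℝ, 0 ≤ C ∧ ∀ ε : ℝ, 0 < ε → ε ≤ 1 → ∀ p : E3,
    IntegrableOn (fun y => jj ε (p - y)) {y : E3 | |y 2| ≤ 4} ∧
      ∫ y in {y : E3 | |y 2| ≤ 4}, jj ε (p - y) ≤ C * ε ^ (15 / 8 : ℝ) := by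
  have g1 := KerI_ball (α := 23 / 8) (by norm_num)
  have g2 : Integrable fun t : ℝ => (1 + ‖t‖) ^ (-(3 / 2) : ℝ) :=
    integrable_one_add_norm (by norm_num)
  have g3 : Integrable ((Set.Icc (-4 : ℝ) 4).indicator fun _ => (8 : ℝ)) :=
    (integrableOn_const measure_Icc_lt_top.ne).integrable_indicator measurableSet_Icc
  have n3 : ∀ t, 0 ≤ (Set.Icc (-4 : ℝ) 4).indicator (fun _ => (8 : ℝ)) t :=
    Set.indicator_nonneg fun _ _ => by norm_num
  refine ⟨(∫ s, (Metric.ball (0 : E3) 1).indicator (fun s => ‖s‖ ^ (-(23 / 8) : ℝ)) s) +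
    (∫ t : ℝ, (1 + ‖t‖) ^ (-(3 / 2) : ℝ)) * (∫ t : ℝ, (1 + ‖t‖) ^ (-(3 / 2) : ℝ)) *
      ∫ t, (Set.Icc (-4 : ℝ) 4).indicator (fun _ => (8 : ℝ)) t,
    add_nonneg (integral_nonneg (KerI_ball_nonneg _))
      (mul_nonneg (mul_self_nonneg _) (integral_nonneg n3)), fun ε h0 h1 p => ?_⟩
  have g4 := KerI_prod (g2.comp_sub_left (p 0)) (g2.comp_sub_left (p 1)) g3
  have h := KerI_le (S := {y : E3 | |y 2| ≤ 4}) (f := fun y => jj ε (p - y))
    (measurableSet_le (by fun_prop) measurable_const)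
    ((jj_measurable ε).comp (measurable_const.sub measurable_id))
    (((g1.comp_sub_left p).add g4).const_mul (ε ^ (15 / 8 : ℝ))) (fun y => jj_nonneg _ _)
    (fun y => mul_nonneg (by positivity) (add_nonneg (KerI_ball_nonneg _ _)
      (mul_nonneg (by positivity) (n3 _)))) fun y hy => ?_
  · refine ⟨h.1, h.2.trans_eq ?_⟩
    rw [integral_const_mul, mul_comm]
    simp only [Pi.add_apply]
    rw [integral_add (g1.comp_sub_left p) g4, integral_sub_left_eq_self,
      integral_E3_prod (fun t => (1 + ‖p 0 - t‖) ^ (-(3 / 2) : ℝ))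
        (fun t => (1 + ‖p 1 - t‖) ^ (-(3 / 2) : ℝ)),
      integral_sub_left_eq_self (fun t : ℝ => (1 + ‖t‖) ^ (-(3 / 2) : ℝ)),
      integral_sub_left_eq_self (fun t : ℝ => (1 + ‖t‖) ^ (-(3 / 2) : ℝ))]
  · simp only [Pi.add_apply]
    rw [Set.indicator_of_mem (Set.mem_Icc.2 (abs_le.1 hy))]
    rcases lt_or_ge ‖p - y‖ 1 with h | h
    · rw [Set.indicator_of_mem (mem_ball_zero_iff.2 h)]
      exact (KerI_near h0 (norm_nonneg _)).trans
        (mul_le_mul_of_nonneg_left (le_add_of_nonneg_right (by positivity)) (by positivity))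
    · refine (min_le_right _ _).trans ?_
      rw [← mul_one_div]
      refine mul_le_mul ?_ ((KerI_far h).trans ((mul_comm _ _).trans_le
        (le_add_of_nonneg_left (KerI_ball_nonneg _ _)))) (by positivity) (by positivity)
      rw [← Real.rpow_two]
      exact Real.rpow_le_rpow_of_exponent_ge h0 h1 (by norm_num)

theorem pot_int : ∃ C : ℝ, 0 ≤ C ∧ ∀ S : Set E3, IsCompact S → ∀ p : E3,
    IntegrableOn (fun y => 1 / ‖p - y‖) S ∧ ∫ y in S, 1 / ‖p - y‖ ≤ C + volume.real S := by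
  have g1 := KerI_ball (α := 1) (by norm_num)
  refine ⟨_, integral_nonneg (μ := volume) (KerI_ball_nonneg 1), fun S hS p => ?_⟩
  have g2 : IntegrableOn (fun _ : E3 => (1 : ℝ)) S := integrableOn_const hS.measure_lt_top.ne
  have g3 := (g1.comp_sub_left p).integrableOn.add g2
  have h : ∀ y, 1 / ‖p - y‖ ≤
      (Metric.ball (0 : E3) 1).indicator (fun s => ‖s‖ ^ (-1 : ℝ)) (p - y) + 1 := fun y => by
    rcases lt_or_ge ‖p - y‖ 1 with h | h
    · rw [Set.indicator_of_mem (mem_ball_zero_iff.2 h), Real.rpow_neg_one, one_div]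
      linarith
    · exact (div_le_one_of_le₀ h (norm_nonneg _)).trans
        (le_add_of_nonneg_left (KerI_ball_nonneg _ _))
  have h1 : IntegrableOn (fun y => 1 / ‖p - y‖) S := g3.mono'
    (Measurable.aestronglyMeasurable (by fun_prop))
    (.of_forall fun y => (Real.norm_of_nonneg (by positivity)).trans_le (h y))
  refine ⟨h1, (integral_mono h1 g3 h).trans ?_⟩
  simp only [Pi.add_apply]
  rw [integral_add (g1.comp_sub_left p).integrableOn g2, setIntegral_const, smul_eq_mul, mul_one,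
    ← integral_sub_left_eq_self _ volume p]
  exact add_le_add_left (setIntegral_le_integral (g1.comp_sub_left p)
    (.of_forall fun y => KerI_ball_nonneg _ _)) _

theorem ball_inv_sq : ∃ C : ℝ, 0 ≤ C ∧ ∀ r : ℝ, 0 < r → ∀ c : E3,
    IntegrableOn (fun p => (1 / ‖p - c‖) ^ 2) (Metric.ball c r) ∧
      ∫ p in Metric.ball c r, (1 / ‖p - c‖) ^ 2 ≤ C * r := by
  have g1 := KerI_ball (α := 2) (by norm_num)
  refine ⟨_, integral_nonneg (μ := volume) (KerI_ball_nonneg 2), fun r hr c => ?_⟩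
  have h := KerI_le (S := Metric.ball c r) (f := fun p => (1 / ‖p - c‖) ^ 2) measurableSet_ball
    (by fun_prop) (((g1.comp_smul (inv_pos.2 hr).ne').const_mul (r⁻¹ ^ 2)).comp_sub_right c)
    (fun y => by positivity) (fun y => mul_nonneg (by positivity) (KerI_ball_nonneg _ _))
    fun y hy => le_of_eq ?_
  · refine ⟨h.1, h.2.trans_eq ?_⟩
    rw [integral_sub_right_eq_self (fun s => r⁻¹ ^ 2 *
      (Metric.ball (0 : E3) 1).indicator (fun s => ‖s‖ ^ (-2 : ℝ)) (r⁻¹ • s)), integral_const_mul,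
      KerI_scale _ hr]
    field_simp
  · have e : ‖r⁻¹ • (y - c)‖ = r⁻¹ * ‖y - c‖ := by
      rw [norm_smul, norm_inv, Real.norm_of_nonneg hr.le]
    rw [Set.indicator_of_mem (mem_ball_zero_iff.2 (by
      rw [e, inv_mul_lt_one₀ hr]
      exact mem_ball_iff_norm.1 hy)), e, Real.rpow_neg (by positivity), Real.rpow_two, mul_pow,
      mul_inv, mul_inv_cancel_left₀ (by positivity), one_div, inv_pow]

theorem slab_isCompact (M : ℕ) : IsCompact (slab M) := by
  refine Metric.isCompact_of_isClosed_isBounded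
    ((isClosed_le (by fun_prop) continuous_const).and
      ((isClosed_le (by fun_prop) continuous_const).and
        (isClosed_le (by fun_prop) continuous_const)))
    (isBounded_iff_forall_norm_le.2 ⟨2 * RR M + 3, fun p hp => ?_⟩)
  have h0 : (0 : ℝ) ≤ RR M := by positivity
  refine le_of_sq_le_sq ?_ (by positivity)
  rw [norm_E3_sq]
  nlinarith [sq_le_sq' (abs_le.1 hp.1).1 (abs_le.1 hp.1).2,
    sq_le_sq' (abs_le.1 hp.2.1).1 (abs_le.1 hp.2.1).2,
    sq_le_sq' (abs_le.1 hp.2.2).1 (abs_le.1 hp.2.2).2]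

theorem KerI_pot {σ : E3 → ℝ} (hσ : Continuous σ) {S : Set E3} (hS : IsCompact S) :
    ∃ B, ∀ p, IntegrableOn (fun y => σ y / ‖p - y‖) S ∧ ∫ y in S, ‖σ y / ‖p - y‖‖ ≤ B := by
  obtain ⟨C, -, hC⟩ := pot_int
  obtain ⟨Q, hQ0, hQ⟩ := (hS.image hσ).isBounded.exists_pos_norm_le
  refine ⟨Q * (C + volume.real S), fun p => ?_⟩
  have h1 : IntegrableOn (fun y => σ y / ‖p - y‖) S := by
    simpa only [mul_one_div] using (hC S hS p).1.continuousOn_mul hσ.continuousOn hS
  refine ⟨h1, le_trans ?_ (mul_le_mul_of_nonneg_left (hC S hS p).2 hQ0.le)⟩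
  rw [← integral_const_mul]
  refine setIntegral_mono_on h1.norm ((hC S hS p).1.const_mul Q) hS.measurableSet fun y hy => ?_
  rw [norm_div, norm_norm, mul_one_div]
  exact div_le_div_of_nonneg_right (hQ _ ⟨y, hy, rfl⟩) (norm_nonneg _)

theorem KerI_qq (M : ℕ) {q1 : E3 → ℝ} (hq : Continuous q1) : Continuous (qq M q1) := by
  unfold qq
  fun_prop

theorem Vc_integrand (M : ℕ) {q1 : E3 → ℝ} (hq : Continuous q1) (p : E3) :
    IntegrableOn (fun y => qq M q1 y / ‖p - y‖) (slab M) := by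
  obtain ⟨B, hB⟩ := KerI_pot (KerI_qq M hq) (slab_isCompact M)
  exact (hB p).1

theorem Vc_meas (M : ℕ) {q1 : E3 → ℝ} (hq : Continuous q1) : StronglyMeasurable (Vc M q1) := by
  exact StronglyMeasurable.integral_prod_right (f := fun p y => qq M q1 y / ‖p - y‖)
    (((KerI_qq M hq).measurable.comp measurable_snd).div
      (measurable_fst.sub measurable_snd).norm).stronglyMeasurable

theorem Vc_bdd (M : ℕ) {q1 : E3 → ℝ} (hq : Continuous q1) : ∃ B, ∀ p, |Vc M q1 p| ≤ B := by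
  obtain ⟨B, hB⟩ := KerI_pot (KerI_qq M hq) (slab_isCompact M)
  exact ⟨B, fun p => (norm_integral_le_integral_norm _).trans (hB p).2⟩

theorem Vc_int (M : ℕ) {q1 : E3 → ℝ} (hq : Continuous q1) {ρ : E3 → ℝ} (hρ : Continuous ρ)
    (hc : HasCompactSupport ρ) : Integrable fun p => Vc M q1 p * ρ p := by
  obtain ⟨B, hB⟩ := Vc_bdd M hq
  exact (hρ.integrable_of_hasCompactSupport hc).bdd_mul (Vc_meas M hq).aestronglyMeasurable
    (.of_forall hB)

/-- Fubini for the Coulomb kernel. -/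
theorem pair_int {ρ σ : E3 → ℝ} (hρ : Continuous ρ) (hc : HasCompactSupport ρ) {S : Set E3}
    (hS : IsCompact S) (hσ : Continuous σ) :
    Integrable (fun z : E3 × E3 => ρ z.1 * σ z.2 / ‖z.1 - z.2‖) (volume.prod (volume.restrict S)) := by
  obtain ⟨B, hB⟩ := KerI_pot hσ hS
  have hm : Measurable fun z : E3 × E3 => ρ z.1 * σ z.2 / ‖z.1 - z.2‖ := by fun_prop
  rw [integrable_prod_iff hm.aestronglyMeasurable]
  refine ⟨.of_forall fun x => ?_, ((hρ.integrable_of_hasCompactSupport hc).norm.mul_const B).mono'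
    hm.aestronglyMeasurable.norm.integral_prod_right' (.of_forall fun x => ?_)⟩
  · simpa only [mul_div_assoc] using (hB x).1.const_mul (ρ x)
  · rw [Real.norm_of_nonneg (integral_nonneg fun _ => norm_nonneg _)]
    simp only [mul_div_assoc, norm_mul, integral_const_mul]
    exact mul_le_mul_of_nonneg_left (hB x).2 (norm_nonneg _)

theorem AA_int (M : ℕ) (l : ℝ) (q : ℕ → ℕ → ℕ → ℚ) {ρ : E3 → ℝ} (hρ : Continuous ρ)
    (hc : HasCompactSupport ρ) : Integrable fun p => AA M l q p * ρ p := by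
  simp only [AA, coul, Finset.sum_mul, div_mul_eq_mul_div, mul_div_assoc _ (ρ _)]
  exact integrable_finsetSum _ fun n _ => (integrable_inv_norm hρ hc _).const_mul _

theorem AA_meas (M : ℕ) (l : ℝ) (q : ℕ → ℕ → ℕ → ℚ) : Measurable (AA M l q) := by
  exact Finset.measurable_sum _ fun n _ => by fun_prop

theorem Sing_meas (M : ℕ) (l : ℝ) (q : ℕ → ℕ → ℕ → ℚ) : Measurable (Sing M l q) := by
  exact Finset.measurable_sum _ fun n _ =>
    Measurable.ite (measurableSet_lt (by fun_prop) measurable_const) (by fun_prop) measurable_const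

theorem Sing_int (M : ℕ) (l : ℝ) (q : ℕ → ℕ → ℕ → ℚ) {ρ : E3 → ℝ} (hρ : Continuous ρ)
    (hc : HasCompactSupport ρ) : Integrable fun p => Sing M l q p * ρ p := by
  simp only [Sing, Finset.sum_mul, ite_mul, zero_mul, div_mul_eq_mul_div, mul_div_assoc _ (ρ _)]
  exact integrable_finsetSum _ fun n _ =>
    ((integrable_inv_norm hρ hc _).const_mul _).indicator (s := {p | ‖p - node M n‖ < hh M / 4})
      (measurableSet_lt (by fun_prop) measurable_const)

end Vale.Agent.P370
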