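import Vale.Agent.P370.Norms
import Vale.Agent.P370.KerI

/-! Upper bound for the interaction of two modes. -/

namespace Vale.Agent.P370

open MeasureTheory Filter
open scoped Classical

namespace IntU

theorem mul_split {r r' A A' e e' : ℝ} (h0 : 0 ≤ r) (h0' : 0 ≤ r') (hA : 0 ≤ A) (hA' : 0 ≤ A')
    (he : 0 ≤ e) (he' : 0 ≤ e') (h : r ≤ A + e) (h' : r' ≤ A' + e') :
    r * r' ≤ A * A' + r * e' + e * r' := by
  rcases le_total r' A' with h1 | h1
  · have h2 := mul_le_mul_of_nonneg_right h h0'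
    have h3 := mul_le_mul_of_nonneg_left h1 hA
    have h4 := mul_nonneg h0 he'
    linarith
  · have h2 := mul_le_mul_of_nonneg_left h' h0
    have h3 := mul_le_mul_of_nonneg_right h hA'
    have h4 := mul_le_mul_of_nonneg_left h1 he
    linarith

theorem int_add3 {f g h : E3 → ℝ} (hf : Integrable f) (hg : Integrable g) (hh : Integrable h) :
    ∫ a, (f + g + h) a = (∫ a, f a) + (∫ a, g a) + ∫ a, h a := by
  rw [integral_add' (hf.add hg) hh, integral_add' hf hg]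

theorem err_le {ρ : E3 → ℝ} {B : Set E3} {K : ℝ} (hB : IsCompact B)
    (hK : ∀ p : E3, ∫ y in B, 1 / ‖p - y‖ ≤ K) (hρ : Continuous ρ) (hc : HasCompactSupport ρ)
    (h0 : ∀ x, 0 ≤ ρ x) :
    IntegrableOn (fun x => ∫ y, ρ y / ‖x - y‖) B ∧
      ∫ x in B, ∫ y, ρ y / ‖x - y‖ ≤ K * ∫ y, ρ y := by
  have hp := pair_int hρ hc hB (continuous_const (y := (1 : ℝ)))
  have e : (fun x : E3 => ∫ y, ρ y / ‖x - y‖) = fun x => ∫ y, ρ y * 1 / ‖y - x‖ := by
    funext x
    simp only [mul_one, norm_sub_rev x]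
  rw [e]
  refine ⟨hp.integral_prod_right, ?_⟩
  rw [← integral_integral_swap (f := fun y x : E3 => ρ y * 1 / ‖y - x‖) hp, ← integral_const_mul]
  refine integral_mono hp.integral_prod_left
    ((hρ.integrable_of_hasCompactSupport hc).const_mul K) fun y => ?_
  simp only [mul_div_assoc, integral_const_mul]
  rw [mul_comm K]
  exact mul_le_mul_of_nonneg_left (hK y) (h0 y)

theorem abs_le {Sa Sb : Finset ℕ} {P P' : ℕ → E3 → ℝ} {w : ℕ → ℕ → ℝ} {ρ ρ' : E3 → ℝ}
    {B : Set E3} {m e K : ℝ} (hB : IsCompact B)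
    (hK : ∀ p : E3, IntegrableOn (fun y => 1 / ‖p - y‖) B ∧ ∫ y in B, 1 / ‖p - y‖ ≤ K)
    (he : 0 ≤ e) (hm : 0 ≤ m)
    (hP : ∀ c, (∀ x, 0 ≤ P c x) ∧ Integrable (P c) ∧ ∫ x, P c x ≤ m)
    (hP' : ∀ c, (∀ x, 0 ≤ P' c x) ∧ Integrable (P' c) ∧ ∫ x, P' c x ≤ m)
    (hw0 : ∀ c c', 0 ≤ w c c')
    (hw : ∀ c c' x y, P c x * P' c' y / ‖x - y‖ ≤ P c x * P' c' y * w c c')
    (hρ : Continuous ρ) (hc : HasCompactSupport ρ) (h0 : ∀ x, 0 ≤ ρ x) (h2 : ∫ x, ρ x ≤ 2)
    (hρ' : Continuous ρ') (hc' : HasCompactSupport ρ') (h0' : ∀ x, 0 ≤ ρ' x)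
    (h2' : ∫ x, ρ' x ≤ 2)
    (hle : ∀ x, ρ x ≤ ∑ c ∈ Sa, P c x + B.indicator (fun _ => e) x)
    (hle' : ∀ x, ρ' x ≤ ∑ c ∈ Sb, P' c x + B.indicator (fun _ => e) x) :
    ∫ x, ∫ y, ρ x * ρ' y / ‖x - y‖ ≤ m ^ 2 * ∑ c ∈ Sa, ∑ c' ∈ Sb, w c c' + 4 * e * K := by
  have hBm := hB.measurableSet
  have hK0 : 0 ≤ K := (integral_nonneg fun y => by positivity).trans (hK 0).2
  have hind : ∀ x, 0 ≤ B.indicator (fun _ => e) x := fun x =>
    Set.indicator_nonneg (fun _ _ => he) x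
  have hpt : ∀ x y, ρ x * ρ' y / ‖x - y‖ ≤
      ∑ c ∈ Sa, ∑ c' ∈ Sb, P c x * w c c' * P' c' y +
        ρ x * e * B.indicator (fun y => 1 / ‖x - y‖) y +
        B.indicator (fun _ => e) x * (ρ' y / ‖x - y‖) := by
    intro x y
    have h1 := mul_split (h0 x) (h0' y) (Finset.sum_nonneg fun c _ => (hP c).1 x)
      (Finset.sum_nonneg fun c _ => (hP' c).1 y) (hind x) (hind y) (hle x) (hle' y)
    refine (div_le_div_of_nonneg_right h1 (norm_nonneg (x - y))).trans ?_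
    rw [add_div, add_div, Finset.sum_mul_sum, Finset.sum_div]
    refine add_le_add (add_le_add (Finset.sum_le_sum fun c _ => ?_) (le_of_eq ?_))
      (le_of_eq (mul_div_assoc _ _ _))
    · rw [Finset.sum_div]
      exact Finset.sum_le_sum fun c' _ => (hw c c' x y).trans_eq (by ring)
    · by_cases hy : y ∈ B
      · simp only [Set.indicator_of_mem hy]
        ring
      · simp only [Set.indicator_of_notMem hy]
        ring
  have hin : ∀ x, ∫ y, ρ x * ρ' y / ‖x - y‖ ≤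
      ∑ c ∈ Sa, (∑ c' ∈ Sb, w c c' * m) * P c x + e * K * ρ x +
        B.indicator (fun x => e * ∫ y, ρ' y / ‖x - y‖) x := by
    intro x
    have i1 : Integrable fun y => ∑ c ∈ Sa, ∑ c' ∈ Sb, P c x * w c c' * P' c' y :=
      integrable_finsetSum _ fun c _ => integrable_finsetSum _ fun c' _ =>
        (hP' c').2.1.const_mul _
    have i2 : Integrable fun y => ρ x * e * B.indicator (fun y => 1 / ‖x - y‖) y :=
      ((integrable_indicator_iff hBm).2 (hK x).1).const_mul _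
    have i3 : Integrable fun y => B.indicator (fun _ => e) x * (ρ' y / ‖x - y‖) := by
      refine Integrable.const_mul ?_ _
      simpa only [norm_sub_rev x] using integrable_inv_norm hρ' hc' x
    refine (integral_mono_of_nonneg (ae_of_all _ fun y =>
      div_nonneg (mul_nonneg (h0 x) (h0' y)) (norm_nonneg _)) ((i1.add i2).add i3)
      (ae_of_all _ (hpt x))).trans ?_
    rw [int_add3 i1 i2 i3, integral_const_mul, integral_const_mul,
      integral_indicator hBm, integral_finsetSum _ fun c _ => integrable_finsetSum _ fun c' _ =>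
        (hP' c').2.1.const_mul _]
    refine add_le_add (add_le_add (Finset.sum_le_sum fun c _ => ?_) ?_) (le_of_eq ?_)
    · rw [integral_finsetSum _ fun c' _ => (hP' c').2.1.const_mul _, Finset.sum_mul]
      refine Finset.sum_le_sum fun c' _ => ?_
      rw [integral_const_mul]
      exact (mul_le_mul_of_nonneg_left (hP' c').2.2
        (mul_nonneg ((hP c).1 x) (hw0 c c'))).trans_eq (by ring)
    · exact (mul_le_mul_of_nonneg_left (hK x).2 (mul_nonneg (h0 x) he)).trans_eq (by ring)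
    · by_cases hx : x ∈ B
      · simp only [Set.indicator_of_mem hx]
      · simp only [Set.indicator_of_notMem hx, zero_mul]
  obtain ⟨j3, k3⟩ := err_le hB (fun p => (hK p).2) hρ' hc' h0'
  have i1 : Integrable fun x => ∑ c ∈ Sa, (∑ c' ∈ Sb, w c c' * m) * P c x :=
    integrable_finsetSum _ fun c _ => (hP c).2.1.const_mul _
  have i2 : Integrable fun x => e * K * ρ x :=
    (hρ.integrable_of_hasCompactSupport hc).const_mul _
  have i3 : Integrable fun x => B.indicator (fun x => e * ∫ y, ρ' y / ‖x - y‖) x :=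
    (integrable_indicator_iff hBm).2 (j3.const_mul e)
  refine (integral_mono_of_nonneg (ae_of_all _ fun x => integral_nonneg fun y =>
    div_nonneg (mul_nonneg (h0 x) (h0' y)) (norm_nonneg _)) ((i1.add i2).add i3)
    (ae_of_all _ hin)).trans ?_
  rw [int_add3 i1 i2 i3, integral_const_mul, integral_indicator hBm, integral_const_mul,
    integral_finsetSum _ fun c _ => (hP c).2.1.const_mul _]
  have a1 : ∑ c ∈ Sa, ∫ x, (∑ c' ∈ Sb, w c c' * m) * P c x ≤
      m ^ 2 * ∑ c ∈ Sa, ∑ c' ∈ Sb, w c c' := by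
    rw [Finset.mul_sum]
    refine Finset.sum_le_sum fun c _ => ?_
    rw [integral_const_mul, ← Finset.sum_mul]
    exact (mul_le_mul_of_nonneg_left (hP c).2.2
      (mul_nonneg (Finset.sum_nonneg fun c' _ => hw0 c c') hm)).trans_eq (by ring)
  have a2 := mul_le_mul_of_nonneg_left h2 (mul_nonneg he hK0)
  have a3 := mul_le_mul_of_nonneg_left (k3.trans (mul_le_mul_of_nonneg_left h2' hK0)) he
  linarith

theorem num_le {t u p S v n R w E z : ℝ} (ht0 : 0 < t) (ht : t ≤ 1 / 100) (hu : 20 * t ≤ u)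
    (hp : 0 < p) (hS : 0 < S) (hv : 0 ≤ v) (hn : 1 ≤ n) (hR : R ≤ t * S) (hw : 0 ≤ w)
    (hz : (2 * w + E) * (p ^ 2 * S) ≤ z) :
    ((1 + t) ^ 2 / p) ^ 2 * (v * n * (1 / (S * n - R)) + p * (p * w)) + E ≤
      1 / (p ^ 2 * S) * ((1 + u) * v + z) := by
  have a1 : (1 + t) ^ 2 ≤ 1 + 9 / 4 * t := by nlinarith
  have a2 : ((1 + t) ^ 2) ^ 2 ≤ 1 + 5 * t :=
    (pow_le_pow_left₀ (by positivity) a1 2).trans (by nlinarith)
  have a3 : 1 + 5 * t ≤ (1 + u) * (1 - t) := by nlinarith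
  have b1 : t * S ≤ t * S * n := le_mul_of_one_le_right (by positivity) hn
  have b2 : (1 - t) * (S * n) ≤ S * n - R := by linarith
  have b3 : 0 < (1 - t) * (S * n) := mul_pos (by linarith) (by positivity)
  have b4 : 0 < S * n - R := b3.trans_le b2
  have c1 : ((1 + t) ^ 2) ^ 2 * (n * (1 / (S * n - R))) ≤ (1 + u) / S := by
    rw [mul_one_div, ← mul_div_assoc, div_le_div_iff₀ b4 hS]
    have d1 := mul_le_mul_of_nonneg_right (a2.trans a3) (show 0 ≤ S * n by positivity)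
    have d2 := mul_le_mul_of_nonneg_left b2 (show 0 ≤ 1 + u by linarith)
    linarith
  have c2 : ((1 + t) ^ 2) ^ 2 * w + E ≤ z / (p ^ 2 * S) := by
    rw [le_div_iff₀ (by positivity)]
    refine le_trans (mul_le_mul_of_nonneg_right ?_ (by positivity)) hz
    have d1 := mul_le_mul_of_nonneg_right (show ((1 + t) ^ 2) ^ 2 ≤ 2 by linarith) hw
    linarith
  have c3 := mul_le_mul_of_nonneg_left c1 (show 0 ≤ v / p ^ 2 by positivity)
  have e1 : ((1 + t) ^ 2 / p) ^ 2 * (v * n * (1 / (S * n - R)) + p * (p * w)) =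
      v / p ^ 2 * (((1 + t) ^ 2) ^ 2 * (n * (1 / (S * n - R)))) + ((1 + t) ^ 2) ^ 2 * w := by
    field_simp
  have e2 : 1 / (p ^ 2 * S) * ((1 + u) * v + z) = v / p ^ 2 * ((1 + u) / S) + z / (p ^ 2 * S) := by
    field_simp
  rw [e1, e2]
  linarith

theorem coord_le (x y : E3) (k : Fin 3) : |x k - y k| ≤ ‖x - y‖ := by
  simpa using PiLp.norm_apply_le (x - y) k

theorem dist_le {M : ℕ} {L : Lay} {a b c c' : ℕ} {x y : E3}
    (hS : 0 < (SS M : ℝ) * (a - b + (b - a) : ℕ) - 2 * rr M)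
    (hD : 2 * ((LL M : ℝ) + 2 * rr M) ≤ D0 M) (hD0 : (0 : ℝ) < D0 M)
    (h1 : portF M L a c (x 0) (x 1) ≠ 0) (h2 : portF M L b c' (y 0) (y 1) ≠ 0) :
    1 / ‖x - y‖ ≤ (if c = c' then 1 / ((SS M : ℝ) * (a - b + (b - a) : ℕ) - 2 * rr M) else 0) +
      2 / D0 M := by
  obtain ⟨p1, p2, p3⟩ := run_supp h1
  obtain ⟨q1, q2, q3⟩ := run_supp h2
  split_ifs with h
  · refine le_add_of_le_of_nonneg (one_div_le_one_div_of_le hS (le_trans ?_ (coord_le x y 1)))
      (by positivity)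
    rw [abs_lt] at p3 q3
    simp only [row, Nat.cast_mul, Nat.cast_add, Nat.cast_one] at p3 q3
    rcases le_total a b with hab | hab
    · rw [Nat.sub_eq_zero_of_le hab, zero_add, Nat.cast_sub hab]
      refine le_trans ?_ (neg_le_abs _)
      linarith [p3.1, p3.2, q3.1, q3.2]
    · rw [Nat.sub_eq_zero_of_le hab, add_zero, Nat.cast_sub hab]
      refine le_trans ?_ (le_abs_self _)
      linarith [p3.1, p3.2, q3.1, q3.2]
  · rw [zero_add, ← one_div_div (D0 M : ℝ) 2]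
    refine one_div_le_one_div_of_le (by positivity) (le_trans ?_ (coord_le x y 0))
    simp only [Nat.cast_mul, Nat.cast_add] at p1 p2 q1 q2
    rcases lt_or_gt_of_ne h with hc | hc
    · have h3 : (c : ℝ) + 1 ≤ c' := by exact_mod_cast hc
      have h4 := mul_le_mul_of_nonneg_left h3 hD0.le
      refine le_trans ?_ (neg_le_abs _)
      linarith
    · have h3 : (c' : ℝ) + 1 ≤ c := by exact_mod_cast hc
      have h4 := mul_le_mul_of_nonneg_left h3 hD0.le
      refine le_trans ?_ (le_abs_self _)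
      linarith

theorem sum_w (Sa Sb : Finset ℕ) (w1 w2 : ℝ) :
    ∑ c ∈ Sa, ∑ c' ∈ Sb, ((if c = c' then w1 else 0) + w2) =
      (Sa.filter fun c => c ∈ Sb).card * w1 + Sa.card * (Sb.card * w2) := by
  simp only [Finset.sum_add_distrib, Finset.sum_ite_eq, Finset.sum_const, nsmul_eq_mul]
  rw [← Finset.sum_filter, Finset.sum_const, nsmul_eq_mul]

theorem rr_le {M : ℕ} (hM : 100 ≤ M) {k : ℕ} (hk : 8 ≤ k) :
    2 * (rr M : ℝ) ≤ ip M 6 * (M : ℝ) ^ k := by
  have h1 : (100 : ℝ) ≤ M := by exact_mod_cast hM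
  have h2 : (M : ℝ) ^ 8 ≤ (M : ℝ) ^ k := pow_le_pow_right₀ (by linarith) hk
  have h3 : (ip M 6 : ℝ) * (M : ℝ) ^ 8 = (M : ℝ) ^ 2 := by
    unfold ip
    field_simp
  have h4 := mul_le_mul_of_nonneg_left h2 (ip_pos (M := M) (by omega) 6).le
  have h5 : (rr M : ℝ) = 2 * M + 1 := by simp [rr]
  nlinarith

theorem rho_prop {M : ℕ} (hM : 2 ≤ M) (L : Lay) (Pi : ℕ) (a : Fin L.K) :
    Continuous (fun x => th M L Pi x ^ 2 * ff M L a x) ∧
      HasCompactSupport (fun x => th M L Pi x ^ 2 * ff M L a x) ∧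
      ∀ x, 0 ≤ th M L Pi x ^ 2 * ff M L a x := by
  obtain ⟨h1, h2⟩ := th_sm M L Pi
  refine ⟨(h1.continuous.pow 2).mul (ff_contDiff M L a).continuous, ?_,
    fun x => mul_nonneg (sq_nonneg _) (ff_nonneg hM L a x)⟩
  refine h2.mono fun x hx h0 => hx ?_
  simp only [h0]
  ring

end IntU

theorem int_up : ∀ᶠ M : ℕ in atTop, ∀ (L : Lay) (Pi : ℕ) (v : ℕ → ℕ → ℕ), L.OK M Pi v →
    ∀ l : ℝ, 0 ≤ l → ∀ a b : Fin L.K, a ≠ b →
      ∫ x, ∫ y, th M L Pi x ^ 2 * ff M L a x * (th M L Pi y ^ 2 * ff M L b y) * wfull l x y ≤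
        l / ((Pi : ℝ) ^ 2 * SS M) * ((1 + ip M 4) * v a.val b.val + ip M 3) := by
  obtain ⟨C, hC0, hC⟩ := pot_int
  filter_upwards [dens_le, mass_le, ev_le C, eventually_ge_atTop 100] with M hd hm hCM hM
  intro L Pi v hOK l hl a b hab
  have hM1 : 1 ≤ M := by omega
  have hM2 : 2 ≤ M := by omega
  have hX : (100 : ℝ) ≤ M := by exact_mod_cast hM
  have hX1 : (1 : ℝ) ≤ M := by linarith
  have eLL : (LL M : ℝ) = (M : ℝ) ^ 20 := by simp [LL]
  have eSS : (SS M : ℝ) = (M : ℝ) ^ 40 := by simp [SS]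
  have eD0 : (D0 M : ℝ) = (M : ℝ) ^ 50 := by simp [D0]
  have eDD : (DD M : ℝ) = (M : ℝ) ^ 55 := by simp [DD]
  have hPi : (0 : ℝ) < Pi := by
    have : (M : ℝ) ≤ Pi := by exact_mod_cast hOK.Pi_ge
    linarith
  have hPi3 : (Pi : ℝ) ≤ (M : ℝ) ^ 3 := by exact_mod_cast hOK.Pi_le
  have ht0 := ip_pos hM1 6
  have hu : 20 * (ip M 6 : ℝ) ≤ ip M 4 := by
    simpa using ip_absorb hM1 (C := 20) (by linarith) (j := 0) (k := 6) (k' := 4) (by norm_num)
  have ht : (ip M 6 : ℝ) ≤ 1 / 100 := by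
    have h1 := ip_absorb hM1 (C := 100) hX (j := 0) (k := 6) (k' := 0) (by norm_num)
    have h2 : (ip M 0 : ℝ) = 1 := by simp [ip]
    rw [pow_zero, mul_one, h2] at h1
    linarith
  have h4 : (ip M 4 : ℝ) ≤ 1 := by simpa [ip] using ip_anti hM1 (Nat.zero_le 4)
  have hRL : 2 * (rr M : ℝ) ≤ ip M 6 * LL M := eLL ▸ IntU.rr_le hM (by norm_num)
  have hRS : 2 * (rr M : ℝ) ≤ ip M 6 * SS M := eSS ▸ IntU.rr_le hM (by norm_num)
  have hL0 : (0 : ℝ) < LL M := by rw [eLL]; positivity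
  have hS0 : (0 : ℝ) < SS M := by rw [eSS]; positivity
  have hD0 : (0 : ℝ) < D0 M := by rw [eD0]; positivity
  have hn : (1 : ℝ) ≤ (a.val - b.val + (b.val - a.val) : ℕ) := by
    have : a.val ≠ b.val := fun h => hab (Fin.ext h)
    exact_mod_cast (show 1 ≤ a.val - b.val + (b.val - a.val) by omega)
  have hS : 0 < (SS M : ℝ) * (a.val - b.val + (b.val - a.val) : ℕ) - 2 * rr M := by
    have h1 := mul_le_mul_of_nonneg_left hn hS0.le
    have h2 := mul_le_mul_of_nonneg_right ht hS0.le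
    linarith
  have hD : 2 * ((LL M : ℝ) + 2 * rr M) ≤ D0 M := by
    have h1 := mul_le_mul_of_nonneg_right ht hL0.le
    have h2 : (M : ℝ) ^ 21 ≤ (M : ℝ) ^ 50 := pow_le_pow_right₀ hX1 (by norm_num)
    have h3 := mul_le_mul_of_nonneg_left hX hL0.le
    rw [pow_succ, ← eLL, ← eD0] at h2
    linarith
  have hn0 := hOK.one_le_n0sq hM2
  have hκ : (0 : ℝ) ≤ (1 + ip M 6) / n0sq M Pi := div_nonneg (by linarith) (by linarith)
  have hP : ∀ (a c : ℕ), (∀ x : E3, 0 ≤ (1 + ip M 6) / n0sq M Pi *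
        (portF M L a c (x 0) (x 1) * (gam M (x 2) * chz (x 2))) ^ 2) ∧
      Integrable (fun x : E3 => (1 + ip M 6) / n0sq M Pi *
        (portF M L a c (x 0) (x 1) * (gam M (x 2) * chz (x 2))) ^ 2) ∧
      ∫ x : E3, (1 + ip M 6) / n0sq M Pi *
        (portF M L a c (x 0) (x 1) * (gam M (x 2) * chz (x 2))) ^ 2 ≤
        (1 + ip M 6) ^ 2 / (Pi : ℝ) := by
    intro a c
    obtain ⟨h1, -, h3⟩ := port_mass hM2 L a c
    refine ⟨fun x => mul_nonneg hκ (sq_nonneg _), h1.const_mul _, ?_⟩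
    rw [integral_const_mul]
    refine (mul_le_mul_of_nonneg_left h3 hκ).trans ?_
    have e : n0sq M Pi = Pi * (LL M * (ginf M ^ 2 * beta M * gam0 M)) := by
      unfold n0sq
      ring
    have hG : 0 ≤ (ginf M : ℝ) ^ 2 * beta M * gam0 M :=
      mul_nonneg (mul_nonneg (sq_nonneg _) (integral_nonneg fun u => sq_nonneg _))
        (integral_nonneg fun u => sq_nonneg _)
    rw [div_mul_eq_mul_div, div_le_div_iff₀ (by linarith) hPi, e]
    have h5 : (LL M : ℝ) + 2 * rr M ≤ (1 + ip M 6) * LL M := by linarith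
    have h6 := mul_le_mul_of_nonneg_right h5
      (mul_nonneg (mul_nonneg hG hPi.le) (show (0 : ℝ) ≤ 1 + ip M 6 by linarith))
    linarith
  obtain ⟨r1, r2, r3⟩ := IntU.rho_prop hM2 L Pi a
  obtain ⟨s1, s2, s3⟩ := IntU.rho_prop hM2 L Pi b
  have hle : ∀ (a : Fin L.K) (x : E3), th M L Pi x ^ 2 * ff M L a x ≤
      ∑ c ∈ (Finset.range (NC M)).filter fun c => L.has a.val c = true,
        (1 + ip M 6) / n0sq M Pi *
          (portF M L a.val c (x 0) (x 1) * (gam M (x 2) * chz (x 2))) ^ 2 +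
      (box M 2).indicator (fun _ => ip M 170) x := by
    intro a x
    rw [← Finset.mul_sum, Finset.sum_filter]
    exact hd L Pi v hOK a x
  have key := IntU.abs_le (box_isCompact M 2) (hC _ (box_isCompact M 2)) (ip_pos hM1 170).le
    (div_nonneg (sq_nonneg _) hPi.le) (hP a.val) (hP b.val)
    (w := fun c c' => (if c = c' then
      1 / ((SS M : ℝ) * (a.val - b.val + (b.val - a.val) : ℕ) - 2 * rr M) else 0) + 2 / D0 M)
    (fun c c' => by split_ifs <;> positivity)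
    (fun c c' x y => by
      by_cases h1 : portF M L a.val c (x 0) (x 1) = 0
      · simp [h1]
      by_cases h2 : portF M L b.val c' (y 0) (y 1) = 0
      · simp [h2]
      rw [div_eq_mul_one_div]
      exact mul_le_mul_of_nonneg_left (IntU.dist_le hS hD hD0 h1 h2)
        (mul_nonneg ((hP a.val c).1 x) ((hP b.val c').1 y)))
    r1 r2 r3 ((hm L Pi v hOK a).1.trans (by linarith)) s1 s2 s3
    ((hm L Pi v hOK b).1.trans (by linarith)) (hle a) (hle b)
  have hcnt : (((Finset.range (NC M)).filter fun c => L.has a.val c = true).filter fun c =>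
      c ∈ (Finset.range (NC M)).filter fun c => L.has b.val c = true).card =
      v a.val b.val * (a.val - b.val + (b.val - a.val)) := by
    rw [← hOK.cnt2 a.val b.val a.2 b.2 fun h => hab (Fin.ext h), Finset.filter_filter]
    refine congrArg _ (Finset.filter_congr fun c hc => ?_)
    rw [Finset.mem_filter, and_iff_right hc]
  rw [IntU.sum_w, hcnt, hOK.cnt a.val a.2, hOK.cnt b.val b.2, Nat.cast_mul,
    box_volume M (by norm_num)] at key
  have hz : (2 * (2 / (D0 M : ℝ)) + 4 * ip M 170 * (C + (DD M : ℝ) ^ 2 * (2 * 2))) *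
      ((Pi : ℝ) ^ 2 * SS M) ≤ ip M 3 := by
    have h1 : (Pi : ℝ) ^ 2 * SS M ≤ (M : ℝ) ^ 46 := by
      rw [eSS, show 46 = 3 * 2 + 40 from rfl, pow_add, pow_mul]
      exact mul_le_mul_of_nonneg_right (pow_le_pow_left₀ hPi.le hPi3 2) (by positivity)
    have h2 : 2 / (D0 M : ℝ) = 2 * ip M 50 := by rw [eD0, ip, div_eq_mul_inv]
    have h3 : (DD M : ℝ) ^ 2 = (M : ℝ) ^ 110 := by rw [eDD, ← pow_mul]
    have h5 : C ≤ (M : ℝ) ^ 110 := hCM.trans (le_self_pow₀ hX1 (by norm_num))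
    have h6 := ip_absorb hM1 (C := 20) (by linarith) (j := 110) (k := 170) (k' := 50)
      (by norm_num)
    have h7 := mul_le_mul_of_nonneg_left h5 (ip_pos hM1 170).le
    have h8 : 2 * (2 / (D0 M : ℝ)) + 4 * ip M 170 * (C + (DD M : ℝ) ^ 2 * (2 * 2)) ≤
        5 * ip M 50 := by
      rw [h2, h3]
      linarith
    have h9 := ip_absorb hM1 (C := 5) (by linarith) (j := 46) (k := 50) (k' := 3) (by norm_num)
    have h10 := mul_le_mul h8 h1 (by positivity)
      (mul_nonneg (by norm_num) (ip_pos hM1 50).le)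
    linarith
  have fin := key.trans (IntU.num_le ht0 ht hu hPi hS0 (Nat.cast_nonneg _) hn hRS
    (by positivity) hz)
  have e : ∀ x y : E3, th M L Pi x ^ 2 * ff M L a x * (th M L Pi y ^ 2 * ff M L b y) *
      wfull l x y = l * (th M L Pi x ^ 2 * ff M L a x * (th M L Pi y ^ 2 * ff M L b y) /
        ‖x - y‖) := fun x y => by
    unfold wfull
    ring
  simp only [e, integral_const_mul]
  exact (mul_le_mul_of_nonneg_left fin hl).trans_eq (by ring)

end Vale.Agent.P370
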