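import Vale.Agent.P370.CDefs

/-! One-dimensional kernels. -/

namespace Vale.Agent.P370

open MeasureTheory Filter
open scoped Classical

theorem ker_pow_contDiff (n : ℕ) : ContDiff ℝ n (fun u : ℝ => max u 0 ^ (n + 1)) := by
  induction n with
  | zero =>
    simp only [zero_add, pow_one]
    exact contDiff_zero.2 (continuous_id.max continuous_const)
  | succ n ih =>
    have hd : ∀ x : ℝ, HasDerivAt (fun u : ℝ => max u 0 ^ (n + 1 + 1))
        (((n + 1 + 1 : ℕ) : ℝ) * max x 0 ^ (n + 1)) x := by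
      intro x
      refine hasDerivAt_of_hasDerivAt_of_ne' (x := 0)
        (g := fun x : ℝ => ((n + 1 + 1 : ℕ) : ℝ) * max x 0 ^ (n + 1)) ?_ ?_ ?_ x
      · intro y hy
        rcases lt_or_gt_of_ne hy with h | h
        · have he : (fun u : ℝ => max u 0 ^ (n + 1 + 1)) =ᶠ[nhds y] fun _ => (0 : ℝ) := by
            filter_upwards [gt_mem_nhds h] with u hu
            rw [max_eq_right hu.le]; simp
          have h0 : ((n + 1 + 1 : ℕ) : ℝ) * max y 0 ^ (n + 1) = 0 := by
            rw [max_eq_right h.le]; simp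
          rw [h0]
          exact (hasDerivAt_const y (0 : ℝ)).congr_of_eventuallyEq he
        · have he : (fun u : ℝ => max u 0 ^ (n + 1 + 1)) =ᶠ[nhds y] fun u => u ^ (n + 1 + 1) := by
            filter_upwards [lt_mem_nhds h] with u hu
            rw [max_eq_left hu.le]
          rw [max_eq_left h.le]
          exact (hasDerivAt_pow (n + 1 + 1) y).congr_of_eventuallyEq he
      · exact ((continuous_id.max continuous_const).pow _).continuousAt
      · exact (continuous_const.mul ((continuous_id.max continuous_const).pow _)).continuousAt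
    have hder : deriv (fun u : ℝ => max u 0 ^ (n + 1 + 1)) =
        fun x => ((n + 1 + 1 : ℕ) : ℝ) * max x 0 ^ (n + 1) := funext fun x => (hd x).deriv
    have hc : ((n + 1 : ℕ) : WithTop ℕ∞) = (n : WithTop ℕ∞) + 1 := by push_cast; rfl
    rw [hc, contDiff_succ_iff_deriv]
    refine ⟨fun x => (hd x).differentiableAt, ?_, ?_⟩
    · intro h; exact absurd h (by simp)
    · rw [hder]; exact contDiff_const.mul ih

theorem ker_pw_contDiff : ContDiff ℝ 8 (pw : ℝ → ℝ) := ker_pow_contDiff 8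

theorem ker_pw_nonneg (u : ℝ) : 0 ≤ pw u := pow_nonneg (le_max_right _ _) _

theorem ker_pw_pos {u : ℝ} (h : 0 < u) : 0 < pw u := pow_pos (lt_max_of_lt_left h) _

theorem ker_pw_zero {u : ℝ} (h : u ≤ 0) : pw u = 0 := by
  unfold pw; rw [max_eq_right h]; simp

theorem ker_pw_mono : Monotone (pw : ℝ → ℝ) := fun _ _ h =>
  pow_le_pow_left₀ (le_max_right _ _) (max_le_max_right _ h) _

theorem ker_den_pos (u : ℝ) : 0 < pw u + pw (1 - u) := by
  rcases lt_or_ge 0 u with h | h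
  · exact add_pos_of_pos_of_nonneg (ker_pw_pos h) (ker_pw_nonneg _)
  · exact add_pos_of_nonneg_of_pos (ker_pw_nonneg _) (ker_pw_pos (by linarith))

theorem sst_contDiff : ContDiff ℝ 8 (sst : ℝ → ℝ) := by
  have h : ContDiff ℝ 8 (fun u : ℝ => pw u / (pw u + pw (1 - u))) :=
    ker_pw_contDiff.div (ker_pw_contDiff.add (ker_pw_contDiff.comp (contDiff_const.sub contDiff_id)))
      fun u => (ker_den_pos u).ne'
  exact h

theorem sst_of_nonpos {u : ℝ} (h : u ≤ 0) : sst u = 0 := by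
  unfold sst; rw [ker_pw_zero h, zero_div]

theorem sst_of_one_le {u : ℝ} (h : 1 ≤ u) : sst u = 1 := by
  unfold sst
  rw [ker_pw_zero (u := 1 - u) (by linarith), add_zero]
  exact div_self (ker_pw_pos (by linarith)).ne'

theorem sst_mono : Monotone (sst : ℝ → ℝ) := by
  intro u v h
  unfold sst
  rw [div_le_div_iff₀ (ker_den_pos u) (ker_den_pos v)]
  have h1 : pw u ≤ pw v := ker_pw_mono h
  have h2 : pw (1 - v) ≤ pw (1 - u) := ker_pw_mono (by linarith)
  have h3 : pw u * pw (1 - v) ≤ pw v * pw (1 - u) :=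
    mul_le_mul h1 h2 (ker_pw_nonneg _) (ker_pw_nonneg _)
  nlinarith

theorem sst_one_sub (u : ℝ) : sst (1 - u) = 1 - sst u := by
  unfold sst
  have h := ker_den_pos u
  rw [sub_sub_cancel]
  have h' : 0 < pw (1 - u) + pw u := by linarith
  field_simp
  ring

theorem ker_sst_nonneg (u : ℝ) : 0 ≤ sst u :=
  div_nonneg (ker_pw_nonneg _) (ker_den_pos u).le

theorem ker_sst_le_one (u : ℝ) : sst u ≤ 1 := by
  have := ker_sst_nonneg (1 - u)
  rw [sst_one_sub] at this
  linarith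

theorem plat_contDiff (a b : ℝ) : ContDiff ℝ 8 (plat a b) := by
  have h : ContDiff ℝ 8 (fun u : ℝ => sst (u - a + 1) - sst (u - b)) :=
    (sst_contDiff.comp ((contDiff_id.sub contDiff_const).add contDiff_const)).sub
      (sst_contDiff.comp (contDiff_id.sub contDiff_const))
  exact h

theorem plat_nonneg {a b : ℝ} (h : a ≤ b) (u : ℝ) : 0 ≤ plat a b u := by
  unfold plat
  have := sst_mono (show u - b ≤ u - a + 1 by linarith)
  linarith

theorem plat_le_one (a b u : ℝ) : plat a b u ≤ 1 := by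
  unfold plat
  have := ker_sst_le_one (u - a + 1)
  have := ker_sst_nonneg (u - b)
  linarith

theorem plat_eq_one {a b u : ℝ} (h1 : a ≤ u) (h2 : u ≤ b) : plat a b u = 1 := by
  unfold plat
  rw [sst_of_one_le (by linarith), sst_of_nonpos (by linarith), sub_zero]

theorem plat_eq_zero {a b u : ℝ} (h : a ≤ b) (h1 : u ≤ a - 1 ∨ b + 1 ≤ u) : plat a b u = 0 := by
  unfold plat
  rcases h1 with h1 | h1
  · rw [sst_of_nonpos (by linarith), sst_of_nonpos (by linarith), sub_zero]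
  · rw [sst_of_one_le (by linarith), sst_of_one_le (by linarith), sub_self]

theorem ker_sst_deriv1 (i : ℕ) (hi : i ≤ 8) : ∃ C : ℝ, ∀ u, |iteratedDeriv i (sst : ℝ → ℝ) u| ≤ C := by
  have hc : Continuous (iteratedDeriv i (sst : ℝ → ℝ)) :=
    sst_contDiff.continuous_iteratedDeriv i (by exact_mod_cast hi)
  obtain ⟨C, hC⟩ := (isCompact_Icc (a := (0 : ℝ)) (b := 1)).exists_bound_of_continuousOn
    hc.continuousOn
  refine ⟨max C 1, fun u => ?_⟩
  rcases lt_or_ge u 0 with h | h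
  · have he : (sst : ℝ → ℝ) =ᶠ[nhds u] fun _ => (0 : ℝ) := by
      filter_upwards [gt_mem_nhds h] with v hv
      exact sst_of_nonpos hv.le
    rw [he.iteratedDeriv_eq, iteratedDeriv_const]
    split_ifs <;> simp
  rcases lt_or_ge 1 u with h' | h'
  · have he : (sst : ℝ → ℝ) =ᶠ[nhds u] fun _ => (1 : ℝ) := by
      filter_upwards [lt_mem_nhds h'] with v hv
      exact sst_of_one_le hv.le
    rw [he.iteratedDeriv_eq, iteratedDeriv_const]
    split_ifs <;> simp
  · have := hC u ⟨h, h'⟩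
    rw [Real.norm_eq_abs] at this
    exact this.trans (le_max_left _ _)

theorem ker_sst_deriv : ∃ C : ℝ, 0 ≤ C ∧ ∀ i : ℕ, i ≤ 8 → ∀ u,
    |iteratedDeriv i (sst : ℝ → ℝ) u| ≤ C := by
  choose! C hC using ker_sst_deriv1
  refine ⟨∑ i ∈ Finset.range 9, |C i|, Finset.sum_nonneg fun _ _ => abs_nonneg _, fun i hi u => ?_⟩
  refine (hC i hi u).trans ((le_abs_self _).trans ?_)
  exact Finset.single_le_sum (f := fun i => |C i|) (fun _ _ => abs_nonneg _)
    (Finset.mem_range.2 (by omega))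

theorem ker_plat_iter (a b : ℝ) (i : ℕ) (hi : i ≤ 8) (u : ℝ) :
    iteratedDeriv i (plat a b) u =
      iteratedDeriv i (sst : ℝ → ℝ) (u - a + 1) - iteratedDeriv i (sst : ℝ → ℝ) (u - b) := by
  have hi' : (i : WithTop ℕ∞) ≤ 8 := by exact_mod_cast hi
  have e : plat a b = fun u : ℝ => sst (u + (1 - a)) - sst (u - b) := by
    funext u; unfold plat; rw [show u - a + 1 = u + (1 - a) by ring]
  have h1 : ContDiff ℝ 8 (fun u : ℝ => sst (u + (1 - a))) :=
    sst_contDiff.comp (contDiff_id.add contDiff_const)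
  have h2 : ContDiff ℝ 8 (fun u : ℝ => sst (u - b)) :=
    sst_contDiff.comp (contDiff_id.sub contDiff_const)
  rw [e, iteratedDeriv_fun_sub (h1.of_le hi').contDiffAt (h2.of_le hi').contDiffAt,
    iteratedDeriv_comp_add_const, iteratedDeriv_comp_sub_const]
  rw [show u - a + 1 = u + (1 - a) by ring]

theorem plat_deriv : ∃ C : ℝ, ∀ (a b : ℝ) (i : ℕ), i ≤ 8 → ∀ u,
    |iteratedDeriv i (plat a b) u| ≤ C := by
  obtain ⟨C, -, hC⟩ := ker_sst_deriv
  refine ⟨C + C, fun a b i hi u => ?_⟩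
  rw [ker_plat_iter a b i hi]
  exact (abs_sub _ _).trans (add_le_add (hC i hi _) (hC i hi _))

theorem gk_contDiff (M : ℕ) : ContDiff ℝ 8 (gk M : ℝ → ℝ) := by
  have h : ContDiff ℝ 8 (fun u : ℝ => ∑ j ∈ Finset.range (4 * M + 1),
      ((2 : ℝ) ^ (2 * M - j + (j - 2 * M)))⁻¹ * plat 0 0 (u + ((2 * M : ℕ) : ℝ) - (j : ℝ))) :=
    ContDiff.sum fun j _ => contDiff_const.mul
      ((plat_contDiff 0 0).comp ((contDiff_id.add contDiff_const).sub contDiff_const))
  exact h

/-- Coefficients of the lateral kernel. -/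
noncomputable def kerc (M : ℕ) (k : ℕ) : ℝ := if k ≤ 2 * M then ((2 : ℝ) ^ k)⁻¹ else 0

theorem kerc_nonneg (M k : ℕ) : 0 ≤ kerc M k := by
  unfold kerc; split_ifs <;> positivity

theorem kerc_anti (M : ℕ) {a b : ℕ} (h : a ≤ b) : kerc M b ≤ kerc M a := by
  unfold kerc
  split_ifs with h1 h2 h2
  · exact inv_anti₀ (by positivity) (pow_le_pow_right₀ (by norm_num) h)
  · omega
  · positivity
  · exact le_rfl

theorem kerc_le (M : ℕ) {a b : ℕ} (h : b ≤ a + 1) : kerc M a ≤ 2 * kerc M b + om M ^ 2 := by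
  have hom : (om M : ℝ) ^ 2 = ((2 : ℝ) ^ (2 * M))⁻¹ := by
    unfold om; rw [inv_pow, ← pow_mul, mul_comm]
  have h0 : (0 : ℝ) ≤ om M ^ 2 := sq_nonneg _
  have h1 := kerc_anti M h
  have h2 := kerc_nonneg M b
  by_cases ha : a + 1 ≤ 2 * M
  · have : kerc M a = 2 * kerc M (a + 1) := by
      unfold kerc
      rw [if_pos (by omega), if_pos ha, pow_succ]
      field_simp
    linarith
  by_cases hb : a = 2 * M
  · have : kerc M a = om M ^ 2 := by
      unfold kerc
      rw [if_pos (by omega), hom, hb]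
    linarith
  · have : kerc M a = 0 := by
      unfold kerc
      rw [if_neg (by omega)]
    linarith

theorem ker_reindex (M : ℕ) (D : ℝ → ℝ) (u : ℝ) :
    ∑ j ∈ Finset.range (4 * M + 1),
      ((2 : ℝ) ^ (2 * M - j + (j - 2 * M)))⁻¹ * D (u + ((2 * M : ℕ) : ℝ) - (j : ℝ)) =
    ∑ m ∈ Finset.Icc (-(2 * M : ℤ)) (2 * M), kerc M m.natAbs * D (u - m) := by
  refine Finset.sum_nbij' (fun j => (j : ℤ) - 2 * M) (fun m => (m + 2 * M).toNat) ?_ ?_ ?_ ?_ ?_
  · intro j hj
    simp only [Finset.mem_range] at hj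
    simp only [Finset.mem_Icc]
    omega
  · intro m hm
    simp only [Finset.mem_Icc] at hm
    simp only [Finset.mem_range]
    omega
  · intro j _
    simp
  · intro m hm
    simp only [Finset.mem_Icc] at hm
    omega
  · intro j hj
    simp only [Finset.mem_range] at hj
    have e : ((j : ℤ) - 2 * M).natAbs = 2 * M - j + (j - 2 * M) := by omega
    rw [e]
    unfold kerc
    rw [if_pos (by omega)]
    push_cast
    rw [show u + 2 * (M : ℝ) - j = u - (j - 2 * M) by ring]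

theorem ker_two (M : ℕ) (D : ℝ → ℝ) (hD : ∀ v, 1 ≤ |v| → D v = 0) (u : ℝ) (n : ℤ)
    (h1 : (n : ℝ) ≤ u) (h2 : u ≤ n + 1) :
    ∑ m ∈ Finset.Icc (-(2 * M : ℤ)) (2 * M), kerc M m.natAbs * D (u - m) =
      kerc M n.natAbs * D (u - n) + kerc M (n + 1).natAbs * D (u - ((n + 1 : ℤ) : ℝ)) := by
  have hout : ∀ m : ℤ, m ∉ Finset.Icc (-(2 * M : ℤ)) (2 * M) → kerc M m.natAbs * D (u - m) = 0 := by
    intro m hm
    simp only [Finset.mem_Icc] at hm
    unfold kerc
    rw [if_neg (by omega), zero_mul]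
  refine Finset.sum_eq_add n (n + 1) (by omega) ?_ (hout n) (hout (n + 1))
  intro c _ hc
  rw [hD, mul_zero]
  rcases lt_or_gt_of_ne hc.1 with h | h
  · have : (c : ℝ) + 1 ≤ n := by exact_mod_cast h
    exact le_abs.2 (Or.inl (by linarith))
  · have h' : n + 2 ≤ c := by have := hc.2; omega
    have : (n : ℝ) + 2 ≤ c := by exact_mod_cast h'
    exact le_abs.2 (Or.inr (by linarith))

theorem ker_bump_zero (v : ℝ) (h : 1 ≤ |v|) : plat 0 0 v = 0 := by
  refine plat_eq_zero le_rfl ?_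
  rcases le_abs.1 h with h | h
  · right; linarith
  · left; linarith

theorem ker_gk_eq (M : ℕ) (u : ℝ) :
    gk M u = ∑ m ∈ Finset.Icc (-(2 * M : ℤ)) (2 * M), kerc M m.natAbs * plat 0 0 (u - m) :=
  ker_reindex M (plat 0 0) u

theorem ker_gk_nf (M : ℕ) (u : ℝ) (n : ℤ) (h1 : (n : ℝ) ≤ u) (h2 : u ≤ n + 1) :
    gk M u = kerc M n.natAbs * (1 - sst (u - n)) + kerc M (n + 1).natAbs * sst (u - n) := by
  rw [ker_gk_eq, ker_two M _ ker_bump_zero u n h1 h2]
  unfold plat
  push_cast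
  rw [sst_of_one_le (u := u - n - 0 + 1) (by linarith),
    sst_of_nonpos (u := u - (n + 1) - 0) (by linarith),
    show u - (n + 1) - 0 + 1 = u - n by ring, sub_zero, sub_zero]

theorem ker_bump_neg (v : ℝ) : plat 0 0 (-v) = plat 0 0 v := by
  unfold plat
  have h1 := sst_one_sub v
  have h2 := sst_one_sub (v + 1)
  rw [show -v - 0 + 1 = 1 - v by ring, show -v - 0 = 1 - (v + 1) by ring, h1, h2, sub_zero]
  ring

theorem gk_neg (M : ℕ) (u : ℝ) : gk M (-u) = gk M u := by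
  rw [ker_gk_eq, ker_gk_eq]
  refine Finset.sum_equiv (Equiv.neg ℤ) ?_ ?_
  · intro m
    simp only [Finset.mem_Icc, Equiv.neg_apply]
    omega
  · intro m _
    simp only [Equiv.neg_apply, Int.natAbs_neg]
    push_cast
    rw [← ker_bump_neg (-u - m), show -(-u - (m : ℝ)) = u - -m by ring]

theorem gk_nonneg (M : ℕ) (u : ℝ) : 0 ≤ gk M u := by
  rw [ker_gk_eq]
  exact Finset.sum_nonneg fun m _ => mul_nonneg (kerc_nonneg _ _) (plat_nonneg le_rfl _)

theorem ker_gk_abs (M : ℕ) (u : ℝ) : gk M |u| = gk M u := by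
  rcases abs_cases u with h | h
  · rw [h.1]
  · rw [h.1, gk_neg]

theorem ker_gk_nat (M : ℕ) (u : ℝ) (n : ℕ) (h1 : (n : ℝ) ≤ u) (h2 : u ≤ n + 1) :
    gk M u = kerc M n * (1 - sst (u - n)) + kerc M (n + 1) * sst (u - n) := by
  have h := ker_gk_nf M u n (by exact_mod_cast h1) (by exact_mod_cast h2)
  have e : ((n : ℤ) + 1).natAbs = n + 1 := by omega
  rw [e] at h
  simpa using h

theorem ker_gk_at (M n : ℕ) : gk M (n : ℝ) = kerc M n := by
  rw [ker_gk_nat M n n le_rfl (by linarith), sub_self, sst_of_nonpos le_rfl]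
  ring

theorem ker_gk_between (M : ℕ) (u : ℝ) (n : ℕ) (h1 : (n : ℝ) ≤ u) (h2 : u ≤ n + 1) :
    kerc M (n + 1) ≤ gk M u ∧ gk M u ≤ kerc M n := by
  rw [ker_gk_nat M u n h1 h2]
  have a1 := kerc_anti M (Nat.le_succ n)
  have a2 := ker_sst_nonneg (u - n)
  have a3 := ker_sst_le_one (u - n)
  constructor <;> nlinarith

theorem ker_gk_anti (M : ℕ) {u s : ℝ} (hs : 0 ≤ s) (h : s ≤ u) : gk M u ≤ gk M s := by
  have hu : 0 ≤ u := hs.trans h
  have u1 := Nat.floor_le hu
  have u2 := (Nat.lt_floor_add_one u).le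
  have s1 := Nat.floor_le hs
  have s2 := (Nat.lt_floor_add_one s).le
  have hle : ⌊s⌋₊ ≤ ⌊u⌋₊ := Nat.floor_mono h
  rcases hle.eq_or_lt with e | e
  · rw [ker_gk_nat M u _ u1 u2, ker_gk_nat M s _ s1 s2, e]
    have a1 := kerc_anti M (Nat.le_succ ⌊u⌋₊)
    have a2 := sst_mono (show s - ⌊u⌋₊ ≤ u - ⌊u⌋₊ by linarith)
    nlinarith
  · exact (ker_gk_between M u _ u1 u2).2.trans
      ((kerc_anti M e).trans (ker_gk_between M s _ s1 s2).1)

theorem gk_anti (M : ℕ) {u s : ℝ} (h : |s| ≤ |u|) : gk M u ≤ gk M s := by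
  rw [← ker_gk_abs M u, ← ker_gk_abs M s]
  exact ker_gk_anti M (abs_nonneg _) h

theorem gk_le_one (M : ℕ) (u : ℝ) : gk M u ≤ 1 := by
  have h := gk_anti M (u := u) (s := ((0 : ℕ) : ℝ)) (by simp)
  rw [ker_gk_at] at h
  simpa [kerc] using h

theorem gk_ge_half {M : ℕ} (hM : 1 ≤ M) {u : ℝ} (h : |u| ≤ 1) : 1 / 2 ≤ gk M u := by
  have h' := gk_anti M (u := ((1 : ℕ) : ℝ)) (s := u) (by simpa using h)
  rw [ker_gk_at] at h'
  unfold kerc at h'
  rw [if_pos (by omega)] at h'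
  norm_num at h' ⊢
  exact h'

theorem gk_ge_quarter {M : ℕ} (hM : 1 ≤ M) {u : ℝ} (h : |u| ≤ 2) : 1 / 4 ≤ gk M u := by
  have h' := gk_anti M (u := ((2 : ℕ) : ℝ)) (s := u) (by simpa using h)
  rw [ker_gk_at] at h'
  unfold kerc at h'
  rw [if_pos (by omega)] at h'
  norm_num at h' ⊢
  exact h'

theorem gk_eq_zero (M : ℕ) {u : ℝ} (h : (rr M : ℝ) ≤ |u|) : gk M u = 0 := by
  refine le_antisymm ?_ (gk_nonneg M u)
  have h' := gk_anti M (u := u) (s := ((rr M : ℕ) : ℝ)) (by simpa using h)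
  rw [ker_gk_at] at h'
  unfold kerc rr at h'
  rwa [if_neg (by omega)] at h'

theorem ker_iter_zero (i : ℕ) (hi : i ≤ 8) (v : ℝ) (h : 1 ≤ |v|) :
    iteratedDeriv i (plat (0 : ℝ) 0) v = 0 := by
  have hc : Continuous (iteratedDeriv i (plat (0 : ℝ) 0)) :=
    (plat_contDiff 0 0).continuous_iteratedDeriv i (by exact_mod_cast hi)
  have hcl : IsClosed {w | iteratedDeriv i (plat (0 : ℝ) 0) w = 0} :=
    isClosed_eq hc continuous_const
  have hopen : ∀ w : ℝ, 1 < |w| → iteratedDeriv i (plat (0 : ℝ) 0) w = 0 := by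
    intro w hw
    have he : (plat (0 : ℝ) 0) =ᶠ[nhds w] fun _ => (0 : ℝ) := by
      have : ∀ᶠ x in nhds w, 1 < |x| := continuous_abs.continuousAt.eventually (lt_mem_nhds hw)
      filter_upwards [this] with x hx
      exact ker_bump_zero x hx.le
    rw [he.iteratedDeriv_eq, iteratedDeriv_const]
    split_ifs <;> rfl
  rcases le_abs.1 h with h | h
  · have hs : Set.Ioi (1 : ℝ) ⊆ {w | iteratedDeriv i (plat (0 : ℝ) 0) w = 0} :=
      fun w hw => hopen w (lt_abs.2 (Or.inl hw))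
    have := closure_minimal hs hcl
    rw [closure_Ioi] at this
    exact this h
  · have hs : Set.Iio (-1 : ℝ) ⊆ {w | iteratedDeriv i (plat (0 : ℝ) 0) w = 0} :=
      fun w hw => hopen w (lt_abs.2 (Or.inr (by have : w < -1 := hw; linarith)))
    have := closure_minimal hs hcl
    rw [closure_Iio] at this
    exact this (show v ≤ -1 by linarith)

theorem ker_gk_iter (M i : ℕ) (hi : i ≤ 8) (u : ℝ) :
    iteratedDeriv i (gk M) u = ∑ m ∈ Finset.Icc (-(2 * M : ℤ)) (2 * M),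
      kerc M m.natAbs * iteratedDeriv i (plat (0 : ℝ) 0) (u - m) := by
  have hi' : (i : WithTop ℕ∞) ≤ 8 := by exact_mod_cast hi
  have e : (gk M : ℝ → ℝ) = fun u : ℝ => ∑ m ∈ Finset.Icc (-(2 * M : ℤ)) (2 * M),
      kerc M m.natAbs * plat (0 : ℝ) 0 (u - (m : ℝ)) := funext (ker_gk_eq M)
  rw [e, iteratedDeriv_fun_sum]
  · refine Finset.sum_congr rfl fun m _ => ?_
    rw [iteratedDeriv_const_mul_field, iteratedDeriv_comp_sub_const]
  · intro m _
    have : ContDiff ℝ 8 (fun u : ℝ => kerc M m.natAbs * plat 0 0 (u - m)) :=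
      contDiff_const.mul ((plat_contDiff 0 0).comp (contDiff_id.sub contDiff_const))
    exact (this.of_le hi').contDiffAt

theorem gk_deriv : ∃ C : ℝ, ∀ (M i : ℕ), i ≤ 8 → ∀ u : ℝ,
    |iteratedDeriv i (gk M) u| ≤ C * (gk M u + om M ^ 2) := by
  obtain ⟨C, hC⟩ := plat_deriv
  have hC0 : 0 ≤ C := (abs_nonneg _).trans (hC 0 0 0 (by omega) 0)
  refine ⟨4 * C, fun M i hi u => ?_⟩
  have u1 := Int.floor_le u
  have u2 := (Int.lt_floor_add_one u).le
  rw [ker_gk_iter M i hi, ker_two M _ (ker_iter_zero i hi) u _ u1 u2, ker_gk_nf M u _ u1 u2]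
  set n := ⌊u⌋
  have a1 := kerc_nonneg M n.natAbs
  have a2 := kerc_nonneg M (n + 1).natAbs
  have a3 := kerc_le M (a := n.natAbs) (b := (n + 1).natAbs) (by omega)
  have a4 := kerc_le M (a := (n + 1).natAbs) (b := n.natAbs) (by omega)
  have s1 := ker_sst_nonneg (u - n)
  have s2 := ker_sst_le_one (u - n)
  have o : (0 : ℝ) ≤ om M ^ 2 := sq_nonneg _
  set a := kerc M n.natAbs
  set b := kerc M (n + 1).natAbs
  set t := sst (u - (n : ℝ))
  have b1 : |a * iteratedDeriv i (plat (0 : ℝ) 0) (u - n)| ≤ a * C := by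
    rw [abs_mul, abs_of_nonneg a1]
    exact mul_le_mul_of_nonneg_left (hC 0 0 i hi _) a1
  have b2 : |b * iteratedDeriv i (plat (0 : ℝ) 0) (u - ((n + 1 : ℤ) : ℝ))| ≤ b * C := by
    rw [abs_mul, abs_of_nonneg a2]
    exact mul_le_mul_of_nonneg_left (hC 0 0 i hi _) a2
  have b3 : a + b ≤ 4 * (a * (1 - t) + b * t + om M ^ 2) := by
    have c1 : (a + b) * (1 - t) ≤ (3 * a + om M ^ 2) * (1 - t) :=
      mul_le_mul_of_nonneg_right (by linarith) (by linarith)
    have c2 : (a + b) * t ≤ (3 * b + om M ^ 2) * t :=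
      mul_le_mul_of_nonneg_right (by linarith) s1
    have c3 : 0 ≤ a * (1 - t) := mul_nonneg a1 (by linarith)
    have c4 : 0 ≤ b * t := mul_nonneg a2 s1
    nlinarith
  refine (abs_add_le _ _).trans ((add_le_add b1 b2).trans ?_)
  have := mul_le_mul_of_nonneg_left b3 hC0
  nlinarith

theorem ker_bump_tel (y : ℝ) (n : ℕ) :
    ∑ k ∈ Finset.range n, plat 0 0 (y - (k : ℝ)) = sst (y + 1) - sst (y + 1 - n) := by
  have h := Finset.sum_range_sub' (fun k : ℕ => sst (y + 1 - (k : ℝ))) n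
  simp only [Nat.cast_zero, sub_zero] at h
  rw [← h]
  refine Finset.sum_congr rfl fun k _ => ?_
  unfold plat
  push_cast
  rw [show y - k - 0 + 1 = y + 1 - k by ring, show y - k - 0 = y + 1 - (k + 1) by ring]

theorem ker_bump_sum_le (s : Finset ℕ) (y : ℝ) : ∑ k ∈ s, plat 0 0 (y - (k : ℝ)) ≤ 1 := by
  obtain ⟨n, hn⟩ := Finset.exists_nat_subset_range s
  refine (Finset.sum_le_sum_of_subset_of_nonneg hn fun k _ _ => plat_nonneg le_rfl _).trans ?_
  rw [ker_bump_tel]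
  have := ker_sst_le_one (y + 1)
  have := ker_sst_nonneg (y + 1 - n)
  linarith

theorem gk_sum_le (M : ℕ) (s : Finset ℕ) (x : ℝ) : ∑ k ∈ s, gk M (x - (k : ℝ)) ≤ ginf M := by
  unfold gk ginf
  rw [Finset.sum_comm]
  refine Finset.sum_le_sum fun j _ => ?_
  rw [← Finset.mul_sum]
  refine mul_le_of_le_one_right (by positivity) ?_
  have h := ker_bump_sum_le s (x + ((2 * M : ℕ) : ℝ) - (j : ℝ))
  refine le_of_eq_of_le (Finset.sum_congr rfl fun k _ => ?_) h
  rw [show x - k + ((2 * M : ℕ) : ℝ) - j = x + ((2 * M : ℕ) : ℝ) - j - k by ring]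

theorem gk_sum_eq (M i0 len : ℕ) {x : ℝ} (h1 : (i0 : ℝ) + rr M ≤ x + 1)
    (h2 : x + rr M ≤ (i0 : ℝ) + len) :
    ∑ k ∈ Finset.range len, gk M (x - ((i0 + k : ℕ) : ℝ)) = ginf M := by
  unfold gk ginf
  rw [Finset.sum_comm]
  refine Finset.sum_congr rfl fun j hj => ?_
  rw [← Finset.mul_sum]
  have h := ker_bump_tel (x - i0 + ((2 * M : ℕ) : ℝ) - (j : ℝ)) len
  have hj' : (j : ℝ) ≤ 4 * M := by
    have : j ≤ 4 * M := by have := Finset.mem_range.1 hj; omega
    exact_mod_cast this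
  have hj0 : (0 : ℝ) ≤ j := Nat.cast_nonneg j
  unfold rr at h1 h2
  push_cast at h1 h2 h ⊢
  rw [sst_of_one_le (by linarith), sst_of_nonpos (by linarith), sub_zero] at h
  have e : ∑ k ∈ Finset.range len, plat (0 : ℝ) 0 (x - (i0 + k) + 2 * M - j) = 1 := by
    rw [← h]
    refine Finset.sum_congr rfl fun k _ => ?_
    rw [show x - (i0 + k) + 2 * (M : ℝ) - j = x - i0 + 2 * M - j - k by ring]
  rw [e, mul_one]

theorem one_le_ginf (M : ℕ) : (1 : ℝ) ≤ ginf M := by
  unfold ginf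
  have h := Finset.single_le_sum
    (f := fun j : ℕ => ((2 : ℝ) ^ (2 * M - j + (j - 2 * M)))⁻¹) (s := Finset.range (4 * M + 1))
    (fun _ _ => by positivity) (a := 2 * M) (Finset.mem_range.2 (by omega))
  simpa using h

theorem ginf_le (M : ℕ) : (ginf M : ℝ) ≤ 3 := by
  unfold ginf
  rw [show 4 * M + 1 = 2 * M + (2 * M + 1) by ring, Finset.sum_range_add]
  have h1 : ∑ j ∈ Finset.range (2 * M), ((2 : ℝ) ^ (2 * M - j + (j - 2 * M)))⁻¹ ≤ 1 := by
    rw [← Finset.sum_range_reflect]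
    have e : ∑ j ∈ Finset.range (2 * M),
        ((2 : ℝ) ^ (2 * M - (2 * M - 1 - j) + (2 * M - 1 - j - 2 * M)))⁻¹ =
        (∑ j ∈ Finset.range (2 * M), (1 / (2 : ℝ)) ^ j) / 2 := by
      rw [Finset.sum_div]
      refine Finset.sum_congr rfl fun j hj => ?_
      have := Finset.mem_range.1 hj
      rw [show 2 * M - (2 * M - 1 - j) + (2 * M - 1 - j - 2 * M) = j + 1 by omega, pow_succ,
        one_div, inv_pow]
      field_simp
    rw [e]
    have := sum_geometric_two_le (2 * M)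
    linarith
  have h2 : ∑ j ∈ Finset.range (2 * M + 1),
      ((2 : ℝ) ^ (2 * M - (2 * M + j) + (2 * M + j - 2 * M)))⁻¹ ≤ 2 := by
    refine le_of_eq_of_le (Finset.sum_congr rfl fun j _ => ?_) (sum_geometric_two_le (2 * M + 1))
    rw [show 2 * M - (2 * M + j) + (2 * M + j - 2 * M) = j by omega, one_div, inv_pow]
  linarith

theorem ker_gk_sq_le (M : ℕ) (u : ℝ) :
    gk M u ^ 2 ≤ (Set.Icc (-(rr M : ℝ)) (rr M)).indicator (fun _ => (1 : ℝ)) u := by
  by_cases h : u ∈ Set.Icc (-(rr M : ℝ)) (rr M)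
  · rw [Set.indicator_of_mem h]
    exact pow_le_one₀ (gk_nonneg M u) (gk_le_one M u)
  · rw [Set.indicator_of_notMem h, gk_eq_zero M]
    · simp
    · by_contra h'
      exact h (abs_le.1 (not_le.1 h').le)

theorem ker_ind_int (a b c : ℝ) : Integrable ((Set.Icc a b).indicator (fun _ => c)) :=
  (integrable_indicator_iff measurableSet_Icc).2 (integrableOn_const (by simp))

theorem ker_ind_val {a b : ℝ} (h : a ≤ b) (c : ℝ) :
    ∫ u, (Set.Icc a b).indicator (fun _ => c) u = (b - a) * c := by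
  rw [integral_indicator_const _ measurableSet_Icc, Real.volume_real_Icc_of_le h, smul_eq_mul]

theorem ker_gk_sq_int (M : ℕ) : Integrable (fun u : ℝ => gk M u ^ 2) := by
  refine (ker_ind_int (-(rr M : ℝ)) (rr M) 1).mono'
    ((gk_contDiff M).continuous.pow 2).aestronglyMeasurable (Eventually.of_forall fun u => ?_)
  rw [Real.norm_eq_abs, abs_of_nonneg (sq_nonneg _)]
  exact ker_gk_sq_le M u

theorem beta_ge {M : ℕ} (hM : 1 ≤ M) : 1 / 2 ≤ beta M := by
  have h : ∫ u, (Set.Icc (-1 : ℝ) 1).indicator (fun _ => (1 / 4 : ℝ)) u ≤ beta M := by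
    refine integral_mono (ker_ind_int _ _ _) (ker_gk_sq_int M) fun u => ?_
    by_cases h : u ∈ Set.Icc (-1 : ℝ) 1
    · rw [Set.indicator_of_mem h]
      have := gk_ge_half hM (abs_le.2 h)
      show (1 / 4 : ℝ) ≤ gk M u ^ 2
      nlinarith
    · rw [Set.indicator_of_notMem h]
      exact sq_nonneg _
  rw [ker_ind_val (by norm_num)] at h
  linarith

theorem beta_le {M : ℕ} (hM : 1 ≤ M) : beta M ≤ 6 * M := by
  have h : beta M ≤ ∫ u, (Set.Icc (-(rr M : ℝ)) (rr M)).indicator (fun _ => (1 : ℝ)) u :=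
    integral_mono (ker_gk_sq_int M) (ker_ind_int _ _ _) (ker_gk_sq_le M)
  have h0 : (0 : ℝ) ≤ rr M := Nat.cast_nonneg _
  rw [ker_ind_val (by linarith)] at h
  unfold rr at h
  push_cast at h
  have : (1 : ℝ) ≤ M := by exact_mod_cast hM
  linarith

theorem plat_cast (a b u : ℚ) : ((plat a b u : ℚ) : ℝ) = plat (a : ℝ) b u := by
  unfold plat sst pw
  push_cast
  rfl

theorem gk_cast (M : ℕ) (u : ℚ) : ((gk M u : ℚ) : ℝ) = gk M (u : ℝ) := by
  unfold gk
  push_cast [plat_cast]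
  rfl

theorem ker_run_cast (M i0 j0 len : ℕ) (x y : ℚ) :
    ((run M i0 j0 len x y : ℚ) : ℝ) = run M i0 j0 len (x : ℝ) y := by
  unfold run
  push_cast [gk_cast]
  rfl

theorem psi_cast (M : ℕ) (L : Lay) (x y : ℚ) : ((psi M L x y : ℚ) : ℝ) = psi M L (x : ℝ) y := by
  unfold psi own ports portF busF linkF om ip
  push_cast [apply_ite (Rat.cast : ℚ → ℝ), ker_run_cast, gk_cast]
  rfl

end Vale.Agent.P370
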