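import Vale.Agent.P370.Ker

/-! Vertical profiles and ramps. -/

namespace Vale.Agent.P370

open MeasureTheory Filter
open scoped Classical

theorem gam_contDiff (M : ℕ) : ContDiff ℝ 8 (gam M) := by
  unfold gam
  fun_prop

theorem gam_pos (M : ℕ) (z : ℝ) : 0 < gam M z := by
  exact Real.exp_pos _

theorem gam_le_one (M : ℕ) (z : ℝ) : gam M z ≤ 1 := by
  exact Real.exp_le_one_iff.2 (neg_nonpos.2 (by positivity))

theorem gam_hasDerivAt (M : ℕ) (z : ℝ) : HasDerivAt (gam M) (-(M * z) * gam M z) z := by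
  have h : HasDerivAt (fun z : ℝ => -(M * z ^ 2 / 2)) (-(M * z)) z :=
    ((((hasDerivAt_pow 2 z).const_mul (M : ℝ)).div_const 2).neg).congr_deriv (by simp; ring)
  exact h.exp.congr_deriv (mul_comm _ _)

theorem gam_anti (M : ℕ) {z s : ℝ} (h : |s| ≤ |z|) : gam M z ≤ gam M s := by
  refine Real.exp_le_exp.2 (neg_le_neg ?_)
  have := sq_le_sq.2 h
  have := mul_le_mul_of_nonneg_left this (Nat.cast_nonneg (α := ℝ) M)
  linarith

theorem gam_ge {M : ℕ} (hM : 1 ≤ M) {z : ℝ} (h : |z| ≤ 1 / M) : 1 / 2 ≤ gam M z := by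
  have h1 : (1 : ℝ) ≤ M := by exact_mod_cast hM
  have h2 : |z| * M ≤ 1 := (le_div_iff₀ (by linarith)).1 h
  have h3 : |z| ≤ 1 := by nlinarith [abs_nonneg z]
  have h4 : M * z ^ 2 ≤ 1 := by
    rw [← sq_abs]
    nlinarith [abs_nonneg z]
  have := Real.add_one_le_exp (-(M * z ^ 2 / 2))
  unfold gam
  linarith

theorem gam_small (M : ℕ) {z : ℝ} (h : 1 ≤ |z|) : gam M z ≤ Real.exp (-(M / 2 : ℝ)) := by
  refine Real.exp_le_exp.2 (neg_le_neg ?_)
  have h1 : 1 ≤ z ^ 2 := by
    rw [← sq_abs]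
    nlinarith
  have := mul_le_mul_of_nonneg_left h1 (Nat.cast_nonneg (α := ℝ) M)
  linarith

theorem om_pos (M : ℕ) : (0 : ℝ) < om M := by
  unfold om
  positivity

theorem om_le_one (M : ℕ) : (om M : ℝ) ≤ 1 := by
  exact inv_le_one_of_one_le₀ (one_le_pow₀ one_le_two)

theorem chz_mem (z : ℝ) : 0 ≤ chz z ∧ chz z ≤ 1 := by
  exact ⟨plat_nonneg (by norm_num) z, plat_le_one _ _ z⟩

theorem chz_eq_one {z : ℝ} (h : |z| ≤ 1) : chz z = 1 := by
  exact plat_eq_one (abs_le.1 h).1 (abs_le.1 h).2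

theorem chz_eq_zero {z : ℝ} (h : 2 ≤ |z|) : chz z = 0 := by
  refine plat_eq_zero (by norm_num) ?_
  rcases le_abs.1 h with h | h
  · right; linarith
  · left; linarith

theorem ker2_int (M : ℕ) : Integrable fun z : ℝ => (gam M z * chz z) ^ 2 := by
  refine (((gam_contDiff M).continuous.mul (plat_contDiff (-1) 1).continuous).pow
    2).integrable_of_hasCompactSupport (HasCompactSupport.intro (K := Set.Icc (-2) 2)
      isCompact_Icc fun z hz => ?_)
  have : 2 ≤ |z| := not_lt.1 fun h => hz (abs_le.1 h.le)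
  change (gam M z * chz z) ^ 2 = 0
  rw [chz_eq_zero this]
  simp

theorem gam0_ge {M : ℕ} (hM : 1 ≤ M) : 1 / (2 * M) ≤ gam0 M := by
  have h1 : (1 : ℝ) ≤ M := by exact_mod_cast hM
  have h0 : (0 : ℝ) < M := by linarith
  have h2 : (1 : ℝ) / M ≤ 1 := (div_le_one h0).2 h1
  have h3 : ∫ z : ℝ, (Set.Icc (-(1 / M : ℝ)) (1 / M)).indicator (fun _ => (1 / 4 : ℝ)) z =
      1 / (2 * M) := by
    rw [integral_indicator_const _ measurableSet_Icc, Real.volume_real_Icc_of_le
      (by linarith [one_div_pos.2 h0]), smul_eq_mul]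
    field_simp
    ring
  rw [← h3]
  refine integral_mono_of_nonneg (Eventually.of_forall fun z =>
    Set.indicator_nonneg (fun _ _ => by norm_num) z) (ker2_int M) (Eventually.of_forall fun z => ?_)
  refine Set.indicator_apply_le' (fun hz => ?_) fun _ => sq_nonneg _
  have h4 : |z| ≤ 1 / M := abs_le.2 hz
  have h5 := gam_ge hM h4
  beta_reduce
  rw [chz_eq_one (h4.trans h2), mul_one]
  nlinarith

theorem gam0_le (M : ℕ) : gam0 M ≤ 4 := by
  have h3 : ∫ z : ℝ, (Set.Icc (-2 : ℝ) 2).indicator (fun _ => (1 : ℝ)) z = 4 := by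
    rw [integral_indicator_const _ measurableSet_Icc, Real.volume_real_Icc_of_le (by norm_num)]
    norm_num
  rw [← h3]
  refine integral_mono (ker2_int M) ((integrable_indicator_iff measurableSet_Icc).2
    (continuous_const.integrableOn_Icc)) fun z => ?_
  refine Set.le_indicator_apply (fun _ => ?_) fun hz => ?_
  · exact pow_le_one₀ (mul_nonneg (gam_pos M z).le (chz_mem z).1)
      (mul_le_one₀ (gam_le_one M z) (chz_mem z).1 (chz_mem z).2)
  · have : 2 ≤ |z| := not_lt.1 fun h => hz (abs_le.1 h.le)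
    beta_reduce
    rw [chz_eq_zero this]
    simp

theorem gamchz_contDiff (M : ℕ) : ContDiff ℝ 8 fun z => gam M z * chz z := by
  exact (gam_contDiff M).mul (plat_contDiff (-1) 1)

/-- The polynomial factors of the derivatives of the Gaussian. -/
def ker2P (m z : ℝ) : ℕ → ℝ
  | 0 => 1
  | 1 => -(m * z)
  | 2 => m ^ 2 * z ^ 2 - m
  | 3 => -(m ^ 3 * z ^ 3) + 3 * m ^ 2 * z
  | _ => m ^ 4 * z ^ 4 - 6 * m ^ 3 * z ^ 2 + 3 * m ^ 2

theorem ker2_iter (M : ℕ) : ∀ i ≤ 4, iteratedDeriv i (gam M) = fun z => ker2P M z i * gam M z := by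
  intro i
  induction i with
  | zero => intro _; simp [ker2P]
  | succ i ih =>
    intro hi
    rw [iteratedDeriv_succ, ih (by omega)]
    funext z
    have k : ∀ {P : ℝ → ℝ} {P' Q : ℝ}, HasDerivAt P P' z → Q = P' - M * z * P z →
        deriv (fun z => P z * gam M z) z = Q * gam M z := fun h e =>
      (h.mul (gam_hasDerivAt M z)).deriv.trans (by rw [e]; ring)
    have p := fun n : ℕ => hasDerivAt_pow n z
    obtain rfl | rfl | rfl | rfl : i = 0 ∨ i = 1 ∨ i = 2 ∨ i = 3 := by omega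
    · exact k (hasDerivAt_const z (1 : ℝ)) (by simp [ker2P])
    · exact k ((hasDerivAt_id' z).const_mul (M : ℝ)).neg (by simp [ker2P]; ring)
    · exact k (((p 2).const_mul ((M : ℝ) ^ 2)).sub_const (M : ℝ)) (by simp [ker2P]; ring)
    · exact k (((p 3).const_mul ((M : ℝ) ^ 3)).neg.add
        ((hasDerivAt_id' z).const_mul (3 * (M : ℝ) ^ 2))) (by simp [ker2P]; ring)

theorem ker2_mono {m z : ℝ} (hm : 1 ≤ m) (hz : |z| ≤ 2) {a b : ℕ} (ha : a ≤ 4) :
    |m ^ a * z ^ b| ≤ 2 ^ b * m ^ 4 := by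
  rw [abs_mul, abs_pow, abs_pow, abs_of_nonneg (by linarith : 0 ≤ m), mul_comm]
  exact mul_le_mul (pow_le_pow_left₀ (abs_nonneg _) hz _) (pow_le_pow_right₀ hm ha)
    (by positivity) (by positivity)

theorem ker2_gam_le {M : ℕ} (hM : 1 ≤ M) {i : ℕ} (hi : i ≤ 4) {z : ℝ} (hz : |z| ≤ 2) :
    |iteratedDeriv i (gam M) z| ≤ 43 * (M : ℝ) ^ 4 := by
  have h1 : (1 : ℝ) ≤ M := by exact_mod_cast hM
  rw [ker2_iter M i hi]
  beta_reduce
  rw [abs_mul, abs_of_pos (gam_pos M z)]
  refine (mul_le_of_le_one_right (abs_nonneg _) (gam_le_one M z)).trans ?_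
  have k := fun (a b : ℕ) (ha : a ≤ 4) => abs_le.1 (ker2_mono h1 hz (b := b) ha)
  have a0 := k 0 0 (by norm_num)
  have a1 := k 1 1 (by norm_num)
  have a2 := k 2 2 (by norm_num)
  have a3 := k 1 0 (by norm_num)
  have a4 := k 3 3 (by norm_num)
  have a5 := k 2 1 (by norm_num)
  have a6 := k 4 4 (by norm_num)
  have a7 := k 3 2 (by norm_num)
  have a8 := k 2 0 (by norm_num)
  obtain rfl | rfl | rfl | rfl | rfl : i = 0 ∨ i = 1 ∨ i = 2 ∨ i = 3 ∨ i = 4 := by omega
  all_goals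
    simp only [ker2P]
    rw [abs_le]
    constructor <;> nlinarith

theorem gamchz_deriv : ∃ C : ℝ, ∀ M : ℕ, 1 ≤ M → ∀ i ≤ 4, ∀ z : ℝ,
    |iteratedDeriv i (fun z => gam M z * chz z) z| ≤ C * (M : ℝ) ^ 4 := by
  obtain ⟨C, hC⟩ := plat_deriv
  have C0 : 0 ≤ C := (abs_nonneg _).trans (hC 0 0 0 (by norm_num) 0)
  refine ⟨16 * 43 * C, fun M hM i hi z => ?_⟩
  by_cases hz : |z| ≤ 2
  · have hi' : (i : WithTop ℕ∞) ≤ 8 := by exact_mod_cast hi.trans (by norm_num)
    rw [iteratedDeriv_fun_mul (g := chz) ((gam_contDiff M).of_le hi').contDiffAt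
      ((plat_contDiff (-1) 1).of_le hi').contDiffAt]
    refine (Finset.abs_sum_le_sum_abs _ _).trans ((Finset.sum_le_sum
      (g := fun j => (i.choose j : ℝ) * (43 * (M : ℝ) ^ 4 * C)) fun j hj => ?_).trans ?_)
    · have hj' := Finset.mem_range.1 hj
      rw [abs_mul, abs_mul, Nat.abs_cast, mul_assoc]
      exact mul_le_mul_of_nonneg_left (mul_le_mul (ker2_gam_le hM (by omega) hz)
        (hC (-1) 1 _ (by omega) z) (abs_nonneg _) (by positivity)) (Nat.cast_nonneg _)
    · rw [← Finset.sum_mul, ← Nat.cast_sum, Nat.sum_range_choose]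
      have h1 : ((2 ^ i : ℕ) : ℝ) ≤ 16 := by
        exact_mod_cast (Nat.pow_le_pow_right (by norm_num) hi).trans (by norm_num)
      refine (mul_le_mul_of_nonneg_right h1 (by positivity)).trans_eq (by ring)
  · have h1 : (fun z => gam M z * chz z) =ᶠ[nhds z] fun _ => 0 := by
      filter_upwards [(isOpen_lt continuous_const continuous_abs).mem_nhds (not_le.1 hz)] with w hw
      rw [chz_eq_zero hw.le, mul_zero]
    rw [h1.iteratedDeriv_eq, iteratedDeriv_fun_const_zero, abs_zero]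
    positivity

theorem ker2_prim (a b u : ℝ) : HasDerivAt (fun u => ∫ s in a..u, plat (a + 1) (b - 1) s)
    (plat (a + 1) (b - 1) u) u :=
  ((plat_contDiff _ _).continuous.integral_hasStrictDerivAt a u).hasDerivAt

theorem ker2_deriv (a b : ℝ) : deriv (ramp a b) =
    fun u => plat (a + 1) (b - 1) u / ∫ s in a..b, plat (a + 1) (b - 1) s :=
  funext fun u => ((ker2_prim a b u).div_const _).deriv

theorem ker2_split (a b x y z : ℝ) : ∫ s in x..z, plat a b s =
    (∫ s in x..y, plat a b s) + ∫ s in y..z, plat a b s :=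
  (intervalIntegral.integral_add_adjacent_intervals
    ((plat_contDiff _ _).continuous.intervalIntegrable _ _)
    ((plat_contDiff _ _).continuous.intervalIntegrable _ _)).symm

theorem ker2_nonneg {a b x y : ℝ} (h : a ≤ b) (hxy : x ≤ y) : 0 ≤ ∫ s in x..y, plat a b s :=
  intervalIntegral.integral_nonneg hxy fun s _ => plat_nonneg h s

theorem ker2_Z {a b : ℝ} (h : a + 3 ≤ b) : b - a - 2 ≤ ∫ s in a..b, plat (a + 1) (b - 1) s := by
  have h1 : a + 1 ≤ b - 1 := by linarith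
  have h2 : ∫ s in (a + 1)..(b - 1), plat (a + 1) (b - 1) s = b - a - 2 := by
    rw [intervalIntegral.integral_congr (g := fun _ => (1 : ℝ)) fun s hs => by
      rw [Set.uIcc_of_le h1] at hs
      exact plat_eq_one hs.1 hs.2]
    simp only [intervalIntegral.integral_const, smul_eq_mul]
    ring
  rw [ker2_split _ _ a (a + 1) b, ker2_split _ _ (a + 1) (b - 1) b, h2]
  have := ker2_nonneg h1 (by linarith : a ≤ a + 1)
  have := ker2_nonneg h1 (by linarith : b - 1 ≤ b)
  linarith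

theorem ker2_left {a b u : ℝ} (h : a + 3 ≤ b) (hu : u ≤ a) : plat (a + 1) (b - 1) u = 0 :=
  plat_eq_zero (by linarith) (Or.inl (by linarith))

theorem ker2_right {a b u : ℝ} (h : a + 3 ≤ b) (hu : b ≤ u) : plat (a + 1) (b - 1) u = 0 :=
  plat_eq_zero (by linarith) (Or.inr (by linarith))

theorem ker2_zero {a b u : ℝ} (h : a + 3 ≤ b) (hu : u ≤ a) : ramp a b u = 0 := by
  rw [ramp, intervalIntegral.integral_congr (g := fun _ => (0 : ℝ)) fun s hs => by
    rw [Set.uIcc_of_ge hu] at hs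
    exact ker2_left h hs.2]
  simp

theorem ker2_one {a b u : ℝ} (h : a + 3 ≤ b) (hu : b ≤ u) : ramp a b u = 1 := by
  have := ker2_Z h
  rw [ramp, ker2_split _ _ a b u, intervalIntegral.integral_congr (a := b) (b := u)
    (g := fun _ => (0 : ℝ)) fun s hs => by
      rw [Set.uIcc_of_le hu] at hs
      exact ker2_right h hs.1]
  rw [intervalIntegral.integral_zero, add_zero, div_self (by linarith)]

theorem ramp_contDiff (a b : ℝ) : ContDiff ℝ 8 (ramp a b) := by
  refine ContDiff.div_const ?_ _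
  rw [show (8 : WithTop ℕ∞) = 7 + 1 from rfl, contDiff_succ_iff_deriv]
  refine ⟨fun u => (ker2_prim a b u).differentiableAt, by simp, ?_⟩
  rw [funext fun u => (ker2_prim a b u).deriv]
  exact (plat_contDiff _ _).of_le (by norm_num)

theorem ramp_mem {a b : ℝ} (h : a + 3 ≤ b) (u : ℝ) : 0 ≤ ramp a b u ∧ ramp a b u ≤ 1 := by
  rcases le_total u a with h1 | h1
  · rw [ker2_zero h h1]; norm_num
  rcases le_total b u with h2 | h2
  · rw [ker2_one h h2]; norm_num
  have h3 : a + 1 ≤ b - 1 := by linarith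
  have h4 := ker2_Z h
  refine ⟨div_nonneg (ker2_nonneg h3 h1) (by linarith), (div_le_one (by linarith)).2 ?_⟩
  rw [ker2_split _ _ a u b]
  linarith [ker2_nonneg h3 h2]

theorem ramp_eq_zero {a b u : ℝ} (h : a + 3 ≤ b) (hu : u ≤ a) :
    ramp a b u = 0 ∧ deriv (ramp a b) u = 0 := by
  refine ⟨ker2_zero h hu, ?_⟩
  rw [ker2_deriv]
  beta_reduce
  rw [ker2_left h hu, zero_div]

theorem ramp_eq_one {a b u : ℝ} (h : a + 3 ≤ b) (hu : b ≤ u) :
    ramp a b u = 1 ∧ deriv (ramp a b) u = 0 := by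
  refine ⟨ker2_one h hu, ?_⟩
  rw [ker2_deriv]
  beta_reduce
  rw [ker2_right h hu, zero_div]

theorem ramp_deriv_sq {a b : ℝ} (h : a + 3 ≤ b) :
    Integrable (fun u => deriv (ramp a b) u ^ 2) ∧
      ∫ u, deriv (ramp a b) u ^ 2 ≤ 1 / (b - a - 2) := by
  have h4 := ker2_Z h
  have hs : HasCompactSupport (plat (a + 1) (b - 1) : ℝ → ℝ) :=
    HasCompactSupport.intro (K := Set.Icc a b) isCompact_Icc fun u hu => by
      rcases le_total u a with h1 | h1
      · exact ker2_left h h1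
      · exact ker2_right h (not_lt.1 fun h2 => hu ⟨h1, h2.le⟩)
  have hc := (plat_contDiff (a + 1) (b - 1)).continuous
  have hi := hc.integrable_of_hasCompactSupport (μ := volume) hs
  have hZ : ∫ s in a..b, plat (a + 1) (b - 1) s = ∫ s, plat (a + 1) (b - 1) s :=
    intervalIntegral.integral_eq_integral_of_support_subset fun u hu =>
      ⟨not_le.1 fun h1 => hu (ker2_left h h1), not_lt.1 fun h1 => hu (ker2_right h h1.le)⟩
  rw [ker2_deriv]
  set Z := ∫ s in a..b, plat (a + 1) (b - 1) s with hZ'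
  have Z0 : 0 < Z := by linarith
  have hle : ∀ u, (plat (a + 1) (b - 1) u / Z) ^ 2 ≤ plat (a + 1) (b - 1) u / Z ^ 2 := fun u => by
    rw [div_pow]
    refine div_le_div_of_nonneg_right ?_ (by positivity)
    have := plat_nonneg (by linarith : a + 1 ≤ b - 1) u
    have := plat_le_one (a + 1) (b - 1) u
    nlinarith
  have hi2 : Integrable fun u => (plat (a + 1) (b - 1) u / Z) ^ 2 :=
    (hi.div_const (Z ^ 2)).mono' ((hc.div_const Z).pow 2).aestronglyMeasurable
      (Eventually.of_forall fun u => by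
        rw [Real.norm_of_nonneg (sq_nonneg _)]; exact hle u)
  refine ⟨hi2, (integral_mono hi2 (hi.div_const (Z ^ 2)) hle).trans ?_⟩
  rw [integral_div, ← hZ, sq, div_mul_eq_div_div, div_self Z0.ne']
  exact one_div_le_one_div_of_le (by linarith) h4

theorem ramp_deriv : ∃ C : ℝ, ∀ a b : ℝ, a + 3 ≤ b → ∀ i ≤ 8, ∀ u,
    |iteratedDeriv i (ramp a b) u| ≤ C := by
  obtain ⟨C, hC⟩ := plat_deriv
  refine ⟨max 1 C, fun a b h i hi u => ?_⟩
  rcases i with _ | i
  · rw [iteratedDeriv_zero, abs_of_nonneg (ramp_mem h u).1]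
    exact (ramp_mem h u).2.trans (le_max_left _ _)
  · have h4 := ker2_Z h
    rw [iteratedDeriv_succ', ker2_deriv, iteratedDeriv_div_const, abs_div]
    refine (div_le_self (abs_nonneg _) ?_).trans ((hC _ _ i (by omega) u).trans (le_max_right _ _))
    exact le_trans (by linarith) (le_abs_self _)

end Vale.Agent.P370
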