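import Vale.Agent.P370.CDefs

/-! The regularised Coulomb kernel. -/

namespace Vale.Agent.P370

open MeasureTheory Filter
open scoped Classical

theorem kk_nonneg (ε : ℝ) (s : E3) : 0 ≤ kk ε s := by
  unfold kk
  positivity

theorem kk_zero (s : E3) : kk 0 s = 1 / ‖s‖ := by
  simp [kk]

theorem kk_le {ε : ℝ} (h : 0 < ε) (s : E3) : kk ε s ≤ 1 / ε := by
  refine one_div_le_one_div_of_le h (Real.le_sqrt_of_sq_le ?_)
  linarith [sq_nonneg ‖s‖]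

theorem kk_contDiffAt {ε : ℝ} {s : E3} (h : 0 < ‖s‖ ^ 2 + ε ^ 2) : ContDiffAt ℝ 4 (kk ε) s := by
  have h1 : ContDiffAt ℝ 4 (fun s : E3 => ‖s‖ ^ 2 + ε ^ 2) s :=
    ((contDiff_norm_sq ℝ).add contDiff_const).contDiffAt
  exact contDiffAt_const.div (h1.sqrt h.ne') (Real.sqrt_pos.2 h).ne'

theorem kk_contDiff {ε : ℝ} (h : 0 < ε) : ContDiff ℝ 4 (kk ε) :=
  contDiff_iff_contDiffAt.2 fun _ => kk_contDiffAt (by positivity)

/-- The kernel as a function of both variables. -/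
noncomputable def kerK_K (w : E3 × ℝ) : ℝ := kk w.2 w.1

theorem kerK_N : ContDiff ℝ 4 fun w : E3 × ℝ => ‖w.1‖ ^ 2 + w.2 ^ 2 :=
  ((contDiff_norm_sq ℝ).comp contDiff_fst).add (contDiff_snd.pow 2)

theorem kerK_at {w : E3 × ℝ} (h : 0 < ‖w.1‖ ^ 2 + w.2 ^ 2) : ContDiffAt ℝ 4 kerK_K w :=
  contDiffAt_const.div (kerK_N.contDiffAt.sqrt h.ne') (Real.sqrt_pos.2 h).ne'

theorem kerK_bd (i : ℕ) : ∃ C : ℝ, 0 ≤ C ∧ (i ≤ 4 → ∀ w : E3 × ℝ, ‖w.1‖ ^ 2 + w.2 ^ 2 = 1 →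
    ‖iteratedFDeriv ℝ i kerK_K w‖ ≤ C) := by
  by_cases hi : i ≤ 4
  swap
  · exact ⟨0, le_rfl, fun h => absurd h hi⟩
  have hc : IsCompact {w : E3 × ℝ | ‖w.1‖ ^ 2 + w.2 ^ 2 = 1} := by
    refine (isCompact_closedBall (0 : E3 × ℝ) 1).of_isClosed_subset
      (isClosed_eq kerK_N.continuous continuous_const) fun w hw => ?_
    have hw' : ‖w.1‖ ^ 2 + w.2 ^ 2 = 1 := hw
    rw [mem_closedBall_zero_iff, norm_prod_le_iff, Real.norm_eq_abs]
    constructor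
    · exact abs_le_one_iff_mul_self_le_one.2 (by nlinarith [sq_nonneg w.2]) |>.trans'
        (le_abs_self _)
    · exact abs_le_one_iff_mul_self_le_one.2 (by nlinarith [sq_nonneg ‖w.1‖])
  obtain ⟨C, hC⟩ := hc.exists_bound_of_continuousOn (f := iteratedFDeriv ℝ i kerK_K)
    fun w hw => ((kerK_at (by rw [show ‖w.1‖ ^ 2 + w.2 ^ 2 = 1 from hw]; exact one_pos)
      ).continuousAt_iteratedFDeriv (by exact_mod_cast hi)).continuousWithinAt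
  exact ⟨max C 0, le_max_right _ _, fun _ w hw => (hC w hw).trans (le_max_left _ _)⟩

theorem kerK_comp (w0 : E3 × ℝ) (L : E3 →L[ℝ] E3 × ℝ) (y : E3)
    (h : 0 < ‖(w0 + L y).1‖ ^ 2 + (w0 + L y).2 ^ 2) {i : ℕ} (hi : i ≤ 4) :
    ‖iteratedFDeriv ℝ i (fun y => kerK_K (w0 + L y)) y‖ ≤
      ‖iteratedFDeriv ℝ i kerK_K (w0 + L y)‖ * ‖L‖ ^ i := by
  have hU : IsOpen {w : E3 × ℝ | 0 < ‖(w0 + w).1‖ ^ 2 + (w0 + w).2 ^ 2} :=
    isOpen_lt continuous_const (kerK_N.continuous.comp (continuous_const.add continuous_id))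
  have hU' := hU.preimage L.continuous
  have hf : ContDiffOn ℝ 4 (fun w => kerK_K (w0 + w))
      {w : E3 × ℝ | 0 < ‖(w0 + w).1‖ ^ 2 + (w0 + w).2 ^ 2} := fun w hw =>
    ((kerK_at hw).comp w (contDiffAt_const.add contDiffAt_id)).contDiffWithinAt
  have e := L.iteratedFDerivWithin_comp_right hf hU.uniqueDiffOn hU'.uniqueDiffOn (x := y) h
    (i := i) (by exact_mod_cast hi)
  rw [iteratedFDerivWithin_of_isOpen i hU' h, iteratedFDerivWithin_of_isOpen i hU h,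
    iteratedFDeriv_comp_add_left] at e
  refine (congrArg norm e).le.trans
    ((ContinuousMultilinearMap.norm_compContinuousLinearMap_le _ _).trans ?_)
  simp

theorem kerK_scale {c : ℝ} (hc : 0 < c) (ε : ℝ) (s : E3) :
    kk ε s = c * kk (c * ε) (c • s) := by
  unfold kk
  have e : ‖c • s‖ ^ 2 + (c * ε) ^ 2 = c ^ 2 * (‖s‖ ^ 2 + ε ^ 2) := by
    rw [norm_smul, Real.norm_eq_abs, abs_of_pos hc]
    ring
  rw [e, Real.sqrt_mul (sq_nonneg c), Real.sqrt_sq hc.le, one_div (c * _), mul_inv,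
    mul_inv_cancel_left₀ hc.ne', one_div]

theorem kk_deriv : ∃ C : ℝ, 0 ≤ C ∧ ∀ (ε : ℝ) (p y : E3), 0 < ‖p - y‖ ^ 2 + ε ^ 2 → ∀ i ≤ 4,
    ‖iteratedFDeriv ℝ i (fun y => kk ε (p - y)) y‖ ≤ C * kk ε (p - y) ^ (i + 1) := by
  choose C hC0 hC using kerK_bd
  refine ⟨∑ i ∈ Finset.range 5, C i, Finset.sum_nonneg fun i _ => hC0 i, fun ε p y h i hi => ?_⟩
  set c := kk ε (p - y) with hc
  have hc0 : 0 < c := one_div_pos.2 (Real.sqrt_pos.2 h)
  have hc1 : c ^ 2 * (‖p - y‖ ^ 2 + ε ^ 2) = 1 := by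
    rw [hc, kk, div_pow, Real.sq_sqrt h.le, one_pow, one_div, inv_mul_cancel₀ h.ne']
  set L : E3 →L[ℝ] E3 × ℝ := (-c) • ContinuousLinearMap.inl ℝ E3 ℝ with hL
  have hw : ∀ y' : E3, (c • p, c * ε) + L y' = (c • (p - y'), c * ε) := fun y' => by
    ext1
    · simp [hL, sub_eq_add_neg]
    · simp [hL]
  have e : (fun y' => kk ε (p - y')) = fun y' => c • kerK_K ((c • p, c * ε) + L y') := by
    funext y'
    rw [hw, kerK_scale hc0]
    rfl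
  have h1 : ‖((c • p, c * ε) + L y).1‖ ^ 2 + ((c • p, c * ε) + L y).2 ^ 2 = 1 := by
    rw [hw, ← hc1]
    simp only [norm_smul, Real.norm_eq_abs, abs_of_pos hc0]
    ring
  have h2 : 0 < ‖((c • p, c * ε) + L y).1‖ ^ 2 + ((c • p, c * ε) + L y).2 ^ 2 := by
    rw [h1]
    exact one_pos
  have hd : ContDiffAt ℝ i (fun y' => kerK_K ((c • p, c * ε) + L y')) y :=
    ((kerK_at h2).comp y (contDiffAt_const.add L.contDiff.contDiffAt)).of_le (by exact_mod_cast hi)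
  have hLn : ‖L‖ ≤ c := by
    rw [hL, norm_smul, norm_neg, Real.norm_eq_abs, abs_of_pos hc0]
    exact mul_le_of_le_one_right hc0.le (ContinuousLinearMap.norm_inl_le_one ℝ E3 ℝ)
  rw [e, iteratedFDeriv_const_smul_apply' hd, norm_smul, Real.norm_eq_abs, abs_of_pos hc0]
  have h3 : C i ≤ ∑ i ∈ Finset.range 5, C i :=
    Finset.single_le_sum (fun i _ => hC0 i) (Finset.mem_range.2 (by omega))
  have h4 := (kerK_comp _ L y h2 hi).trans (mul_le_mul ((hC i hi _ h1).trans h3)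
    (pow_le_pow_left₀ (norm_nonneg _) hLn i) (by positivity) ((hC0 i).trans h3))
  refine (mul_le_mul_of_nonneg_left h4 hc0.le).trans (le_of_eq ?_)
  ring

theorem kk_loc {ε : ℝ} (h : 0 < ε) {s s' : E3} (hs : ‖s' - s‖ ≤ 10 * ε) :
    kk ε s' ≤ 11 * kk ε s := by
  have h1 : ‖s‖ ≤ ‖s'‖ + 10 * ε := by
    have := norm_sub_norm_le s s'
    rw [norm_sub_rev] at this
    linarith
  have h2 : ‖s‖ ^ 2 ≤ (‖s'‖ + 10 * ε) ^ 2 := pow_le_pow_left₀ (norm_nonneg _) h1 2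
  have h3 : Real.sqrt (‖s‖ ^ 2 + ε ^ 2) ≤ 11 * Real.sqrt (‖s'‖ ^ 2 + ε ^ 2) := by
    refine Real.sqrt_le_iff.2 ⟨by positivity, ?_⟩
    rw [mul_pow, Real.sq_sqrt (by positivity)]
    nlinarith [sq_nonneg (‖s'‖ - ε), sq_nonneg ‖s'‖]
  unfold kk
  rw [mul_one_div, div_le_div_iff₀ (by positivity) (by positivity)]
  linarith

theorem kerK_anti {A u v : ℝ} (hA : 0 < A) (hu : 0 ≤ u) (huv : u ≤ v) :
    1 / Real.sqrt (A + v ^ 2) ≤ 1 / Real.sqrt (A + u ^ 2) :=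
  one_div_le_one_div_of_le (by positivity)
    (Real.sqrt_le_sqrt (by linarith [pow_le_pow_left₀ hu huv 2]))

theorem kerK_tv {A : ℝ} (hA : 0 < A) (b : ℝ) {y : ℕ → ℝ} (hy : Monotone y) (n : ℕ) :
    ∑ j ∈ Finset.range n, |1 / Real.sqrt (A + (b - y j) ^ 2) -
      1 / Real.sqrt (A + (b - y (j + 1)) ^ 2)| ≤ 2 / Real.sqrt A := by
  set f : ℝ → ℝ := fun t => 1 / Real.sqrt (A + max (b - t) 0 ^ 2) with hf
  set g : ℝ → ℝ := fun t => 1 / Real.sqrt (A + max (t - b) 0 ^ 2) with hg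
  have e : ∀ t, 1 / Real.sqrt (A + (b - t) ^ 2) = f t + g t - 1 / Real.sqrt A := fun t => by
    rcases le_total t b with k | k
    · simp [hf, hg, max_eq_left (sub_nonneg.2 k), max_eq_right (sub_nonpos.2 k)]
    · have : (b - t) ^ 2 = (t - b) ^ 2 := by ring
      simp [hf, hg, max_eq_left (sub_nonneg.2 k), max_eq_right (sub_nonpos.2 k), this]
  have hf1 : ∀ t t', t ≤ t' → f t ≤ f t' := fun t t' k =>
    kerK_anti hA (le_max_right _ _) (max_le_max (by linarith) le_rfl)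
  have hg1 : ∀ t t', t ≤ t' → g t' ≤ g t := fun t t' k =>
    kerK_anti hA (le_max_right _ _) (max_le_max (by linarith) le_rfl)
  have hf2 : ∀ t, 0 ≤ f t ∧ f t ≤ 1 / Real.sqrt A := fun t =>
    ⟨by positivity, by simpa [hf] using kerK_anti hA le_rfl (le_max_right (b - t) 0)⟩
  have hg2 : ∀ t, 0 ≤ g t ∧ g t ≤ 1 / Real.sqrt A := fun t =>
    ⟨by positivity, by simpa [hg] using kerK_anti hA le_rfl (le_max_right (t - b) 0)⟩
  have h1 : ∑ j ∈ Finset.range n, |1 / Real.sqrt (A + (b - y j) ^ 2) -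
      1 / Real.sqrt (A + (b - y (j + 1)) ^ 2)| ≤ ∑ j ∈ Finset.range n,
        ((f (y (j + 1)) - g (y (j + 1))) - (f (y j) - g (y j))) := by
    refine Finset.sum_le_sum fun j _ => ?_
    have k := hy (Nat.le_succ j)
    have k1 := hf1 _ _ k
    have k2 := hg1 _ _ k
    rw [e, e, abs_le]
    constructor <;> linarith
  rw [Finset.sum_range_sub (fun j => f (y j) - g (y j))] at h1
  have k : 2 / Real.sqrt A = 2 * (1 / Real.sqrt A) := by ring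
  linarith [hf2 (y n), hf2 (y 0), hg2 (y n), hg2 (y 0), (hf2 (y n)).2, (hf2 (y 0)).1,
    (hg2 (y n)).1, (hg2 (y 0)).2]

theorem kk_tv {ε : ℝ} (p : E3) {x z : ℝ} (h : 0 < (p 0 - x) ^ 2 + ε ^ 2) {y : ℕ → ℝ}
    (hy : Monotone y) (n : ℕ) :
    ∑ j ∈ Finset.range n, |kk ε (p - !₂[x, y j, z]) - kk ε (p - !₂[x, y (j + 1), z])| +
      |kk ε (p - !₂[x, y n, z])| ≤ 3 / Real.sqrt ((p 0 - x) ^ 2 + ε ^ 2) := by
  have hA : 0 < (p 0 - x) ^ 2 + ε ^ 2 + (p 2 - z) ^ 2 := by positivity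
  have e : ∀ t : ℝ, kk ε (p - !₂[x, t, z]) =
      1 / Real.sqrt ((p 0 - x) ^ 2 + ε ^ 2 + (p 2 - z) ^ 2 + (p 1 - t) ^ 2) := fun t => by
    rw [kk, norm_E3_sq]
    congr 2
    simp
    ring
  simp only [e]
  have h1 := kerK_tv hA (p 1) hy n
  have h2 : 1 / Real.sqrt ((p 0 - x) ^ 2 + ε ^ 2 + (p 2 - z) ^ 2) ≤
      1 / Real.sqrt ((p 0 - x) ^ 2 + ε ^ 2) :=
    one_div_le_one_div_of_le (by positivity) (Real.sqrt_le_sqrt (by nlinarith))
  have h3 : 1 / Real.sqrt ((p 0 - x) ^ 2 + ε ^ 2 + (p 2 - z) ^ 2 + (p 1 - y n) ^ 2) ≤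
      1 / Real.sqrt ((p 0 - x) ^ 2 + ε ^ 2) :=
    one_div_le_one_div_of_le (by positivity) (Real.sqrt_le_sqrt (by nlinarith))
  rw [abs_of_nonneg (by positivity)]
  have k : ∀ a r : ℝ, a / r = a * (1 / r) := fun a r => by ring
  rw [k 2] at h1
  rw [k 3]
  linarith

theorem jj_nonneg (ε : ℝ) (s : E3) : 0 ≤ jj ε s :=
  le_min (by positivity) (by positivity)

theorem jj_measurable (ε : ℝ) : Measurable (jj ε) :=
  (measurable_const.div measurable_norm).min (measurable_const.div (measurable_norm.pow_const 3))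

theorem sub_kk_mem (ε : ℝ) {s : E3} (hs : s ≠ 0) :
    0 ≤ 1 / ‖s‖ - kk ε s ∧ 1 / ‖s‖ - kk ε s ≤ jj ε s := by
  have hr : 0 < ‖s‖ := norm_pos_iff.2 hs
  have h1 : ‖s‖ ≤ Real.sqrt (‖s‖ ^ 2 + ε ^ 2) := Real.le_sqrt_of_sq_le (by nlinarith)
  have h2 : Real.sqrt (‖s‖ ^ 2 + ε ^ 2) ^ 2 = ‖s‖ ^ 2 + ε ^ 2 := Real.sq_sqrt (by positivity)
  refine ⟨sub_nonneg.2 (one_div_le_one_div_of_le hr h1),
    le_min (sub_le_self _ (kk_nonneg ε s)) ?_⟩
  unfold kk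
  generalize Real.sqrt (‖s‖ ^ 2 + ε ^ 2) = ρ at h1 h2
  generalize ‖s‖ = r at hr h1 h2
  have hρ : 0 < ρ := hr.trans_le h1
  rw [div_sub_div _ _ hr.ne' hρ.ne', div_le_div_iff₀ (by positivity) (by positivity),
    show ε ^ 2 = (ρ - r) * (ρ + r) by linarith]
  have h3 : r ^ 3 ≤ (ρ + r) * (r * ρ) := by
    have : r * r ≤ r * ρ := mul_le_mul_of_nonneg_left h1 hr.le
    nlinarith
  have h4 := mul_le_mul_of_nonneg_left h3 (sub_nonneg.2 h1)
  nlinarith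

end Vale.Agent.P370
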