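import Vale.Agent.P370.Ker2

/-! Pointwise facts on the lateral ground state. -/

namespace Vale.Agent.P370

open MeasureTheory Filter
open scoped Classical

theorem edge_iff {K : ℕ} (e : Fin K × Fin K) : e ∈ E4 K ↔ Edge K e.1.val e.2.val := by
  simp only [E4, Edge, Finset.mem_filter, Finset.mem_univ, true_and, Fin.lt_def, Fin.is_lt]

theorem layf_sum_edge {K : ℕ} (f : Fin K × Fin K → ℝ) :
    ∑ e ∈ E4 K, f e = ∑ a : Fin K, ∑ b : Fin K, if Edge K a b then f (a, b) else 0 := by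
  rw [← Fintype.sum_prod_type (f := fun e : Fin K × Fin K => if Edge K e.1 e.2 then f e else 0),
    ← Finset.sum_filter]
  exact Finset.sum_congr (Finset.ext fun e => by simp [edge_iff]) fun _ _ => rfl

theorem layf_single {ι : Type} {s : Finset ι} {f : ι → ℝ}
    (h : ∀ i ∈ s, ∀ j ∈ s, i ≠ j → f i = 0 ∨ f j = 0) :
    (∀ i ∈ s, f i = 0) ∨ ∃ i ∈ s, ∀ j ∈ s, j ≠ i → f j = 0 := by
  by_cases h0 : ∀ i ∈ s, f i = 0
  · exact Or.inl h0
  · push Not at h0
    obtain ⟨i, hi, h1⟩ := h0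
    exact Or.inr ⟨i, hi, fun j hj e => (h j hj i hi e).resolve_right h1⟩

theorem layf_sum_le {ι : Type} {s : Finset ι} {f : ι → ℝ} {C : ℝ}
    (h : ∀ i ∈ s, ∀ j ∈ s, i ≠ j → f i = 0 ∨ f j = 0) (hC : 0 ≤ C) (h1 : ∀ i ∈ s, f i ≤ C) :
    ∑ i ∈ s, f i ≤ C := by
  rcases layf_single h with k | ⟨i, hi, k⟩
  · rwa [Finset.sum_eq_zero k]
  · rw [Finset.sum_eq_single_of_mem i hi k]
    exact h1 i hi

theorem layf_sum_sq {ι : Type} {s : Finset ι} {f : ι → ℝ}
    (h : ∀ i ∈ s, ∀ j ∈ s, i ≠ j → f i = 0 ∨ f j = 0) :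
    (∑ i ∈ s, f i) ^ 2 = ∑ i ∈ s, f i ^ 2 := by
  rcases layf_single h with k | ⟨i, hi, k⟩
  · rw [Finset.sum_eq_zero k, Finset.sum_eq_zero fun i hi => by rw [k i hi]; norm_num]
    norm_num
  · rw [Finset.sum_eq_single_of_mem i hi k,
      Finset.sum_eq_single_of_mem i hi fun j hj e => by rw [k j hj e]; norm_num]

theorem layf_ip_nonneg (M k : ℕ) : (0 : ℝ) ≤ ip M k := by
  unfold ip
  positivity

theorem layf_ip_le {M : ℕ} (hM : 1 ≤ M) (k : ℕ) : (ip M k : ℝ) ≤ 1 := by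
  have h := ip_anti hM (Nat.zero_le k)
  rwa [show (ip M 0 : ℝ) = 1 by simp [ip]] at h

theorem layf_gk_ne {M : ℕ} {u : ℝ} (h : gk M u ≠ 0) : |u| < rr M :=
  lt_of_not_ge fun k => h (gk_eq_zero M k)

theorem layf_run_node {M i0 j0 len : ℕ} {x y : ℝ} (h : run M i0 j0 len x y ≠ 0) :
    ∃ k < len, |x - ((i0 + k : ℕ) : ℝ)| < rr M ∧ |y - j0| < rr M := by
  obtain ⟨k, hk, h1⟩ := Finset.exists_ne_zero_of_sum_ne_zero (right_ne_zero_of_mul h)
  exact ⟨k, Finset.mem_range.1 hk, layf_gk_ne h1, layf_gk_ne (left_ne_zero_of_mul h)⟩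

theorem layf_le_run {M i0 j0 len k : ℕ} (hk : k < len) (x y : ℝ) :
    gk M (x - ((i0 + k : ℕ) : ℝ)) * gk M (y - (j0 : ℝ)) ≤ run M i0 j0 len x y := by
  rw [mul_comm]
  exact mul_le_mul_of_nonneg_left (Finset.single_le_sum
    (f := fun k : ℕ => gk M (x - ((i0 + k : ℕ) : ℝ))) (fun _ _ => gk_nonneg _ _)
    (Finset.mem_range.2 hk)) (gk_nonneg _ _)

theorem layf_num {M : ℕ} (hM : 2 ≤ M) : 2 * rr M + 3 ≤ LL M ∧ LL M + 2 * rr M ≤ D0 M := by
  have h1 : 2 ^ 19 ≤ M ^ 19 := Nat.pow_le_pow_left hM 19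
  have h2 : 2 ^ 30 ≤ M ^ 30 := Nat.pow_le_pow_left hM 30
  have h3 : LL M = M ^ 19 * M := pow_succ M 19
  have h4 : D0 M = M ^ 30 * LL M := pow_add M 30 20
  have h5 := Nat.mul_le_mul_right M h1
  have h6 := Nat.mul_le_mul_right (LL M) h2
  rw [← h3] at h5
  rw [← h4] at h6
  unfold rr
  omega

theorem layf_ramp {M : ℕ} (hM : 2 ≤ M) (t : ℝ) : t + rr M + 3 ≤ t + LL M - rr M := by
  have h := (layf_num hM).1
  rify at h
  linarith

theorem layf_coord (k : Fin 3) : ContDiff ℝ 8 fun p : E3 => p k :=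
  (EuclideanSpace.proj k : E3 →L[ℝ] ℝ).contDiff

theorem layf_gk_contDiff (M : ℕ) (k : Fin 3) (t : ℝ) :
    ContDiff ℝ 8 fun p : E3 => gk M (p k - t) :=
  (gk_contDiff M).comp ((layf_coord k).sub contDiff_const)

theorem layf_run_contDiff (M i0 j0 len : ℕ) :
    ContDiff ℝ 8 fun p : E3 => run M i0 j0 len (p 0) (p 1) :=
  (layf_gk_contDiff M 1 _).mul (ContDiff.sum fun _ _ => layf_gk_contDiff M 0 _)

theorem layf_ports_contDiff (M : ℕ) (L : Lay) (a : ℕ) :
    ContDiff ℝ 8 fun p : E3 => ports M L a (p 0) (p 1) := by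
  refine ContDiff.sum fun c _ => ?_
  split_ifs
  · exact layf_run_contDiff _ _ _ _
  · exact contDiff_const

theorem layf_part_cases {M : ℕ} {L : Lay} {a : ℕ} {p : E3} (h : part M L a p ≠ 0) :
    own M L a (p 0) (p 1) ≠ 0 ∨
      (∃ b, Edge L.K a b ∧ (1 - rho M L a b (p 0)) * linkF M L a b (p 0) (p 1) ≠ 0) ∨
      ∃ b, Edge L.K b a ∧ rho M L b a (p 0) * linkF M L b a (p 0) (p 1) ≠ 0 := by
  by_contra hn
  push Not at hn
  refine h ?_
  rw [part, hn.1, Finset.sum_eq_zero fun b _ => ite_eq_right_iff.2 (hn.2.1 b),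
    Finset.sum_eq_zero fun b _ => ite_eq_right_iff.2 (hn.2.2 b), add_zero, add_zero]

theorem psi_eq (M : ℕ) (L : Lay) (x y : ℝ) :
    psi M L x y = om M + ∑ a : Fin L.K, own M L a.val x y +
      ∑ e ∈ E4 L.K, linkF M L e.1.val e.2.val x y := by
  rw [psi, layf_sum_edge, Finset.sum_range, Finset.sum_range]
  congr 1
  refine Finset.sum_congr rfl fun a _ => ?_
  rw [Finset.sum_range]
  refine Finset.sum_congr rfl fun b _ => if_congr ?_ rfl rfl
  simp only [Edge, Fin.is_lt, true_and]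

theorem part_eq (M : ℕ) (L : Lay) (c : Fin L.K → ℝ) (p : E3) :
    ∑ a, c a * part M L a.val p = ∑ a, c a * own M L a.val (p 0) (p 1) +
      ∑ e ∈ E4 L.K, (c e.1 + (c e.2 - c e.1) * rho M L e.1.val e.2.val (p 0)) *
        linkF M L e.1.val e.2.val (p 0) (p 1) := by
  simp only [part, mul_add, Finset.sum_add_distrib, Finset.sum_range, Finset.mul_sum]
  rw [add_assoc, Finset.sum_comm (f := fun a b : Fin L.K => c a *
    if Edge L.K b a then rho M L b a (p 0) * linkF M L b a (p 0) (p 1) else 0), layf_sum_edge,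
    ← Finset.sum_add_distrib]
  congr 1
  refine Finset.sum_congr rfl fun a _ => ?_
  rw [← Finset.sum_add_distrib]
  refine Finset.sum_congr rfl fun b _ => ?_
  split_ifs <;> ring

theorem sum_part (M : ℕ) (L : Lay) (p : E3) :
    ∑ a : Fin L.K, part M L a.val p = PS M L p - om M := by
  have h := part_eq M L (fun _ => 1) p
  simp only [one_mul, sub_self, zero_mul, add_zero] at h
  rw [h, PS, psi_eq]
  ring

theorem run_nonneg (M i0 j0 len : ℕ) (x y : ℝ) : 0 ≤ run M i0 j0 len x y := by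
  exact mul_nonneg (gk_nonneg _ _) (Finset.sum_nonneg fun _ _ => gk_nonneg _ _)

theorem run_le (M i0 j0 len : ℕ) (x y : ℝ) :
    run M i0 j0 len x y ≤ gk M (y - j0) * ginf M := by
  refine mul_le_mul_of_nonneg_left ?_ (gk_nonneg _ _)
  have h := gk_sum_le M (Finset.Ico i0 (i0 + len)) x
  rwa [Finset.sum_Ico_eq_sum_range, Nat.add_sub_cancel_left] at h

theorem run_eq (M i0 j0 len : ℕ) {x : ℝ} (y : ℝ) (h1 : (i0 : ℝ) + rr M ≤ x + 1)
    (h2 : x + rr M ≤ (i0 : ℝ) + len) : run M i0 j0 len x y = gk M (y - j0) * ginf M := by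
  rw [run, gk_sum_eq M i0 len h1 h2]

theorem run_supp {M i0 j0 len : ℕ} {x y : ℝ} (h : run M i0 j0 len x y ≠ 0) :
    (i0 : ℝ) - rr M < x ∧ x + 1 < (i0 : ℝ) + len + rr M ∧ |y - j0| < rr M := by
  obtain ⟨k, hk, h1, h2⟩ := layf_run_node h
  have h3 : (k : ℝ) + 1 ≤ len := by exact_mod_cast hk
  have h4 : (0 : ℝ) ≤ k := Nat.cast_nonneg k
  rw [abs_lt] at h1
  push_cast at h1
  exact ⟨by linarith [h1.1], by linarith [h1.2], h2⟩

theorem layf_run_le (M i0 j0 len : ℕ) (x y : ℝ) : run M i0 j0 len x y ≤ 3 := by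
  have h := mul_le_mul (gk_le_one M (y - j0)) (ginf_le M) (zero_le_one.trans (one_le_ginf M))
    zero_le_one
  linarith [run_le M i0 j0 len x y]

theorem layf_link_supp {M : ℕ} {L : Lay} {a b : ℕ} {x y : ℝ} (h : linkF M L a b x y ≠ 0) :
    (L.li a b : ℝ) - rr M < x ∧ x < (L.li a b : ℝ) + LL M + rr M ∧ |y - L.lj a b| < rr M := by
  obtain ⟨h1, h2, h3⟩ := run_supp (right_ne_zero_of_mul h)
  push_cast at h2
  exact ⟨h1, by linarith, h3⟩

theorem layf_port_disj {M : ℕ} (hM : 2 ≤ M) (L : Lay) (a : ℕ) (x y : ℝ) :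
    ∀ c ∈ Finset.range (NC M), ∀ c' ∈ Finset.range (NC M), c ≠ c' →
      (if L.has a c = true then portF M L a c x y else 0) = 0 ∨
      (if L.has a c' = true then portF M L a c' x y else 0) = 0 := by
  have key : ∀ c c', c < c' → portF M L a c x y ≠ 0 → portF M L a c' x y ≠ 0 → False := by
    intro c c' hc h1 h2
    have k1 := (run_supp h1).2.1
    have k2 := (run_supp h2).1
    have k3 := (layf_num hM).2
    have k4 : D0 M * c + D0 M ≤ D0 M * c' := Nat.mul_le_mul_left (D0 M) hc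
    rify at k3 k4
    push_cast at k1 k2
    linarith
  intro c _ c' _ hne
  by_contra hn
  rw [not_or] at hn
  have h1 := (ite_ne_right_iff.1 hn.1).2
  have h2 := (ite_ne_right_iff.1 hn.2).2
  rcases hne.lt_or_gt with k | k
  · exact key c c' k h1 h2
  · exact key c' c k h2 h1

theorem ports_nonneg (M : ℕ) (L : Lay) (a : ℕ) (x y : ℝ) : 0 ≤ ports M L a x y := by
  exact Finset.sum_nonneg fun _ _ => ite_nonneg (run_nonneg _ _ _ _ _ _) le_rfl

theorem busF_mem (M : ℕ) (L : Lay) (a : ℕ) (x y : ℝ) :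
    0 ≤ busF M L a x y ∧ busF M L a x y ≤ 9 := by
  refine ⟨Finset.sum_nonneg fun _ _ => Finset.sum_nonneg fun _ _ =>
    ite_nonneg (mul_nonneg (gk_nonneg _ _) (gk_nonneg _ _)) le_rfl, ?_⟩
  have h1 := (gk_sum_le M (Finset.range (DD M)) x).trans (ginf_le M)
  have h2 := (gk_sum_le M (Finset.range (DD M)) y).trans (ginf_le M)
  have h3 := mul_le_mul h1 h2 (Finset.sum_nonneg fun _ _ => gk_nonneg _ _) (by norm_num)
  rw [Finset.sum_mul_sum] at h3
  refine le_trans (Finset.sum_le_sum fun i _ => Finset.sum_le_sum fun j _ => ?_)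
    (h3.trans (by norm_num))
  split_ifs
  · exact le_rfl
  · exact mul_nonneg (gk_nonneg _ _) (gk_nonneg _ _)

theorem linkF_mem (M : ℕ) (L : Lay) (a b : ℕ) (x y : ℝ) :
    0 ≤ linkF M L a b x y ∧ linkF M L a b x y ≤ 3 * ip M 1520 := by
  refine ⟨mul_nonneg (layf_ip_nonneg _ _) (run_nonneg _ _ _ _ _ _), ?_⟩
  rw [mul_comm]
  exact mul_le_mul_of_nonneg_left (layf_run_le _ _ _ _ _ _) (layf_ip_nonneg _ _)

theorem own_nonneg (M : ℕ) (L : Lay) (a : ℕ) (x y : ℝ) : 0 ≤ own M L a x y := by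
  exact add_nonneg (ports_nonneg _ _ _ _ _)
    (mul_nonneg (layf_ip_nonneg _ _) (busF_mem _ _ _ _ _).1)

theorem om_le_PS (M : ℕ) (L : Lay) (p : E3) : om M ≤ PS M L p := by
  rw [PS, psi_eq, add_assoc]
  exact le_add_of_nonneg_right (add_nonneg (Finset.sum_nonneg fun _ _ => own_nonneg _ _ _ _ _)
    (Finset.sum_nonneg fun _ _ => (linkF_mem _ _ _ _ _ _).1))

theorem PS_pos (M : ℕ) (L : Lay) (p : E3) : 0 < PS M L p := by
  exact (om_pos M).trans_le (om_le_PS M L p)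

theorem own_contDiff (M : ℕ) (L : Lay) (a : ℕ) :
    ContDiff ℝ 8 fun p : E3 => own M L a (p 0) (p 1) := by
  refine (layf_ports_contDiff M L a).add (contDiff_const.mul ?_)
  refine ContDiff.sum fun i _ => ContDiff.sum fun j _ => ?_
  split_ifs
  · exact (layf_gk_contDiff M 0 _).mul (layf_gk_contDiff M 1 _)
  · exact contDiff_const

theorem ports_continuous (M : ℕ) (L : Lay) (a : ℕ) :
    Continuous fun p : E3 => ports M L a (p 0) (p 1) := by
  exact (layf_ports_contDiff M L a).continuous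

theorem linkF_contDiff (M : ℕ) (L : Lay) (a b : ℕ) :
    ContDiff ℝ 8 fun p : E3 => linkF M L a b (p 0) (p 1) := by
  exact contDiff_const.mul (layf_run_contDiff _ _ _ _)

theorem PS_contDiff (M : ℕ) (L : Lay) : ContDiff ℝ 8 (PS M L) := by
  have : PS M L = fun p : E3 => om M + ∑ a : Fin L.K, own M L a.val (p 0) (p 1) +
      ∑ e ∈ E4 L.K, linkF M L e.1.val e.2.val (p 0) (p 1) := funext fun p => psi_eq M L _ _
  rw [this]
  exact (contDiff_const.add (ContDiff.sum fun (a : Fin L.K) _ => own_contDiff M L a.val)).add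
    (ContDiff.sum fun (e : Fin L.K × Fin L.K) _ => linkF_contDiff M L e.1.val e.2.val)

theorem part_contDiff (M : ℕ) (L : Lay) (a : ℕ) : ContDiff ℝ 8 (part M L a) := by
  have hr : ∀ a b, ContDiff ℝ 8 fun p : E3 => rho M L a b (p 0) := fun a b =>
    (ramp_contDiff _ _).comp (layf_coord 0)
  refine ((own_contDiff M L a).add (ContDiff.sum fun b _ => ?_)).add (ContDiff.sum fun b _ => ?_)
  · split_ifs
    · exact (contDiff_const.sub (hr a b)).mul (linkF_contDiff M L a b)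
    · exact contDiff_const
  · split_ifs
    · exact (hr b a).mul (linkF_contDiff M L b a)
    · exact contDiff_const

theorem TH_contDiff (M : ℕ) (L : Lay) : ContDiff ℝ 8 (TH M L) := by
  exact (PS_contDiff M L).mul (((gam_contDiff M).comp (layf_coord 2)).add contDiff_const)

theorem TH_pos (M : ℕ) (L : Lay) (p : E3) : 0 < TH M L p := by
  exact mul_pos (PS_pos M L p) (add_pos (gam_pos _ _) (om_pos M))

theorem ports_sq {M : ℕ} (hM : 2 ≤ M) (L : Lay) (a : ℕ) (x y : ℝ) :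
    ports M L a x y ^ 2 =
      ∑ c ∈ Finset.range (NC M), if L.has a c = true then portF M L a c x y ^ 2 else 0 := by
  have e : ∀ c, (if L.has a c = true then portF M L a c x y ^ 2 else 0) =
      (if L.has a c = true then portF M L a c x y else 0) ^ 2 := fun c => by
    split_ifs <;> simp
  simp only [e]
  exact layf_sum_sq (layf_port_disj hM L a x y)

theorem ports_le {M : ℕ} (hM : 2 ≤ M) (L : Lay) (a : ℕ) (x y : ℝ) : ports M L a x y ≤ 3 := by
  refine layf_sum_le (layf_port_disj hM L a x y) (by norm_num) fun c _ => ?_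
  split_ifs
  · exact layf_run_le _ _ _ _ _ _
  · norm_num

theorem own_le {M : ℕ} (hM : 2 ≤ M) (L : Lay) (a : ℕ) (x y : ℝ) : own M L a x y ≤ 12 := by
  have h1 := ports_le hM L a x y
  have h2 := mul_le_mul (layf_ip_le (by omega : 1 ≤ M) 90) (busF_mem M L a x y).2
    (busF_mem M L a x y).1 zero_le_one
  rw [own]
  linarith

theorem own_le_part {M : ℕ} (hM : 2 ≤ M) (L : Lay) (a : ℕ) (p : E3) :
    own M L a (p 0) (p 1) ≤ part M L a p := by
  rw [part, add_assoc]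
  refine le_add_of_nonneg_right (add_nonneg (Finset.sum_nonneg fun b _ => ite_nonneg ?_ le_rfl)
    (Finset.sum_nonneg fun b _ => ite_nonneg ?_ le_rfl))
  · exact mul_nonneg (sub_nonneg.2 (ramp_mem (layf_ramp hM _) _).2) (linkF_mem _ _ _ _ _ _).1
  · exact mul_nonneg (ramp_mem (layf_ramp hM _) _).1 (linkF_mem _ _ _ _ _ _).1

theorem layf_own_le_PS {M : ℕ} {L : Lay} {a : ℕ} (ha : a < L.K) (p : E3) :
    own M L a (p 0) (p 1) ≤ PS M L p := by
  have h1 := Finset.single_le_sum (f := fun b : Fin L.K => own M L b.val (p 0) (p 1))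
    (fun _ _ => own_nonneg _ _ _ _ _) (Finset.mem_univ (⟨a, ha⟩ : Fin L.K))
  have h2 : 0 ≤ ∑ e ∈ E4 L.K, linkF M L e.1.val e.2.val (p 0) (p 1) :=
    Finset.sum_nonneg fun _ _ => (linkF_mem _ _ _ _ _ _).1
  rw [PS, psi_eq]
  linarith [om_pos M]

theorem layf_link_le_PS {M : ℕ} {L : Lay} {a b : ℕ} (h : Edge L.K a b) (p : E3) :
    linkF M L a b (p 0) (p 1) ≤ PS M L p := by
  have h1 := Finset.single_le_sum
    (f := fun e : Fin L.K × Fin L.K => linkF M L e.1.val e.2.val (p 0) (p 1))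
    (fun _ _ => (linkF_mem _ _ _ _ _ _).1)
    ((edge_iff (⟨a, h.1.trans h.2.1⟩, ⟨b, h.2.1⟩)).2 h)
  have h2 : 0 ≤ ∑ a : Fin L.K, own M L a.val (p 0) (p 1) :=
    Finset.sum_nonneg fun _ _ => own_nonneg _ _ _ _ _
  rw [PS, psi_eq]
  linarith [om_pos M]

theorem port_dom {M : ℕ} {L : Lay} {a c k : ℕ} (ha : a < L.K) (hc : c < NC M)
    (h : L.has a c = true) (hk : k < LL M) (p : E3) :
    1 * (gk M (p 0 - ((L.x0 + D0 M * c + k : ℕ) : ℝ)) * gk M (p 1 - (row M a : ℝ))) ≤ PS M L p := by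
  rw [one_mul]
  refine (layf_le_run hk _ _).trans (le_trans ?_ (layf_own_le_PS ha p))
  refine le_trans ?_ (le_add_of_nonneg_right
    (mul_nonneg (layf_ip_nonneg _ _) (busF_mem _ _ _ _ _).1))
  have h1 := Finset.single_le_sum
    (f := fun c => if L.has a c = true then portF M L a c (p 0) (p 1) else 0)
    (fun _ _ => ite_nonneg (run_nonneg _ _ _ _ _ _) le_rfl) (Finset.mem_range.2 hc)
  rwa [if_pos h] at h1

theorem link_dom {M : ℕ} {L : Lay} {a b k : ℕ} (h : Edge L.K a b) (hk : k ≤ LL M) (p : E3) :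
    ip M 1520 * (gk M (p 0 - ((L.li a b + k : ℕ) : ℝ)) * gk M (p 1 - (L.lj a b : ℝ))) ≤
      PS M L p := by
  exact (mul_le_mul_of_nonneg_left (layf_le_run (Nat.lt_succ_of_le hk) _ _)
    (layf_ip_nonneg _ _)).trans (layf_link_le_PS h p)

theorem linkF_le_PS {M : ℕ} {L : Lay} {a b : ℕ} (h : Edge L.K a b) (p : E3) :
    linkF M L a b (p 0) (p 1) ≤ PS M L p := by
  exact layf_link_le_PS h p

section OK

variable {M : ℕ} {L : Lay} {Pi : ℕ} {v : ℕ → ℕ → ℕ}

theorem Lay.OK.bus_dom (h : L.OK M Pi v) {a i j : ℕ} (ha : a < L.K) (hb : L.bus a i j = true)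
    (p : E3) : ip M 90 * (gk M (p 0 - (i : ℝ)) * gk M (p 1 - (j : ℝ))) ≤ PS M L p := by
  obtain ⟨_, h1, _, h2⟩ := h.inner a i j ha hb
  have hr : 1 ≤ rr M := Nat.le_add_left 1 _
  refine le_trans ?_ ((le_add_of_nonneg_left (ports_nonneg _ _ _ _ _)).trans (layf_own_le_PS ha p))
  refine mul_le_mul_of_nonneg_left ?_ (layf_ip_nonneg _ _)
  have h0 : ∀ i j : ℕ, 0 ≤ if L.bus a i j = true then gk M (p 0 - (i : ℝ)) * gk M (p 1 - (j : ℝ))
      else 0 := fun _ _ => ite_nonneg (mul_nonneg (gk_nonneg _ _) (gk_nonneg _ _)) le_rfl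
  have h3 := Finset.single_le_sum (f := fun j : ℕ =>
    if L.bus a i j = true then gk M (p 0 - (i : ℝ)) * gk M (p 1 - (j : ℝ)) else 0)
    (fun j _ => h0 i j) (Finset.mem_range.2 (by omega : j < DD M))
  rw [if_pos hb] at h3
  exact h3.trans (Finset.single_le_sum (f := fun i : ℕ => ∑ j ∈ Finset.range (DD M),
    if L.bus a i j = true then gk M (p 0 - (i : ℝ)) * gk M (p 1 - (j : ℝ)) else 0)
    (fun i _ => Finset.sum_nonneg fun j _ => h0 i j) (Finset.mem_range.2 (by omega : i < DD M)))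

theorem Lay.OK.own_node (h : L.OK M Pi v) {a : ℕ} (ha : a < L.K) {x y : ℝ}
    (h0 : own M L a x y ≠ 0) :
    ∃ i j, L.bus a i j = true ∧ |x - i| < rr M ∧ |y - j| < rr M := by
  by_cases h1 : ports M L a x y = 0
  · rw [own, h1, zero_add] at h0
    obtain ⟨i, _, h2⟩ := Finset.exists_ne_zero_of_sum_ne_zero (right_ne_zero_of_mul h0)
    obtain ⟨j, _, h3⟩ := Finset.exists_ne_zero_of_sum_ne_zero h2
    obtain ⟨h4, h5⟩ := ite_ne_right_iff.1 h3
    exact ⟨i, j, h4, layf_gk_ne (left_ne_zero_of_mul h5), layf_gk_ne (right_ne_zero_of_mul h5)⟩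
  · obtain ⟨c, hc, h2⟩ := Finset.exists_ne_zero_of_sum_ne_zero h1
    obtain ⟨h4, h5⟩ := ite_ne_right_iff.1 h2
    obtain ⟨k, hk, h6, h7⟩ := layf_run_node h5
    exact ⟨_, _, h.port_bus a c k ha (Finset.mem_range.1 hc) h4 hk, h6, h7⟩

theorem Lay.OK.own_supp (h : L.OK M Pi v) {a : ℕ} (ha : a < L.K) {x y : ℝ}
    (h0 : own M L a x y ≠ 0) : 0 < x ∧ x < DD M ∧ 0 < y ∧ y < DD M := by
  obtain ⟨i, j, hb, h1, h2⟩ := h.own_node ha h0
  obtain ⟨k1, k2, k3, k4⟩ := h.inner a i j ha hb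
  rify at k1 k2 k3 k4
  rw [abs_lt] at h1 h2
  exact ⟨by linarith [h1.1], by linarith [h1.2], by linarith [h2.1], by linarith [h2.2]⟩

theorem Lay.OK.link_supp (h : L.OK M Pi v) {a b : ℕ} (he : Edge L.K a b) {x y : ℝ}
    (h0 : linkF M L a b x y ≠ 0) : 0 < x ∧ x < DD M ∧ 0 < y ∧ y < DD M := by
  obtain ⟨h1, h2, h3⟩ := layf_link_supp h0
  obtain ⟨k1, -, k3, k4⟩ := h.inner a _ _ (he.1.trans he.2.1) (h.link_l a b he)
  obtain ⟨-, k2, -, -⟩ := h.inner b _ _ he.2.1 (h.link_r a b he)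
  rify at k1 k2 k3 k4
  rw [abs_lt] at h3
  exact ⟨by linarith, by linarith, by linarith [h3.1], by linarith [h3.2]⟩

theorem Lay.OK.PS_supp (h : L.OK M Pi v) {p : E3} (h0 : PS M L p ≠ om M) :
    0 < p 0 ∧ p 0 < DD M ∧ 0 < p 1 ∧ p 1 < DD M := by
  rw [PS, psi_eq] at h0
  by_cases h1 : ∑ a : Fin L.K, own M L a.val (p 0) (p 1) = 0
  · rw [h1, add_zero, Ne, add_eq_left] at h0
    obtain ⟨e, he, h2⟩ := Finset.exists_ne_zero_of_sum_ne_zero h0
    exact h.link_supp ((edge_iff e).1 he) h2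
  · obtain ⟨a, _, h2⟩ := Finset.exists_ne_zero_of_sum_ne_zero h1
    exact h.own_supp a.2 h2

theorem Lay.OK.part_supp (h : L.OK M Pi v) {a : ℕ} (ha : a < L.K) {p : E3}
    (h0 : part M L a p ≠ 0) : 0 < p 0 ∧ p 0 < DD M ∧ 0 < p 1 ∧ p 1 < DD M := by
  rcases layf_part_cases h0 with h1 | ⟨b, he, h1⟩ | ⟨b, he, h1⟩
  · exact h.own_supp ha h1
  · exact h.link_supp he (right_ne_zero_of_mul h1)
  · exact h.link_supp he (right_ne_zero_of_mul h1)

theorem Lay.OK.own_disj (h : L.OK M Pi v) {a b : ℕ} (ha : a < L.K) (hb : b < L.K) (hab : a ≠ b)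
    (x y : ℝ) : own M L a x y = 0 ∨ own M L b x y = 0 := by
  by_contra hn
  rw [not_or] at hn
  obtain ⟨i, j, h1, h2, h3⟩ := h.own_node ha hn.1
  obtain ⟨i', j', h4, h5, h6⟩ := h.own_node hb hn.2
  rw [abs_lt] at h2 h3 h5 h6
  rcases h.sep a b i j i' j' ha hb hab h1 h4 with k | k | k | k <;> rify at k <;>
    linarith [h2.1, h2.2, h3.1, h3.2, h5.1, h5.2, h6.1, h6.2]

theorem Lay.OK.own_link (h : L.OK M Pi v) {a b c : ℕ} (he : Edge L.K a b) (hc : c < L.K)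
    {x y : ℝ} (h1 : own M L c x y ≠ 0) (h2 : linkF M L a b x y ≠ 0) :
    (c = a ∧ x < (L.li a b : ℝ) + rr M) ∨ (c = b ∧ (L.li a b : ℝ) + LL M - rr M < x) := by
  obtain ⟨i, j, h3, h4, h5⟩ := h.own_node hc h1
  obtain ⟨h6, h7, h8⟩ := layf_link_supp h2
  rw [abs_lt] at h4 h5 h8
  rcases h.link_sep a b c i j he hc h3 with (k | k | k | k) | ⟨e, k⟩ | ⟨e, k⟩ <;> rify at k
  · linarith [h5.2, h8.1]
  · linarith [h5.1, h8.2]
  · linarith [h4.2]
  · linarith [h4.1]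
  · exact Or.inl ⟨e, by linarith [h4.2]⟩
  · exact Or.inr ⟨e, by linarith [h4.1]⟩

theorem Lay.OK.link_disj (h : L.OK M Pi v) {a b a' b' : ℕ} (he : Edge L.K a b)
    (he' : Edge L.K a' b') (hne : (a, b) ≠ (a', b')) (x x' y : ℝ) :
    linkF M L a b x y = 0 ∨ linkF M L a' b' x' y = 0 := by
  by_contra hn
  rw [not_or] at hn
  have h1 := abs_lt.1 (layf_link_supp hn.1).2.2
  have h2 := abs_lt.1 (layf_link_supp hn.2).2.2
  rcases h.link_row a b a' b' he he' hne with k | k <;> rify at k <;>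
    linarith [h1.1, h1.2, h2.1, h2.2]

theorem Lay.OK.part_eq_zero (h : L.OK M Pi v) (hM : 2 ≤ M) {a b : ℕ} (ha : a < L.K) (hb : b < L.K)
    (hab : a ≠ b) {p : E3} (h0 : own M L b (p 0) (p 1) ≠ 0) : part M L a p = 0 := by
  by_contra hn
  rcases layf_part_cases hn with h1 | ⟨c, he, h1⟩ | ⟨c, he, h1⟩
  · exact (h.own_disj ha hb hab _ _).elim h1 h0
  · rcases h.own_link he hb h0 (right_ne_zero_of_mul h1) with ⟨e, _⟩ | ⟨_, k⟩
    · exact hab e.symm
    · exact left_ne_zero_of_mul h1 (sub_eq_zero.2 (ramp_eq_one (layf_ramp hM _) k.le).1.symm)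
  · rcases h.own_link he hb h0 (right_ne_zero_of_mul h1) with ⟨_, k⟩ | ⟨e, _⟩
    · exact left_ne_zero_of_mul h1 (ramp_eq_zero (layf_ramp hM _) k.le).1
    · exact hab e.symm

theorem Lay.OK.layf_links (h : L.OK M Pi v) (x y : ℝ) :
    ∑ e ∈ E4 L.K, linkF M L e.1.val e.2.val x y ≤ 3 * ip M 1520 :=
  layf_sum_le (fun e he e' he' hne => h.link_disj ((edge_iff e).1 he) ((edge_iff e').1 he')
    (fun k => hne (Prod.ext (Fin.ext (congrArg Prod.fst k)) (Fin.ext (congrArg Prod.snd k)))) x x y)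
    (mul_nonneg (by norm_num) (layf_ip_nonneg _ _)) fun _ _ => (linkF_mem _ _ _ _ _ _).2

theorem Lay.OK.PS_le (h : L.OK M Pi v) (hM : 2 ≤ M) (p : E3) : PS M L p ≤ 16 := by
  have h1 := om_le_one M
  have h2 : ∑ a : Fin L.K, own M L a.val (p 0) (p 1) ≤ 12 :=
    layf_sum_le (fun a _ b _ hab => h.own_disj a.2 b.2 (fun e => hab (Fin.ext e)) _ _)
      (by norm_num) fun a _ => own_le hM L _ _ _
  have h3 := h.layf_links (p 0) (p 1)
  have h4 := layf_ip_le (by omega : 1 ≤ M) 1520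
  rw [PS, psi_eq]
  linarith

theorem Lay.OK.PS_le_own (h : L.OK M Pi v) (hM : 2 ≤ M) {a : ℕ} (ha : a < L.K) {p : E3}
    (h0 : part M L a p ≠ 0) :
    PS M L p ≤ ports M L a (p 0) (p 1) + (om M + 12 * ip M 90) := by
  have h2 : ∑ b : Fin L.K, own M L b.val (p 0) (p 1) = own M L a (p 0) (p 1) := by
    refine Finset.sum_eq_single_of_mem (⟨a, ha⟩ : Fin L.K) (Finset.mem_univ _) fun b _ hb => ?_
    by_contra hn
    exact h0 (h.part_eq_zero hM ha b.2 (fun e => hb (Fin.ext e.symm)) hn)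
  have h3 := h.layf_links (p 0) (p 1)
  have h4 := ip_anti (by omega : 1 ≤ M) (by norm_num : 90 ≤ 1520)
  have h5 := mul_le_mul_of_nonneg_left (busF_mem M L a (p 0) (p 1)).2 (layf_ip_nonneg M 90)
  rw [PS, psi_eq, h2, own]
  linarith

end OK

end Vale.Agent.P370
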