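import Vale.Agent.P370.LinkA

/-! The energy of the links. -/

namespace Vale.Agent.P370

open MeasureTheory Filter
open scoped Classical

/-- The energy carried by one link. -/
noncomputable def lnkE (M : ℕ) (L : Lay) (f : E3 → ℝ) (a b : ℕ) : ℝ :=
  ∫ p, (linkF M L a b (p 0) (p 1) * Gam M (p 2)) ^ 2 * pd 0 f p ^ 2

theorem lnk_Gam_cont (M : ℕ) : Continuous fun p : E3 => Gam M (p 2) :=
  ((gam_contDiff M).continuous.add continuous_const).comp (lnk_coord 2).continuous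

theorem lnk_sq_hcs {f : E3 → ℝ} (hf : Sm f) (k : Fin 3) :
    HasCompactSupport fun p => pd k f p ^ 2 := by
  simp only [pow_two]
  exact (lnk_pd_hcs hf k).mul_left

theorem lnkE_int (M : ℕ) (L : Lay) {f : E3 → ℝ} (hf : Sm f) (a b : ℕ) :
    Integrable fun p : E3 => (linkF M L a b (p 0) (p 1) * Gam M (p 2)) ^ 2 * pd 0 f p ^ 2 :=
  ((((linkF_contDiff M L a b).continuous.mul (lnk_Gam_cont M)).pow 2).mul
    ((lnk_pd_cont hf 0).pow 2)).integrable_of_hasCompactSupport (lnk_sq_hcs hf 0).mul_left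

theorem lnkE_nonneg (M : ℕ) (L : Lay) (f : E3 → ℝ) (a b : ℕ) : 0 ≤ lnkE M L f a b :=
  integral_nonneg fun _ => mul_nonneg (sq_nonneg _) (sq_nonneg _)

theorem lnk_EE_nonneg (M : ℕ) (L : Lay) (f : E3 → ℝ) : 0 ≤ EE M L f :=
  div_nonneg (Finset.sum_nonneg fun _ _ =>
    integral_nonneg fun _ => mul_nonneg (sq_nonneg _) (sq_nonneg _)) (by norm_num)

theorem lnkE_sum (M : ℕ) (L : Lay) {f : E3 → ℝ} (hf : Sm f) :
    ∑ e ∈ E4 L.K, lnkE M L f e.1.val e.2.val ≤ 2 * EE M L f := by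
  have h1 : ∑ e ∈ E4 L.K, lnkE M L f e.1.val e.2.val ≤ ∫ p, TH M L p ^ 2 * pd 0 f p ^ 2 := by
    unfold lnkE
    rw [← integral_finsetSum _ fun e _ => lnkE_int M L hf _ _]
    refine integral_mono (integrable_finsetSum _ fun e _ => lnkE_int M L hf _ _)
      ((((TH_contDiff M L).continuous.pow 2).mul
        ((lnk_pd_cont hf 0).pow 2)).integrable_of_hasCompactSupport (lnk_sq_hcs hf 0).mul_left)
      fun p => ?_
    have q1 : ∑ e ∈ E4 L.K, linkF M L e.1.val e.2.val (p 0) (p 1) ^ 2 ≤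
        (∑ e ∈ E4 L.K, linkF M L e.1.val e.2.val (p 0) (p 1)) ^ 2 :=
      Finset.sum_sq_le_sq_sum_of_nonneg fun e _ => (linkF_mem M L _ _ _ _).1
    have q2 : ∑ e ∈ E4 L.K, linkF M L e.1.val e.2.val (p 0) (p 1) ≤ PS M L p := by
      unfold PS
      rw [psi_eq]
      have := om_pos M
      have : 0 ≤ ∑ a : Fin L.K, own M L a.val (p 0) (p 1) :=
        Finset.sum_nonneg fun a _ => own_nonneg M L _ _ _
      linarith
    have q3 := pow_le_pow_left₀ (Finset.sum_nonneg fun e _ => (linkF_mem M L _ _ _ _).1) q2 2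
    simp only [mul_pow, TH]
    rw [← Finset.sum_mul, ← Finset.sum_mul]
    gcongr
    exact q1.trans q3
  have h2 : ∫ p, TH M L p ^ 2 * pd 0 f p ^ 2 ≤ ∑ k, ∫ p, TH M L p ^ 2 * pd k f p ^ 2 :=
    Finset.single_le_sum (f := fun k => ∫ p, TH M L p ^ 2 * pd k f p ^ 2)
      (fun _ _ => integral_nonneg fun _ => mul_nonneg (sq_nonneg _) (sq_nonneg _))
      (Finset.mem_univ 0)
  unfold EE
  linarith

theorem lnk_ip_sq (M : ℕ) : (ip M 1520 : ℝ) ^ 2 = ip M 3040 := by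
  rw [pow_two, ← ip_add]

/-- The main term. -/
theorem lnk_main {M : ℕ} (hM : 1 ≤ M) (L : Lay) {f : E3 → ℝ} (hf : Sm f) (a b : ℕ) {s t : ℝ}
    (hst : s ≤ t) (hs : (L.li a b : ℝ) + rr M ≤ s + 1) (ht : t + rr M ≤ L.li a b + LL M) :
    ip M 3040 * ginf M ^ 2 * (∫ p, lnkW M (L.lj a b) (lnkP s t) p * pd 0 f p) ^ 2 ≤
      LL M * (beta M * gam0 M) * lnkE M L f a b := by
  have h1 := lnk_cs (lnkW_cont M (L.lj a b) (lnkP_contDiff s t).continuous)
    (lnkW_hcs M (L.lj a b) (lnkP_hcs hst)) (lnkW_nonneg M (L.lj a b) (lnkP_nonneg hst))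
    (lnk_pd_cont hf 0)
  rw [lnkW_int] at h1
  have hm : 0 ≤ beta M * gam0 M := by
    have := beta_ge hM
    have := gam0_ge hM
    have : (0 : ℝ) < 1 / (2 * M) := by positivity
    exact mul_nonneg (by linarith) (by linarith)
  have h2 : ∫ u, lnkP s t u ≤ LL M := by
    have := lnkP_int hst
    have : (1 : ℝ) ≤ rr M := by exact_mod_cast Nat.le_add_left 1 (2 * M)
    linarith
  have hP := (ip_pos hM 3040).le
  have h3 : ip M 3040 * ginf M ^ 2 * ∫ p, lnkW M (L.lj a b) (lnkP s t) p * pd 0 f p ^ 2 ≤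
      lnkE M L f a b := by
    rw [← integral_const_mul]
    refine integral_mono_of_nonneg (.of_forall fun p => ?_) (lnkE_int M L hf a b)
      (.of_forall fun p => ?_)
    · exact mul_nonneg (mul_nonneg hP (sq_nonneg _))
        (mul_nonneg (lnkW_nonneg M _ (lnkP_nonneg hst) p) (sq_nonneg _))
    · by_cases hx : p 0 ≤ s ∨ t + 1 ≤ p 0
      · simp only [lnkW, lnkP_zero hst hx, zero_mul, mul_zero]
        positivity
      · push Not at hx
        have e1 := run_eq M (L.li a b) (L.lj a b) (LL M + 1) (x := p 0) (p 1) (by linarith)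
          (by push_cast; linarith)
        have t2 : (gam M (p 2) * chz (p 2)) ^ 2 ≤ Gam M (p 2) ^ 2 := by
          have q1 := gam_pos M (p 2)
          have q2 := chz_mem (p 2)
          have q3 := om_pos M
          apply pow_le_pow_left₀ (mul_nonneg q1.le q2.1)
          unfold Gam
          nlinarith
        have t1 := lnkP_le_one s t (p 0)
        simp only [lnkW, linkF, e1]
        calc ip M 3040 * ginf M ^ 2 * (lnkP s t (p 0) * gk M (p 1 - (L.lj a b : ℝ)) ^ 2 *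
              (gam M (p 2) * chz (p 2)) ^ 2 * pd 0 f p ^ 2)
            ≤ ip M 3040 * ginf M ^ 2 * (1 * gk M (p 1 - (L.lj a b : ℝ)) ^ 2 *
              Gam M (p 2) ^ 2 * pd 0 f p ^ 2) := by gcongr
          _ = _ := by
            rw [← lnk_ip_sq]
            ring
  have h4 : 0 ≤ ∫ p, lnkW M (L.lj a b) (lnkP s t) p * pd 0 f p ^ 2 :=
    integral_nonneg fun p => mul_nonneg (lnkW_nonneg M _ (lnkP_nonneg hst) p) (sq_nonneg _)
  calc _ ≤ ip M 3040 * ginf M ^ 2 * (LL M * (beta M * gam0 M) *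
        ∫ p, lnkW M (L.lj a b) (lnkP s t) p * pd 0 f p ^ 2) := by
        refine mul_le_mul_of_nonneg_left (h1.trans ?_) (by positivity)
        gcongr
    _ = LL M * (beta M * gam0 M) * (ip M 3040 * ginf M ^ 2 *
        ∫ p, lnkW M (L.lj a b) (lnkP s t) p * pd 0 f p ^ 2) := by ring
    _ ≤ _ := mul_le_mul_of_nonneg_left h3 (by positivity)

theorem lnk_six (a b c d e g : ℝ) :
    (a + b + c + d + e + g) ^ 2 ≤ 6 * (a ^ 2 + b ^ 2 + c ^ 2 + d ^ 2 + e ^ 2 + g ^ 2) := by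
  nlinarith [sq_nonneg (a - b), sq_nonneg (a - c), sq_nonneg (a - d), sq_nonneg (a - e),
    sq_nonneg (a - g), sq_nonneg (b - c), sq_nonneg (b - d), sq_nonneg (b - e), sq_nonneg (b - g),
    sq_nonneg (c - d), sq_nonneg (c - e), sq_nonneg (c - g), sq_nonneg (d - e), sq_nonneg (d - g),
    sq_nonneg (e - g)]

theorem lnk_two {η : ℝ} (hη : 0 < η) (x y : ℝ) :
    (x + y) ^ 2 ≤ (1 + η / 2) * x ^ 2 + (1 + 2 / η) * y ^ 2 := by
  have h : (1 + η / 2) * x ^ 2 + (1 + 2 / η) * y ^ 2 - (x + y) ^ 2 =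
      (η * x - 2 * y) ^ 2 / (2 * η) := by
    field_simp
    ring
  have : 0 ≤ (η * x - 2 * y) ^ 2 / (2 * η) := by positivity
  linarith

/-- The arithmetic of one edge. -/
theorem lnk_arith {P m G Lg I B η X D TL TR e1 e2 e3 e4 : ℝ} (hP : 0 ≤ P) (hm : 0 < m)
    (hG : G ≤ 9) (hη : 0 < η)
    (hX : m * X = -D + (TR - TL + m * e1 + m * e2 + m * e3 + m * e4))
    (hD : P * G * D ^ 2 ≤ Lg * m * I) (hL : P * TL ^ 2 ≤ m * B) (hR : P * TR ^ 2 ≤ m * B)
    (h1 : P * m * e1 ^ 2 ≤ B) (h2 : P * m * e2 ^ 2 ≤ B) (h3 : P * m * e3 ^ 2 ≤ B)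
    (h4 : P * m * e4 ^ 2 ≤ B) (hG0 : 0 ≤ G) :
    P * G * m * X ^ 2 ≤ (1 + η / 2) * (Lg * I) + (1 + 2 / η) * (324 * B) := by
  have a1 := lnk_two hη (-D) (TR - TL + m * e1 + m * e2 + m * e3 + m * e4)
  rw [← hX] at a1
  have a2 := lnk_six TR (-TL) (m * e1) (m * e2) (m * e3) (m * e4)
  have a3 : P * (TR - TL + m * e1 + m * e2 + m * e3 + m * e4) ^ 2 ≤ m * (36 * B) := by
    have b0 := mul_le_mul_of_nonneg_left a2 hP
    have b1 := mul_le_mul_of_nonneg_left h1 hm.le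
    have b2 := mul_le_mul_of_nonneg_left h2 hm.le
    have b3 := mul_le_mul_of_nonneg_left h3 hm.le
    have b4 := mul_le_mul_of_nonneg_left h4 hm.le
    rw [sub_eq_add_neg]
    linarith
  have a4 : P * G * (TR - TL + m * e1 + m * e2 + m * e3 + m * e4) ^ 2 ≤ m * (324 * B) := by
    have b0 := mul_le_mul hG a3 (by positivity) (by norm_num)
    linarith
  have a5 := mul_le_mul_of_nonneg_left a1 (mul_nonneg hP hG0)
  have a6 := mul_le_mul_of_nonneg_left hD (show 0 ≤ 1 + η / 2 by positivity)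
  have a7 := mul_le_mul_of_nonneg_left a4 (show 0 ≤ 1 + 2 / η by positivity)
  refine le_of_mul_le_mul_left ?_ hm
  nlinarith

theorem lnk_edge : ∃ C : ℝ, 0 ≤ C ∧ ∀ᶠ M : ℕ in atTop, ∀ (L : Lay) (Pi : ℕ) (v : ℕ → ℕ → ℕ),
    L.OK M Pi v → ∀ f : E3 → ℝ, Sm f → ∀ e ∈ E4 L.K,
      ip M 3040 * ginf M ^ 2 * (beta M * gam0 M) * (fb M L f e.1 - fb M L f e.2) ^ 2 ≤
        (1 + ip M 4 / 2) * (LL M * lnkE M L f e.1.val e.2.val) +
          (1 + 2 / ip M 4) * (324 * (C * (M : ℝ) ^ 7 * EE M L f)) := by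
  obtain ⟨C, hC0, hC⟩ := lnkS_bdd
  refine ⟨4 * C + 216, by positivity, ?_⟩
  filter_upwards [node1, chain_bus, chain_link, eventually_ge_atTop 2] with M n1 cb cl hM2
  intro L Pi v hL f hf e he
  have hM : 1 ≤ M := by omega
  have hM' : (1 : ℝ) ≤ M := by exact_mod_cast hM
  have hE := edge_iff e |>.1 he
  have hEE := lnk_EE_nonneg M L f
  have hLL : 4 * M + 2 ≤ LL M := by
    unfold LL
    have h1 : 2 ^ 19 ≤ M ^ 19 := Nat.pow_le_pow_left hM2 19
    have h2 : M ^ 20 = M ^ 19 * M := pow_succ M 19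
    have h3 : 2 ^ 19 * M ≤ M ^ 19 * M := Nat.mul_le_mul_right M h1
    omega
  obtain ⟨k1, hk1⟩ : ∃ k1, LL M = k1 + rr M := ⟨LL M - rr M, by unfold rr; omega⟩
  have hk2 : 2 * M ≤ k1 := by unfold rr at hk1; omega
  have hm0 : 0 < beta M * gam0 M := by
    have := beta_ge hM
    have := gam0_ge hM
    have : (0 : ℝ) < 1 / (2 * M) := by positivity
    exact mul_pos (by linarith) (by linarith)
  have hm1 : beta M * gam0 M ≤ 24 * M := by
    have h1 := beta_le hM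
    have h2 := gam0_le M
    have h3 := gam0_ge hM
    have : (0 : ℝ) < 1 / (2 * M) := by positivity
    calc beta M * gam0 M ≤ 6 * M * 4 := mul_le_mul h1 h2 (by linarith) (by positivity)
      _ = 24 * M := by ring
  have hP := ip_pos hM 3040
  have hst : ((L.li e.1.val e.2.val + 2 * M : ℕ) : ℝ) ≤ ((L.li e.1.val e.2.val + k1 : ℕ) : ℝ) := by
    exact_mod_cast Nat.add_le_add_left hk2 _
  have hparts := lnk_parts M (L.lj e.1.val e.2.val) hst hf
    (avg M (L.li e.1.val e.2.val + 2 * M) (L.lj e.1.val e.2.val) f)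
    (avg M (L.li e.1.val e.2.val + k1) (L.lj e.1.val e.2.val) f)
  have hmain := lnk_main hM L hf e.1.val e.2.val hst (by unfold rr; push_cast; linarith)
    (by rw [hk1]; push_cast; linarith)
  have h7 : 0 ≤ (M : ℝ) ^ 7 * EE M L f := by positivity
  have hdev : ∀ k, k ≤ LL M → ip M 3040 * (∫ p, lnkW M (L.lj e.1.val e.2.val)
      (fun t => lnkS (t - ((L.li e.1.val e.2.val + k : ℕ) : ℝ))) p *
        (f p - avg M (L.li e.1.val e.2.val + k) (L.lj e.1.val e.2.val) f)) ^ 2 ≤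
      beta M * gam0 M * ((4 * C + 216) * (M : ℝ) ^ 7 * EE M L f) := by
    intro k hk
    have t1 := lnk_dev hM hC0 hC (ip M 1520) (L.li e.1.val e.2.val + k) (L.lj e.1.val e.2.val) hf
      (avg M (L.li e.1.val e.2.val + k) (L.lj e.1.val e.2.val) f)
    have t2 := n1 L (ip M 1520) _ _ (ip_pos hM 1520).le (link_dom hE hk) f hf
    rw [lnk_ip_sq] at t1
    refine t1.trans (mul_le_mul_of_nonneg_left ?_ hm0.le)
    have t3 := mul_le_mul_of_nonneg_left t2 (show 0 ≤ 4 * C by positivity)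
    linarith
  have hsmall : ∀ x : ℝ, ip M 3040 * x ^ 2 ≤ 9 * (M : ℝ) ^ 6 * EE M L f →
      ip M 3040 * (beta M * gam0 M) * x ^ 2 ≤ (4 * C + 216) * (M : ℝ) ^ 7 * EE M L f := by
    intro x hx
    have t1 := mul_le_mul hm1 hx (by positivity) (by positivity)
    have t2 : 0 ≤ C * ((M : ℝ) ^ 7 * EE M L f) := mul_nonneg hC0 h7
    linarith
  have hbus : ∀ x : ℝ, x ^ 2 ≤ (M : ℝ) ^ 295 * EE M L f →
      ip M 3040 * x ^ 2 ≤ 9 * (M : ℝ) ^ 6 * EE M L f := by
    intro x hx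
    have t1 := mul_le_mul_of_nonneg_left hx hP.le
    have t2 : (ip M 3040 : ℝ) * (M : ℝ) ^ 295 = ip M 2745 := ip_mul_pow hM 2745 295
    have t3 : (ip M 2745 : ℝ) ≤ ip M 0 := ip_anti hM (by norm_num)
    have t4 : (ip M 0 : ℝ) = 1 := by simp [ip]
    have t5 : (1 : ℝ) ≤ (M : ℝ) ^ 6 := one_le_pow₀ hM'
    rw [← mul_assoc, t2] at t1
    refine t1.trans (mul_le_mul_of_nonneg_right ?_ hEE)
    linarith
  have hlink : ∀ k k' : ℕ, k ≤ k' → k' ≤ LL M → (k' : ℝ) - k ≤ 3 * M →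
      ip M 3040 * (avg M (L.li e.1.val e.2.val + k) (L.lj e.1.val e.2.val) f -
        avg M (L.li e.1.val e.2.val + k') (L.lj e.1.val e.2.val) f) ^ 2 ≤
        9 * (M : ℝ) ^ 6 * EE M L f := by
    intro k k' h1 h2 h3
    have t1 := cl L f hf _ _ hE k k' h1 h2
    have t2 : (k : ℝ) ≤ k' := by exact_mod_cast h1
    have t3 : ((k' : ℝ) - k) ^ 2 ≤ (3 * M) ^ 2 := pow_le_pow_left₀ (by linarith) h3 2
    rw [← neg_sq, neg_sub]
    refine t1.trans ?_
    calc ((k' : ℝ) - k) ^ 2 * (M : ℝ) ^ 4 * EE M L f ≤ (3 * M) ^ 2 * (M : ℝ) ^ 4 * EE M L f := by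
          gcongr
      _ = _ := by ring
  have b1 := cb L Pi v hL f hf e.1 _ _ (hL.link_l _ _ hE)
  have b2 := cb L Pi v hL f hf e.2 _ _ (hL.link_r _ _ hE)
  rw [← neg_sq, neg_sub] at b1
  have l1 := hlink 0 (2 * M) (by omega) (by omega) (by push_cast; linarith)
  have l2 := hlink k1 (LL M) (by omega) le_rfl (by rw [hk1]; unfold rr; push_cast; linarith)
  rw [Nat.add_zero] at l1
  have hg1 := one_le_ginf M
  have hg2 := ginf_le M
  refine lnk_arith hP.le hm0 (by nlinarith) (ip_pos hM 4) ?_ hmain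
    (hdev (2 * M) (by omega)) (hdev k1 (by omega)) (hsmall _ (hbus _ b1)) (hsmall _ l1)
    (hsmall _ l2) (hsmall _ (hbus _ b2)) (by positivity)
  linarith

theorem link_low : ∀ᶠ M : ℕ in atTop, ∀ (L : Lay) (Pi : ℕ) (v : ℕ → ℕ → ℕ), L.OK M Pi v →
    ∀ f : E3 → ℝ, Sm f →
      tt M Pi * n0sq M Pi * hop1 (E4 L.K) (fb M L f) ≤ (1 + ip M 4) * EE M L f := by
  obtain ⟨C, hC0, hC⟩ := lnk_edge
  filter_upwards [hC, ev_le (972 * C), eventually_ge_atTop 1] with M h1 h2 hM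
  intro L Pi v hL f hf
  have hM' : (1 : ℝ) ≤ M := by exact_mod_cast hM
  have hM0 : (0 : ℝ) < M := by linarith
  have hPi : (0 : ℝ) < Pi := by
    have := hL.Pi_ge
    exact_mod_cast (show 0 < Pi by omega)
  have hEE := lnk_EE_nonneg M L f
  have hLL : (LL M : ℝ) = (M : ℝ) ^ 20 := by
    unfold LL
    push_cast
    rfl
  have hSS : (SS M : ℝ) = (LL M : ℝ) ^ 2 := by
    rw [hLL]
    unfold SS
    push_cast
    ring
  have hL0 : (0 : ℝ) < LL M := by
    rw [hLL]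
    positivity
  have e1 : tt M Pi * n0sq M Pi = ip M 3040 * ginf M ^ 2 * (beta M * gam0 M) / (2 * LL M) := by
    unfold tt n0sq
    rw [hSS]
    field_simp
  have hs := Finset.sum_le_sum (h1 L Pi v hL f hf)
  rw [← Finset.mul_sum, Finset.sum_add_distrib, ← Finset.mul_sum, ← Finset.mul_sum,
    Finset.sum_const, nsmul_eq_mul] at hs
  have hcard : ((E4 L.K).card : ℝ) ≤ (M : ℝ) ^ 2 := by
    have t1 : (E4 L.K).card ≤ L.K * L.K := by
      simpa using Finset.card_le_univ (E4 L.K)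
    have t2 : L.K * L.K ≤ M * M := Nat.mul_le_mul hL.K_le hL.K_le
    rw [pow_two]
    exact_mod_cast t1.trans t2
  have hη := ip_pos hM 4
  have hη1 : (ip M 4 : ℝ) * (M : ℝ) ^ 4 = 1 := by
    unfold ip
    field_simp
  have hη2 : 1 + 2 / (ip M 4 : ℝ) ≤ 3 * (M : ℝ) ^ 4 := by
    have t1 : 2 / (ip M 4 : ℝ) = 2 * (M : ℝ) ^ 4 := by
      unfold ip
      field_simp
    have t2 : (1 : ℝ) ≤ (M : ℝ) ^ 4 := one_le_pow₀ hM'
    linarith
  have herr : ((E4 L.K).card : ℝ) * ((1 + 2 / ip M 4) * (324 * (C * (M : ℝ) ^ 7 * EE M L f))) ≤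
      ip M 4 * LL M * EE M L f := by
    calc ((E4 L.K).card : ℝ) * ((1 + 2 / ip M 4) * (324 * (C * (M : ℝ) ^ 7 * EE M L f)))
        ≤ (M : ℝ) ^ 2 * (3 * (M : ℝ) ^ 4 * (324 * (C * (M : ℝ) ^ 7 * EE M L f))) := by gcongr
      _ = 972 * C * (M : ℝ) ^ 13 * EE M L f := by ring
      _ ≤ (M : ℝ) ^ 3 * (M : ℝ) ^ 13 * EE M L f := by
          gcongr
          exact h2.trans (le_self_pow₀ hM' (by norm_num))
      _ = ip M 4 * (M : ℝ) ^ 4 * ((M : ℝ) ^ 16 * EE M L f) := by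
          rw [hη1]
          ring
      _ = _ := by
          rw [hLL]
          ring
  have hsum := mul_le_mul_of_nonneg_left (lnkE_sum M L hf) hL0.le
  have hsum2 := mul_le_mul_of_nonneg_left hsum (show 0 ≤ 1 + (ip M 4 : ℝ) / 2 by positivity)
  rw [e1, div_mul_eq_mul_div, div_le_iff₀ (by positivity)]
  unfold hop1
  linarith

end Vale.Agent.P370
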