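import Vale.Agent.P370.Node

/-! Weighted averages across a link. -/

namespace Vale.Agent.P370

open MeasureTheory Filter
open scoped Classical

theorem lnk_cs {W g : E3 → ℝ} (hW : Continuous W) (hc : HasCompactSupport W) (h0 : ∀ p, 0 ≤ W p)
    (hg : Continuous g) : (∫ p, W p * g p) ^ 2 ≤ (∫ p, W p) * ∫ p, W p * g p ^ 2 := by
  have i0 : Integrable W := hW.integrable_of_hasCompactSupport hc
  have i1 : Integrable fun p => W p * g p :=
    (hW.mul hg).integrable_of_hasCompactSupport hc.mul_right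
  have i2 : Integrable fun p => W p * g p ^ 2 :=
    (hW.mul (hg.pow 2)).integrable_of_hasCompactSupport hc.mul_right
  have h : ∀ t : ℝ, 0 ≤ (∫ p, W p) * (t * t) + (-2 * ∫ p, W p * g p) * t +
      ∫ p, W p * g p ^ 2 := by
    intro t
    have e : (∫ p, W p) * (t * t) + (-2 * ∫ p, W p * g p) * t + ∫ p, W p * g p ^ 2 =
        ∫ p, W p * (g p - t) ^ 2 := by
      have a1 : Integrable fun p => W p * (t * t) := i0.mul_const _
      have a2 : Integrable fun p => -2 * t * (W p * g p) := i1.const_mul _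
      have a3 : Integrable fun p => W p * (t * t) + -2 * t * (W p * g p) := a1.add a2
      have a4 : (fun p => W p * (g p - t) ^ 2) =
          fun p => W p * (t * t) + -2 * t * (W p * g p) + W p * g p ^ 2 := by
        funext p
        ring
      rw [a4, integral_add a3 i2, integral_add a1 a2, integral_mul_const, integral_const_mul]
      ring
    rw [e]
    exact integral_nonneg fun p => mul_nonneg (h0 p) (sq_nonneg _)
  have := discrim_le_zero h
  unfold discrim at this
  nlinarith

theorem lnk_hcs {u v s : ℝ → ℝ} (hu : HasCompactSupport u) (hv : HasCompactSupport v)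
    (hs : HasCompactSupport s) : HasCompactSupport fun p : E3 => u (p 0) * v (p 1) * s (p 2) := by
  obtain ⟨R1, -, h1⟩ := hu.exists_pos_le_norm
  obtain ⟨R2, -, h2⟩ := hv.exists_pos_le_norm
  obtain ⟨R3, -, h3⟩ := hs.exists_pos_le_norm
  refine HasCompactSupport.intro (cube_isCompact 0 (max R1 (max R2 R3))) fun p hp => ?_
  simp only [cube, Set.mem_ofPred_eq, not_forall, not_le] at hp
  obtain ⟨k, hk⟩ := hp
  simp only [PiLp.zero_apply, sub_zero, max_lt_iff] at hk
  fin_cases k
  · rw [h1 (p 0) hk.1.le]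
    ring
  · rw [h2 (p 1) hk.2.1.le]
    ring
  · rw [h3 (p 2) hk.2.2.le]
    ring

theorem lnk_hcs1 {u : ℝ → ℝ} {a b : ℝ} (h : ∀ t, t < a ∨ b < t → u t = 0) :
    HasCompactSupport u := by
  refine HasCompactSupport.intro (isCompact_Icc (a := a) (b := b)) fun t ht => h t ?_
  simpa only [Set.mem_Icc, not_and_or, not_le] using ht

/-- The derivative of the smooth step. -/
noncomputable def lnkS (u : ℝ) : ℝ := deriv sst u

theorem lnkS_cont : Continuous lnkS := sst_contDiff.continuous_deriv (by norm_num)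

theorem lnkS_nonneg (u : ℝ) : 0 ≤ lnkS u := sst_mono.deriv_nonneg

theorem lnkS_hasDerivAt (u : ℝ) : HasDerivAt sst (lnkS u) u :=
  (sst_contDiff.differentiable (by norm_num) u).hasDerivAt

theorem lnkS_zero {u : ℝ} (h : u < 0 ∨ 1 < u) : lnkS u = 0 := by
  rcases h with h | h
  · have : (sst : ℝ → ℝ) =ᶠ[nhds u] fun _ => 0 := by
      filter_upwards [Iio_mem_nhds h] with t ht using sst_of_nonpos (le_of_lt ht)
    unfold lnkS
    rw [this.deriv_eq, deriv_const]
  · have : (sst : ℝ → ℝ) =ᶠ[nhds u] fun _ => 1 := by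
      filter_upwards [Ioi_mem_nhds h] with t ht using sst_of_one_le (le_of_lt ht)
    unfold lnkS
    rw [this.deriv_eq, deriv_const]

theorem lnkS_bdd : ∃ C : ℝ, 0 ≤ C ∧ ∀ u, lnkS u ≤ C := by
  obtain ⟨C, hC⟩ := lnkS_cont.bounded_above_of_compact_support
    (lnk_hcs1 (a := 0) (b := 1) fun _ h => lnkS_zero h)
  exact ⟨C, (norm_nonneg _).trans (hC 0), fun u => (le_abs_self _).trans (hC u)⟩

theorem lnkS_int : ∫ u, lnkS u = 1 := by
  have h1 : Function.support lnkS ⊆ Set.Ioc (-1) 1 := by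
    intro u hu
    by_contra h
    apply hu
    apply lnkS_zero
    simp only [Set.mem_Ioc, not_and_or, not_lt, not_le] at h
    rcases h with h | h
    · left
      linarith
    · right
      exact h
  rw [← intervalIntegral.integral_eq_integral_of_support_subset h1,
    intervalIntegral.integral_eq_sub_of_hasDerivAt (fun u _ => lnkS_hasDerivAt u)
      (lnkS_cont.intervalIntegrable _ _), sst_of_one_le le_rfl, sst_of_nonpos (by norm_num)]
  norm_num

/-- The plateau between two steps. -/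
noncomputable def lnkP (a b u : ℝ) : ℝ := sst (u - a) - sst (u - b)

theorem lnkP_contDiff (a b : ℝ) : ContDiff ℝ 8 (lnkP a b) :=
  (sst_contDiff.comp (contDiff_id.sub contDiff_const)).sub
    (sst_contDiff.comp (contDiff_id.sub contDiff_const))

theorem lnkP_nonneg {a b : ℝ} (h : a ≤ b) (u : ℝ) : 0 ≤ lnkP a b u :=
  sub_nonneg.2 (sst_mono (by linarith))

theorem lnkP_le_one (a b u : ℝ) : lnkP a b u ≤ 1 := by
  have := plat_le_one (a + 1) b u
  unfold plat at this
  unfold lnkP
  rwa [show u - (a + 1) + 1 = u - a by ring] at this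

theorem lnkP_zero {a b u : ℝ} (h : a ≤ b) (hu : u ≤ a ∨ b + 1 ≤ u) : lnkP a b u = 0 := by
  unfold lnkP
  rcases hu with hu | hu
  · rw [sst_of_nonpos (by linarith), sst_of_nonpos (by linarith), sub_self]
  · rw [sst_of_one_le (by linarith), sst_of_one_le (by linarith), sub_self]

theorem lnkP_hasDerivAt (a b u : ℝ) :
    HasDerivAt (lnkP a b) (lnkS (u - a) - lnkS (u - b)) u :=
  ((lnkS_hasDerivAt (u - a)).comp_sub_const u a).sub ((lnkS_hasDerivAt (u - b)).comp_sub_const u b)

theorem lnkP_int {a b : ℝ} (h : a ≤ b) : ∫ u, lnkP a b u ≤ b + 1 - a := by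
  have h1 : Function.support (lnkP a b) ⊆ Set.Ioc a (b + 1) := by
    intro u hu
    by_contra h'
    apply hu
    apply lnkP_zero h
    simp only [Set.mem_Ioc, not_and_or, not_lt, not_le] at h'
    exact h'.imp id le_of_lt
  rw [← intervalIntegral.integral_eq_integral_of_support_subset h1]
  have := intervalIntegral.integral_mono_on (μ := volume) (show a ≤ b + 1 by linarith)
    ((lnkP_contDiff a b).continuous.intervalIntegrable _ _)
    (continuous_const (y := (1 : ℝ)).intervalIntegrable _ _) fun u _ => lnkP_le_one a b u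
  simpa using this

/-- Weights with a given longitudinal profile. -/
noncomputable def lnkW (M j : ℕ) (u : ℝ → ℝ) (p : E3) : ℝ :=
  u (p 0) * gk M (p 1 - (j : ℝ)) ^ 2 * (gam M (p 2) * chz (p 2)) ^ 2

theorem lnk_coord (k : Fin 3) : ContDiff ℝ 8 fun p : E3 => p k :=
  (EuclideanSpace.proj k : E3 →L[ℝ] ℝ).contDiff

theorem lnkW_cont (M j : ℕ) {u : ℝ → ℝ} (hu : Continuous u) : Continuous (lnkW M j u) :=
  ((hu.comp (lnk_coord 0).continuous).mul
    (((gk_contDiff M).continuous.comp ((lnk_coord 1).continuous.sub continuous_const)).pow 2)).mul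
    (((gamchz_contDiff M).continuous.comp (lnk_coord 2).continuous).pow 2)

theorem lnkW_contDiff (M j : ℕ) {u : ℝ → ℝ} (hu : ContDiff ℝ 8 u) : ContDiff ℝ 8 (lnkW M j u) :=
  ((hu.comp (lnk_coord 0)).mul
    (((gk_contDiff M).comp ((lnk_coord 1).sub contDiff_const)).pow 2)).mul
    (((gamchz_contDiff M).comp (lnk_coord 2)).pow 2)

theorem lnkW_hcs (M j : ℕ) {u : ℝ → ℝ} (hu : HasCompactSupport u) :
    HasCompactSupport (lnkW M j u) := by
  refine lnk_hcs (v := fun t => gk M (t - (j : ℝ)) ^ 2) (s := fun t => (gam M t * chz t) ^ 2) hu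
    (lnk_hcs1 (a := j - rr M) (b := j + rr M) fun t ht => ?_)
    (lnk_hcs1 (a := -2) (b := 2) fun t ht => ?_)
  · rw [gk_eq_zero M (le_abs.2 (ht.symm.imp (fun h => by linarith) fun h => by linarith))]
    norm_num
  · rw [chz_eq_zero (le_abs.2 (ht.symm.imp (fun h => by linarith) fun h => by linarith))]
    norm_num

theorem lnkW_nonneg (M j : ℕ) {u : ℝ → ℝ} (hu : ∀ t, 0 ≤ u t) (p : E3) : 0 ≤ lnkW M j u p :=
  mul_nonneg (mul_nonneg (hu _) (sq_nonneg _)) (sq_nonneg _)

theorem lnkW_int (M j : ℕ) (u : ℝ → ℝ) :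
    ∫ p, lnkW M j u p = (∫ t, u t) * (beta M * gam0 M) := by
  have h := integral_E3_prod u (fun t => gk M (t - (j : ℝ)) ^ 2) fun t => (gam M t * chz t) ^ 2
  rw [integral_sub_right_eq_self (fun t => gk M t ^ 2) (j : ℝ)] at h
  rw [← mul_assoc]
  exact h

theorem lnkS_hcs (a : ℝ) : HasCompactSupport fun t => lnkS (t - a) :=
  lnk_hcs1 (a := a) (b := a + 1) fun _ h =>
    lnkS_zero (h.imp (fun h => by linarith) fun h => by linarith)

theorem lnkS_cont' (a : ℝ) : Continuous fun t => lnkS (t - a) :=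
  lnkS_cont.comp (continuous_id.sub continuous_const)

theorem lnkP_hcs {a b : ℝ} (h : a ≤ b) : HasCompactSupport (lnkP a b) :=
  lnk_hcs1 (a := a) (b := b + 1) fun _ ht => lnkP_zero h (ht.imp le_of_lt le_of_lt)

theorem lnkWS_int (M j : ℕ) (a : ℝ) :
    ∫ p, lnkW M j (fun t => lnkS (t - a)) p = beta M * gam0 M := by
  rw [lnkW_int, integral_sub_right_eq_self lnkS a, lnkS_int, one_mul]

theorem lnkW_pd (M j : ℕ) (a b : ℝ) (p : E3) :
    pd 0 (lnkW M j (lnkP a b)) p =
      lnkW M j (fun t => lnkS (t - a)) p - lnkW M j (fun t => lnkS (t - b)) p := by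
  have h1 := hasDerivAt_line
    ((lnkW_contDiff M j (lnkP_contDiff a b)).differentiable (by norm_num)) 0 p 0
  have e : (fun s : ℝ => lnkW M j (lnkP a b) (p + s • ev 0)) = fun s : ℝ =>
      lnkP a b (p 0 + s) * (gk M (p 1 - (j : ℝ)) ^ 2 * (gam M (p 2) * chz (p 2)) ^ 2) := by
    funext s
    simp [lnkW, ev, mul_assoc]
  have h2 := ((lnkP_hasDerivAt a b (p 0 + 0)).comp_const_add (p 0) 0).mul_const
    (gk M (p 1 - (j : ℝ)) ^ 2 * (gam M (p 2) * chz (p 2)) ^ 2)
  rw [e, zero_smul, add_zero] at h1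
  rw [h1.unique h2]
  simp only [lnkW, add_zero]
  ring

theorem lnk_pd_cont {f : E3 → ℝ} (hf : Sm f) (k : Fin 3) : Continuous (pd k f) :=
  (hf.1.continuous_fderiv one_ne_zero).clm_apply continuous_const

theorem lnk_pd_hcs {f : E3 → ℝ} (hf : Sm f) (k : Fin 3) : HasCompactSupport (pd k f) :=
  hf.2.fderiv_apply ℝ (ev k)

/-- Integration by parts along the link. -/
theorem lnk_parts (M j : ℕ) {a b : ℝ} (h : a ≤ b) {f : E3 → ℝ} (hf : Sm f) (c c' : ℝ) :
    beta M * gam0 M * (c' - c) = (∫ p, lnkW M j (lnkP a b) p * pd 0 f p) +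
      (∫ p, lnkW M j (fun t => lnkS (t - a)) p * (f p - c)) -
      ∫ p, lnkW M j (fun t => lnkS (t - b)) p * (f p - c') := by
  have h1 := integral_pd_mul hf.1 (g := lnkW M j (lnkP a b))
    ⟨(lnkW_contDiff M j (lnkP_contDiff a b)).of_le (by norm_num), lnkW_hcs M j (lnkP_hcs h)⟩ 0
  have i0 : ∀ a : ℝ, Integrable (lnkW M j fun t => lnkS (t - a)) := fun a =>
    (lnkW_cont M j (lnkS_cont' a)).integrable_of_hasCompactSupport (lnkW_hcs M j (lnkS_hcs a))
  have i1 : ∀ a : ℝ, Integrable fun p => lnkW M j (fun t => lnkS (t - a)) p * f p := fun a =>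
    ((lnkW_cont M j (lnkS_cont' a)).mul hf.1.continuous).integrable_of_hasCompactSupport
      hf.2.mul_left
  have e1 : ∀ a c : ℝ, ∫ p, lnkW M j (fun t => lnkS (t - a)) p * (f p - c) =
      (∫ p, lnkW M j (fun t => lnkS (t - a)) p * f p) - beta M * gam0 M * c := by
    intro a c
    simp only [mul_sub]
    rw [integral_sub (i1 a) ((i0 a).mul_const c), integral_mul_const, lnkWS_int]
  have e2 : ∫ p, f p * pd 0 (lnkW M j (lnkP a b)) p =
      (∫ p, lnkW M j (fun t => lnkS (t - a)) p * f p) -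
        ∫ p, lnkW M j (fun t => lnkS (t - b)) p * f p := by
    rw [← integral_sub (i1 a) (i1 b)]
    refine integral_congr_ae (.of_forall fun p => ?_)
    simp only [lnkW_pd]
    ring
  have e3 : ∫ p, lnkW M j (lnkP a b) p * pd 0 f p = ∫ p, pd 0 f p * lnkW M j (lnkP a b) p :=
    integral_congr_ae (.of_forall fun p => mul_comm _ _)
  rw [e1, e1, e3, h1, e2]
  ring

/-- Deviation from a constant near a node. -/
theorem lnk_dev {M : ℕ} (hM : 1 ≤ M) {C : ℝ} (hC0 : 0 ≤ C) (hC : ∀ u, lnkS u ≤ C) (α : ℝ)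
    (i j : ℕ) {f : E3 → ℝ} (hf : Sm f) (c : ℝ) :
    α ^ 2 * (∫ p, lnkW M j (fun t => lnkS (t - i)) p * (f p - c)) ^ 2 ≤
      beta M * gam0 M * (4 * C * ∫ p in {p : E3 | |p 2| ≤ 2},
        (α * (gk M (p 0 - (i : ℝ)) * gk M (p 1 - (j : ℝ))) * Gam M (p 2) * (f p - c)) ^ 2) := by
  have hg : Continuous fun p => f p - c := hf.1.continuous.sub continuous_const
  have h1 := lnk_cs (lnkW_cont M j (lnkS_cont' i)) (lnkW_hcs M j (lnkS_hcs i))
    (lnkW_nonneg M j fun t => lnkS_nonneg _) hg
  rw [lnkWS_int] at h1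
  have hm : 0 ≤ beta M * gam0 M := by
    have := beta_ge hM
    have := gam0_ge hM
    have : (0 : ℝ) < 1 / (2 * M) := by positivity
    exact mul_nonneg (by linarith) (by linarith)
  have hS : MeasurableSet {p : E3 | |p 2| ≤ 2} :=
    (isClosed_le (lnk_coord 2).continuous.abs continuous_const).measurableSet
  have hGam : Continuous (Gam M) := (gam_contDiff M).continuous.add continuous_const
  have hcont : Continuous fun p : E3 =>
      (α * (gk M (p 0 - (i : ℝ)) * gk M (p 1 - (j : ℝ))) * Gam M (p 2) * (f p - c)) ^ 2 :=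
    (((continuous_const.mul
      (((gk_contDiff M).continuous.comp ((lnk_coord 0).continuous.sub continuous_const)).mul
      ((gk_contDiff M).continuous.comp ((lnk_coord 1).continuous.sub continuous_const)))).mul
      (hGam.comp (lnk_coord 2).continuous)).mul hg).pow 2
  have hint : IntegrableOn (fun p : E3 =>
      (α * (gk M (p 0 - (i : ℝ)) * gk M (p 1 - (j : ℝ))) * Gam M (p 2) * (f p - c)) ^ 2)
      {p : E3 | |p 2| ≤ 2} := by
    refine (hcont.continuousOn.integrableOn_compact
      (cube_isCompact !₂[(i : ℝ), (j : ℝ), 0] (rr M + 2))).of_forall_sdiff_eq_zero hS ?_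
    rintro p ⟨hp, hq⟩
    simp only [cube, Set.mem_ofPred_eq, not_forall, not_le] at hp hq
    obtain ⟨k, hk⟩ := hq
    have hr : (0 : ℝ) ≤ rr M := Nat.cast_nonneg _
    fin_cases k
    · have : (rr M : ℝ) ≤ |p 0 - i| := by
        simp at hk
        linarith
      rw [gk_eq_zero M this]
      ring
    · have : (rr M : ℝ) ≤ |p 1 - j| := by
        simp at hk
        linarith
      rw [gk_eq_zero M this]
      ring
    · simp at hk
      linarith
  have h2 : α ^ 2 * ∫ p, lnkW M j (fun t => lnkS (t - i)) p * (f p - c) ^ 2 ≤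
      4 * C * ∫ p in {p : E3 | |p 2| ≤ 2},
        (α * (gk M (p 0 - (i : ℝ)) * gk M (p 1 - (j : ℝ))) * Gam M (p 2) * (f p - c)) ^ 2 := by
    rw [← integral_const_mul, ← integral_const_mul, ← integral_indicator hS]
    refine integral_mono_of_nonneg (.of_forall fun p => ?_)
      ((integrable_indicator_iff hS).2 (hint.const_mul _)) (.of_forall fun p => ?_)
    · exact mul_nonneg (sq_nonneg _)
        (mul_nonneg (lnkW_nonneg M j (fun t => lnkS_nonneg _) p) (sq_nonneg _))
    · by_cases hp : p ∈ {p : E3 | |p 2| ≤ 2}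
      · simp only [Set.indicator_of_mem hp, lnkW]
        have t1 : lnkS (p 0 - i) ≤ 4 * C * gk M (p 0 - (i : ℝ)) ^ 2 := by
          by_cases hx : |p 0 - i| ≤ 1
          · have q1 := gk_ge_half hM hx
            have q2 := hC (p 0 - i)
            have q3 : 1 / 4 ≤ gk M (p 0 - (i : ℝ)) ^ 2 := by nlinarith
            nlinarith
          · rw [lnkS_zero]
            · positivity
            · rcases lt_abs.1 (not_le.1 hx) with h | h
              · exact Or.inr h
              · left
                linarith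
        have t2 : (gam M (p 2) * chz (p 2)) ^ 2 ≤ Gam M (p 2) ^ 2 := by
          have q1 := gam_pos M (p 2)
          have q2 := chz_mem (p 2)
          have q3 := om_pos M
          apply pow_le_pow_left₀ (mul_nonneg q1.le q2.1)
          unfold Gam
          nlinarith
        calc α ^ 2 * (lnkS (p 0 - i) * gk M (p 1 - (j : ℝ)) ^ 2 * (gam M (p 2) * chz (p 2)) ^ 2 *
              (f p - c) ^ 2)
            ≤ α ^ 2 * (4 * C * gk M (p 0 - (i : ℝ)) ^ 2 * gk M (p 1 - (j : ℝ)) ^ 2 *
              Gam M (p 2) ^ 2 * (f p - c) ^ 2) := by gcongr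
          _ = _ := by ring
      · simp only [Set.indicator_of_notMem hp, lnkW]
        simp only [Set.mem_ofPred_eq, not_le] at hp
        rw [chz_eq_zero hp.le]
        simp
  calc _ ≤ α ^ 2 * (beta M * gam0 M * ∫ p, lnkW M j (fun t => lnkS (t - i)) p * (f p - c) ^ 2) :=
        mul_le_mul_of_nonneg_left h1 (sq_nonneg _)
    _ = beta M * gam0 M * (α ^ 2 * ∫ p, lnkW M j (fun t => lnkS (t - i)) p * (f p - c) ^ 2) := by
        ring
    _ ≤ _ := mul_le_mul_of_nonneg_left h2 hm

end Vale.Agent.P370
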