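import Vale.Agent.P370.MBa

namespace Vale.Agent.P370

open MeasureTheory Filter
open scoped Classical ENNReal

/-- The product functions. -/
noncomputable def mblP {N K : ℕ} (φ : Fin K → E3 → ℝ) (a : Fin N → Fin K) (x : Conf N) : ℝ :=
  ∏ i, φ (a i) (x i)

/-- The total truncated repulsion. -/
noncomputable def mblW {N : ℕ} (l : ℝ) (x : Conf N) : ℝ := ∑ i, ∑ j with i < j, wlow l (x i) (x j)

theorem mbl_wij {N : ℕ} (l : ℝ) (i j : Fin N) : Continuous fun x : Conf N => wlow l (x i) (x j) :=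
  continuous_const.div (by fun_prop) fun _ => (lt_max_of_lt_left one_pos).ne'

theorem mbl_Wc {N : ℕ} (l : ℝ) : Continuous (mblW (N := N) l) :=
  continuous_finsetSum _ fun i _ => continuous_finsetSum _ fun j _ => mbl_wij l i j

theorem mbl_Wb {N : ℕ} {l : ℝ} (hl : 0 ≤ l) (x : Conf N) :
    0 ≤ mblW l x ∧ mblW l x ≤ l * (N : ℝ) ^ 2 := by
  have h0 : ∀ p q, 0 ≤ wlow l p q := fun p q => div_nonneg hl (by positivity)
  have h1 : ∀ p q, wlow l p q ≤ l := fun p q => div_le_self hl (le_max_left _ _)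
  refine ⟨Finset.sum_nonneg fun i _ => Finset.sum_nonneg fun j _ => h0 _ _, ?_⟩
  have h2 : mblW l x ≤ ∑ _i : Fin N, ∑ _j : Fin N, l :=
    Finset.sum_le_sum fun i _ => (Finset.sum_le_sum fun j _ => h1 _ _).trans
      (Finset.sum_le_sum_of_subset_of_nonneg (Finset.filter_subset _ _) fun _ _ _ => hl)
  refine h2.trans (le_of_eq ?_)
  simp
  ring

variable {K : ℕ} {φ : Fin K → E3 → ℝ}

theorem mbl_Pc {N : ℕ} (hφ : ONF φ) (a : Fin N → Fin K) : Continuous (mblP φ a) :=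
  continuous_finsetProd _ fun i _ => (hφ.cont _).comp (continuous_apply i)

theorem mbl_Ps {N : ℕ} (hφ : ONF φ) (a : Fin N → Fin K) : HasCompactSupport (mblP φ a) := by
  refine HasCompactSupport.intro (isCompact_univ_pi fun i => (hφ.supp (a i)).isCompact) fun x hx => ?_
  simp only [Set.mem_pi, Set.mem_univ, forall_true_left, not_forall] at hx
  obtain ⟨i, hi⟩ := hx
  exact Finset.prod_eq_zero (Finset.mem_univ i) (image_eq_zero_of_notMem_tsupport hi)

theorem mbl_int {N : ℕ} {f G : Conf N → ℝ} (hf : Continuous f) (hG : Continuous G)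
    (hc : HasCompactSupport G) : Integrable fun x => f x * G x ^ 2 := by
  have h : (fun x => f x * G x ^ 2) = (fun x => f x * G x) * G := by
    funext x
    simp [sq, mul_assoc]
  rw [h]
  exact ((hf.mul hG).mul hG).integrable_of_hasCompactSupport hc.mul_left

theorem mbl_int2 {N : ℕ} {G : Conf N → ℝ} (hG : Continuous G) (hc : HasCompactSupport G) :
    Integrable fun x => G x ^ 2 := by
  simpa using mbl_int (f := fun _ => 1) continuous_const hG hc

theorem mbl_sq {N : ℕ} (hφ : ONF φ) (C : (Fin N → Fin K) → ℝ) (x : Conf N) :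
    (∑ a, C a * mblP φ a x) ^ 2 = ∑ a, C a ^ 2 * mblP φ a x ^ 2 := by
  rw [sq, Finset.sum_mul_sum]
  refine Finset.sum_congr rfl fun a _ => ?_
  rw [Finset.sum_eq_single a (fun b _ hb => ?_) (by simp)]
  · ring
  · obtain ⟨i, hi⟩ := Function.ne_iff.1 hb
    have : mblP φ a x * mblP φ b x = 0 := by
      rw [mblP, mblP, ← Finset.prod_mul_distrib]
      exact Finset.prod_eq_zero (Finset.mem_univ i) (hφ.disj _ _ _ hi.symm)
    linear_combination C a * C b * this

theorem mbl_one {N : ℕ} {ρ : Fin N → E3 → ℝ} (h : ∀ k, ∫ p, ρ k p = 1) (H : E3 → ℝ) (i : Fin N) :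
    ∫ y : Conf N, H (y i) * ∏ k, ρ k (y k) = ∫ p, H p * ρ i p := by
  have e : ∀ y : Conf N, H (y i) * ∏ k, ρ k (y k) =
      ∏ k, (if k = i then H (y k) else 1) * ρ k (y k) := by
    intro y
    rw [Finset.prod_mul_distrib, Finset.prod_ite_eq']
    simp
  simp only [e]
  rw [integral_fintype_prod_volume_eq_prod fun k p => (if k = i then H p else 1) * ρ k p,
    Finset.prod_eq_single i (fun k _ hk => by simp [hk, h]) (by simp)]
  simp

theorem mbl_nrm {N : ℕ} (hφ : ONF φ) (a : Fin N → Fin K) : ∫ x, mblP φ a x ^ 2 = 1 := by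
  simp only [mblP, ← Finset.prod_pow]
  rw [integral_fintype_prod_volume_eq_prod fun i p => φ (a i) p ^ 2]
  simp [hφ.nrm]

theorem mbl_two {N : ℕ} (hφ : ONF φ) (l : ℝ) (a : Fin N → Fin K) {i j : Fin N} (h : i ≠ j) :
    ∫ x, wlow l (x i) (x j) * mblP φ a x ^ 2 =
      ∫ x, ∫ y, φ (a i) x ^ 2 * φ (a j) y ^ 2 * wlow l x y := by
  rcases N with _ | n
  · exact i.elim0
  obtain ⟨k, rfl⟩ := Fin.exists_succAbove_eq h
  rw [integral_insertNth j (mbl_int (mbl_wij l _ _) (mbl_Pc hφ a) (mbl_Ps hφ a))]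
  have e : ∀ y : Conf n, ∫ p : E3, wlow l ((j.insertNth p y : Conf (n + 1)) (j.succAbove k))
      ((j.insertNth p y : Conf (n + 1)) j) * mblP φ a (j.insertNth p y) ^ 2 =
      (∫ p, φ (a j) p ^ 2 * wlow l (y k) p) * ∏ m, φ (a (j.succAbove m)) (y m) ^ 2 := by
    intro y
    rw [← integral_mul_const]
    refine integral_congr_ae (.of_forall fun p => ?_)
    simp only [mblP, Fin.prod_univ_succAbove _ j, Fin.insertNth_apply_same,
      Fin.insertNth_apply_succAbove, Finset.prod_pow]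
    ring
  simp only [e]
  rw [mbl_one (ρ := fun m p => φ (a (j.succAbove m)) p ^ 2) (fun m => hφ.nrm _)
    (fun q => ∫ p, φ (a j) p ^ 2 * wlow l q p) k]
  refine integral_congr_ae (.of_forall fun q => ?_)
  simp only [mul_assoc, integral_const_mul]
  exact mul_comm _ _

theorem mbl_Wint {N : ℕ} (l : ℝ) {G : Conf N → ℝ} (hG : Continuous G) (hc : HasCompactSupport G) :
    ∫ x, mblW l x * G x ^ 2 = ∑ i, ∑ j with i < j, ∫ x, wlow l (x i) (x j) * G x ^ 2 := by
  simp only [mblW, Finset.sum_mul]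
  rw [integral_finsetSum _ fun i _ => integrable_finsetSum _ fun j _ => mbl_int (mbl_wij l i j) hG hc]
  exact Finset.sum_congr rfl fun i _ => integral_finsetSum _ fun j _ => mbl_int (mbl_wij l i j) hG hc

theorem mbl_dist {N : ℕ} (hφ : ONF φ) {F : Conf N → ℝ} (hF : Continuous F)
    (hc : HasCompactSupport F) :
    Integrable (fun x => (F x - ∑ a, cfN φ F a * mblP φ a x) ^ 2) ∧
      ∫ x, (F x - ∑ a, cfN φ F a * mblP φ a x) ^ 2 = (∫ x, F x ^ 2) - ∑ a, cfN φ F a ^ 2 := by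
  have e : (fun x => (F x - ∑ a, cfN φ F a * mblP φ a x) ^ 2) = fun x => F x ^ 2 +
      ∑ a, (cfN φ F a ^ 2 * mblP φ a x ^ 2 - 2 * cfN φ F a * (mblP φ a x * F x)) := by
    funext x
    rw [sub_sq, mbl_sq hφ, Finset.sum_sub_distrib, Finset.mul_sum]
    simp only [mul_assoc, mul_comm (F x)]
    ring
  have i1 : ∀ a : Fin N → Fin K, Integrable fun x => cfN φ F a ^ 2 * mblP φ a x ^ 2 := fun a =>
    (mbl_int2 (mbl_Pc hφ a) (mbl_Ps hφ a)).const_mul _
  have i2 : ∀ a : Fin N → Fin K, Integrable fun x => 2 * cfN φ F a * (mblP φ a x * F x) := fun a =>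
    (((mbl_Pc hφ a).mul hF).integrable_of_hasCompactSupport hc.mul_left).const_mul _
  have i3 := integrable_finsetSum Finset.univ fun a _ => (i1 a).sub' (i2 a)
  rw [e]
  refine ⟨(mbl_int2 hF hc).add i3, ?_⟩
  rw [integral_add (mbl_int2 hF hc) i3, integral_finsetSum _ fun a _ => (i1 a).sub' (i2 a),
    sub_eq_add_neg, ← Finset.sum_neg_distrib]
  congr 1
  refine Finset.sum_congr rfl fun a _ => ?_
  rw [integral_sub (i1 a) (i2 a), integral_const_mul, integral_const_mul, mbl_nrm hφ]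
  change _ - _ * cfN φ F a = _
  ring

theorem mbl_inter {N : ℕ} (hφ : ONF φ) {g l : ℝ} (hg : 0 < g) (hl : 0 ≤ l)
    {w : Fin K → Fin K → ℝ} (hw : ∀ a b, w a b ≤ ∫ x, ∫ y, φ a x ^ 2 * φ b y ^ 2 * wlow l x y)
    {F : Conf N → ℝ} (hF : Continuous F) (hc : HasCompactSupport F) :
    ∑ a, (∑ i, ∑ j with i < j, w (a i) (a j)) * cfN φ F a ^ 2 -
        2 * l ^ 2 * (N : ℝ) ^ 4 / g * ∑ a, cfN φ F a ^ 2 -
        g / 2 * ((∫ x, F x ^ 2) - ∑ a, cfN φ F a ^ 2) ≤
      ∑ i, ∑ j with i < j, ∫ x, wlow l (x i) (x j) * F x ^ 2 := by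
  obtain ⟨M, hM⟩ : ∃ M, M = 2 * l ^ 2 * (N : ℝ) ^ 4 / g := ⟨_, rfl⟩
  obtain ⟨d1, d2⟩ := mbl_dist hφ hF hc
  have i1 : ∀ a : Fin N → Fin K, Integrable fun x => cfN φ F a ^ 2 * (mblW l x * mblP φ a x ^ 2) :=
    fun a => (mbl_int (mbl_Wc l) (mbl_Pc hφ a) (mbl_Ps hφ a)).const_mul _
  have i2 : ∀ a : Fin N → Fin K, Integrable fun x => M * cfN φ F a ^ 2 * mblP φ a x ^ 2 :=
    fun a => (mbl_int2 (mbl_Pc hφ a) (mbl_Ps hφ a)).const_mul _
  have i3 := integrable_finsetSum Finset.univ fun a _ => (i1 a).sub' (i2 a)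
  have h := integral_mono (i3.sub' (d1.const_mul (g / 2))) (mbl_int (mbl_Wc l) hF hc) fun x => by
    obtain ⟨w0, w1⟩ := mbl_Wb hl x
    have e : ∑ a, (cfN φ F a ^ 2 * (mblW l x * mblP φ a x ^ 2) -
        M * cfN φ F a ^ 2 * mblP φ a x ^ 2) = (mblW l x - M) * (∑ a, cfN φ F a * mblP φ a x) ^ 2 := by
      rw [mbl_sq hφ, Finset.mul_sum]
      exact Finset.sum_congr rfl fun a _ => by ring
    beta_reduce
    rw [e]
    generalize ∑ a, cfN φ F a * mblP φ a x = u
    generalize mblW l x = W at w0 w1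
    have h1 : 2 * W ^ 2 / g ≤ M := by
      rw [hM]
      refine div_le_div_of_nonneg_right ?_ hg.le
      nlinarith [pow_le_pow_left₀ w0 w1 2]
    have h2 : 0 ≤ g / 2 * ((F x - u) + 2 * W * u / g) ^ 2 := by positivity
    have h3 : g / 2 * ((F x - u) + 2 * W * u / g) ^ 2 =
        g / 2 * (F x - u) ^ 2 + 2 * W * u * (F x - u) + 2 * W ^ 2 / g * u ^ 2 := by
      field_simp
      ring
    nlinarith [mul_le_mul_of_nonneg_right h1 (sq_nonneg u), mul_nonneg w0 (sq_nonneg (F x - u))]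
  rw [integral_sub i3 (d1.const_mul _), integral_const_mul, d2,
    integral_finsetSum _ fun a _ => (i1 a).sub' (i2 a), mbl_Wint l hF hc] at h
  refine le_trans (sub_le_sub_right ?_ _) h
  rw [← hM, Finset.mul_sum, ← Finset.sum_sub_distrib]
  refine Finset.sum_le_sum fun a _ => ?_
  rw [integral_sub (i1 a) (i2 a), integral_const_mul, integral_const_mul, mbl_nrm hφ, mul_one,
    mbl_Wint l (mbl_Pc hφ a) (mbl_Ps hφ a), mul_comm]
  refine sub_le_sub_right (mul_le_mul_of_nonneg_left (Finset.sum_le_sum fun i _ =>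
    Finset.sum_le_sum fun j hj => ?_) (sq_nonneg _)) _
  rw [mbl_two hφ l a (Finset.mem_filter.1 hj).2.ne]
  exact hw _ _

theorem mbl_anti {N : ℕ} {F : RS N} (hF : SmA F) : AntiT fun s a => cfN φ (F s) a := by
  intro π s a
  have h := (volume_preserving_arrowCongr' π.symm (MeasurableEquiv.refl E3)
    (MeasurePreserving.id _)).integral_comp' fun x => (∏ i, φ ((a ∘ π) i) (x i)) * F (s ∘ π) x
  simp only [cfN]
  rw [← h, ← integral_const_mul]
  refine integral_congr_ae (.of_forall fun x => ?_)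
  change (∏ i, φ (a (π i)) (x (π i))) * F (s ∘ π) (x ∘ π) = _
  rw [hF.2, Equiv.prod_comp π fun i => φ (a i) (x i)]
  ring

theorem mbl_body {n : ℕ} (hφ : ONF φ) {ι : Type} (s : Finset ι) (z : ι → ℝ) (r : ι → E3)
    (E : Finset (Fin K × Fin K)) {t g e : ℝ} (ht : 0 ≤ t)
    (h1 : ∀ u : E3 → ℝ, Sm u → t * hop1 E (cf φ u) + g * (nsq1 u - ∑ a, cf φ u a ^ 2) +
      e * nsq1 u ≤ en1 (coul s z r) u) {F : Conf (n + 1) → ℝ} (hF : Sm F) (i : Fin (n + 1)) :
    t * ∑ b ∈ E, ∑ a with a i = b.1, (cfN φ F a - cfN φ F (Function.update a i b.2)) ^ 2 +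
        g * ((∫ x, F x ^ 2) - ∑ b, ∫ y : Conf n, cf φ (fun p => F (i.insertNth p y)) b ^ 2) +
        e * ∫ x, F x ^ 2 ≤
      (∑ k, ∫ x, fderiv ℝ F x (dir i k) ^ 2) / 2 - ∫ x, coul s z r (x i) * F x ^ 2 := by
  have hc := hF.1.continuous
  have j1 := mbl_int2 hc hF.2
  have j2 : ∀ k, Integrable fun x => fderiv ℝ F x (dir i k) ^ 2 := fun k =>
    mbl_int2 ((hF.1.continuous_fderiv one_ne_zero).clm_apply continuous_const)
      (hF.2.fderiv_apply ℝ _)
  have j3 : Integrable fun x : Conf (n + 1) => coul s z r (x i) * F x ^ 2 := by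
    simp only [coul, Finset.sum_mul]
    refine integrable_finsetSum _ fun j _ => ?_
    have := (integrable_conf_inv (F := F * F) (hc.mul hc) hF.2.mul_left i (r j)).const_mul (z j)
    refine this.congr (.of_forall fun x => ?_)
    simp only [Pi.mul_apply]
    ring
  have k1 := (integrable_insertNth i j1).2
  have k2 := integrable_finsetSum Finset.univ fun k _ => (integrable_insertNth i (j2 k)).2
  have k3 := (integrable_insertNth i j3).2
  have k4 := integrable_finsetSum E fun b _ => (bessel_hop hφ hc hF.2 i b.1 b.2).1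
  have k5 := integrable_finsetSum Finset.univ fun b _ => (gap_sum hφ hc hF.2).1 i b
  have k6 := (k1.sub' k5).const_mul g
  have k7 := (k4.const_mul t).fun_add k6
  have h := integral_mono (k7.fun_add (k1.const_mul e)) ((k2.div_const 2).sub' k3) fun y => by
      have h2 := h1 _ (hF.slice i y).1
      simp only [en1, kin1, (hF.slice i y).2] at h2
      simp only [Fin.insertNth_apply_same]
      exact h2
  rw [integral_add k7 (k1.const_mul e), integral_add (k4.const_mul t) k6, integral_const_mul,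
    integral_const_mul, integral_const_mul, integral_sub k1 k5,
    integral_sub (k2.div_const 2) k3, integral_div,
    integral_finsetSum _ fun b _ => (bessel_hop hφ hc hF.2 i b.1 b.2).1,
    integral_finsetSum _ fun b _ => (gap_sum hφ hc hF.2).1 i b,
    integral_finsetSum _ fun k _ => (integrable_insertNth i (j2 k)).2,
    ← integral_insertNth i j1, ← integral_insertNth i j3] at h
  simp only [← integral_insertNth i (j2 _)] at h
  refine le_trans ?_ h
  gcongr with b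
  exact (bessel_hop hφ hc hF.2 i b.1 b.2).2

/-- The many-body lower bound. -/
theorem mb_low {N K : ℕ} (hN : 1 ≤ N) {φ : Fin K → E3 → ℝ} (hφ : ONF φ) {ι : Type}
    (s : Finset ι) (z : ι → ℝ) (r : ι → E3) (E : Finset (Fin K × Fin K)) {t g e l lam : ℝ}
    (w : Fin K → Fin K → ℝ) (ht : 0 ≤ t) (hg : 0 < g) (hl : 0 ≤ l) (hlam : lam ≤ g / 2)
    (h1 : ∀ u : E3 → ℝ, Sm u → t * hop1 E (cf φ u) + g * (nsq1 u - ∑ a, cf φ u a ^ 2) +
      e * nsq1 u ≤ en1 (coul s z r) u)
    (hw : ∀ a b, w a b ≤ ∫ x, ∫ y, φ a x ^ 2 * φ b y ^ 2 * wlow l x y)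
    (hD : ∀ C : Ten N K, AntiT C → lam * nrmT C ≤ t * hopT E C + intT w C)
    (F : RS N) (hF : SmA F) :
    (N * e + lam - 2 * l ^ 2 * (N : ℝ) ^ 4 / g) * nsq F ≤ enN (coul s z r) (wlow l) F := by
  obtain ⟨n, rfl⟩ : ∃ n, N = n + 1 := ⟨N - 1, by omega⟩
  have h2 := hD _ (mbl_anti (φ := φ) hF)
  obtain ⟨M, hM⟩ : ∃ M, M = 2 * l ^ 2 * ((n + 1 : ℕ) : ℝ) ^ 4 / g := ⟨_, rfl⟩
  have hM0 : 0 ≤ M := by rw [hM]; positivity
  have key : ∀ σ : Spin (n + 1),
      (((n + 1 : ℕ) : ℝ) * e + lam - M) * (∫ x, F σ x ^ 2) - lam * ∑ a, cfN φ (F σ) a ^ 2 +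
        (t * ∑ i, ∑ b ∈ E, ∑ a with a i = b.1,
          (cfN φ (F σ) a - cfN φ (F σ) (Function.update a i b.2)) ^ 2 +
        ∑ a, (∑ i, ∑ j with i < j, w (a i) (a j)) * cfN φ (F σ) a ^ 2) ≤
      (∑ i, ∑ k, ∫ x, fderiv ℝ (F σ) x (dir i k) ^ 2) / 2 -
        (∑ i, ∫ x, coul s z r (x i) * F σ x ^ 2) +
        ∑ i, ∑ j with i < j, ∫ x, wlow l (x i) (x j) * F σ x ^ 2 := by
    intro σ
    have hc := (hF.1 σ).1.continuous
    have a1 := Finset.sum_le_sum fun i (_ : i ∈ Finset.univ) => mbl_body hφ s z r E ht h1 (hF.1 σ) i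
    have a2 := mbl_inter hφ hg hl hw hc (hF.1 σ).2
    have a3 := mul_le_mul_of_nonneg_left (gap_sum hφ hc (hF.1 σ).2).2 hg.le
    have a4 : 0 ≤ (∫ x, F σ x ^ 2) - ∑ a, cfN φ (F σ) a ^ 2 := by
      rw [← (mbl_dist hφ hc (hF.1 σ).2).2]
      exact integral_nonneg fun x => sq_nonneg _
    rw [Finset.sum_add_distrib, Finset.sum_add_distrib, ← Finset.mul_sum, ← Finset.mul_sum,
      Finset.sum_const, Finset.card_univ, Fintype.card_fin, nsmul_eq_mul] at a1
    rw [Finset.sum_sub_distrib (f := fun i => (∑ k, ∫ x, fderiv ℝ (F σ) x (dir i k) ^ 2) / 2),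
      ← Finset.sum_div] at a1
    rw [← hM] at a2
    nlinarith [mul_nonneg (show 0 ≤ g / 2 - lam + M by linarith) a4]
  have h3 := Finset.sum_le_sum fun σ (_ : σ ∈ Finset.univ) => key σ
  rw [Finset.sum_add_distrib, Finset.sum_add_distrib, Finset.sum_add_distrib,
    Finset.sum_sub_distrib, Finset.sum_sub_distrib, ← Finset.mul_sum, ← Finset.mul_sum,
    ← Finset.mul_sum, ← Finset.sum_div] at h3
  rw [← hM]
  unfold nrmT hopT intT at h2
  unfold nsq enN kinN
  linarith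

end Vale.Agent.P370
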