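import Vale.Agent.P370.Basic

namespace Vale.Agent.P370

open MeasureTheory Filter
open scoped Classical ENNReal

/-- Coefficients along the product family. -/
noncomputable def cfN {N K : ℕ} (φ : Fin K → E3 → ℝ) (F : Conf N → ℝ) (a : Fin N → Fin K) : ℝ :=
  ∫ x, (∏ i, φ (a i) (x i)) * F x

/-- An orthonormal family of continuous compactly supported functions with disjoint supports. -/
structure ONF {K : ℕ} (φ : Fin K → E3 → ℝ) : Prop where
  cont : ∀ a, Continuous (φ a)
  supp : ∀ a, HasCompactSupport (φ a)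
  nrm : ∀ a, ∫ p, φ a p ^ 2 = 1
  disj : ∀ a b p, a ≠ b → φ a p * φ b p = 0

/-- Continuous with bounded support. -/
def MBaC {X : Type} [NormedAddCommGroup X] (f : X → ℝ) : Prop :=
  Continuous f ∧ ∃ R : ℝ, ∀ x, f x ≠ 0 → ‖x‖ ≤ R

section
variable {X : Type} [NormedAddCommGroup X] {f g : X → ℝ}

theorem mba_of (hf : Continuous f) (hc : HasCompactSupport f) : MBaC f := by
  obtain ⟨R, hR⟩ := hc.isCompact.isBounded.exists_norm_le
  exact ⟨hf, R, fun x hx => hR x (subset_tsupport f hx)⟩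

theorem MBaC.supp [ProperSpace X] (h : MBaC f) : HasCompactSupport f := by
  obtain ⟨R, hR⟩ := h.2
  exact HasCompactSupport.intro (isCompact_closedBall (0 : X) R) fun x hx => by
    by_contra h0
    exact hx (mem_closedBall_zero_iff.2 (hR x h0))

theorem MBaC.mul (hg : Continuous g) (h : MBaC f) : MBaC fun x => g x * f x := by
  obtain ⟨R, hR⟩ := h.2
  exact ⟨hg.mul h.1, R, fun x hx => hR x (right_ne_zero_of_mul hx)⟩

theorem MBaC.sq (h : MBaC f) : MBaC fun x => f x ^ 2 := by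
  simpa only [pow_two] using h.mul h.1

theorem MBaC.sub (h : MBaC f) (h' : MBaC g) : MBaC fun x => f x - g x := by
  obtain ⟨R, hR⟩ := h.2
  obtain ⟨R', hR'⟩ := h'.2
  refine ⟨h.1.sub h'.1, max R R', fun x hx => ?_⟩
  by_cases h0 : f x = 0
  · exact (hR' x fun h1 => hx (by simp only [h0, h1, sub_zero])).trans (le_max_right _ _)
  · exact (hR x h0).trans (le_max_left _ _)

theorem mba_sum {ι : Type} (s : Finset ι) {u : ι → X → ℝ} (h : ∀ i, MBaC (u i)) :
    MBaC fun x => ∑ i ∈ s, u i x := by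
  choose R hR using fun i => (h i).2
  refine ⟨continuous_finsetSum _ fun i _ => (h i).1, ∑ i ∈ s, |R i|, fun x hx => ?_⟩
  obtain ⟨i, hi, h0⟩ := Finset.exists_ne_zero_of_sum_ne_zero hx
  exact ((hR i x h0).trans (le_abs_self _)).trans
    (Finset.single_le_sum (f := fun i => |R i|) (fun j _ => abs_nonneg _) hi)

theorem MBaC.int [ProperSpace X] [MeasurableSpace X] [OpensMeasurableSpace X] {μ : Measure X}
    [IsFiniteMeasureOnCompacts μ] (h : MBaC f) : Integrable f μ :=
  h.1.integrable_of_hasCompactSupport h.supp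

end

variable {n K : ℕ} {φ : Fin K → E3 → ℝ}

theorem ONF.c (hφ : ONF φ) (a : Fin K) : MBaC (φ a) := mba_of (hφ.cont a) (hφ.supp a)

theorem mba_pyth (hφ : ONF φ) {u : E3 → ℝ} (hu : MBaC u) :
    ∫ p, (u p - ∑ b, φ b p * cf φ u b) ^ 2 = (∫ p, u p ^ 2) - ∑ b, cf φ u b ^ 2 := by
  have e : ∀ p, (u p - ∑ b, φ b p * cf φ u b) ^ 2 =
      u p ^ 2 - ∑ b, (2 * cf φ u b * (φ b p * u p) - cf φ u b ^ 2 * φ b p ^ 2) := by
    intro p
    have e1 : (∑ b, φ b p * cf φ u b) ^ 2 = ∑ b, cf φ u b ^ 2 * φ b p ^ 2 := by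
      rw [pow_two, Finset.sum_mul_sum]
      refine Finset.sum_congr rfl fun a _ => ?_
      rw [Finset.sum_eq_single a (fun b _ hb => by
        rw [mul_mul_mul_comm, hφ.disj a b p hb.symm, zero_mul]) (by simp)]
      ring
    have e2 : ∑ b, 2 * cf φ u b * (φ b p * u p) = 2 * u p * ∑ b, φ b p * cf φ u b := by
      rw [Finset.mul_sum]
      exact Finset.sum_congr rfl fun b _ => by ring
    rw [sub_sq, e1, Finset.sum_sub_distrib, e2]
    ring
  have i1 : ∀ b, Integrable fun p => 2 * cf φ u b * (φ b p * u p) :=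
    fun b => (hu.mul (hφ.cont b)).int.const_mul _
  have i2 : ∀ b, Integrable fun p => cf φ u b ^ 2 * φ b p ^ 2 := fun b => (hφ.c b).sq.int.const_mul _
  have i3 : ∀ b, Integrable fun p => 2 * cf φ u b * (φ b p * u p) - cf φ u b ^ 2 * φ b p ^ 2 :=
    fun b => (i1 b).sub (i2 b)
  simp only [e]
  rw [integral_sub hu.sq.int (integrable_finsetSum _ fun b _ => i3 b),
    integral_finsetSum _ fun b _ => i3 b]
  congr 1
  refine Finset.sum_congr rfl fun b _ => ?_
  rw [integral_sub (i1 b) (i2 b), integral_const_mul, integral_const_mul, hφ.nrm]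
  change 2 * cf φ u b * cf φ u b - _ = _
  ring

theorem mba_norm (i : Fin (n + 1)) (p : E3) (y : Conf n) :
    ‖p‖ ≤ ‖(i.insertNth p y : Conf (n + 1))‖ ∧ ‖y‖ ≤ ‖(i.insertNth p y : Conf (n + 1))‖ :=
  ⟨by simpa using norm_le_pi_norm (i.insertNth p y : Conf (n + 1)) i,
    (pi_norm_le_iff_of_nonneg (norm_nonneg _)).2 fun j => by
      simpa using norm_le_pi_norm (i.insertNth p y : Conf (n + 1)) (i.succAbove j)⟩

theorem MBaC.slice {F : Conf (n + 1) → ℝ} (hF : MBaC F) (i : Fin (n + 1)) (y : Conf n) :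
    MBaC fun p : E3 => F (i.insertNth p y) := by
  obtain ⟨R, hR⟩ := hF.2
  exact ⟨hF.1.comp (by fun_prop), R, fun p hp => (mba_norm i p y).1.trans (hR _ hp)⟩

/-- The coefficient of a slice. -/
noncomputable def mbaS (φ : Fin K → E3 → ℝ) (i : Fin (n + 1)) (b : Fin K) (F : Conf (n + 1) → ℝ)
    (y : Conf n) : ℝ := cf φ (fun p => F (i.insertNth p y)) b

/-- The remainder after projecting in one coordinate. -/
noncomputable def mbaR (φ : Fin K → E3 → ℝ) (i : Fin (n + 1)) (F : Conf (n + 1) → ℝ)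
    (x : Conf (n + 1)) : ℝ := F x - ∑ b, φ b (x i) * mbaS φ i b F (i.removeNth x)

theorem MBaC.S (hφ : ONF φ) {F : Conf (n + 1) → ℝ} (hF : MBaC F) (i : Fin (n + 1)) (b : Fin K) :
    MBaC (mbaS φ i b F) := by
  obtain ⟨R, hR⟩ := hF.2
  constructor
  · have h1 := hF.1
    have h2 := hφ.cont b
    refine (continuous_parametric_integral_of_continuous (μ := volume)
      (f := fun (y : Conf n) (p : E3) => φ b p * F (i.insertNth p y)) (by fun_prop)
      (hφ.supp b).isCompact).congr fun y => ?_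
    exact setIntegral_eq_integral_of_forall_compl_eq_zero fun p hp => by
      rw [image_eq_zero_of_notMem_tsupport hp, zero_mul]
  · refine ⟨R, fun y hy => ?_⟩
    by_contra h
    refine hy ?_
    have : ∀ p, F (i.insertNth p y) = 0 := fun p => by
      by_contra h0
      exact h ((mba_norm i p y).2.trans (hR _ h0))
    simp [mbaS, cf, this]

theorem MBaC.R (hφ : ONF φ) {F : Conf (n + 1) → ℝ} (hF : MBaC F) (i : Fin (n + 1)) :
    MBaC (mbaR φ i F) := by
  refine hF.sub (mba_sum _ fun b => ?_)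
  obtain ⟨h1, R, hR⟩ := hF.S hφ i b
  obtain ⟨h2, R', hR'⟩ := hφ.c b
  refine ⟨(h2.comp (continuous_apply i)).mul (h1.comp (continuous_pi fun j => continuous_apply _)),
    max |R| R', fun x hx => ?_⟩
  refine (pi_norm_le_iff_of_nonneg ((abs_nonneg R).trans (le_max_left _ _))).2 fun j => ?_
  refine Fin.succAboveCases i ?_ (fun k => ?_) j
  · exact (hR' _ (left_ne_zero_of_mul hx)).trans (le_max_right _ _)
  · exact ((norm_le_pi_norm (i.removeNth x : Conf n) k).trans
      ((hR _ (right_ne_zero_of_mul hx)).trans (le_abs_self R))).trans (le_max_left _ _)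

theorem mba_R_sq (hφ : ONF φ) {F : Conf (n + 1) → ℝ} (hF : MBaC F) (i : Fin (n + 1)) :
    ∫ x, mbaR φ i F x ^ 2 = (∫ x, F x ^ 2) - ∑ b, ∫ y, mbaS φ i b F y ^ 2 := by
  rw [integral_insertNth i (hF.R hφ i).sq.int, integral_insertNth i hF.sq.int,
    ← integral_finsetSum _ fun b _ => (hF.S hφ i b).sq.int,
    ← integral_sub (integrable_insertNth i hF.sq.int).2
      (integrable_finsetSum _ fun b _ => (hF.S hφ i b).sq.int)]
  refine integral_congr_ae (.of_forall fun y => ?_)
  simp only [mbaR, Fin.insertNth_apply_same, Fin.removeNth_insertNth]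
  exact mba_pyth hφ (hF.slice i y)

theorem mba_S_le (hφ : ONF φ) {F : Conf (n + 1) → ℝ} (hF : MBaC F) (i : Fin (n + 1)) :
    ∑ b, ∫ y, mbaS φ i b F y ^ 2 ≤ ∫ x, F x ^ 2 := by
  have h1 := mba_R_sq hφ hF i
  have h2 : 0 ≤ ∫ x, mbaR φ i F x ^ 2 := integral_nonneg fun x => sq_nonneg _
  linarith

theorem mba_comm (hφ : ONF φ) {F : Conf (n + 2) → ℝ} (hF : MBaC F) (j : Fin (n + 1)) (b : Fin K) :
    mbaS φ 0 b (mbaR φ j.succ F) = mbaR φ j (mbaS φ 0 b F) := by
  funext y
  have e : ∀ p : E3, j.succ.removeNth (Fin.cons p y : Conf (n + 2)) =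
      (Fin.cons p (j.removeNth y) : Conf (n + 1)) := by
    intro p
    conv_lhs => rw [← Fin.insertNth_self_removeNth j y, ← Fin.insertNth_succ_cons,
      Fin.removeNth_insertNth]
  have i1 : ∀ c, Integrable fun p : E3 =>
      φ c (y j) * (φ b p * mbaS φ j.succ c F (Fin.cons p (j.removeNth y))) := fun c => by
    have := (((hF.S hφ j.succ c).slice 0 (j.removeNth y)).mul (hφ.cont b)).int (μ := volume)
    simp only [Fin.insertNth_zero'] at this
    exact this.const_mul _
  have i2 := ((hF.slice 0 y).mul (hφ.cont b)).int (μ := volume)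
  simp only [Fin.insertNth_zero'] at i2
  rw [mbaS, cf]
  simp only [mbaR, Fin.insertNth_zero', Fin.cons_succ, e, mul_sub, Finset.mul_sum,
    mul_left_comm (φ b _)]
  rw [integral_sub i2 (integrable_finsetSum _ fun c _ => i1 c), integral_finsetSum _ fun c _ => i1 c]
  refine congrArg₂ (· - ·) (by simp only [mbaS, cf, Fin.insertNth_zero'])
    (Finset.sum_congr rfl fun c _ => ?_)
  rw [integral_const_mul]
  congr 1
  simp only [mbaS, cf, Fin.insertNth_zero', Fin.insertNth_succ_cons, ← integral_const_mul]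
  rw [integral_integral_swap]
  · simp only [mul_left_comm]
  · obtain ⟨h1, R, hR⟩ := hφ.c b
    obtain ⟨h2, R', hR'⟩ := hφ.c c
    have h3 := hF.1
    refine MBaC.int ⟨by fun_prop, max R R', fun q hq => ?_⟩
    exact max_le_max (hR _ (left_ne_zero_of_mul hq))
      (hR' _ (left_ne_zero_of_mul (right_ne_zero_of_mul hq)))

theorem mba_cfN_int (hφ : ONF φ) {F : Conf n → ℝ} (hF : MBaC F) (a : Fin n → Fin K) :
    Integrable fun x : Conf n => (∏ i, φ (a i) (x i)) * F x :=
  (hF.mul (continuous_finsetProd _ fun i _ => (hφ.cont (a i)).comp (continuous_apply i))).int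

theorem mba_cfN (hφ : ONF φ) {F : Conf (n + 1) → ℝ} (hF : MBaC F) (i : Fin (n + 1)) (b : Fin K)
    (a : Fin n → Fin K) : cfN φ F (i.insertNth b a) = cfN φ (mbaS φ i b F) a := by
  rw [cfN, integral_insertNth i (mba_cfN_int hφ hF _)]
  refine integral_congr_ae (.of_forall fun y => ?_)
  simp only [Fin.prod_univ_succAbove _ i, Fin.insertNth_apply_same, Fin.insertNth_apply_succAbove,
    mbaS, cf, ← integral_const_mul]
  exact integral_congr_ae (.of_forall fun p => by ring)

theorem mba_sum_ins (i : Fin (n + 1)) (f : (Fin (n + 1) → Fin K) → ℝ) :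
    ∑ a, f a = ∑ b, ∑ a : Fin n → Fin K, f (i.insertNth b a) := by
  rw [← (Fin.insertNthEquiv (fun _ => Fin K) i).sum_comp, Fintype.sum_prod_type]
  rfl

theorem mba_zero (F : Conf 0 → ℝ) : ∑ a, cfN φ F a ^ 2 = ∫ x, F x ^ 2 := by
  have h : (volume : Measure (Conf 0)).real Set.univ = 1 := by
    simp [Measure.real, volume_pi]
  simp only [cfN, integral_unique, h, Finset.univ_unique, Finset.sum_singleton, Finset.univ_eq_empty,
    Finset.prod_empty, one_mul, smul_eq_mul]

theorem mba_bessel (hφ : ONF φ) (F : Conf n → ℝ) (hF : MBaC F) : ∑ a, cfN φ F a ^ 2 ≤ ∫ x, F x ^ 2 := by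
  induction n with
  | zero => exact (mba_zero F).le
  | succ n ih =>
    rw [mba_sum_ins 0]
    simp only [mba_cfN hφ hF]
    exact (Finset.sum_le_sum fun b _ => ih _ (hF.S hφ 0 b)).trans (mba_S_le hφ hF 0)

theorem mba_gap (hφ : ONF φ) (F : Conf (n + 1) → ℝ) (hF : MBaC F) :
    (∫ x, F x ^ 2) - ∑ a, cfN φ F a ^ 2 ≤ ∑ i, ∫ x, mbaR φ i F x ^ 2 := by
  induction n with
  | zero =>
    rw [mba_sum_ins 0, Fin.sum_univ_one, mba_R_sq hφ hF]
    simp only [mba_cfN hφ hF, mba_zero, le_refl]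
  | succ n ih =>
    rw [mba_sum_ins 0, Fin.sum_univ_succ, mba_R_sq hφ hF]
    simp only [mba_cfN hφ hF]
    have h1 := Finset.sum_le_sum fun b (_ : b ∈ Finset.univ) => ih _ (hF.S hφ 0 b)
    have h2 := Finset.sum_le_sum fun (j : Fin (n + 1)) (_ : j ∈ Finset.univ) =>
      mba_S_le hφ (hF.R hφ j.succ) 0
    simp only [mba_comm hφ hF] at h2
    rw [Finset.sum_sub_distrib, Finset.sum_comm (s := Finset.univ) (t := Finset.univ)
      (f := fun b j => ∫ x, mbaR φ j (mbaS φ 0 b F) x ^ 2)] at h1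
    linarith

/-- Bessel inequality for the hopping term of particle `i`. -/
theorem bessel_hop {n K : ℕ} {φ : Fin K → E3 → ℝ} (hφ : ONF φ) {F : Conf (n + 1) → ℝ}
    (hF : Continuous F) (hc : HasCompactSupport F) (i : Fin (n + 1)) (a0 b0 : Fin K) :
    Integrable (fun y : Conf n => (cf φ (fun p => F (i.insertNth p y)) a0 -
      cf φ (fun p => F (i.insertNth p y)) b0) ^ 2) ∧
    ∑ a : Fin (n + 1) → Fin K with a i = a0, (cfN φ F a - cfN φ F (Function.update a i b0)) ^ 2 ≤
      ∫ y : Conf n, (cf φ (fun p => F (i.insertNth p y)) a0 -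
        cf φ (fun p => F (i.insertNth p y)) b0) ^ 2 := by
  have h := mba_of hF hc
  have hG := (h.S hφ i a0).sub (h.S hφ i b0)
  refine ⟨hG.sq.int, le_of_eq_of_le ?_ (mba_bessel hφ _ hG)⟩
  rw [Finset.sum_filter, mba_sum_ins i, Finset.sum_eq_single a0 (fun b _ hb => by simp [hb]) (by simp)]
  refine Finset.sum_congr rfl fun a _ => ?_
  rw [if_pos (Fin.insertNth_apply_same _ _ _), Fin.update_insertNth, mba_cfN hφ h, mba_cfN hφ h, cfN,
    cfN, cfN, ← integral_sub (mba_cfN_int hφ (h.S hφ i a0) a) (mba_cfN_int hφ (h.S hφ i b0) a)]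
  simp only [mul_sub, mbaS]

/-- The distance to the product space is controlled by the one-particle distances. -/
theorem gap_sum {n K : ℕ} {φ : Fin K → E3 → ℝ} (hφ : ONF φ) {F : Conf (n + 1) → ℝ}
    (hF : Continuous F) (hc : HasCompactSupport F) :
    (∀ (i : Fin (n + 1)) (b : Fin K),
      Integrable fun y : Conf n => cf φ (fun p => F (i.insertNth p y)) b ^ 2) ∧
    (∫ x, F x ^ 2) - ∑ a, cfN φ F a ^ 2 ≤ ∑ i : Fin (n + 1), ((∫ x, F x ^ 2) -
      ∑ b, ∫ y : Conf n, cf φ (fun p => F (i.insertNth p y)) b ^ 2) := by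
  have h := mba_of hF hc
  refine ⟨fun i b => (h.S hφ i b).sq.int, (mba_gap hφ F h).trans (le_of_eq ?_)⟩
  exact Finset.sum_congr rfl fun i _ => mba_R_sq hφ h i

end Vale.Agent.P370
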