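import Vale.Agent.P370.CDefs

/-! Noise shaping. -/

namespace Vale.Agent.P370

open MeasureTheory Filter
open scoped Classical

theorem noise_inv (f : ℕ → ℚ) (i : ℕ) :
    (∑ a ∈ Finset.range 5, if a ≤ i then (cf4 a : ℚ) * ∑ i' ∈ Finset.range (i - a + 1),
      ((i - a - i' + 1) * (i - a - i' + 2) * (i - a - i' + 3) : ℕ) / 6 * f i' else 0) = f i := by
  obtain ⟨g, hg⟩ : ∃ g : ℕ → ℚ, ∀ n, g n = ∑ i' ∈ Finset.range (n + 1),
    ((n - i' + 1) * (n - i' + 2) * (n - i' + 3) : ℕ) / 6 * f i' := ⟨_, fun _ => rfl⟩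
  simp only [← hg]
  rcases lt_or_ge i 4 with h | h
  · interval_cases i <;> simp [Finset.sum_range_succ, cf4, hg] <;> ring
  obtain ⟨m, rfl⟩ := Nat.exists_eq_add_of_le' h
  have k : ∀ n, g (m + n) = (∑ t ∈ Finset.range (m + 1),
      ((m - t : ℕ) + n + 1) * ((m - t : ℕ) + n + 2) * ((m - t : ℕ) + n + 3) / 6 * f t) +
      ∑ t ∈ Finset.range n, ((n - 1 - t + 1) * (n - 1 - t + 2) * (n - 1 - t + 3) : ℕ) / 6 *
        f (m + 1 + t) := fun n => by
    rw [hg, add_right_comm, Finset.sum_range_add]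
    congr 1 <;> refine Finset.sum_congr rfl fun t ht => ?_
    · rw [show m + n - t = m - t + n by have := Finset.mem_range.1 ht; omega]
      push_cast
      rfl
    · rw [show m + n - (m + 1 + t) = n - 1 - t by omega]
  have e : g (m + 4) - 4 * g (m + 3) + 6 * g (m + 2) - 4 * g (m + 1) + g (m + 0) = f (m + 4) := by
    simp only [k]
    have : ∀ a b c d e a' b' c' d' e' x : ℚ, a - 4 * b + 6 * c - 4 * d + e = 0 →
        a' - 4 * b' + 6 * c' - 4 * d' + e' = x →
        a + a' - 4 * (b + b') + 6 * (c + c') - 4 * (d + d') + (e + e') = x := by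
      intros
      linarith
    refine this _ _ _ _ _ _ _ _ _ _ _ ?_ ?_
    · simp only [Finset.mul_sum, ← Finset.sum_sub_distrib, ← Finset.sum_add_distrib]
      exact Finset.sum_eq_zero fun t _ => by push_cast; ring
    · simp [Finset.sum_range_succ]
      ring
  simp [Finset.sum_range_succ, cf4, ← e]
  ring

/-- The rounding error. -/
noncomputable def noiseE (q : ℕ → ℕ → ℕ → ℚ) (i j k : ℕ) : ℝ := ⌊cum q i j k⌋ - (cum q i j k : ℝ)

/-- Its difference in the second index. -/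
noncomputable def noiseD (q : ℕ → ℕ → ℕ → ℚ) (i j k : ℕ) : ℝ :=
  noiseE q i j k - if 1 ≤ j then noiseE q i (j - 1) k else 0

theorem noise_E (q : ℕ → ℕ → ℕ → ℚ) (i j k : ℕ) : |noiseE q i j k| ≤ 1 := by
  have h1 : ((⌊cum q i j k⌋ : ℚ) : ℝ) ≤ cum q i j k := by exact_mod_cast Int.floor_le _
  have h2 : (cum q i j k : ℝ) < ((⌊cum q i j k⌋ + 1 : ℚ) : ℝ) :=
    Rat.cast_lt.2 (Int.lt_floor_add_one _)
  push_cast at h1 h2
  exact abs_le.2 ⟨by unfold noiseE; linarith, by unfold noiseE; linarith⟩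

theorem noise_D (q : ℕ → ℕ → ℕ → ℚ) (i j k : ℕ) : |noiseD q i j k| ≤ 2 := by
  refine (abs_sub _ _).trans ?_
  have := noise_E q i j k
  have := noise_E q i (j - 1) k
  split_ifs
  · linarith
  · rw [abs_zero]
    linarith

theorem noise_eq (q : ℕ → ℕ → ℕ → ℚ) (i j k : ℕ) : (zz q (i, j, k) : ℝ) - (q i j k : ℝ) =
    ∑ a ∈ Finset.range 5, if a ≤ i then (cf4 a : ℝ) * noiseD q (i - a) j k else 0 := by
  have h : ∀ n, (cum q n j k - if 1 ≤ j then cum q n (j - 1) k else 0) =
      ∑ i' ∈ Finset.range (n + 1),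
        ((n - i' + 1) * (n - i' + 2) * (n - i' + 3) : ℕ) / 6 * q i' j k := fun n => by
    cases j with
    | zero => simp [cum]
    | succ j =>
      rw [if_pos (by omega), cum, cum, ← Finset.sum_sub_distrib]
      exact Finset.sum_congr rfl fun _ _ => Finset.sum_range_succ_sub_sum _
  rw [← noise_inv (fun i => q i j k) i, zz]
  simp only [← h]
  push_cast
  rw [← Finset.sum_sub_distrib]
  refine Finset.sum_congr rfl fun a _ => ?_
  unfold noiseD noiseE
  split_ifs <;> push_cast <;> ring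

theorem noise_cf : ∑ a ∈ Finset.range 5, |(cf4 a : ℝ)| = 16 := by
  simp [Finset.sum_range_succ, cf4]
  norm_num

theorem noise_shift (x u : ℕ → ℝ) (N a : ℕ) :
    ∑ i ∈ Finset.range N, (if a ≤ i then x (i - a) * u i else 0) =
      ∑ m ∈ Finset.range N, if m + a < N then x m * u (m + a) else 0 := by
  rw [← Finset.sum_filter, ← Finset.sum_filter]
  refine Finset.sum_bij' (fun i _ => i - a) (fun m _ => m + a) ?_ ?_ ?_ ?_ ?_ <;>
    simp only [Finset.mem_filter, Finset.mem_range] <;> intro i hi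
  · omega
  · omega
  · omega
  · omega
  · rw [Nat.sub_add_cancel hi.2]

theorem noise_parts (y v : ℕ → ℝ) (n : ℕ) :
    ∑ j ∈ Finset.range (n + 1), (y j - if 1 ≤ j then y (j - 1) else 0) * v j =
      ∑ j ∈ Finset.range n, y j * (v j - v (j + 1)) + y n * v n := by
  induction n with
  | zero => simp
  | succ n ih =>
    rw [Finset.sum_range_succ, ih, Finset.sum_range_succ, if_pos (by omega), Nat.add_sub_cancel]
    ring

theorem noise_row (q : ℕ → ℕ → ℕ → ℚ) (m k n : ℕ) (v : ℕ → ℝ) :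
    |∑ j ∈ Finset.range n, noiseD q m j k * v j| ≤
      ∑ j ∈ Finset.range (n - 1), |v j - v (j + 1)| + |v (n - 1)| := by
  have h : ∀ j (t : ℝ), |noiseE q m j k * t| ≤ |t| := fun j t => by
    rw [abs_mul]
    exact mul_le_of_le_one_left (abs_nonneg _) (noise_E _ _ _ _)
  cases n with
  | zero => simp
  | succ n =>
    rw [show ∑ j ∈ Finset.range (n + 1), noiseD q m j k * v j = _ from
      noise_parts (fun j => noiseE q m j k) v n]
    exact (abs_add_le _ _).trans (add_le_add ((Finset.abs_sum_le_sum_abs _ _).trans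
      (Finset.sum_le_sum fun j _ => h _ _)) (h _ _))

theorem zz_sub_le (q : ℕ → ℕ → ℕ → ℚ) (n : ℕ × ℕ × ℕ) :
    |(zz q n : ℝ) - (q n.1 n.2.1 n.2.2 : ℝ)| ≤ 32 := by
  rw [show (zz q n : ℝ) - _ = _ from noise_eq q n.1 n.2.1 n.2.2,
    show (32 : ℝ) = 16 * 2 by norm_num, ← noise_cf, Finset.sum_mul]
  refine (Finset.abs_sum_le_sum_abs _ _).trans (Finset.sum_le_sum fun a _ => ?_)
  split_ifs
  · rw [abs_mul]
    exact mul_le_mul_of_nonneg_left (noise_D _ _ _ _) (abs_nonneg _)
  · rw [abs_zero]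
    positivity

theorem noise (q : ℕ → ℕ → ℕ → ℚ) (U : ℕ → ℕ → ℕ → ℝ) (Nx Ny Nz : ℕ) {A1 : ℝ} (hA0 : 0 ≤ A1)
    (hA : ∀ i < Nx, Nx ≤ i + 4 → ∀ k < Nz,
      ∑ j ∈ Finset.range (Ny - 1), |U i j k - U i (j + 1) k| + |U i (Ny - 1) k| ≤ A1) :
    |∑ i ∈ Finset.range Nx, ∑ j ∈ Finset.range Ny, ∑ k ∈ Finset.range Nz,
        ((zz q (i, j, k) : ℝ) - (q i j k : ℝ)) * U i j k| ≤
      2 * (∑ i ∈ Finset.range (Nx - 4), ∑ j ∈ Finset.range Ny, ∑ k ∈ Finset.range Nz,
        |U (i + 4) j k - 4 * U (i + 3) j k + 6 * U (i + 2) j k - 4 * U (i + 1) j k + U i j k|) +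
      64 * Nz * A1 := by
  have e : ∑ i ∈ Finset.range Nx, ∑ j ∈ Finset.range Ny, ∑ k ∈ Finset.range Nz,
      ((zz q (i, j, k) : ℝ) - (q i j k : ℝ)) * U i j k =
      ∑ m ∈ Finset.range Nx, ∑ j ∈ Finset.range Ny, ∑ k ∈ Finset.range Nz, ∑ a ∈ Finset.range 5,
        if m + a < Nx then noiseD q m j k * (cf4 a * U (m + a) j k) else 0 := by
    rw [Finset.sum_comm, Finset.sum_comm (s := Finset.range Nx)]
    refine Finset.sum_congr rfl fun j _ => ?_
    rw [Finset.sum_comm, Finset.sum_comm (s := Finset.range Nx)]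
    refine Finset.sum_congr rfl fun k _ => ?_
    simp only [noise_eq, Finset.sum_mul]
    rw [Finset.sum_comm, Finset.sum_comm (s := Finset.range Nx)]
    refine Finset.sum_congr rfl fun a _ => ?_
    rw [← noise_shift (fun m => noiseD q m j k) fun i => cf4 a * U i j k]
    refine Finset.sum_congr rfl fun i _ => ?_
    split_ifs <;> ring
  rw [e, ← Finset.sum_range_add_sum_Ico _ (Nat.sub_le Nx 4), Finset.mul_sum]
  refine (abs_add_le _ _).trans (add_le_add ((Finset.abs_sum_le_sum_abs _ _).trans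
    (Finset.sum_le_sum fun m hm => ?_)) ((Finset.abs_sum_le_sum_abs _ _).trans
      ((Finset.sum_le_card_nsmul _ _ (16 * (Nz * A1)) fun m hm => ?_).trans ?_)))
  · rw [Finset.mul_sum]
    refine (Finset.abs_sum_le_sum_abs _ _).trans (Finset.sum_le_sum fun j _ => ?_)
    rw [Finset.mul_sum]
    refine (Finset.abs_sum_le_sum_abs _ _).trans (Finset.sum_le_sum fun k _ => ?_)
    have := Finset.mem_range.1 hm
    rw [Finset.sum_congr rfl fun a ha => if_pos (by have := Finset.mem_range.1 ha; omega),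
      ← Finset.mul_sum, abs_mul]
    refine mul_le_mul (noise_D _ _ _ _) (le_of_eq (congrArg _ ?_)) (abs_nonneg _) zero_le_two
    simp [Finset.sum_range_succ, cf4]
    ring
  · rw [Finset.sum_comm, Finset.sum_congr rfl fun k _ => Finset.sum_comm, Finset.sum_comm,
      ← noise_cf, Finset.sum_mul]
    refine (Finset.abs_sum_le_sum_abs _ _).trans (Finset.sum_le_sum fun a _ => ?_)
    by_cases h : m + a < Nx
    · simp only [if_pos h, mul_left_comm _ (cf4 a : ℝ), ← Finset.mul_sum, abs_mul]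
      refine mul_le_mul_of_nonneg_left ((Finset.abs_sum_le_sum_abs _ _).trans
        ((Finset.sum_le_card_nsmul _ _ A1 fun k hk => (noise_row q m k Ny _).trans (hA _ h
          (by have := (Finset.mem_Ico.1 hm).1; omega) k (Finset.mem_range.1 hk))).trans ?_))
        (abs_nonneg _)
      simp
    · simp only [if_neg h, Finset.sum_const_zero, abs_zero]
      positivity
  · have h : ((Finset.Ico (Nx - 4) Nx).card : ℝ) ≤ 4 := by
      rw [Nat.card_Ico]
      exact_mod_cast (by omega)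
    rw [nsmul_eq_mul]
    exact (mul_le_mul_of_nonneg_right h (by positivity)).trans (le_of_eq (by ring))

end Vale.Agent.P370
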