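import Vale.Agent.P370.Simp
import Vale.Agent.P370.Noise

/-! The quadrature theorem for the point charges. -/

namespace Vale.Agent.P370

open MeasureTheory Filter
open scoped Classical

theorem qt_fwd {h : ℝ} (h0 : 0 ≤ h) (n : ℕ) : ∀ {g : ℝ → ℝ}, ContDiff ℝ n g → ∀ {x B : ℝ},
    (∀ t ∈ Set.Icc x (x + n * h), |iteratedDeriv n g t| ≤ B) →
    |(fwdDiff h)^[n] g x| ≤ h ^ n * B := by
  induction n with
  | zero => intro g _ x B hB; simpa using hB x (by simp)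
  | succ n ih =>
    intro g hg x B hB
    have hg' : ContDiff ℝ n g := hg.of_le (by simp)
    have hs : ContDiff ℝ n fun y => g (y + h) := hg'.comp (contDiff_id.add contDiff_const)
    rw [Function.iterate_succ_apply, pow_succ, mul_assoc, mul_comm h B]
    refine ih (g := fun y => g (y + h) - g y) (hs.sub hg') fun t ht => ?_
    rw [iteratedDeriv_fun_sub hs.contDiffAt hg'.contDiffAt, iteratedDeriv_comp_add_const]
    have := norm_image_sub_le_of_norm_deriv_le_segment' (a := t) (b := t + h)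
      (f := iteratedDeriv n g) (f' := iteratedDeriv (n + 1) g) (C := B)
      (fun y _ => by
        rw [iteratedDeriv_succ]
        exact (hg.differentiable_iteratedDeriv' n y).hasDerivAt.hasDerivWithinAt)
      (fun y hy => hB y ⟨ht.1.trans hy.1, by push_cast; linarith [hy.2, ht.2]⟩) (t + h)
      ⟨by linarith, le_rfl⟩
    rwa [add_sub_cancel_left] at this

theorem qt_four {h B : ℝ} (h0 : 0 ≤ h) {U : E3 → ℝ} (hU : ContDiff ℝ 4 U) (p : E3)
    (hB : ∀ y, ‖y - p‖ ≤ 4 * h → ‖iteratedFDeriv ℝ 4 U y‖ ≤ B) :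
    |U (p + (4 * h) • ev 0) - 4 * U (p + (3 * h) • ev 0) + 6 * U (p + (2 * h) • ev 0) -
      4 * U (p + h • ev 0) + U p| ≤ h ^ 4 * B := by
  have := qt_fwd h0 4 (g := fun s : ℝ => U (p + s • ev 0))
    (hU.comp (contDiff_const.add (contDiff_id.smul contDiff_const))) (x := 0) (B := B)
    fun t ht => (abs_iteratedDeriv_line (n := 4) hU 0 p t).trans (hB _ (by
      rw [add_sub_cancel_left, norm_smul, basic_norm_ev, mul_one, Real.norm_of_nonneg ht.1]
      simpa using ht.2))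
  rw [fwdDiff_iter_eq_sum_shift] at this
  refine le_of_eq_of_le (congrArg abs ?_) this
  simp [Finset.sum_range_succ, Nat.choose]
  ring

theorem qt_node (M i j k m : ℕ) :
    node M (i + m, j, k) = node M (i, j, k) + ((m : ℝ) * hh M) • ev 0 := by
  ext c
  fin_cases c <;> simp [node, ev, gx, hh]
  ring

theorem qt_hh {M : ℕ} (hM : 1 ≤ M) : 0 < hh M := by
  rw [hh_eq]
  exact div_pos (ip_pos hM _) three_pos

theorem qt_grid (M : ℕ) (f : ℕ × ℕ × ℕ → ℝ) : ∑ n ∈ grid M, f n =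
    ∑ i ∈ Finset.range (NX M), ∑ j ∈ Finset.range (NX M), ∑ k ∈ Finset.range (NZ M),
      f (i, j, k) := by
  simp only [grid, Finset.sum_product]

theorem qt_diff {M : ℕ} (hM : 1 ≤ M) {U Θ : E3 → ℝ} (hU : ContDiff ℝ 4 U)
    (hΘ : IntegrableOn Θ (slab M)) (h0 : ∀ y, 0 ≤ Θ y)
    (h : ∀ y ∈ slab M, ∀ y', ‖y' - y‖ ≤ 10 * hh M → ‖iteratedFDeriv ℝ 4 U y'‖ ≤ Θ y) :
    ∑ i ∈ Finset.range (NX M - 4), ∑ j ∈ Finset.range (NX M), ∑ k ∈ Finset.range (NZ M),
      |U (node M (i + 4, j, k)) - 4 * U (node M (i + 3, j, k)) + 6 * U (node M (i + 2, j, k)) -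
        4 * U (node M (i + 1, j, k)) + U (node M (i, j, k))| ≤ hh M * ∫ y in slab M, Θ y := by
  have hp := qt_hh hM
  have := cell_sum hM (g := fun n => |U (node M (n.1 + 4, n.2.1, n.2.2)) -
    4 * U (node M (n.1 + 3, n.2.1, n.2.2)) + 6 * U (node M (n.1 + 2, n.2.1, n.2.2)) -
      4 * U (node M (n.1 + 1, n.2.1, n.2.2)) + U (node M n)| / hh M ^ 4) hΘ h0
    fun n _ => ae_of_all _ fun y hy hn => by
      rw [div_le_iff₀' (by positivity)]
      simp only [qt_node, Nat.cast_ofNat, Nat.cast_one, one_mul]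
      refine qt_four hp.le hU _ fun y' hy' => h y hy y' ?_
      rw [norm_sub_rev] at hn
      linarith [norm_sub_le_norm_sub_add_norm_sub y' (node M n) y]
  refine le_trans ?_ (mul_le_mul_of_nonneg_left this hp.le)
  rw [Finset.mul_sum, qt_grid]
  refine le_trans (Finset.sum_le_sum_of_subset_of_nonneg (Finset.range_mono (Nat.sub_le _ 4))
    fun _ _ _ => by positivity) (le_of_eq ?_)
  refine Finset.sum_congr rfl fun i _ => Finset.sum_congr rfl fun j _ =>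
    Finset.sum_congr rfl fun k _ => ?_
  field_simp

theorem WOK.qq_bd : ∀ᶠ M : ℕ in atTop, ∀ (l : ℝ) (q1 : E3 → ℝ) (q : ℕ → ℕ → ℕ → ℚ), WOK M l q1 q →
    Bd 4 ((M : ℝ) ^ 2) (qq M q1) ∧ ∀ y, (M : ℝ) ^ 2 / 30 ≤ qq M q1 y ∧ qq M q1 y ≤ (M : ℝ) ^ 2 / 8 := by
  filter_upwards [ev_le 6] with M hM l q1 q h
  have p1 := Real.pi_gt_three
  have p2 := Real.pi_lt_d2
  have hc : Bd 4 ((M : ℝ) ^ 2) fun _ => (M : ℝ) ^ 2 := ⟨contDiff_const, fun i _ p => by
    rcases eq_or_ne i 0 with rfl | hi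
    · rw [norm_iteratedFDeriv_zero, Real.norm_of_nonneg (by positivity)]
    · rw [iteratedFDeriv_const_of_ne hi, Pi.zero_apply, norm_zero]
      positivity⟩
  have hs := hc.add h.bd
  refine ⟨⟨hs.1.div_const _, fun i hi p => ?_⟩, fun y => ?_⟩
  · have e : qq M q1 = (4 * Real.pi)⁻¹ • fun y => (M : ℝ) ^ 2 + q1 y :=
      funext fun y => div_eq_inv_mul _ _
    rw [e, iteratedFDeriv_const_smul_apply (hs.1.contDiffAt.of_le (mod_cast hi)), norm_smul,
      Real.norm_of_nonneg (by positivity), inv_mul_le_iff₀ (by positivity)]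
    nlinarith [hs.2 i hi p]
  · have := abs_le.1 (h.bd.abs_le y)
    rw [qq, le_div_iff₀ (by positivity), div_le_iff₀ (by positivity)]
    constructor <;> nlinarith

theorem zz_bd : ∀ᶠ M : ℕ in atTop, ∀ (l : ℝ) (q1 : E3 → ℝ) (q : ℕ → ℕ → ℕ → ℚ), WOK M l q1 q →
    ∀ n ∈ grid M, 1 ≤ zz q n ∧ l * (zz q n : ℝ) ≤ (M : ℝ) ^ 2 * hh M ^ 3 := by
  filter_upwards [WOK.qq_bd, ev_le 100000, eventually_ge_atTop 1] with M hq hM hM1 l q1 q h n hn
  obtain ⟨q1', q2⟩ := (hq l q1 q h).2 (node M n)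
  obtain ⟨w1, w2⟩ := wt3_mem M n
  obtain ⟨a1, a2⟩ := abs_le.1 (h.apx n hn)
  obtain ⟨z1, z2⟩ := abs_le.1 (zz_sub_le q n)
  have l0 := (ip_pos hM1 _).trans_le h.l_ge
  have l1 := h.l_le
  have b1 := ip_absorb hM1 hM (j := 0) (k := 3037) (k' := 3000) (by norm_num)
  have b2 := ip_anti hM1 (k := 3037) (k' := 14000) (by norm_num)
  have e : hh M ^ 3 = ip M 3000 / 27 := by
    rw [hh_eq, ip_add M 1000 2000, ip_add M 1000 1000]
    ring
  have m1 : 1 ≤ (M : ℝ) ^ 2 := one_le_pow₀ (by linarith)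
  have a0 := ip_pos hM1 3000
  rw [e] at w1 w2 ⊢
  rw [pow_zero, mul_one] at b1
  generalize (ip M 3000 : ℝ) = a at *
  generalize (ip M 3037 : ℝ) = b at *
  generalize (ip M 14000 : ℝ) = c at *
  generalize (M : ℝ) ^ 2 = m at *
  have k1 : 27 / 64 * (a / 27) * (m / 30) ≤ wt3 M n * qq M q1 (node M n) :=
    mul_le_mul w1 q1' (by positivity) (by linarith)
  have k2 : wt3 M n * qq M q1 (node M n) ≤ 3 / 2 * (a / 27) * (m / 8) :=
    mul_le_mul w2 q2 (by linarith) (by positivity)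
  have k3 : a ≤ a * m := le_mul_of_one_le_right a0.le m1
  have k4 := mul_le_mul_of_nonneg_left z1 l0.le
  have k5 := mul_le_mul_of_nonneg_left z2 l0.le
  refine ⟨Int.cast_pos (R := ℝ).1 ((mul_pos_iff_of_pos_left l0).1 ?_), by nlinarith⟩
  nlinarith

theorem qt : ∀ᶠ M : ℕ in atTop, ∀ (l : ℝ) (q1 : E3 → ℝ) (q : ℕ → ℕ → ℕ → ℚ), WOK M l q1 q →
    ∀ (U Θ1 Θ2 : E3 → ℝ) (U0 A1 : ℝ), ContDiff ℝ 4 U → IntegrableOn Θ1 (slab M) →
    IntegrableOn Θ2 (slab M) → (∀ y, 0 ≤ Θ2 y) → 0 ≤ A1 →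
    (∀ y ∈ slab M, ∀ y', ‖y' - y‖ ≤ 10 * hh M →
      ‖iteratedFDeriv ℝ 4 (fun y => qq M q1 y * U y) y'‖ ≤ Θ1 y ∧
      ‖iteratedFDeriv ℝ 4 U y'‖ ≤ Θ2 y) →
    (∀ y ∈ slab M, |U y| ≤ U0) →
    (∀ i < NX M, NX M ≤ i + 4 → ∀ k < NZ M,
      ∑ j ∈ Finset.range (NX M - 1), |U (node M (i, j, k)) - U (node M (i, j + 1, k))| +
        |U (node M (i, NX M - 1, k))| ≤ A1) →
    |∑ n ∈ grid M, l * (zz q n : ℝ) * U (node M n) - ∫ y in slab M, qq M q1 y * U y| ≤
      ip M 4000 * (∫ y in slab M, Θ1 y) + ip M 4000 * (∫ y in slab M, Θ2 y) +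
        ip M 2030 * A1 + ip M 4390 * U0 := by
  filter_upwards [WOK.qq_bd, ev_le 1152, eventually_ge_atTop 1] with M hq hM hM1 l q1 q h
    U Θ1 Θ2 U0 A1 hU i1 i2 t0 A0 hD hU0 hA
  have hp := qt_hh hM1
  have l0 := (ip_pos hM1 _).trans_le h.l_ge
  have s1 := simp3 hM1 ((hq l q1 q h).1.1.mul hU) i1 fun y hy y' hy' => (hD y hy y' hy').1
  have s2 := noise q (fun i j k => U (node M (i, j, k))) (NX M) (NX M) (NZ M) A0 hA
  have s3 := qt_diff hM1 hU i2 t0 fun y hy y' hy' => (hD y hy y' hy').2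
  have U00 : 0 ≤ U0 := (abs_nonneg _).trans (hU0 0 (by simp [slab]))
  have s4 : |∑ n ∈ grid M, (l * (q n.1 n.2.1 n.2.2 : ℝ) - wt3 M n * qq M q1 (node M n)) *
      U (node M n)| ≤ ip M 4390 * U0 := by
    refine (Finset.abs_sum_le_sum_abs _ _).trans ((Finset.sum_le_card_nsmul _ _
      (ip M 14000 * U0) fun n hn => ?_).trans ?_)
    · rw [abs_mul]
      exact mul_le_mul (h.apx n hn) (hU0 _ (node_mem hM1 hn)) (abs_nonneg _) (ip_pos hM1 _).le
    · rw [grid_card, nsmul_eq_mul, ← mul_assoc, Nat.cast_mul, Nat.cast_pow]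
      exact mul_le_mul_of_nonneg_right (ip_absorb hM1 (by push_cast; linarith) (by norm_num)) U00
  have I1 : 0 ≤ ∫ y in slab M, Θ1 y := setIntegral_nonneg (slab_isCompact M).measurableSet
    fun y hy => (norm_nonneg _).trans (hD y hy y (by rw [sub_self, norm_zero]; positivity)).1
  have I2 : 0 ≤ ∫ y in slab M, Θ2 y := integral_nonneg t0
  rw [← qt_grid M fun n => ((zz q n : ℝ) - (q n.1 n.2.1 n.2.2 : ℝ)) * U (node M n)] at s2
  have e : ∑ n ∈ grid M, l * (zz q n : ℝ) * U (node M n) =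
      l * ∑ n ∈ grid M, ((zz q n : ℝ) - (q n.1 n.2.1 n.2.2 : ℝ)) * U (node M n) +
      ∑ n ∈ grid M, (l * (q n.1 n.2.1 n.2.2 : ℝ) - wt3 M n * qq M q1 (node M n)) * U (node M n) +
      ∑ n ∈ grid M, wt3 M n * (qq M q1 (node M n) * U (node M n)) := by
    rw [Finset.mul_sum, ← Finset.sum_add_distrib, ← Finset.sum_add_distrib]
    exact Finset.sum_congr rfl fun n _ => by ring
  have c1 : 10 * hh M ^ 4 ≤ ip M 4000 := by
    have := ip_pos hM1 1000
    rw [hh_eq, ip_add M 2000 2000, ip_add M 1000 1000]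
    generalize (ip M 1000 : ℝ) = a at *
    nlinarith [pow_pos this 4]
  have c2 : l * (2 * hh M) ≤ ip M 4000 := by
    have := ip_pos hM1 1000
    rw [hh_eq, ip_add M 3000 1000]
    exact mul_le_mul (h.l_le.trans (ip_anti hM1 (by norm_num))) (by linarith)
      (mul_pos two_pos (div_pos this three_pos)).le (ip_pos hM1 _).le
  have c3 : l * (64 * NZ M) ≤ ip M 2030 := by
    refine le_trans ?_ (ip_absorb hM1 hM (j := 1000) (k := 3037) (by norm_num))
    rw [mul_comm, NZ, HH]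
    push_cast
    refine mul_le_mul (le_of_eq ?_) h.l_le l0.le (by positivity)
    generalize (M : ℝ) ^ 1000 = a
    ring
  rw [e, add_sub_assoc]
  refine (abs_add_three _ _ _).trans ?_
  rw [abs_mul, abs_of_pos l0]
  have k1 := mul_le_mul_of_nonneg_left (s2.trans (add_le_add_left
    (mul_le_mul_of_nonneg_left s3 zero_le_two) _)) l0.le
  have k2 := mul_le_mul_of_nonneg_right c1 I1
  have k3 := mul_le_mul_of_nonneg_right c2 I2
  have k4 := mul_le_mul_of_nonneg_right c3 A0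
  linarith

end Vale.Agent.P370
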