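import Vale.Agent.P370.Deriv
import Vale.Agent.P370.QT

/-! The rational approximations. -/

namespace Vale.Agent.P370

open MeasureTheory Filter
open scoped Classical

theorem num_mvt {f f' : ℝ → ℝ} (hf : ∀ t, HasDerivAt f (f' t) t) {δ C : ℝ}
    (hb : ∀ t, |t| ≤ δ → |f' t| ≤ C) {t : ℝ} (ht : |t| ≤ δ) : |f t - f 0| ≤ C * δ := by
  have h0 : 0 ≤ δ := (abs_nonneg t).trans ht
  have h1 := (convex_Icc (-δ) δ).norm_image_sub_le_of_norm_hasDerivWithin_le (C := C)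
    (fun x _ => (hf x).hasDerivWithinAt) (fun x hx => hb x (abs_le.2 hx))
    (show (0 : ℝ) ∈ Set.Icc (-δ) δ from ⟨by linarith, h0⟩) (abs_le.1 ht)
  rw [sub_zero] at h1
  exact h1.trans (mul_le_mul_of_nonneg_left ht ((abs_nonneg _).trans (hb t ht)))

theorem num_1d {g0 g1 g2 g3 : ℝ → ℝ} (h0 : ∀ t, HasDerivAt g0 (g1 t) t)
    (h1 : ∀ t, HasDerivAt g1 (g2 t) t) (h2 : ∀ t, HasDerivAt g2 (g3 t) t) {B δ : ℝ}
    (hB : ∀ t, |g3 t| ≤ B) (hδ : 0 ≤ δ) :
    |g0 δ + g0 (-δ) - 2 * g0 0 - δ ^ 2 * g2 0| ≤ 2 * B * δ ^ 3 := by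
  have a2 : ∀ t, |t| ≤ δ → |g2 t + g2 (-t) - 2 * g2 0| ≤ 2 * B * δ := fun t ht => by
    have b1 := abs_le.1 (num_mvt h2 (fun t _ => hB t) ht)
    have b2 := abs_le.1 (num_mvt h2 (δ := δ) (fun t _ => hB t) (t := -t) (by rwa [abs_neg]))
    rw [abs_le]
    constructor <;> linarith
  have a1 : ∀ t, |t| ≤ δ → |g1 t - g1 (-t) - 2 * t * g2 0| ≤ 2 * B * δ * δ := fun t ht => by
    have := num_mvt (f := fun t => g1 t - g1 (-t) - 2 * t * g2 0) (fun t =>
      (((h1 t).sub ((h1 (-t)).comp t (hasDerivAt_neg t))).sub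
        (((hasDerivAt_id' t).const_mul 2).mul_const (g2 0))).congr_deriv (by ring)) a2 ht
    simpa using this
  have := num_mvt (f := fun t => g0 t + g0 (-t) - t ^ 2 * g2 0) (fun t =>
    (((h0 t).add ((h0 (-t)).comp t (hasDerivAt_neg t))).sub
      ((hasDerivAt_pow 2 t).mul_const (g2 0))).congr_deriv (by simp; ring)) a1 (t := δ)
      (abs_of_nonneg hδ).le
  refine le_of_eq_of_le ?_ (this.trans_eq (by ring))
  congr 1
  simp only [neg_zero]
  ring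

theorem num_dir {F : E3 → ℝ} {B δ : ℝ} (hF : Bd 3 B F) (hδ : 0 ≤ δ) (k : Fin 3) (p : E3) :
    |F (p + δ • ev k) + F (p + (-δ) • ev k) - 2 * F p - δ ^ 2 * pd k (pd k F) p| ≤
      2 * B * δ ^ 3 := by
  have b1 : Bd 2 B (pd k F) := hF.pd k
  have b2 : Bd 1 B (pd k (pd k F)) := b1.pd k
  have b3 : Bd 0 B (pd k (pd k (pd k F))) := b2.pd k
  have := num_1d (hasDerivAt_line (hF.1.differentiable (by norm_num)) k p)
    (hasDerivAt_line (b1.1.differentiable (by norm_num)) k p)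
    (hasDerivAt_line (b2.1.differentiable (by norm_num)) k p) (fun t => b3.abs_le _) hδ
  simpa only [zero_smul, add_zero] using this

theorem num_lap {F : E3 → ℝ} {f : ℚ → ℚ → ℚ → ℚ} {B η : ℝ} {δ : ℚ} (hF : Bd 3 B F)
    (hδ : (0 : ℝ) < δ)
    (hf : ∀ x y z : ℚ, |(f x y z : ℝ) - F !₂[(x : ℝ), (y : ℝ), (z : ℝ)]| ≤ η) (x y z : ℚ) :
    |(lapQ δ f x y z : ℝ) - lap F !₂[(x : ℝ), (y : ℝ), (z : ℝ)]| ≤
      12 * η / (δ : ℝ) ^ 2 + 6 * B * δ := by
  set p : E3 := !₂[(x : ℝ), (y : ℝ), (z : ℝ)] with hp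
  have e0 : ∀ t : ℝ, p + t • ev 0 = !₂[(x : ℝ) + t, (y : ℝ), (z : ℝ)] := fun t => by
    ext k; fin_cases k <;> simp [hp, ev]
  have e1 : ∀ t : ℝ, p + t • ev 1 = !₂[(x : ℝ), (y : ℝ) + t, (z : ℝ)] := fun t => by
    ext k; fin_cases k <;> simp [hp, ev]
  have e2 : ∀ t : ℝ, p + t • ev 2 = !₂[(x : ℝ), (y : ℝ), (z : ℝ) + t] := fun t => by
    ext k; fin_cases k <;> simp [hp, ev]
  have d0 := abs_le.1 (num_dir hF hδ.le 0 p)
  have d1 := abs_le.1 (num_dir hF hδ.le 1 p)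
  have d2 := abs_le.1 (num_dir hF hδ.le 2 p)
  rw [e0, e0] at d0
  rw [e1, e1] at d1
  rw [e2, e2] at d2
  have f0 := abs_le.1 (hf x y z)
  have f1 := abs_le.1 (hf (x + δ) y z)
  have f2 := abs_le.1 (hf (x - δ) y z)
  have f3 := abs_le.1 (hf x (y + δ) z)
  have f4 := abs_le.1 (hf x (y - δ) z)
  have f5 := abs_le.1 (hf x y (z + δ))
  have f6 := abs_le.1 (hf x y (z - δ))
  simp only [Rat.cast_add, Rat.cast_sub, ← sub_eq_add_neg] at f1 f2 f3 f4 f5 f6 d0 d1 d2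
  rw [← hp] at f0
  have h2 : (0 : ℝ) < (δ : ℝ) ^ 2 := by positivity
  have e : (lapQ δ f x y z : ℝ) - lap F p = ((f (x + δ) y z + f (x - δ) y z + f x (y + δ) z +
      f x (y - δ) z + f x y (z + δ) + f x y (z - δ) - 6 * f x y z) - (δ : ℝ) ^ 2 *
        (pd 0 (pd 0 F) p + pd 1 (pd 1 F) p + pd 2 (pd 2 F) p)) / (δ : ℝ) ^ 2 := by
    rw [lapQ, lap, Fin.sum_univ_three]
    push_cast
    field_simp
  have e' : 12 * η / (δ : ℝ) ^ 2 + 6 * B * δ = (12 * η + 6 * B * (δ : ℝ) ^ 3) / (δ : ℝ) ^ 2 := by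
    field_simp
  rw [e, e', abs_div, abs_of_pos h2]
  refine div_le_div_of_nonneg_right (abs_le.2 ⟨?_, ?_⟩) h2.le <;> linarith

theorem num_ip (M k : ℕ) : ((ip M k : ℚ) : ℝ) = ip M k := by
  simp only [ip, Rat.cast_inv, Rat.cast_pow, Rat.cast_natCast]

theorem num_om (M : ℕ) : ((om M : ℚ) : ℝ) = om M := by
  simp only [om, Rat.cast_inv, Rat.cast_pow, Rat.cast_ofNat]

theorem num_gx (M i : ℕ) : ((gx M i : ℚ) : ℝ) = gx M i := by
  simp only [gx]; push_cast; rfl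

theorem num_gz (M i : ℕ) : ((gz M i : ℚ) : ℝ) = gz M i := by
  simp only [gz]; push_cast; rfl

theorem num_ws (i : ℕ) : ((ws i : ℚ) : ℝ) = ws i := by
  unfold ws
  split_ifs <;> norm_num

theorem num_wt3 (M : ℕ) (n : ℕ × ℕ × ℕ) : ((wt3 M n : ℚ) : ℝ) = wt3 M n := by
  simp only [wt3, Rat.cast_div, Rat.cast_mul, Rat.cast_pow, Rat.cast_natCast, num_ws]

theorem num_V1Q {M : ℕ} (hM : 1 ≤ M) {L : Lay} {B : ℝ} (hB : Bd 3 B (PS M L)) (x y z : ℚ) :
    |(V1Q M L x y z : ℝ) - V1 M L !₂[(x : ℝ), (y : ℝ), (z : ℝ)]| ≤ 3 * B * ip M 44040 := by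
  have ho := om_pos M
  have hi := ip_pos hM 44040
  have h1 := num_lap (f := fun x y _ => psi M L x y) (η := 0) (δ := ip M 44040 * om M) hB
    (by rw [Rat.cast_mul, num_ip, num_om]; positivity)
    (fun x y z => by rw [psi_cast]; simp [PS]) x y z
  set p : E3 := !₂[(x : ℝ), (y : ℝ), (z : ℝ)] with hp
  have h2 := om_le_PS M L p
  have h3 := PS_pos M L p
  have B0 : 0 ≤ B := (abs_nonneg _).trans (hB.abs_le p)
  have e1 : (psi M L (x : ℝ) (y : ℝ)) = PS M L p := rfl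
  have e2 : (V1Q M L x y z : ℝ) - V1 M L p = plat (-2) 2 (z : ℝ) *
      (((lapQ (ip M 44040 * om M) (fun x y _ => psi M L x y) x y z : ℚ) - lap (PS M L) p) /
        (2 * PS M L p)) := by
    rw [V1Q, V1, vlat]
    push_cast [plat_cast, psi_cast, num_om]
    rw [e1, show p 2 = (z : ℝ) from rfl]
    field_simp
    ring
  rw [mul_zero, zero_div, zero_add, Rat.cast_mul, num_ip, num_om] at h1
  rw [e2, abs_mul, abs_of_nonneg (plat_nonneg (by norm_num) _), abs_div,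
    abs_of_pos (by positivity : 0 < 2 * PS M L p)]
  refine (mul_le_of_le_one_left (by positivity) (plat_le_one _ _ _)).trans ?_
  rw [div_le_iff₀ (by positivity)]
  refine h1.trans ?_
  have := mul_le_mul_of_nonneg_left h2 (by positivity : 0 ≤ 6 * B * ip M 44040)
  linarith

theorem num_leib (N : ℕ) :
    |∑ i ∈ Finset.range N, (-1 : ℝ) ^ i * (1 / (2 * i + 1)) - Real.pi / 4| ≤ 1 / (2 * N + 1) := by
  have hl : Tendsto (fun k => ∑ i ∈ Finset.range k, (-1 : ℝ) ^ i * (1 / (2 * i + 1))) atTop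
      (nhds (Real.pi / 4)) := by
    simpa only [mul_one_div] using Real.tendsto_sum_pi_div_four
  have ha : Antitone fun i : ℕ => (1 : ℝ) / (2 * i + 1) := fun i j hij => by
    have : (i : ℝ) ≤ j := Nat.cast_le.2 hij
    exact one_div_le_one_div_of_le (by positivity) (by linarith)
  have h0 : (0 : ℝ) ≤ 1 / (2 * N + 1) := by positivity
  rw [abs_le]
  obtain ⟨k, rfl | rfl⟩ := Nat.even_or_odd' N
  · have h1 := ha.alternating_series_le_tendsto hl k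
    have h2 := ha.tendsto_le_alternating_series hl k
    rw [Finset.sum_range_succ, pow_mul, neg_one_sq, one_pow, one_mul] at h2
    constructor <;> linarith
  · have h1 := ha.alternating_series_le_tendsto hl (k + 1)
    have h2 := ha.tendsto_le_alternating_series hl k
    rw [show 2 * (k + 1) = 2 * k + 1 + 1 by ring, Finset.sum_range_succ, pow_succ, pow_mul,
      neg_one_sq, one_pow, one_mul] at h1
    constructor <;> linarith

theorem num_pi {M : ℕ} (hM : 1 ≤ M) : |(piQ M : ℝ) - Real.pi| ≤ 2 * ip M 11010 := by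
  have h := num_leib (M ^ 11010)
  have e : (piQ M : ℝ) = 4 * ∑ i ∈ Finset.range (M ^ 11010),
      (-1 : ℝ) ^ i * (1 / (2 * i + 1)) := by
    rw [piQ]
    push_cast
    congr 1
    refine Finset.sum_congr rfl fun i _ => ?_
    rw [mul_one_div]
    congr 1
    rcases Nat.even_or_odd i with hi | hi
    · rw [if_pos (Nat.even_iff.1 hi), hi.neg_one_pow, Rat.cast_one]
    · rw [if_neg (by rw [Nat.odd_iff.1 hi]; norm_num), hi.neg_one_pow, Rat.cast_neg, Rat.cast_one]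
  have h1 : (1 : ℝ) / (2 * (M ^ 11010 : ℕ) + 1) ≤ ip M 11010 / 2 := by
    rw [ip, Nat.cast_pow]
    have : (0 : ℝ) < (M : ℝ) ^ 11010 := by positivity
    generalize (M : ℝ) ^ 11010 = t at this
    rw [← one_div, div_div]
    exact one_div_le_one_div_of_le (by positivity) (by linarith)
  rw [e]
  rw [abs_le] at h ⊢
  constructor <;> linarith

theorem num_key {m a b P ε : ℝ} (hm : 3 ≤ m) (hε : 0 ≤ ε) (hab : |a - b| ≤ 7 * m * ε)
    (hb : |b| ≤ 3 * m) (hP : |P - Real.pi| ≤ 2 * ε) (h3 : 3 ≤ P) :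
    |(m ^ 2 + a) / (4 * P) - (m ^ 2 + b) / (4 * Real.pi)| ≤ m ^ 2 * ε := by
  have p3 := Real.pi_gt_three
  have e : (m ^ 2 + a) / (4 * P) - (m ^ 2 + b) / (4 * Real.pi) =
      (a - b) / (4 * P) - (m ^ 2 + b) * (P - Real.pi) / (4 * P * Real.pi) := by
    field_simp
    ring
  have h1 : |(a - b) / (4 * P)| ≤ 7 * m * ε / 12 := by
    rw [abs_div, abs_of_pos (by positivity : 0 < 4 * P)]
    exact div_le_div₀ (by positivity) hab (by norm_num) (by linarith)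
  have h2 : |(m ^ 2 + b) * (P - Real.pi) / (4 * P * Real.pi)| ≤ 2 * m ^ 2 * (2 * ε) / 36 := by
    rw [abs_div, abs_of_pos (by positivity : 0 < 4 * P * Real.pi), abs_mul]
    refine div_le_div₀ (by positivity) (mul_le_mul ?_ hP (abs_nonneg _) (by positivity))
      (by norm_num) (by nlinarith)
    rw [abs_le] at hb ⊢
    constructor <;> nlinarith
  rw [e]
  refine (abs_sub _ _).trans ?_
  have h4 : m * ε ≤ m ^ 2 * ε := mul_le_mul_of_nonneg_right (by nlinarith) hε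
  have h5 : 0 ≤ m ^ 2 * ε := by positivity
  linarith

theorem num_q : ∀ᶠ M : ℕ in atTop, ∀ (L : Lay) (Pi : ℕ) (v : ℕ → ℕ → ℕ), L.OK M Pi v →
    ∀ l : ℚ, (ip M 3040 : ℝ) ≤ l → (l : ℝ) ≤ ip M 3037 →
      WOK M l (lap (V1 M L)) (qQ M L l) := by
  obtain ⟨C, hC⟩ := PS_deriv
  filter_upwards [hC, V1_bd, ev_le (576 * |C|), eventually_ge_atTop 20] with M h1 h2 h3 h4
  intro L Pi v hL l l1 l2
  have hM : 1 ≤ M := by omega
  have hM' : (20 : ℝ) ≤ M := by exact_mod_cast h4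
  have hV := (h2 L hL.K_le).1
  have hq : Bd 4 (3 * M) (lap (V1 M L)) := Bd.lap (n := 4) hV
  refine ⟨l1, l2, hq, fun p hp => (hL.V1_supp.1 p hp).2, fun n _ => ?_⟩
  have hB : Bd 3 (16 * |C|) (PS M L) := ⟨(PS_contDiff M L).of_le (by norm_num), fun i hi p => by
    refine (h1 L hL.K_le i (by omega) p).trans ?_
    rw [mul_comm 16]
    exact mul_le_mul (le_abs_self C) (hL.PS_le (by omega) p) (PS_pos M L p).le (abs_nonneg _)⟩
  have i1 := ip_pos hM 11010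
  have a1 := num_lap (δ := ip M 11010) (hV.mono (by norm_num) le_rfl) (by rwa [num_ip])
    (num_V1Q hM hB) (gx M n.1) (gx M n.2.1) (gz M n.2.2)
  rw [num_gx, num_gx, num_gz, num_ip] at a1
  have a2 : 12 * (3 * (16 * |C|) * ip M 44040) / (ip M 11010 : ℝ) ^ 2 ≤ M * ip M 11010 := by
    have e : (ip M 44040 : ℝ) = ip M 22020 * (ip M 11010 * ip M 11010) := by
      rw [← ip_add, ← ip_add]
    have := ip_anti hM (show 11010 ≤ 22020 by norm_num)
    have i2 := ip_pos hM 22020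
    rw [e, div_le_iff₀ (pow_pos i1 2)]
    generalize (ip M 11010 : ℝ) = s at *
    generalize (ip M 22020 : ℝ) = t at *
    have := mul_le_mul h3 this i2.le (by positivity)
    calc _ = 576 * |C| * t * s ^ 2 := by ring
      _ ≤ _ := mul_le_mul_of_nonneg_right this (by positivity)
  have a3 := num_pi hM
  have a4 : (ip M 11010 : ℝ) ≤ 1 / 20 := by
    refine (ip_anti hM (show 1 ≤ 11010 by norm_num)).trans ?_
    rw [ip, pow_one, ← one_div]
    exact one_div_le_one_div_of_le (by norm_num) hM'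
  have a5 : (3 : ℝ) ≤ piQ M := by
    have := Real.pi_gt_d2
    linarith [(abs_le.1 a3).1]
  have a6 := num_key (m := M) (b := lap (V1 M L) (node M n)) (by linarith) i1.le
    (a1.trans (by linarith)) (hq.abs_le _) a3 a5
  have l0 : (0 : ℝ) < l := (ip_pos hM 3040).trans_le l1
  have e : (l : ℝ) * (qQ M L l n.1 n.2.1 n.2.2 : ℝ) = wt3 M n * (((M : ℝ) ^ 2 +
      (lapQ (ip M 11010) (V1Q M L) (gx M n.1) (gx M n.2.1) (gz M n.2.2) : ℚ)) / (4 * piQ M)) := by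
    rw [qQ]
    push_cast [num_wt3]
    rw [mul_div_cancel₀ _ l0.ne']
  have w := wt3_mem M n
  have i3 := ip_pos hM 1000
  have w0 : (0 : ℝ) ≤ wt3 M n := le_trans (by
    rw [hh_eq]
    exact mul_nonneg (by norm_num) (pow_nonneg (div_nonneg i3.le (by norm_num)) 3)) w.1
  have w1 : (wt3 M n : ℝ) ≤ ip M 3000 := by
    have e : (ip M 3000 : ℝ) = ip M 1000 * (ip M 1000 * ip M 1000) := by
      rw [← ip_add, ← ip_add]
    refine w.2.trans ?_
    rw [hh_eq, e]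
    generalize (ip M 1000 : ℝ) = s at *
    have : 0 < s ^ 3 := by positivity
    nlinarith
  rw [e, qq, ← mul_sub, abs_mul, abs_of_nonneg w0]
  refine (mul_le_mul w1 a6 (abs_nonneg _) (ip_pos hM _).le).trans ?_
  have a7 := ip_absorb hM (C := 1) (by linarith) (j := 2) (k := 3000 + 11010) (k' := 14000)
    (by norm_num)
  rw [ip_add] at a7
  exact le_of_eq_of_le (by ring) a7

theorem num_isq {M : ℕ} (hM : 1 ≤ M) {ρ : ℚ} (hρ : 0 ≤ ρ) :
    |(isq M ρ : ℝ) - 1 / √(ρ : ℝ)| ≤ ip M 10000 := by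
  have hT : (0 : ℝ) < (M : ℝ) ^ 10000 := by positivity
  have hx : (0 : ℚ) ≤ (M : ℚ) ^ 20000 / ρ := by positivity
  have e1 : √(((M : ℚ) ^ 20000 / ρ : ℚ) : ℝ) = (M : ℝ) ^ 10000 * (1 / √(ρ : ℝ)) := by
    rw [Rat.cast_div, Rat.cast_pow, Rat.cast_natCast, show 20000 = 10000 * 2 from rfl, pow_mul,
      Real.sqrt_div (sq_nonneg _), Real.sqrt_sq hT.le, mul_one_div]
  rw [isq, ip, Rat.cast_div, Rat.cast_pow, Rat.cast_natCast, Rat.cast_natCast]
  generalize (M : ℚ) ^ 20000 / ρ = x at hx e1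
  generalize (M : ℝ) ^ 10000 = T at hT e1
  have h1 : ((Nat.sqrt ⌊x⌋₊ : ℕ) : ℝ) ≤ √(x : ℝ) := by
    refine Real.le_sqrt_of_sq_le ?_
    have a1 : ((Nat.sqrt ⌊x⌋₊ ^ 2 : ℕ) : ℚ) ≤ x :=
      (Nat.cast_le.2 (Nat.sqrt_le' _)).trans (Nat.floor_le hx)
    exact_mod_cast a1
  have h2 : √(x : ℝ) ≤ (Nat.sqrt ⌊x⌋₊ : ℕ) + 1 := by
    refine Real.sqrt_le_iff.2 ⟨by positivity, ?_⟩
    have a1 : x ≤ (((Nat.sqrt ⌊x⌋₊ + 1) ^ 2 : ℕ) : ℚ) := by
      refine (Nat.lt_floor_add_one x).le.trans ?_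
      exact_mod_cast Nat.lt_succ_sqrt' ⌊x⌋₊
    exact_mod_cast a1
  have e2 : ((Nat.sqrt ⌊x⌋₊ : ℕ) : ℝ) / T - 1 / √(ρ : ℝ) =
      (((Nat.sqrt ⌊x⌋₊ : ℕ) : ℝ) - √(x : ℝ)) / T := by
    rw [e1]
    field_simp
  rw [e2, abs_div, abs_of_pos hT, ← one_div]
  exact div_le_div_of_nonneg_right (abs_le.2 ⟨by linarith, by linarith⟩) hT.le

theorem num_e0 : ∀ᶠ M : ℕ in atTop, ∀ (l : ℚ) (q1 : E3 → ℝ) (q : ℕ → ℕ → ℕ → ℚ), WOK M l q1 q →
    |(e0Q M l q : ℝ) - (-AA M l q xs - 27 / 2 * (M : ℝ) ^ 2 + M / 2 - 1)| ≤ ip M 3300 := by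
  filter_upwards [zz_bd, eventually_ge_atTop 24] with M h1 h2
  intro l q1 q hW
  have hM : 1 ≤ M := by omega
  have hM' : (24 : ℝ) ≤ M := by exact_mod_cast h2
  have l0 : (0 : ℝ) < l := (ip_pos hM 3040).trans_le hW.l_ge
  have e : (e0Q M l q : ℝ) - (-AA M l q xs - 27 / 2 * (M : ℝ) ^ 2 + M / 2 - 1) =
      -∑ n ∈ grid M, (l : ℝ) * (zz q n : ℝ) *
        ((isq M (gx M n.1 ^ 2 + gx M n.2.1 ^ 2 + (6 - gz M n.2.2) ^ 2) : ℝ) -
          1 / ‖xs - node M n‖) := by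
    simp only [mul_sub, Finset.sum_sub_distrib, mul_one_div]
    rw [e0Q, AA, coul]
    push_cast
    simp only [grid, Finset.sum_product]
    ring
  rw [e, abs_neg]
  refine (Finset.abs_sum_le_sum_abs _ _).trans ((Finset.sum_le_card_nsmul _ _
    ((M : ℝ) ^ 2 * hh M ^ 3 * ip M 10000) fun n hn => ?_).trans ?_)
  · obtain ⟨z1, z2⟩ := h1 l q1 q hW n hn
    have z3 : (0 : ℝ) ≤ zz q n := by exact_mod_cast z1.trans' zero_le_one
    have e2 : ‖xs - node M n‖ =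
        √((gx M n.1 ^ 2 + gx M n.2.1 ^ 2 + (6 - gz M n.2.2) ^ 2 : ℚ) : ℝ) := by
      rw [← Real.sqrt_sq (norm_nonneg _), norm_E3_sq]
      push_cast [num_gx, num_gz]
      simp [xs, node]
    rw [abs_mul, abs_of_nonneg (mul_nonneg l0.le z3), e2]
    exact mul_le_mul z2 (num_isq hM (by positivity)) (abs_nonneg _)
      ((mul_nonneg l0.le z3).trans z2)
  · have a7 := ip_absorb hM hM' (j := 9600 + 2) (k := 1000 + 1000 + 1000 + 10000) (k' := 3300)
      (by norm_num)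
    rw [ip_add, ip_add, ip_add, pow_add] at a7
    rw [grid_card, hh_eq, nsmul_eq_mul, Nat.cast_mul, Nat.cast_pow]
    refine le_of_eq_of_le ?_ a7
    generalize (M : ℝ) ^ 9600 = t
    push_cast
    ring

end Vale.Agent.P370
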