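import Vale.Agent.P370.Green
import Vale.Agent.P370.Far
import Vale.Agent.P370.Deriv

/-! The potential of the continuous charge density. -/

namespace Vale.Agent.P370

open MeasureTheory Filter
open scoped Classical

theorem potC_eq {M : ℕ} (hM : 1 ≤ M) {V : E3 → ℝ} {C : ℝ} (hV : Bd 6 C V)
    (hc : HasCompactSupport V) (hs : ∀ p, p ∉ box M 3 → lap V p = 0) (p : E3) :
    Vc M (lap V) p = (M : ℝ) ^ 2 / (4 * Real.pi) * Vs M p - V p := by
  have hDR : (DD M : ℝ) ≤ RR M :=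
    Nat.cast_le.2 (Nat.pow_le_pow_right hM (show 55 ≤ 3300 by norm_num))
  have h0 : ∀ y, y ∉ slab M → lap V y = 0 := fun y hy => hs y fun ⟨a, b, c, d, e⟩ =>
    hy ⟨(abs_of_nonneg a).trans_le (b.trans hDR), (abs_of_nonneg c).trans_le (d.trans hDR), e⟩
  obtain ⟨_, -, h1⟩ := pot_int
  have h2 := (h1 _ (slab_isCompact M) p).1
  have h3 : IntegrableOn (fun y => lap V y / ‖p - y‖) (slab M) := by
    simpa only [norm_sub_rev p] using (integrable_inv_norm (Bd.lap (n := 4) hV).1.continuous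
      (HasCompactSupport.intro (slab_isCompact M) h0) p).integrableOn
  have e : ∀ y, qq M (lap V) y / ‖p - y‖ = (M : ℝ) ^ 2 / (4 * Real.pi) * (1 / ‖p - y‖) +
      (4 * Real.pi)⁻¹ * (lap V y / ‖p - y‖) := fun y => by
    unfold qq
    ring
  unfold Vc Vs
  simp only [e]
  rw [integral_add (h2.const_mul _) (h3.const_mul _), integral_const_mul, integral_const_mul,
    setIntegral_eq_integral_of_forall_compl_eq_zero (f := fun y => lap V y / ‖p - y‖)
      fun y hy => by rw [h0 y hy, zero_div], green (hV.1.of_le (by norm_num)) hc, neg_mul, mul_neg,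
    inv_mul_cancel_left₀ (by positivity), sub_eq_add_neg]

theorem pot_c : ∀ᶠ M : ℕ in atTop, ∀ (L : Lay) (Pi : ℕ) (v : ℕ → ℕ → ℕ), L.OK M Pi v →
    (∀ p, Vc M (lap (V1 M L)) p + e0 M L ≤ -Vm M L p + ip M 3095) ∧
    ∀ p ∈ box M 2, -Vm M L p - ip M 3095 ≤ Vc M (lap (V1 M L)) p + e0 M L := by
  filter_upwards [far_up, far_low, V1_bd, eventually_ge_atTop 1] with M h1 h2 h3 hM L Pi v h
  obtain ⟨h4, h5⟩ := h.V1_supp
  have h6 := potC_eq hM (h3 L h.K_le).1 h5 fun p hp => (h4 p hp).2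
  have h7 : V1 M L xs = 0 := (h4 xs fun hx => by
    have : |(6 : ℝ)| ≤ 3 := hx.2.2.2.2
    norm_num at this).1
  have hp := Real.pi_gt_three
  have h8 : (M : ℝ) ^ 2 / (4 * Real.pi) * ip M 3150 ≤ ip M 3095 := by
    rw [div_eq_inv_mul]
    exact ip_absorb hM ((inv_le_one_of_one_le₀ (by linarith)).trans (Nat.one_le_cast.2 hM))
      (by norm_num)
  have h9 : (M : ℝ) ^ 2 / (4 * Real.pi) * (2 * Real.pi) = M ^ 2 / 2 := by
    field_simp
    norm_num
  have h0 : 0 ≤ (M : ℝ) ^ 2 / (4 * Real.pi) := by positivity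
  unfold e0 Vm
  simp only [h6, h7]
  generalize (M : ℝ) ^ 2 / (4 * Real.pi) = c at h8 h9 h0
  refine ⟨fun p => ?_, fun p hp => ?_⟩
  · have a := mul_le_mul_of_nonneg_left (h1 p) h0
    rw [mul_add, ← mul_assoc, h9] at a
    linarith
  · have a := mul_le_mul_of_nonneg_left (h2 p hp) h0
    have b : p 2 ^ 2 ≤ 9 := by nlinarith [abs_le.1 hp.2.2.2.2]
    rw [mul_sub c, ← mul_assoc, h9] at a
    rw [min_eq_left b]
    linarith

end Vale.Agent.P370
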