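import Vale.Agent.P370.LayF

/-! Norms and masses of the modes. -/

namespace Vale.Agent.P370

open MeasureTheory Filter
open scoped Classical

theorem norms_cpt (R : ℝ) : IsCompact {p : E3 | ∀ k, |p k| ≤ R} := by
  refine Metric.isCompact_of_isClosed_isBounded ?_ ?_
  · rw [Set.ofPred_forall]
    exact isClosed_iInter fun k => isClosed_le (by fun_prop) continuous_const
  · refine (Metric.isBounded_closedBall (x := (0 : E3)) (r := 3 * R ^ 2 + 1)).subset fun p hp => ?_
    rw [mem_closedBall_zero_iff]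
    have h : ∀ k, p k ^ 2 ≤ R ^ 2 := fun k => by
      rw [← sq_abs]
      exact pow_le_pow_left₀ (abs_nonneg _) (hp k) 2
    have h1 := norm_E3_sq p
    nlinarith [h 0, h 1, h 2, sq_nonneg (‖p‖ - 1)]

theorem norms_closed (M : ℕ) (w : ℝ) : IsClosed (box M w) := by
  have h : ∀ k : Fin 3, Continuous fun p : E3 => p k := fun k => by fun_prop
  exact (isClosed_le continuous_const (h 0)).inter ((isClosed_le (h 0) continuous_const).inter
    ((isClosed_le continuous_const (h 1)).inter ((isClosed_le (h 1) continuous_const).inter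
      (isClosed_le (h 2).abs continuous_const))))

theorem box_isCompact (M : ℕ) (w : ℝ) : IsCompact (box M w) := by
  refine (norms_cpt (max (DD M : ℝ) w)).of_isClosed_subset (norms_closed M w) ?_
  rintro p ⟨h1, h2, h3, h4, h5⟩ k
  fin_cases k
  · exact (abs_of_nonneg h1).trans_le (h2.trans (le_max_left _ _))
  · exact (abs_of_nonneg h3).trans_le (h4.trans (le_max_left _ _))
  · exact h5.trans (le_max_right _ _)

theorem box_volume (M : ℕ) {w : ℝ} (h : 0 ≤ w) :
    volume.real (box M w) = (DD M : ℝ) ^ 2 * (2 * w) := by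
  have h0 : (0 : ℝ) ≤ DD M := Nat.cast_nonneg _
  rw [← integral_indicator_one (norms_closed M w).measurableSet]
  have e : ∀ p : E3, (box M w).indicator (1 : E3 → ℝ) p =
      (Set.Icc (0 : ℝ) (DD M)).indicator (1 : ℝ → ℝ) (p 0) *
        (Set.Icc (0 : ℝ) (DD M)).indicator (1 : ℝ → ℝ) (p 1) *
        (Set.Icc (-w) w).indicator (1 : ℝ → ℝ) (p 2) := by
    intro p
    have hb : p ∈ box M w ↔ (p 0 ∈ Set.Icc (0 : ℝ) (DD M) ∧ p 1 ∈ Set.Icc (0 : ℝ) (DD M)) ∧
        p 2 ∈ Set.Icc (-w) w := by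
      simp only [box, Set.mem_ofPred_eq, Set.mem_Icc, abs_le]
      tauto
    simp only [Set.indicator, hb, Pi.one_apply, ite_zero_mul_ite_zero, mul_one]
  simp only [e]
  rw [integral_E3_prod, integral_indicator_one measurableSet_Icc,
    integral_indicator_one measurableSet_Icc, Real.volume_real_Icc_of_le h0,
    Real.volume_real_Icc_of_le (by linarith)]
  ring

theorem norms_int_prod {f g h : ℝ → ℝ} (hf : Integrable f) (hg : Integrable g)
    (hh : Integrable h) : Integrable fun p : E3 => f (p 0) * g (p 1) * h (p 2) := by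
  rw [integrable_E3]
  refine (hf.mul_prod (hg.mul_prod hh)).congr (.of_forall fun q => ?_)
  simp [mul_assoc]

theorem norms_int1 {f : ℝ → ℝ} (hf : Continuous f) (a b : ℝ)
    (h : ∀ x, x ∉ Set.Icc a b → f x = 0) : Integrable f :=
  hf.integrable_of_hasCompactSupport (HasCompactSupport.intro isCompact_Icc h)

theorem norms_run (M i0 len : ℕ) :
    Integrable (fun x : ℝ => (∑ k ∈ Finset.range len, gk M (x - ((i0 + k : ℕ) : ℝ))) ^ 2) ∧
    ((len : ℝ) - 2 * rr M) * ginf M ^ 2 ≤
      ∫ x : ℝ, (∑ k ∈ Finset.range len, gk M (x - ((i0 + k : ℕ) : ℝ))) ^ 2 ∧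
    ∫ x : ℝ, (∑ k ∈ Finset.range len, gk M (x - ((i0 + k : ℕ) : ℝ))) ^ 2 ≤
      ((len : ℝ) + 2 * rr M) * ginf M ^ 2 := by
  have hc := (gk_contDiff M).continuous
  have hz : ∀ x : ℝ, x ∉ Set.Icc ((i0 : ℝ) - rr M) (i0 + len + rr M) →
      (∑ k ∈ Finset.range len, gk M (x - ((i0 + k : ℕ) : ℝ))) ^ 2 = 0 := by
    intro x hx
    rw [Finset.sum_eq_zero, zero_pow two_ne_zero]
    intro k hk
    have hk1 : (k : ℝ) ≤ len := by exact_mod_cast (Finset.mem_range.1 hk).le
    have hk0 : (0 : ℝ) ≤ k := Nat.cast_nonneg _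
    refine gk_eq_zero M ?_
    rw [Set.mem_Icc, not_and_or, not_le, not_le] at hx
    push_cast
    rcases hx with hx | hx
    · exact le_abs.2 (Or.inr (by linarith))
    · exact le_abs.2 (Or.inl (by linarith))
  have hi := norms_int1 (by fun_prop) _ _ hz
  have hr : (0 : ℝ) ≤ rr M := Nat.cast_nonneg _
  have hl : (0 : ℝ) ≤ len := Nat.cast_nonneg _
  refine ⟨hi, ?_, ?_⟩
  · have h1 : ∫ x : ℝ, (Set.Icc ((i0 : ℝ) + rr M) (i0 + len - rr M)).indicator
        (fun _ => (ginf M : ℝ) ^ 2) x ≤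
        ∫ x : ℝ, (∑ k ∈ Finset.range len, gk M (x - ((i0 + k : ℕ) : ℝ))) ^ 2 := by
      refine integral_mono_of_nonneg (.of_forall fun x => ?_) hi (.of_forall fun x => ?_)
      · exact Set.indicator_nonneg (fun _ _ => sq_nonneg _) x
      · by_cases hx : x ∈ Set.Icc ((i0 : ℝ) + rr M) (i0 + len - rr M)
        · simp only [Set.indicator_of_mem hx]
          rw [gk_sum_eq M i0 len (by linarith [hx.1]) (by linarith [hx.2])]
        · simp only [Set.indicator_of_notMem hx]
          exact sq_nonneg _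
    rw [integral_indicator_const _ measurableSet_Icc, Real.volume_real_Icc, smul_eq_mul] at h1
    refine le_trans (mul_le_mul_of_nonneg_right ?_ (sq_nonneg _)) h1
    exact le_max_of_le_left (by linarith)
  · have h1 : ∫ x : ℝ, (∑ k ∈ Finset.range len, gk M (x - ((i0 + k : ℕ) : ℝ))) ^ 2 ≤
        ∫ x : ℝ, (Set.Icc ((i0 : ℝ) - rr M) (i0 + len + rr M)).indicator
          (fun _ => (ginf M : ℝ) ^ 2) x := by
      refine integral_mono hi ((integrable_indicator_iff measurableSet_Icc).2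
        (integrableOn_const measure_Icc_lt_top.ne)) fun x => ?_
      by_cases hx : x ∈ Set.Icc ((i0 : ℝ) - rr M) (i0 + len + rr M)
      · simp only [Set.indicator_of_mem hx]
        refine pow_le_pow_left₀ (Finset.sum_nonneg fun _ _ => gk_nonneg M _) ?_ 2
        refine le_trans (le_of_eq ?_) (gk_sum_le M (Finset.range len) (x - i0))
        refine Finset.sum_congr rfl fun k _ => ?_
        push_cast
        rw [sub_sub]
      · simp only [Set.indicator_of_notMem hx]
        exact (hz x hx).le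
    rw [integral_indicator_const _ measurableSet_Icc, Real.volume_real_Icc_of_le (by linarith),
      smul_eq_mul] at h1
    refine h1.trans (le_of_eq ?_)
    ring

theorem port_mass {M : ℕ} (hM : 2 ≤ M) (L : Lay) (a c : ℕ) :
    Integrable (fun p : E3 => (portF M L a c (p 0) (p 1) * (gam M (p 2) * chz (p 2))) ^ 2) ∧
    (LL M - 2 * rr M) * (ginf M ^ 2 * beta M * gam0 M) ≤
      ∫ p : E3, (portF M L a c (p 0) (p 1) * (gam M (p 2) * chz (p 2))) ^ 2 ∧
    ∫ p : E3, (portF M L a c (p 0) (p 1) * (gam M (p 2) * chz (p 2))) ^ 2 ≤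
      (LL M + 2 * rr M) * (ginf M ^ 2 * beta M * gam0 M) := by
  obtain ⟨i1, l1, u1⟩ := norms_run M (L.x0 + D0 M * c) (LL M)
  have hc := (gk_contDiff M).continuous
  have i2 : Integrable fun y : ℝ => gk M (y - (row M a : ℝ)) ^ 2 := by
    refine norms_int1 (by fun_prop) ((row M a : ℝ) - rr M) (row M a + rr M) fun y hy => ?_
    rw [gk_eq_zero M, zero_pow two_ne_zero]
    rw [Set.mem_Icc, not_and_or, not_le, not_le] at hy
    rcases hy with hy | hy
    · exact le_abs.2 (Or.inr (by linarith))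
    · exact le_abs.2 (Or.inl (by linarith))
  have i3 : Integrable fun z : ℝ => (gam M z * chz z) ^ 2 := by
    refine norms_int1 ((gamchz_contDiff M).continuous.pow 2) (-2) 2 fun z hz => ?_
    rw [chz_eq_zero, mul_zero, zero_pow two_ne_zero]
    rw [Set.mem_Icc, ← abs_le, not_le] at hz
    exact hz.le
  have e : ∀ p : E3, (portF M L a c (p 0) (p 1) * (gam M (p 2) * chz (p 2))) ^ 2 =
      (∑ k ∈ Finset.range (LL M), gk M (p 0 - ((L.x0 + D0 M * c + k : ℕ) : ℝ))) ^ 2 *
        gk M (p 1 - (row M a : ℝ)) ^ 2 * (gam M (p 2) * chz (p 2)) ^ 2 := fun p => by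
    simp only [portF, run]
    ring
  have e2 : ∫ y : ℝ, gk M (y - (row M a : ℝ)) ^ 2 = beta M :=
    integral_sub_right_eq_self (fun y : ℝ => gk M y ^ 2) _
  have e3 := integral_E3_prod
    (fun x => (∑ k ∈ Finset.range (LL M), gk M (x - ((L.x0 + D0 M * c + k : ℕ) : ℝ))) ^ 2)
    (fun y => gk M (y - (row M a : ℝ)) ^ 2) (fun z => (gam M z * chz z) ^ 2)
  have b0 : 0 ≤ beta M * gam0 M := mul_nonneg (integral_nonneg fun _ => sq_nonneg _)
    (integral_nonneg fun _ => sq_nonneg _)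
  simp only [e]
  rw [e3, e2]
  refine ⟨norms_int_prod i1 i2 i3, ?_, ?_⟩
  · have := mul_le_mul_of_nonneg_right l1 b0
    unfold gam0 at this ⊢
    linarith
  · have := mul_le_mul_of_nonneg_right u1 b0
    unfold gam0 at this ⊢
    linarith

theorem norms_ip_nonneg (M k : ℕ) : (0 : ℝ) ≤ ip M k := by
  unfold ip
  positivity

theorem norms_gc (M : ℕ) (z : ℝ) : 0 ≤ gam M z * chz z ∧ gam M z * chz z ≤ 1 :=
  ⟨mul_nonneg (gam_pos M z).le (chz_mem z).1,
    mul_le_one₀ (gam_le_one M z) (chz_mem z).1 (chz_mem z).2⟩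

theorem norms_gc_cd (M : ℕ) : ContDiff ℝ 1 fun p : E3 => gam M (p 2) * chz (p 2) :=
  ((gamchz_contDiff M).of_le (by norm_num)).comp (EuclideanSpace.proj (𝕜 := ℝ) (2 : Fin 3)).contDiff

theorem norms_ports_le (M : ℕ) (L : Lay) (a : ℕ) (x y : ℝ) : ports M L a x y ≤ own M L a x y :=
  le_add_of_nonneg_right (mul_nonneg (norms_ip_nonneg M 90) (busF_mem M L a x y).1)

theorem norms_young {a b e : ℝ} (he : 0 < e) :
    (a + b) ^ 2 ≤ (1 + e) * a ^ 2 + (1 + e⁻¹) * b ^ 2 := by
  have h : 0 ≤ e⁻¹ * (e * a - b) ^ 2 := by positivity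
  have h1 : e⁻¹ * (e * a - b) ^ 2 = e * a ^ 2 - 2 * a * b + e⁻¹ * b ^ 2 := by
    field_simp
    ring
  nlinarith

section OK

variable {M : ℕ} {L : Lay} {Pi : ℕ} {v : ℕ → ℕ → ℕ}

theorem Lay.OK.one_le_n0sq (h : L.OK M Pi v) (hM : 2 ≤ M) : 1 ≤ n0sq M Pi := by
  have hM' : (2 : ℝ) ≤ M := by exact_mod_cast hM
  have h1 : (M : ℝ) ≤ Pi := by exact_mod_cast h.Pi_ge
  have h2 : (4 : ℝ) ≤ LL M := by
    have : (2 : ℝ) ^ 2 ≤ (M : ℝ) ^ 20 :=
      (pow_le_pow_left₀ (by norm_num) hM' 2).trans (pow_le_pow_right₀ (by linarith) (by norm_num))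
    unfold LL
    push_cast
    linarith
  have h3 : (1 : ℝ) ≤ ginf M ^ 2 := one_le_pow₀ (one_le_ginf M)
  have h4 := beta_ge (M := M) (by omega)
  have h5 := gam0_ge (M := M) (by omega)
  calc (1 : ℝ) = M * 4 * 1 * (1 / 2) * (1 / (2 * M)) := by field_simp; norm_num
    _ ≤ n0sq M Pi := by unfold n0sq; gcongr

theorem Lay.OK.phh_supp (h : L.OK M Pi v) {a : ℕ} (ha : a < L.K) {p : E3} (hp : p ∉ box M 2) :
    phh M L a p = 0 := by
  unfold phh
  by_cases h0 : own M L a (p 0) (p 1) = 0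
  · rw [h0, zero_mul]
  · obtain ⟨h1, h2, h3, h4⟩ := h.own_supp ha h0
    have h5 : ¬ |p 2| ≤ 2 := fun h5 => hp ⟨h1.le, h2.le, h3.le, h4.le, h5⟩
    rw [chz_eq_zero (not_le.1 h5).le, mul_zero, mul_zero]

theorem Lay.OK.phh_sm (h : L.OK M Pi v) {a : ℕ} (ha : a < L.K) : Sm (phh M L a) :=
  ⟨((own_contDiff M L a).of_le (by norm_num)).mul (norms_gc_cd M),
    HasCompactSupport.intro (box_isCompact M 2) fun _ hp => h.phh_supp ha hp⟩

theorem Lay.OK.norms_th (h : L.OK M Pi v) (a : Fin L.K) {p : E3} (h0 : part M L a.val p ≠ 0) :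
    th M L Pi p = PS M L p * (gam M (p 2) * chz (p 2)) / Real.sqrt (n0sq M Pi) := by
  obtain ⟨h1, h2, h3, h4⟩ := h.part_supp a.2 h0
  unfold th
  rw [plat_eq_one h1.le h2.le, plat_eq_one h3.le h4.le, mul_one, mul_one]

theorem Lay.OK.th_mul_ff (h : L.OK M Pi v) (a : Fin L.K) (p : E3) :
    th M L Pi p * ff M L a p =
      part M L a.val p * (gam M (p 2) * chz (p 2)) / Real.sqrt (n0sq M Pi) := by
  by_cases h0 : part M L a.val p = 0
  · simp [ff, h0]
  · have := (PS_pos M L p).ne'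
    rw [h.norms_th a h0, ff]
    field_simp

theorem th_sm (M : ℕ) (L : Lay) (Pi : ℕ) : Sm (th M L Pi) := by
  have hp : ∀ k : Fin 3, ContDiff ℝ 1 fun p : E3 => plat 0 (DD M : ℝ) (p k) := fun k =>
    ((plat_contDiff _ _).of_le (by norm_num)).comp (EuclideanSpace.proj (𝕜 := ℝ) k).contDiff
  refine ⟨((((PS_contDiff M L).of_le (by norm_num)).mul ((hp 0).mul (hp 1))).mul
    (norms_gc_cd M)).div_const _, HasCompactSupport.intro (norms_cpt (DD M + 2)) fun p hp => ?_⟩
  have h0 : (0 : ℝ) ≤ DD M := Nat.cast_nonneg _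
  have hz : ∀ u : ℝ, (DD M : ℝ) + 2 < |u| → plat 0 (DD M : ℝ) u = 0 := fun u hu => by
    refine plat_eq_zero h0 ?_
    rcases lt_abs.1 hu with hu | hu
    · exact Or.inr (by linarith)
    · exact Or.inl (by linarith)
  simp only [Set.mem_ofPred_eq, not_forall, not_le] at hp
  obtain ⟨k, hk⟩ := hp
  unfold th
  fin_cases k
  · rw [hz (p 0) hk]; simp
  · rw [hz (p 1) hk]; simp
  · have : (DD M : ℝ) + 2 < |p 2| := hk
    rw [chz_eq_zero (by linarith)]; simp

theorem ff_contDiff (M : ℕ) (L : Lay) (a : Fin L.K) : ContDiff ℝ 1 (ff M L a) :=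
  ((part_contDiff M L a.val).of_le (by norm_num)).div ((PS_contDiff M L).of_le (by norm_num))
    fun p => (PS_pos M L p).ne'

theorem norms_part_nonneg (hM : 2 ≤ M) (L : Lay) (a : ℕ) (p : E3) : 0 ≤ part M L a p :=
  (own_nonneg M L a _ _).trans (own_le_part hM L a p)

theorem ff_nonneg (hM : 2 ≤ M) (L : Lay) (a : Fin L.K) (p : E3) : 0 ≤ ff M L a p :=
  div_nonneg (norms_part_nonneg hM L a.val p) (PS_pos M L p).le

theorem ff_sum (M : ℕ) (L : Lay) (p : E3) : ∑ a, ff M L a p ≤ 1 := by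
  simp only [ff]
  rw [← Finset.sum_div, sum_part, div_le_one (PS_pos M L p)]
  linarith [om_pos M]

theorem Lay.OK.ff_eq_zero (h : L.OK M Pi v) (hM : 2 ≤ M) {a b : Fin L.K} (hab : b ≠ a) {p : E3}
    (hp : 0 < ports M L a.val (p 0) (p 1)) : ff M L b p = 0 := by
  rw [ff, h.part_eq_zero hM b.2 a.2 (Fin.val_ne_of_ne hab)
    (hp.trans_le (norms_ports_le M L _ _ _)).ne', zero_div]

theorem norms_ports_sq (hM : 2 ≤ M) (L : Lay) (a : ℕ) (p : E3) :
    (∑ c ∈ Finset.range (NC M), if L.has a c = true then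
        (portF M L a c (p 0) (p 1) * (gam M (p 2) * chz (p 2))) ^ 2 else 0) =
      (ports M L a (p 0) (p 1) * (gam M (p 2) * chz (p 2))) ^ 2 := by
  rw [mul_pow, ports_sq hM, Finset.sum_mul]
  refine Finset.sum_congr rfl fun c _ => ?_
  split_ifs
  · rw [mul_pow]
  · rw [zero_mul]

theorem Lay.OK.norms_ports (h : L.OK M Pi v) (hM : 5 ≤ M) {a : ℕ} (ha : a < L.K) :
    Integrable (fun p : E3 => (ports M L a (p 0) (p 1) * (gam M (p 2) * chz (p 2))) ^ 2) ∧
    (1 - ip M 18) * n0sq M Pi ≤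
      ∫ p : E3, (ports M L a (p 0) (p 1) * (gam M (p 2) * chz (p 2))) ^ 2 ∧
    ∫ p : E3, (ports M L a (p 0) (p 1) * (gam M (p 2) * chz (p 2))) ^ 2 ≤
      (1 + 6 * ip M 19) * n0sq M Pi := by
  have hM2 : 2 ≤ M := by omega
  have hM' : (5 : ℝ) ≤ M := by exact_mod_cast hM
  have hi : ∀ c ∈ Finset.range (NC M), Integrable fun p : E3 => if L.has a c = true then
      (portF M L a c (p 0) (p 1) * (gam M (p 2) * chz (p 2))) ^ 2 else 0 := fun c _ => by
    split_ifs
    · exact (port_mass hM2 L a c).1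
    · exact integrable_zero _ _ _
  have hs : ∀ x : ℝ, (∑ c ∈ Finset.range (NC M), if L.has a c = true then x else 0) = Pi * x :=
    fun x => by rw [← Finset.sum_filter, Finset.sum_const, h.cnt a ha, nsmul_eq_mul]
  have b0 : 0 ≤ (Pi : ℝ) * (ginf M ^ 2 * beta M * gam0 M) :=
    mul_nonneg (Nat.cast_nonneg _) (mul_nonneg (mul_nonneg (sq_nonneg _)
      (integral_nonneg fun _ => sq_nonneg _)) (integral_nonneg fun _ => sq_nonneg _))
  have e18 : ip M 18 * (LL M : ℝ) = (M : ℝ) ^ 2 := by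
    unfold ip LL
    push_cast
    field_simp
  have e19 : ip M 19 * (LL M : ℝ) = M := by
    unfold ip LL
    push_cast
    field_simp
  have er : (rr M : ℝ) = 2 * M + 1 := by
    unfold rr
    push_cast
    ring
  simp only [← norms_ports_sq hM2]
  refine ⟨integrable_finsetSum _ hi, ?_, ?_⟩
  · rw [integral_finsetSum _ hi]
    refine le_trans ?_ (Finset.sum_le_sum (f := fun c => if L.has a c = true then
      ((LL M : ℝ) - 2 * rr M) * (ginf M ^ 2 * beta M * gam0 M) else 0) fun c _ => ?_)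
    · rw [hs]
      have h1 : (1 - ip M 18) * (LL M : ℝ) ≤ LL M - 2 * rr M := by nlinarith
      have h2 := mul_le_mul_of_nonneg_right h1 b0
      unfold n0sq
      linarith
    · split_ifs
      · exact (port_mass hM2 L a c).2.1
      · simp
  · rw [integral_finsetSum _ hi]
    refine le_trans (Finset.sum_le_sum (g := fun c => if L.has a c = true then
      ((LL M : ℝ) + 2 * rr M) * (ginf M ^ 2 * beta M * gam0 M) else 0) fun c _ => ?_) ?_
    · split_ifs
      · exact (port_mass hM2 L a c).2.2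
      · simp
    · rw [hs]
      have h1 : (LL M : ℝ) + 2 * rr M ≤ (1 + 6 * ip M 19) * (LL M : ℝ) := by nlinarith
      have h2 := mul_le_mul_of_nonneg_right h1 b0
      unfold n0sq
      linarith

end OK

theorem norms_box_int (M : ℕ) (x : ℝ) : Integrable ((box M 2).indicator fun _ => x) ∧
    ∫ p, (box M 2).indicator (fun _ => x) p = 4 * (M : ℝ) ^ 110 * x := by
  have hm := (norms_closed M 2).measurableSet
  refine ⟨(integrable_indicator_iff hm).2
    (integrableOn_const (box_isCompact M 2).measure_lt_top.ne), ?_⟩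
  rw [integral_indicator_const _ hm, box_volume M (by norm_num), smul_eq_mul]
  unfold DD
  push_cast
  ring

theorem norms_inv_ip {M : ℕ} (hM : 1 ≤ M) (k : ℕ) : 1 + (ip M k : ℝ)⁻¹ ≤ 2 * (M : ℝ) ^ k := by
  have h1 : (1 : ℝ) ≤ M := by exact_mod_cast hM
  have h2 : (1 : ℝ) ≤ (M : ℝ) ^ k := one_le_pow₀ h1
  unfold ip
  rw [inv_inv]
  linarith

theorem norms_ip_le_one {M : ℕ} (hM : 1 ≤ M) (k : ℕ) : (ip M k : ℝ) ≤ 1 := by
  have := ip_anti hM (Nat.zero_le k)
  simpa [ip] using this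

theorem phh_norm : ∀ᶠ M : ℕ in atTop, ∀ (L : Lay) (Pi : ℕ) (v : ℕ → ℕ → ℕ), L.OK M Pi v →
    ∀ a < L.K, (1 - ip M 18) * n0sq M Pi ≤ nsq1 (phh M L a) ∧
      nsq1 (phh M L a) ≤ (1 + ip M 18) * n0sq M Pi := by
  filter_upwards [ev_le 648, eventually_ge_atTop 5] with M hC hM L Pi v h a ha
  have hM1 : 1 ≤ M := by omega
  obtain ⟨i1, l1, u1⟩ := h.norms_ports hM ha
  have hn := h.one_le_n0sq (by omega)
  have hs := h.phh_sm ha
  have i2 : Integrable fun p => phh M L a p ^ 2 :=
    (hs.1.continuous.pow 2).integrable_of_hasCompactSupport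
      (HasCompactSupport.intro (box_isCompact M 2) fun p hp => by
        simp [h.phh_supp ha hp])
  have he := ip_pos hM1 19
  constructor
  · refine l1.trans (integral_mono i1 i2 fun p => ?_)
    exact pow_le_pow_left₀ (mul_nonneg (ports_nonneg M L a _ _) (norms_gc M _).1)
      (mul_le_mul_of_nonneg_right (norms_ports_le M L a _ _) (norms_gc M _).1) 2
  · obtain ⟨i3, e3⟩ := norms_box_int M (2 * (M : ℝ) ^ 19 * (81 * ip M 180))
    have h1 : nsq1 (phh M L a) ≤ ∫ p : E3, ((1 + ip M 19) *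
        (ports M L a (p 0) (p 1) * (gam M (p 2) * chz (p 2))) ^ 2 +
        (box M 2).indicator (fun _ => 2 * (M : ℝ) ^ 19 * (81 * ip M 180)) p) := by
      refine integral_mono i2 ((i1.const_mul _).add i3) fun p => ?_
      by_cases hp : p ∈ box M 2
      · simp only [Set.indicator_of_mem hp, phh, own, add_mul]
        refine (norms_young he).trans ?_
        have b1 := busF_mem M L a (p 0) (p 1)
        have b2 := norms_gc M (p 2)
        have b3 : busF M L a (p 0) (p 1) * (gam M (p 2) * chz (p 2)) ≤ 9 := by nlinarith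
        have b4 : (busF M L a (p 0) (p 1) * (gam M (p 2) * chz (p 2))) ^ 2 ≤ 9 ^ 2 :=
          pow_le_pow_left₀ (mul_nonneg b1.1 b2.1) b3 2
        have b5 : (ip M 90 * busF M L a (p 0) (p 1) * (gam M (p 2) * chz (p 2))) ^ 2 ≤
            81 * ip M 180 := by
          rw [mul_assoc, mul_pow, show 180 = 90 + 90 from rfl, ip_add, ← pow_two]
          nlinarith [sq_nonneg (ip M 90 : ℝ)]
        have b6 := mul_le_mul (norms_inv_ip hM1 19) b5 (sq_nonneg _) (by positivity)
        linarith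
      · simp only [Set.indicator_of_notMem hp, h.phh_supp ha hp, add_zero]
        rw [zero_pow two_ne_zero]
        positivity
    rw [integral_add (i1.const_mul _) i3, integral_const_mul, e3] at h1
    have h2 := ip_absorb hM1 hC (j := 129) (k := 180) (k' := 19) (by norm_num)
    have h3 := ip_absorb hM1 (C := 14) (by linarith) (j := 0) (k := 19) (k' := 18) (by norm_num)
    have h4 := norms_ip_le_one hM1 19
    have h5 := mul_le_mul_of_nonneg_left u1 (show 0 ≤ 1 + (ip M 19 : ℝ) by positivity)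
    have h6 : 4 * (M : ℝ) ^ 110 * (2 * (M : ℝ) ^ 19 * (81 * ip M 180)) =
        648 * (M : ℝ) ^ 129 * ip M 180 := by ring
    have h7 : (1 + ip M 19) * (1 + 6 * ip M 19) + ip M 19 ≤ 1 + (ip M 18 : ℝ) := by nlinarith
    have h8 := mul_le_mul_of_nonneg_right h7 (zero_le_one.trans hn)
    nlinarith

theorem phi_onf : ∀ᶠ M : ℕ in atTop, ∀ (L : Lay) (Pi : ℕ) (v : ℕ → ℕ → ℕ), L.OK M Pi v →
    ONF (phi M L) := by
  filter_upwards [phh_norm, eventually_ge_atTop 2] with M hN hM L Pi v h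
  have hM1 : 1 ≤ M := by omega
  refine ⟨fun a => (h.phh_sm a.2).1.continuous.div_const _, fun a =>
    HasCompactSupport.intro (box_isCompact M 2) fun p hp => ?_, fun a => ?_, fun a b p hab => ?_⟩
  · rw [phi, h.phh_supp a.2 hp, zero_div]
  · have h1 := (hN L Pi v h a.val a.2).1
    have h2 := h.one_le_n0sq hM
    have h3 := ip_absorb hM1 (C := 2) (by exact_mod_cast hM) (j := 0) (k := 18) (k' := 0)
      (by norm_num)
    have h4 := norms_ip_le_one hM1 0
    have h5 : 0 < nsq1 (phh M L a.val) := by nlinarith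
    simp only [phi, div_pow, Real.sq_sqrt h5.le]
    rw [integral_div]
    exact div_self h5.ne'
  · rcases h.own_disj a.2 b.2 (Fin.val_ne_of_ne hab) (p 0) (p 1) with h1 | h1 <;>
      simp [phi, phh, h1]

/-- The densities of the trial functions are concentrated on the ports. -/
theorem dens_le : ∀ᶠ M : ℕ in atTop, ∀ (L : Lay) (Pi : ℕ) (v : ℕ → ℕ → ℕ), L.OK M Pi v →
    ∀ (a : Fin L.K) (p : E3), th M L Pi p ^ 2 * ff M L a p ≤
      (1 + ip M 6) / n0sq M Pi * (∑ c ∈ Finset.range (NC M), if L.has a.val c = true then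
        (portF M L a.val c (p 0) (p 1) * (gam M (p 2) * chz (p 2))) ^ 2 else 0) +
      (box M 2).indicator (fun _ => ip M 170) p := by
  filter_upwards [ev_le 338, ev_om 90, eventually_ge_atTop 2] with M hC hom hM L Pi v h a p
  have hM1 : 1 ≤ M := by omega
  have hn := h.one_le_n0sq hM
  have he := ip_pos hM1 6
  rw [norms_ports_sq hM, pow_two, mul_assoc, h.th_mul_ff]
  have r0 : 0 ≤ (1 + ip M 6) / n0sq M Pi *
      (ports M L a.val (p 0) (p 1) * (gam M (p 2) * chz (p 2))) ^ 2 +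
      (box M 2).indicator (fun _ => (ip M 170 : ℝ)) p :=
    add_nonneg (by positivity) (Set.indicator_nonneg (fun _ _ => norms_ip_nonneg M 170) p)
  by_cases h0 : part M L a.val p = 0
  · rw [h0]
    simpa using r0
  by_cases h2 : 2 ≤ |p 2|
  · rw [chz_eq_zero h2] at r0 ⊢
    simpa using r0
  obtain ⟨s1, s2, s3, s4⟩ := h.part_supp a.2 h0
  have hp : p ∈ box M 2 := ⟨s1.le, s2.le, s3.le, s4.le, (not_le.1 h2).le⟩
  rw [h.norms_th a h0, Set.indicator_of_mem hp, div_mul_div_comm,
    Real.mul_self_sqrt (by linarith)]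
  have g := norms_gc M (p 2)
  set γ := gam M (p 2) * chz (p 2)
  have p1 : part M L a.val p ≤ PS M L p := by
    have := Finset.single_le_sum (f := fun b : Fin L.K => part M L b.val p)
      (fun b _ => norms_part_nonneg hM L b.val p) (Finset.mem_univ a)
    rw [sum_part] at this
    linarith [om_pos M]
  have p2 := h.PS_le_own hM a.2 h0
  have p3 := PS_pos M L p
  have p4 := ports_nonneg M L a.val (p 0) (p 1)
  have p5 := norms_ip_nonneg M 90
  have q1 : PS M L p * γ ≤ ports M L a.val (p 0) (p 1) * γ + 13 * ip M 90 := by nlinarith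
  have q2 : PS M L p * γ * (part M L a.val p * γ) ≤
      (ports M L a.val (p 0) (p 1) * γ + 13 * ip M 90) ^ 2 := by
    refine le_trans ?_ (pow_le_pow_left₀ (mul_nonneg p3.le g.1) q1 2)
    rw [pow_two]
    exact mul_le_mul_of_nonneg_left (mul_le_mul_of_nonneg_right p1 g.1) (mul_nonneg p3.le g.1)
  have q3 := q2.trans (norms_young he)
  have q4 : (13 * ip M 90 : ℝ) ^ 2 = 169 * ip M 180 := by
    rw [show 180 = 90 + 90 from rfl, ip_add]
    ring
  have q5 := mul_le_mul_of_nonneg_right (norms_inv_ip hM1 6) (sq_nonneg (13 * ip M 90 : ℝ))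
  have q6 := ip_absorb hM1 hC (j := 6) (k := 180) (k' := 170) (by norm_num)
  have q7 : (ip M 170 : ℝ) ≤ ip M 170 * n0sq M Pi :=
    le_mul_of_one_le_right (norms_ip_nonneg M 170) hn
  rw [div_le_iff₀ (by linarith), add_mul, div_mul_eq_mul_div, div_mul_cancel₀ _ (by linarith)]
  rw [q4] at q3 q5
  linarith

theorem mass_le : ∀ᶠ M : ℕ in atTop, ∀ (L : Lay) (Pi : ℕ) (v : ℕ → ℕ → ℕ), L.OK M Pi v →
    ∀ a : Fin L.K, ∫ p, th M L Pi p ^ 2 * ff M L a p ≤ 1 + ip M 4 ∧
      1 - ip M 4 ≤ ∫ p in {p : E3 | 0 < ports M L a.val (p 0) (p 1)},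
        (th M L Pi p * ff M L a p) ^ 2 := by
  filter_upwards [dens_le, ev_le 14, eventually_ge_atTop 5] with M hD hC hM L Pi v h a
  have hM1 : 1 ≤ M := by omega
  have hM2 : 2 ≤ M := by omega
  obtain ⟨i1, l1, u1⟩ := h.norms_ports hM a.2
  have hn := h.one_le_n0sq hM2
  have hn0 : 0 < n0sq M Pi := by linarith
  constructor
  · obtain ⟨i3, e3⟩ := norms_box_int M (ip M 170)
    have h1 : ∫ p, th M L Pi p ^ 2 * ff M L a p ≤ ∫ p : E3, ((1 + ip M 6) / n0sq M Pi *
        (ports M L a.val (p 0) (p 1) * (gam M (p 2) * chz (p 2))) ^ 2 +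
        (box M 2).indicator (fun _ => (ip M 170 : ℝ)) p) := by
      refine integral_mono_of_nonneg (.of_forall fun p => ?_) ((i1.const_mul _).add i3)
        (.of_forall fun p => ?_)
      · exact mul_nonneg (sq_nonneg _) (ff_nonneg hM2 L a p)
      · have := hD L Pi v h a p
        rwa [norms_ports_sq hM2] at this
    rw [integral_add (i1.const_mul _) i3, integral_const_mul, e3] at h1
    have he := ip_pos hM1 6
    have h2 := ip_absorb hM1 (C := 4) (by linarith) (j := 110) (k := 170) (k' := 6) (by norm_num)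
    have h3 := ip_absorb hM1 hC (j := 0) (k := 6) (k' := 4) (by norm_num)
    have h4 := norms_ip_le_one hM1 6
    have h5 := mul_le_mul_of_nonneg_left u1 (show 0 ≤ (1 + ip M 6) / n0sq M Pi by positivity)
    have h6 : (1 + ip M 6) / n0sq M Pi * ((1 + 6 * ip M 19) * n0sq M Pi) =
        (1 + ip M 6) * (1 + 6 * ip M 19) := by field_simp
    have h7 := ip_anti hM1 (show 6 ≤ 19 by norm_num)
    have h8 : (1 + ip M 6) * (1 + 6 * ip M 19) ≤ 1 + 13 * (ip M 6 : ℝ) := by nlinarith
    linarith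
  · have hS : MeasurableSet {p : E3 | 0 < ports M L a.val (p 0) (p 1)} :=
      (isOpen_lt continuous_const (ports_continuous M L a.val)).measurableSet
    have i2 : Integrable fun p => (th M L Pi p * ff M L a p) ^ 2 := by
      refine (((th_sm M L Pi).1.continuous.mul (ff_contDiff M L a).continuous).pow
        2).integrable_of_hasCompactSupport ?_
      exact HasCompactSupport.intro (th_sm M L Pi).2 fun p hp => by
        simp [image_eq_zero_of_notMem_tsupport hp]
    have h1 : ∫ p in {p : E3 | 0 < ports M L a.val (p 0) (p 1)},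
        (ports M L a.val (p 0) (p 1) * (gam M (p 2) * chz (p 2))) ^ 2 / n0sq M Pi ≤
        ∫ p in {p : E3 | 0 < ports M L a.val (p 0) (p 1)}, (th M L Pi p * ff M L a p) ^ 2 := by
      refine integral_mono (i1.div_const _).integrableOn i2.integrableOn fun p => ?_
      simp only [h.th_mul_ff, div_pow, Real.sq_sqrt hn0.le]
      refine div_le_div_of_nonneg_right (pow_le_pow_left₀
        (mul_nonneg (ports_nonneg M L _ _ _) (norms_gc M _).1) (mul_le_mul_of_nonneg_right
          ((norms_ports_le M L _ _ _).trans (own_le_part hM2 L _ p)) (norms_gc M _).1) 2) hn0.le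
    rw [setIntegral_eq_integral_of_forall_compl_eq_zero (fun p hp => by
      rw [le_antisymm (not_lt.1 hp) (ports_nonneg M L _ _ _)]
      simp), integral_div] at h1
    refine le_trans ?_ h1
    rw [le_div_iff₀ hn0]
    refine le_trans (mul_le_mul_of_nonneg_right ?_ hn0.le) l1
    linarith [ip_anti hM1 (show 4 ≤ 18 by norm_num)]

end Vale.Agent.P370
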