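import Vale.Agent.P370.QT
import Vale.Agent.P370.Norms
import Vale.Agent.P370.GSR

/-! The singular part of the attraction. -/

namespace Vale.Agent.P370

open MeasureTheory Filter
open scoped Classical

open Metric Topology

theorem sb_max (t : ℝ) : HasDerivAt (fun t : ℝ => max t 0 ^ 2) (2 * max t 0) t := by
  rcases lt_trichotomy t 0 with h | rfl | h
  · rw [max_eq_right h.le, mul_zero]
    refine (hasDerivAt_const t (0 : ℝ)).congr_of_eventuallyEq ?_
    filter_upwards [gt_mem_nhds h] with s hs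
    simp [max_eq_right hs.le]
  · rw [max_self, mul_zero, hasDerivAt_iff_isLittleO_nhds_zero]
    refine Asymptotics.IsBigO.trans_isLittleO (g := fun s : ℝ => s ^ 2)
      (Asymptotics.IsBigO.of_bound' (Eventually.of_forall fun s => ?_))
      (Asymptotics.isLittleO_pow_id one_lt_two)
    rcases le_total s 0 with h | h
    · simp [h, sq_nonneg]
    · simp [h]
  · rw [max_eq_left h.le]
    refine (by simpa using hasDerivAt_pow 2 t : HasDerivAt (fun s : ℝ => s ^ 2) (2 * t) t
      ).congr_of_eventuallyEq ?_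
    filter_upwards [lt_mem_nhds h] with s hs
    simp [max_eq_left hs.le]

theorem sb_max' : ContDiff ℝ 1 fun t : ℝ => max t 0 ^ 2 :=
  contDiff_one_iff_deriv.2 ⟨fun t => (sb_max t).differentiableAt, by
    rw [show deriv (fun t : ℝ => max t 0 ^ 2) = fun t => 2 * max t 0 from
      funext fun t => (sb_max t).deriv]
    fun_prop⟩

/-- Integration by parts against a radial vector field. -/
theorem sb_parts {g g' : ℝ → ℝ} (hg : ∀ t, 0 ≤ t → HasDerivAt g (g' t) t)
    (hg1 : ∀ t, 0 ≤ t → ContDiffAt ℝ 1 g t) (c : E3) {u : E3 → ℝ} (hu : Sm u) :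
    Integrable (fun p =>
      (3 * g (‖p - c‖ ^ 2) + 2 * ‖p - c‖ ^ 2 * g' (‖p - c‖ ^ 2)) * u p ^ 2) ∧
    ∫ p, (3 * g (‖p - c‖ ^ 2) + 2 * ‖p - c‖ ^ 2 * g' (‖p - c‖ ^ 2)) * u p ^ 2 =
      ∑ k, -∫ p, (p k - c k) * g (‖p - c‖ ^ 2) * (2 * u p * pd k u p) := by
  have hn : ContDiff ℝ 1 fun p : E3 => ‖p - c‖ ^ 2 :=
    (contDiff_id.sub contDiff_const).norm_sq ℝ
  have hX : ∀ k, ContDiff ℝ 1 fun p : E3 => (p k - c k) * g (‖p - c‖ ^ 2) := fun k =>
    ((EuclideanSpace.proj (𝕜 := ℝ) k).contDiff.sub contDiff_const).mul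
      (contDiff_iff_contDiffAt.2 fun p => (hg1 _ (sq_nonneg _)).comp p hn.contDiffAt)
  have hu2 : Sm fun p => u p ^ 2 := ⟨hu.1.pow 2, ((mba_of hu.1.continuous hu.2).sq).supp⟩
  have h1 : ∀ k p, pd k (fun p : E3 => (p k - c k) * g (‖p - c‖ ^ 2)) p =
      g (‖p - c‖ ^ 2) + 2 * (p k - c k) ^ 2 * g' (‖p - c‖ ^ 2) := fun k p => by
    have a1 := ((EuclideanSpace.proj (𝕜 := ℝ) k).hasFDerivAt (x := p)).sub_const (c k)
    have a2 := (hg _ (sq_nonneg _)).comp_hasFDerivAt p ((hasFDerivAt_id p).sub_const c).norm_sq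
    have a3 := (a1.mul a2).fderiv
    unfold pd
    refine (DFunLike.congr_fun a3 (ev k)).trans ?_
    simp [ev, EuclideanSpace.inner_single_right]
    ring
  have h2 : ∀ k p, pd k (fun p => u p ^ 2) p = 2 * u p * pd k u p := fun k p => by
    have := ((hu.1.differentiable one_ne_zero p).hasFDerivAt.pow 2).fderiv
    unfold pd
    refine (DFunLike.congr_fun this (ev k)).trans ?_
    simp
  have h3 : ∀ k, -∫ p, (p k - c k) * g (‖p - c‖ ^ 2) * (2 * u p * pd k u p) =
      ∫ p, pd k (fun p : E3 => (p k - c k) * g (‖p - c‖ ^ 2)) p * u p ^ 2 := fun k => by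
    rw [integral_pd_mul (hX k) hu2 k]
    simp only [h2]
  have h4 := fun k (_ : k ∈ Finset.univ) => (MBaC.mul (gsr_pd_cont (hX k) k)
    (mba_of hu.1.continuous hu.2).sq).int (μ := volume)
  have h5 : (fun p => (3 * g (‖p - c‖ ^ 2) + 2 * ‖p - c‖ ^ 2 * g' (‖p - c‖ ^ 2)) * u p ^ 2) =
      fun p => ∑ k, pd k (fun p : E3 => (p k - c k) * g (‖p - c‖ ^ 2)) p * u p ^ 2 := by
    funext p
    simp only [h1, Fin.sum_univ_three]
    have := norm_E3_sq (p - c)
    simp only [PiLp.sub_apply] at this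
    generalize g' (‖p - c‖ ^ 2) = a
    generalize g (‖p - c‖ ^ 2) = b
    rw [this]
    ring
  rw [h5, Finset.sum_congr rfl fun k _ => h3 k, integral_finsetSum _ h4]
  exact ⟨integrable_finsetSum _ h4, rfl⟩

theorem sb_div {ρ r S : ℝ} (hr : 0 ≤ r) (h1 : r ≤ ρ) (hS : 0 < S) (h2 : r ≤ S) :
    2 * (ρ ^ 2 - r ^ 2) ^ 2 / S - 4 * ρ ^ 3 ≤ 3 * ((ρ ^ 2 - r ^ 2) ^ 2 / S) + 2 * r ^ 2 *
      ((2 * (ρ ^ 2 - r ^ 2) * -1 * S - (ρ ^ 2 - r ^ 2) ^ 2 * (1 / (2 * S))) / S ^ 2) := by
  have h3 : r / S ≤ 1 := (div_le_one hS).2 h2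
  have h4 : 0 ≤ r / S := div_nonneg hr hS.le
  have h5 : 0 ≤ ρ ^ 2 - r ^ 2 := by nlinarith
  have e : 3 * ((ρ ^ 2 - r ^ 2) ^ 2 / S) + 2 * r ^ 2 *
      ((2 * (ρ ^ 2 - r ^ 2) * -1 * S - (ρ ^ 2 - r ^ 2) ^ 2 * (1 / (2 * S))) / S ^ 2) =
      2 * (ρ ^ 2 - r ^ 2) ^ 2 / S - 4 * (r * (r / S) * (ρ ^ 2 - r ^ 2)) +
        (ρ ^ 2 - r ^ 2) ^ 2 / S * (1 - (r / S) ^ 2) := by
    field_simp
    ring
  have h6 : r * (r / S) * (ρ ^ 2 - r ^ 2) ≤ ρ * 1 * ρ ^ 2 :=
    mul_le_mul (mul_le_mul h1 h3 h4 (hr.trans h1)) (by nlinarith) h5 (by linarith)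
  have h7 : 0 ≤ (ρ ^ 2 - r ^ 2) ^ 2 / S * (1 - (r / S) ^ 2) :=
    mul_nonneg (by positivity) (by nlinarith)
  rw [e]
  linarith

theorem sb_eps {ρ ε : ℝ} (hρ : 0 < ρ) (hε : 0 < ε) (c : E3) {u : E3 → ℝ} (hu : Sm u) :
    ∫ p in ball c (ρ / 2), u p ^ 2 / √(‖p - c‖ ^ 2 + ε ^ 2) ≤
      7 / ρ * (∫ p in ball c ρ, u p ^ 2) + ρ * ∑ k, ∫ p in ball c ρ, pd k u p ^ 2 := by
  have hm := mba_of hu.1.continuous hu.2
  have hs : ∀ t : ℝ, 0 ≤ t → 0 < t + ε ^ 2 := fun t ht => by positivity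
  have hS : ∀ p : E3, 0 < √(‖p - c‖ ^ 2 + ε ^ 2) := fun p => Real.sqrt_pos.2 (by positivity)
  have hS' : ∀ p : E3, ‖p - c‖ ≤ √(‖p - c‖ ^ 2 + ε ^ 2) := fun p =>
    Real.le_sqrt_of_sq_le (by nlinarith [sq_nonneg ε])
  obtain ⟨i0, e0⟩ := sb_parts (g := fun t => max (ρ ^ 2 - t) 0 ^ 2 / √(t + ε ^ 2))
    (g' := fun t => (2 * max (ρ ^ 2 - t) 0 * -1 * √(t + ε ^ 2) -
      max (ρ ^ 2 - t) 0 ^ 2 * (1 / (2 * √(t + ε ^ 2)))) / √(t + ε ^ 2) ^ 2)
    (fun t ht => ((sb_max _).comp t ((hasDerivAt_id t).const_sub (ρ ^ 2))).div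
      (((hasDerivAt_id t).add_const (ε ^ 2)).sqrt (hs t ht).ne') (Real.sqrt_pos.2 (hs t ht)).ne')
    (fun t ht => (sb_max'.comp (contDiff_const.sub contDiff_id)).contDiffAt.div
      ((contDiffAt_id.add contDiffAt_const).sqrt (hs t ht).ne') (Real.sqrt_pos.2 (hs t ht)).ne')
    c hu
  have hin : ∀ p ∈ ball c ρ, max (ρ ^ 2 - ‖p - c‖ ^ 2) 0 = ρ ^ 2 - ‖p - c‖ ^ 2 := fun p hp => by
    rw [mem_ball, dist_eq_norm] at hp
    exact max_eq_left (by nlinarith [norm_nonneg (p - c)])
  have hout : ∀ p ∉ ball c ρ, max (ρ ^ 2 - ‖p - c‖ ^ 2) 0 = 0 := fun p hp => by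
    rw [mem_ball, dist_eq_norm, not_lt] at hp
    exact max_eq_right (by nlinarith)
  have i1 : Integrable fun p => u p ^ 2 := hm.sq.int
  have i2 : ∀ k, Integrable fun p => pd k u p ^ 2 := fun k => (gsr_c hu k).sq.int
  have i3 : Integrable fun p => u p ^ 2 / √(‖p - c‖ ^ 2 + ε ^ 2) := by
    have : Continuous fun p : E3 => (√(‖p - c‖ ^ 2 + ε ^ 2))⁻¹ :=
      Continuous.inv₀ (by fun_prop) fun p => (hS p).ne'
    simpa only [div_eq_inv_mul] using (hm.sq.mul this).int
  have b1 : ρ ^ 4 * (∫ p in ball c (ρ / 2), u p ^ 2 / √(‖p - c‖ ^ 2 + ε ^ 2)) -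
      4 * ρ ^ 3 * (∫ p in ball c ρ, u p ^ 2) ≤ _ := le_of_le_of_eq (by
    rw [← integral_indicator measurableSet_ball, ← integral_indicator measurableSet_ball,
      ← integral_const_mul, ← integral_const_mul, ← integral_sub
        ((i3.indicator measurableSet_ball).const_mul _)
        ((i1.indicator measurableSet_ball).const_mul _)]
    refine integral_mono (((i3.indicator measurableSet_ball).const_mul _).sub
      ((i1.indicator measurableSet_ball).const_mul _)) i0 fun p => ?_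
    dsimp only
    by_cases hp : p ∈ ball c ρ
    · have hp' := hp
      rw [mem_ball, dist_eq_norm] at hp'
      rw [hin p hp, Set.indicator_of_mem hp]
      refine le_trans ?_ (mul_le_mul_of_nonneg_right
        (sb_div (norm_nonneg _) hp'.le (hS p) (hS' p)) (sq_nonneg _))
      rw [sub_mul, div_mul_eq_mul_div, mul_div_assoc]
      have h0 : 0 ≤ u p ^ 2 / √(‖p - c‖ ^ 2 + ε ^ 2) := div_nonneg (sq_nonneg _) (hS p).le
      refine sub_le_sub_right ?_ _
      by_cases hq : p ∈ ball c (ρ / 2)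
      · rw [Set.indicator_of_mem hq]
        rw [mem_ball, dist_eq_norm] at hq
        have h1 : 3 / 4 * ρ ^ 2 ≤ ρ ^ 2 - ‖p - c‖ ^ 2 := by nlinarith [norm_nonneg (p - c)]
        have h2 := pow_le_pow_left₀ (by positivity) h1 2
        exact mul_le_mul_of_nonneg_right (by nlinarith [pow_pos hρ 4]) h0
      · rw [Set.indicator_of_notMem hq, mul_zero]
        positivity
    · rw [hout p hp, Set.indicator_of_notMem hp,
        Set.indicator_of_notMem fun h => hp (ball_subset_ball (by linarith) h)]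
      simp) e0
  have b2 : ∀ k, -∫ p : E3, (p k - c k) * (max (ρ ^ 2 - ‖p - c‖ ^ 2) 0 ^ 2 /
      √(‖p - c‖ ^ 2 + ε ^ 2)) * (2 * u p * pd k u p) ≤
      ρ ^ 3 * (∫ p in ball c ρ, u p ^ 2) + ρ ^ 5 * ∫ p in ball c ρ, pd k u p ^ 2 := fun k => by
    rw [← integral_indicator measurableSet_ball, ← integral_indicator measurableSet_ball,
      ← integral_const_mul, ← integral_const_mul, ← integral_add
        ((i1.indicator measurableSet_ball).const_mul _)
        (((i2 k).indicator measurableSet_ball).const_mul _)]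
    refine (neg_le_abs _).trans ?_
    rw [← Real.norm_eq_abs]
    refine norm_integral_le_of_norm_le (((i1.indicator measurableSet_ball).const_mul _).add
      (((i2 k).indicator measurableSet_ball).const_mul _)) (Eventually.of_forall fun p => ?_)
    by_cases hp : p ∈ ball c ρ
    · have hp' := hp
      rw [mem_ball, dist_eq_norm] at hp'
      rw [hin p hp, Set.indicator_of_mem hp, Set.indicator_of_mem hp, norm_mul, norm_mul]
      have h1 : ‖p k - c k‖ ≤ √(‖p - c‖ ^ 2 + ε ^ 2) := (PiLp.norm_apply_le (p - c) k).trans (hS' p)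
      have h2 : ‖p k - c k‖ * ‖(ρ ^ 2 - ‖p - c‖ ^ 2) ^ 2 / √(‖p - c‖ ^ 2 + ε ^ 2)‖ ≤ ρ ^ 4 := by
        rw [Real.norm_of_nonneg (div_nonneg (sq_nonneg _) (hS p).le), mul_div_assoc',
          div_le_iff₀ (hS p), mul_comm]
        have h3 : (ρ ^ 2 - ‖p - c‖ ^ 2) ^ 2 ≤ (ρ ^ 2) ^ 2 :=
          pow_le_pow_left₀ (by nlinarith [norm_nonneg (p - c)]) (by nlinarith [sq_nonneg ‖p - c‖]) 2
        exact mul_le_mul (by linarith) h1 (norm_nonneg _) (by positivity)
      refine (mul_le_mul_of_nonneg_right h2 (norm_nonneg _)).trans ?_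
      rw [norm_mul, norm_mul, Real.norm_two, Real.norm_eq_abs, Real.norm_eq_abs, ← sq_abs (u p),
        ← sq_abs (pd k u p)]
      nlinarith [mul_nonneg (pow_pos hρ 3).le (sq_nonneg (|u p| - ρ * |pd k u p|))]
    · rw [hout p hp, Set.indicator_of_notMem hp, Set.indicator_of_notMem hp]
      simp
  have b3 := b1.trans (Finset.sum_le_sum fun k _ => b2 k)
  rw [Finset.sum_add_distrib, ← Finset.mul_sum, ← Finset.mul_sum, Finset.sum_const,
    Finset.card_univ, Fintype.card_fin, nsmul_eq_mul] at b3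
  refine le_of_mul_le_mul_left ?_ (pow_pos hρ 4)
  have e1 : ρ ^ 4 * (7 / ρ) = 7 * ρ ^ 3 := by field_simp
  rw [mul_add, ← mul_assoc, e1]
  push_cast at b3
  linarith

/-- A local Hardy type inequality. -/
theorem sb_loc {ρ : ℝ} (hρ : 0 < ρ) (c : E3) {u : E3 → ℝ} (hu : Sm u) :
    ∫ p in ball c (ρ / 2), u p ^ 2 / ‖p - c‖ ≤
      7 / ρ * (∫ p in ball c ρ, u p ^ 2) + ρ * ∑ k, ∫ p in ball c ρ, pd k u p ^ 2 := by
  have hm := (mba_of hu.1.continuous hu.2).sq
  have hne : ∀ᵐ p ∂(volume.restrict (ball c (ρ / 2))), 0 < ‖p - c‖ :=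
    ae_restrict_of_ae ((Measure.ae_ne volume c).mono fun p hp => norm_pos_iff.2 (sub_ne_zero.2 hp))
  refine le_of_tendsto' (tendsto_integral_of_dominated_convergence
    (F := fun (n : ℕ) p => u p ^ 2 / √(‖p - c‖ ^ 2 + (1 / ((n : ℝ) + 1)) ^ 2))
    (fun p => u p ^ 2 / ‖p - c‖) (fun n => ?_) (integrable_inv_norm hm.1 hm.supp c).integrableOn
    (fun n => hne.mono fun p hp => ?_) (hne.mono fun p hp => ?_))
    fun n => sb_eps hρ (by positivity) c hu
  · exact (hm.1.div (by fun_prop) fun p => (Real.sqrt_pos.2 (by positivity)).ne').aestronglyMeasurable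
  · rw [Real.norm_of_nonneg (by positivity)]
    exact div_le_div_of_nonneg_left (sq_nonneg _) hp
      (Real.le_sqrt_of_sq_le (le_add_of_nonneg_right (sq_nonneg _)))
  · have h1 := (((tendsto_one_div_add_atTop_nhds_zero_nat (𝕜 := ℝ)).pow 2).const_add
      (‖p - c‖ ^ 2)).sqrt
    rw [zero_pow two_ne_zero, add_zero, Real.sqrt_sq hp.le] at h1
    exact tendsto_const_nhds.div h1 hp.ne'

theorem sb_sum {M : ℕ} (hM : 1 ≤ M) {f : E3 → ℝ} (hf : Integrable f) (h0 : ∀ p, 0 ≤ f p) :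
    ∑ n ∈ grid M, ∫ p in ball (node M n) (hh M / 2), f p ≤ ∫ p, f p := by
  rw [← integral_biUnion_finset _ (fun _ _ => measurableSet_ball) (fun n _ n' _ h =>
    ball_disjoint_ball (by rw [add_halves, dist_eq_norm]; exact node_sep hM h))
    fun _ _ => hf.integrableOn]
  exact setIntegral_le_integral hf (Eventually.of_forall h0)

theorem sing_bd : ∀ᶠ M : ℕ in atTop, ∀ (l : ℝ) (q1 : E3 → ℝ) (q : ℕ → ℕ → ℕ → ℚ), WOK M l q1 q →
    (∀ p, 0 ≤ Sing M l q p) ∧
    (∀ u : E3 → ℝ, Sm u →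
      ∫ p, Sing M l q p * u p ^ 2 ≤ ip M 3900 * kin1 u + ip M 1900 * nsq1 u) ∧
    IntegrableOn (fun p => Sing M l q p ^ 2) (box M 2) ∧
    ∫ p in box M 2, Sing M l q p ^ 2 ≤ ip M 3800 := by
  obtain ⟨C, hC, hCb⟩ := ball_inv_sq
  set V := volume.real (ball (0 : E3) 1)
  have hV : 0 ≤ V := measureReal_nonneg
  filter_upwards [zz_bd, ev_le 14, ev_le (125 * V * C), eventually_ge_atTop 1]
    with M h1 h2 h3 hM l q1 q hW
  have hM' : (1 : ℝ) ≤ M := by exact_mod_cast hM
  have hl : 0 < l := (ip_pos hM _).trans_le hW.l_ge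
  have hh1 : hh M ≤ ip M 1000 := by
    rw [hh_eq]
    linarith [ip_pos hM 1000]
  have hh0 : 0 < hh M := by
    rw [hh_eq]
    linarith [ip_pos hM 1000]
  have hh2 : hh M ^ 2 ≤ ip M 2000 := by
    rw [show 2000 = 1000 + 1000 from rfl, ip_add, sq]
    exact mul_le_mul hh1 hh1 hh0.le (ip_pos hM _).le
  have hh4 : hh M ^ 4 ≤ ip M 4000 := by
    rw [show 4000 = 2000 + 2000 from rfl, ip_add, show hh M ^ 4 = hh M ^ 2 * hh M ^ 2 by ring]
    exact mul_le_mul hh2 hh2 (by positivity) (ip_pos hM _).le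
  have hw : ∀ n ∈ grid M, 0 ≤ l * (zz q n : ℝ) := fun n hn =>
    mul_nonneg hl.le (by exact_mod_cast zero_le_one.trans (h1 l q1 q hW n hn).1)
  have hw' : ∀ n ∈ grid M, l * (zz q n : ℝ) ≤ (M : ℝ) ^ 2 * hh M ^ 3 := fun n hn =>
    (h1 l q1 q hW n hn).2
  have hsq : (fun p => Sing M l q p ^ 2) = fun p => ∑ n ∈ grid M, (l * (zz q n : ℝ)) ^ 2 *
      (ball (node M n) (hh M / 4)).indicator (fun p => (1 / ‖p - node M n‖) ^ 2) p := by
    funext p
    rw [Sing, sq, Finset.sum_mul_sum]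
    refine Finset.sum_congr rfl fun n hn => ?_
    rw [Finset.sum_eq_single_of_mem n hn fun n' _ hne => ?_]
    · simp only [Set.indicator_apply, mem_ball, dist_eq_norm]
      split_ifs <;> ring
    · split_ifs with a1 a2
      · have a3 := node_sep hM hne
        have a4 := norm_sub_le_norm_sub_add_norm_sub (node M n') p (node M n)
        rw [norm_sub_rev (node M n') p] at a4
        linarith
      all_goals simp
  have hi : ∀ n ∈ grid M, Integrable fun p => (l * (zz q n : ℝ)) ^ 2 *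
      (ball (node M n) (hh M / 4)).indicator (fun p => (1 / ‖p - node M n‖) ^ 2) p := fun n _ =>
    ((integrable_indicator_iff measurableSet_ball).2 (hCb _ (by positivity) _).1).const_mul _
  refine ⟨fun p => Finset.sum_nonneg fun n hn => ?_, fun u hu => ?_, ?_, ?_⟩
  · split_ifs
    · exact div_nonneg (hw n hn) (norm_nonneg _)
    · exact le_rfl
  · have hm := (mba_of hu.1.continuous hu.2).sq
    have e1 : (fun p => Sing M l q p * u p ^ 2) = fun p => ∑ n ∈ grid M, l * (zz q n : ℝ) *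
        (ball (node M n) (hh M / 2 / 2)).indicator (fun p => u p ^ 2 / ‖p - node M n‖) p := by
      funext p
      rw [Sing, Finset.sum_mul, show hh M / 2 / 2 = hh M / 4 by ring]
      refine Finset.sum_congr rfl fun n _ => ?_
      simp only [Set.indicator_apply, mem_ball, dist_eq_norm]
      split_ifs <;> ring
    rw [e1, integral_finsetSum _ fun n _ =>
      ((integrable_inv_norm hm.1 hm.supp _).indicator measurableSet_ball).const_mul _]
    have a1 := sb_sum hM hm.int fun p => sq_nonneg _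
    have a2 : ∑ n ∈ grid M, ∑ k, ∫ p in ball (node M n) (hh M / 2), pd k u p ^ 2 ≤ 2 * kin1 u := by
      rw [Finset.sum_comm, kin1, mul_div_cancel₀ _ two_ne_zero]
      exact Finset.sum_le_sum fun k _ => sb_sum hM (gsr_c hu k).sq.int fun p => sq_nonneg _
    calc _ ≤ ∑ n ∈ grid M, (M : ℝ) ^ 2 * hh M ^ 3 *
          (7 / (hh M / 2) * (∫ p in ball (node M n) (hh M / 2), u p ^ 2) +
            hh M / 2 * ∑ k, ∫ p in ball (node M n) (hh M / 2), pd k u p ^ 2) := by
          refine Finset.sum_le_sum fun n hn => ?_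
          rw [integral_const_mul, integral_indicator measurableSet_ball]
          exact mul_le_mul (hw' n hn) (sb_loc (half_pos hh0) _ hu)
            (integral_nonneg fun p => by positivity) (by positivity)
      _ ≤ (M : ℝ) ^ 2 * hh M ^ 3 * (7 / (hh M / 2) * nsq1 u + hh M / 2 * (2 * kin1 u)) := by
          rw [← Finset.mul_sum, Finset.sum_add_distrib, ← Finset.mul_sum, ← Finset.mul_sum]
          unfold nsq1
          gcongr
      _ = 1 * (M : ℝ) ^ 2 * hh M ^ 4 * kin1 u + 14 * (M : ℝ) ^ 2 * hh M ^ 2 * nsq1 u := by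
          field_simp
          ring
      _ ≤ _ := add_le_add
          (mul_le_mul_of_nonneg_right ((mul_le_mul_of_nonneg_left hh4 (by positivity)).trans
            (ip_absorb hM hM' (by norm_num))) (kin1_nonneg u))
          (mul_le_mul_of_nonneg_right ((mul_le_mul_of_nonneg_left hh2 (by positivity)).trans
            (ip_absorb hM h2 (by norm_num))) (nsq1_nonneg u))
  · rw [hsq]
    exact (integrable_finsetSum _ hi).integrableOn
  · rw [hsq, integral_finsetSum _ fun n hn => (hi n hn).integrableOn]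
    have hD : (1 : ℝ) ≤ DD M := by
      unfold DD
      push_cast
      exact one_le_pow₀ hM'
    have hh5 : hh M ≤ 1 / 3 := by
      have := ip_anti hM (Nat.zero_le 1000)
      rw [hh_eq]
      simp only [ip, pow_zero, inv_one] at this ⊢
      linarith
    set a := ((M : ℝ) ^ 2 * hh M ^ 3) ^ 2 * (C * hh M) with ha
    have ha0 : 0 ≤ a := by positivity
    have hΘ : Integrable ((closedBall (0 : E3) (5 * DD M)).indicator fun _ => a) :=
      (integrable_indicator_iff measurableSet_closedBall).2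
        (integrableOn_const (isCompact_closedBall _ _).measure_lt_top.ne)
    have hΘ0 : ∀ y, 0 ≤ (closedBall (0 : E3) (5 * DD M)).indicator (fun _ => a) y := fun y =>
      Set.indicator_nonneg (fun _ _ => ha0) y
    have b1 := cell_sum hM (g := fun n => ∫ p in box M 2, (l * (zz q n : ℝ)) ^ 2 *
      (ball (node M n) (hh M / 4)).indicator (fun p => (1 / ‖p - node M n‖) ^ 2) p)
      hΘ.integrableOn hΘ0 fun n hn => Eventually.of_forall fun y _ hy => by
        by_cases hb : y ∈ closedBall (0 : E3) (5 * DD M)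
        · rw [Set.indicator_of_mem hb]
          refine (setIntegral_le_integral (hi n hn) (Eventually.of_forall fun p =>
            mul_nonneg (sq_nonneg _) (Set.indicator_nonneg (fun _ _ => sq_nonneg _) p))).trans ?_
          rw [integral_const_mul, integral_indicator measurableSet_ball]
          refine mul_le_mul (pow_le_pow_left₀ (hw n hn) (hw' n hn) 2)
            ((hCb _ (by positivity) _).2.trans (mul_le_mul_of_nonneg_left (by linarith) hC))
            (integral_nonneg fun p => sq_nonneg _) (by positivity)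
        · rw [Set.indicator_of_notMem hb]
          refine (setIntegral_eq_zero_of_forall_eq_zero fun p hp => ?_).le
          rw [Set.indicator_of_notMem fun h => hb ?_, mul_zero]
          rw [mem_ball, dist_eq_norm] at h
          obtain ⟨c1, c2, c3, c4, c5⟩ := hp
          have c6 : ‖p‖ ≤ 4 * DD M := by
            refine abs_le_of_sq_le_sq' ?_ (by positivity) |>.2
            rw [norm_E3_sq, ← sq_abs (p 2)]
            nlinarith [abs_nonneg (p 2)]
          have c7 := norm_sub_le_norm_sub_add_norm_sub y (node M n) p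
          have c8 := norm_le_norm_add_norm_sub' y p
          rw [norm_sub_rev (node M n) p] at c7
          rw [mem_closedBall_zero_iff]
          linarith
    have b2 := b1.trans (setIntegral_le_integral hΘ (Eventually.of_forall hΘ0))
    rw [← Finset.mul_sum, integral_indicator_const _ measurableSet_closedBall,
      Measure.addHaar_real_closedBall _ _ (by positivity), finrank_euclideanSpace_fin,
      smul_eq_mul] at b2
    refine le_of_mul_le_mul_left (b2.trans ?_) (pow_pos hh0 3)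
    have b3 := (mul_le_mul_of_nonneg_left hh4 (by positivity)).trans
      (ip_absorb hM h3 (j := 169) (k := 4000) (k' := 3800) (by norm_num))
    refine le_of_eq_of_le ?_ (mul_le_mul_of_nonneg_left b3 (pow_pos hh0 3).le)
    rw [ha, DD]
    push_cast
    ring

end Vale.Agent.P370
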