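import Vale.Agent.P370.QK
import Vale.Agent.P370.Norms

/-! First order comparison of the potentials. -/

namespace Vale.Agent.P370

open MeasureTheory Filter Topology
open scoped Classical

/-- Anisotropic boxes. -/
def wfBox (c w : Fin 3 → ℝ) : Set E3 := {p | ∀ k, |p k - c k| ≤ w k}

theorem wfBox_eq (c w : Fin 3 → ℝ) :
    wfBox c w = (WithLp.ofLp : E3 → Fin 3 → ℝ) ⁻¹' Set.Icc (c - w) (c + w) := by
  ext p
  simp only [wfBox, Set.mem_setOf_eq, Set.mem_preimage, Set.mem_Icc, Pi.le_def, Pi.sub_apply,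
    Pi.add_apply, abs_le, ← forall_and]
  exact forall_congr' fun k => by constructor <;> rintro ⟨h1, h2⟩ <;> constructor <;> linarith

theorem wfBox_compact (c w : Fin 3 → ℝ) : IsCompact (wfBox c w) := by
  rw [wfBox_eq]
  exact (PiLp.homeomorph 2 fun _ : Fin 3 => ℝ).isCompact_preimage.2 isCompact_Icc

theorem wfBox_vol (c w : Fin 3 → ℝ) (h : ∀ k, 0 ≤ w k) :
    volume.real (wfBox c w) = 8 * (w 0 * w 1 * w 2) := by
  rw [wfBox_eq, Measure.real, (PiLp.volume_preserving_ofLp (Fin 3)).measure_preimage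
    measurableSet_Icc.nullMeasurableSet, Real.volume_Icc_pi_toReal fun k => by
      have := h k
      simp only [Pi.sub_apply, Pi.add_apply]
      linarith, Fin.prod_univ_three]
  simp only [Pi.sub_apply, Pi.add_apply]
  ring

theorem wf_ind_int {S : Set E3} (hS : IsCompact S) (c : ℝ) :
    Integrable (S.indicator fun _ => c) ∧ ∫ p, S.indicator (fun _ => c) p = volume.real S * c := by
  refine ⟨(integrable_indicator_iff hS.measurableSet).2 (integrableOn_const hS.measure_lt_top.ne),
    ?_⟩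
  rw [integral_indicator_const _ hS.measurableSet, smul_eq_mul]

theorem wf_swap (M : ℕ) (c : ℕ × ℕ × ℕ → ℝ) (Q : E3 → ℝ) {F : E3 → E3 → ℝ}
    (h1 : ∀ y, Integrable fun t => F t y)
    (h2 : Integrable (fun z : E3 × E3 => Q z.2 * F z.1 z.2)
      (volume.prod (volume.restrict (slab M)))) :
    IntegrableOn (fun y => Q y * ∫ t, F t y) (slab M) ∧
    ∑ n ∈ grid M, c n * (∫ t, F t (node M n)) - ∫ y in slab M, Q y * ∫ t, F t y =
      ∫ t, (∑ n ∈ grid M, c n * F t (node M n) - ∫ y in slab M, Q y * F t y) := by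
  simp only [← integral_const_mul]
  refine ⟨h2.integral_prod_right, ?_⟩
  rw [integral_sub (integrable_finsetSum _ fun n _ => (h1 _).const_mul _) h2.integral_prod_left,
    integral_finsetSum _ fun n _ => (h1 _).const_mul _,
    integral_integral_swap (f := fun t y => Q y * F t y) h2]

/-- The difference of the Coulomb kernel and its regularisation. -/
noncomputable def wfJ (s : E3) : ℝ := 1 / ‖s‖ - kk 1 s

theorem wfJ_int {ρ : E3 → ℝ} (hρ : Continuous ρ) (hc : HasCompactSupport ρ) :
    Integrable fun s => wfJ s * ρ s := by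
  have h1 := integrable_inv_norm hρ hc 0
  have h2 := ((kk_contDiff one_pos).continuous.mul hρ).integrable_of_hasCompactSupport
    (μ := volume) hc.mul_left
  refine (h1.sub h2).congr (.of_forall fun s => ?_)
  simp only [wfJ, Pi.sub_apply, Pi.mul_apply, sub_zero]
  ring

theorem wfJ_meas : Measurable wfJ :=
  (measurable_const.div measurable_norm).sub (kk_contDiff one_pos).continuous.measurable

theorem wf_supp {M : ℕ} {ρ : E3 → ℝ} (h : ∀ p, p ∉ box M 2 → ρ p = 0) : HasCompactSupport ρ :=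
  HasCompactSupport.intro (box_isCompact M 2) h

theorem wf_shift {ρ : E3 → ℝ} {C : ℝ} (h : Bd 4 C ρ) (s : E3) : Bd 4 C fun y => ρ (y + s) :=
  ⟨h.1.comp (contDiff_id.add contDiff_const), fun i hi p => by
    rw [iteratedFDeriv_comp_add_right]
    exact h.2 i hi _⟩

theorem wf_prod2 (M : ℕ) {Q ρ : E3 → ℝ} (hQ : Continuous Q) (hρ : Continuous ρ)
    (hc : HasCompactSupport ρ) : Integrable (fun z : E3 × E3 => Q z.2 * (wfJ z.1 * ρ (z.2 + z.1)))
      (volume.prod (volume.restrict (slab M))) := by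
  obtain ⟨A, hA⟩ := (slab_isCompact M).exists_bound_of_continuousOn hQ.continuousOn
  obtain ⟨B, hB⟩ := hρ.bounded_above_of_compact_support hc
  obtain ⟨R1, hR1⟩ := (slab_isCompact M).isBounded.exists_norm_le
  obtain ⟨R2, hR2⟩ := hc.isCompact.isBounded.exists_norm_le
  obtain ⟨b, hb⟩ : ∃ b : ContDiffBump (0 : E3), b.rIn = |R1| + |R2| + 1 :=
    ⟨⟨|R1| + |R2| + 1, |R1| + |R2| + 2, by positivity, by linarith⟩, rfl⟩
  have h1 := (wfJ_int b.continuous b.hasCompactSupport).norm
  haveI : IsFiniteMeasure (volume.restrict (slab M)) :=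
    isFiniteMeasure_restrict.2 (slab_isCompact M).measure_lt_top.ne
  have h2 := h1.mul_prod (integrable_const (μ := volume.restrict (slab M)) (A * B))
  refine h2.mono' ?_ ?_
  · exact ((hQ.measurable.comp measurable_snd).mul ((wfJ_meas.comp measurable_fst).mul
      (hρ.measurable.comp (measurable_snd.add measurable_fst)))).aestronglyMeasurable
  · have h3 : ∀ᵐ z : E3 × E3 ∂volume.prod (volume.restrict (slab M)), z.2 ∈ slab M :=
      (Measure.quasiMeasurePreserving_snd (μ := volume) (ν := volume.restrict (slab M))).ae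
        (ae_restrict_mem (slab_isCompact M).measurableSet)
    filter_upwards [h3] with z hz
    have a1 := hA _ hz
    have a2 := hB (z.2 + z.1)
    have a3 : 0 ≤ A * B := mul_nonneg ((norm_nonneg _).trans a1) ((norm_nonneg _).trans a2)
    by_cases h0 : ρ (z.2 + z.1) = 0
    · rw [h0, mul_zero, mul_zero, norm_zero]
      positivity
    · have a4 : ‖z.1‖ ≤ b.rIn := by
        have a5 := norm_sub_le (z.2 + z.1) z.2
        rw [add_sub_cancel_left] at a5
        linarith [hR1 _ hz, hR2 _ (subset_tsupport ρ h0), le_abs_self R1, le_abs_self R2]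
      rw [b.one_of_mem_closedBall (mem_closedBall_zero_iff.2 a4), mul_one, norm_mul, norm_mul,
        mul_left_comm]
      exact mul_le_mul_of_nonneg_left (mul_le_mul a1 a2 (norm_nonneg _)
        ((norm_nonneg _).trans a1)) (norm_nonneg _)

theorem wf_prod1 (M : ℕ) {Q ρ : E3 → ℝ} (hQ : Continuous Q) (hρ : Continuous ρ)
    (hc : HasCompactSupport ρ) : Integrable (fun z : E3 × E3 => Q z.2 * (ρ z.1 * kk 1 (z.1 - z.2)))
      (volume.prod (volume.restrict (slab M))) := by
  have h1 := (hρ.integrable_of_hasCompactSupport (μ := volume) hc).mul_prod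
    (hQ.continuousOn.integrableOn_compact (μ := volume) (slab_isCompact M))
  refine h1.norm.mono' ?_ (.of_forall fun z => ?_)
  · exact ((hQ.comp continuous_snd).mul ((hρ.comp continuous_fst).mul
      ((kk_contDiff one_pos).continuous.comp (continuous_fst.sub continuous_snd)))).aestronglyMeasurable
  · rw [← mul_assoc, norm_mul, mul_comm (Q z.2), Real.norm_of_nonneg (kk_nonneg _ _)]
    exact mul_le_of_le_one_right (norm_nonneg _) (by simpa using kk_le one_pos (z.1 - z.2))

/-- Splitting of the error into a smooth-kernel part and a translated part. -/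
theorem wf_split (M : ℕ) (l : ℝ) {q1 : E3 → ℝ} (q : ℕ → ℕ → ℕ → ℚ) (hq : Continuous q1)
    {ρ : E3 → ℝ} (hρ : Continuous ρ) (hc : HasCompactSupport ρ) :
    (∫ p, AA M l q p * ρ p) - ∫ p, Vc M q1 p * ρ p =
      (∫ p, ρ p * (∑ n ∈ grid M, l * (zz q n : ℝ) * kk 1 (p - node M n) -
        ∫ y in slab M, qq M q1 y * kk 1 (p - y))) +
      ∫ s, wfJ s * (∑ n ∈ grid M, l * (zz q n : ℝ) * ρ (node M n + s) -
        ∫ y in slab M, qq M q1 y * ρ (y + s)) := by
  have hQ := KerI_qq M hq
  have i1 : ∀ y, Integrable fun p => ρ p * kk 1 (p - y) := fun y =>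
    (hρ.mul ((kk_contDiff one_pos).continuous.comp
      (continuous_id.sub continuous_const))).integrable_of_hasCompactSupport hc.mul_right
  have i2 : ∀ y, Integrable fun s => wfJ s * ρ (y + s) := fun y =>
    wfJ_int (hρ.comp (continuous_const.add continuous_id))
      (hc.comp_homeomorph (Homeomorph.addLeft y))
  obtain ⟨-, e0⟩ := wf_swap M (fun n => l * (zz q n : ℝ)) (qq M q1)
    (F := fun p y => ρ p / ‖p - y‖) (fun y => integrable_inv_norm hρ hc y)
    ((pair_int hρ hc (slab_isCompact M) hQ).congr (.of_forall fun z => by ring))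
  obtain ⟨j1, e1⟩ := wf_swap M (fun n => l * (zz q n : ℝ)) (qq M q1)
    (F := fun p y => ρ p * kk 1 (p - y)) i1 (wf_prod1 M hQ hρ hc)
  obtain ⟨j2, e2⟩ := wf_swap M (fun n => l * (zz q n : ℝ)) (qq M q1)
    (F := fun s y => wfJ s * ρ (y + s)) i2 (wf_prod2 M hQ hρ hc)
  have e3 : ∀ y, ∫ p, ρ p / ‖p - y‖ = (∫ p, ρ p * kk 1 (p - y)) + ∫ s, wfJ s * ρ (y + s) := by
    intro y
    rw [← integral_add_left_eq_self (fun p => ρ p / ‖p - y‖) y,
      ← integral_add_left_eq_self (fun p => ρ p * kk 1 (p - y)) y,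
      ← integral_add ((i1 y).comp_add_left y) (i2 y)]
    refine integral_congr_ae (.of_forall fun s => ?_)
    simp only [wfJ, add_sub_cancel_left]
    ring
  have e4 : (∫ p, AA M l q p * ρ p) - ∫ p, Vc M q1 p * ρ p =
      ∫ p, (∑ n ∈ grid M, l * (zz q n : ℝ) * (ρ p / ‖p - node M n‖) -
        ∫ y in slab M, qq M q1 y * (ρ p / ‖p - y‖)) := by
    rw [← integral_sub (AA_int M l q hρ hc) (Vc_int M hq hρ hc)]
    refine integral_congr_ae (.of_forall fun p => ?_)
    simp only [AA, coul, Vc, Finset.sum_mul, ← integral_mul_const]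
    congr 1
    · exact Finset.sum_congr rfl fun n _ => by ring
    · exact integral_congr_ae (.of_forall fun y => by ring)
  have e5 : ∀ (a : E3 → ℝ) (G : E3 → E3 → ℝ), ∫ t, a t * (∑ n ∈ grid M,
      l * (zz q n : ℝ) * G t (node M n) - ∫ y in slab M, qq M q1 y * G t y) =
      ∫ t, (∑ n ∈ grid M, l * (zz q n : ℝ) * (a t * G t (node M n)) -
        ∫ y in slab M, qq M q1 y * (a t * G t y)) := by
    intro a G
    refine integral_congr_ae (.of_forall fun p => ?_)
    simp only [mul_sub, Finset.mul_sum, ← integral_const_mul]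
    congr 1
    · exact Finset.sum_congr rfl fun n _ => by ring
    · exact integral_congr_ae (.of_forall fun y => by ring)
  rw [e4, e5 ρ fun p y => kk 1 (p - y), e5 wfJ fun s y => ρ (y + s), ← e0, ← e1, ← e2]
  simp only [e3, mul_add, Finset.sum_add_distrib]
  rw [integral_add j1 j2]
  ring

theorem wf_ip (M k : ℕ) : (ip M k : ℝ) = ((M : ℝ) ^ k)⁻¹ := rfl

attribute [local irreducible] ip

theorem wf_box_closed (M : ℕ) : IsOpen (box M 2)ᶜ := (box_isCompact M 2).isClosed.isOpen_compl

/-- The set of shifts that move the last layers into the active box. -/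
def wfT (M : ℕ) : Set E3 := wfBox ![-(RR M : ℝ), 0, 0] ![(DD M : ℝ) + 1, RR M + DD M, 5]

theorem wf_gx {M : ℕ} (hM : 2 ≤ M) {i : ℕ} (h1 : i < NX M) :
    |(gx M i : ℝ)| ≤ RR M ∧ (NX M ≤ i + 4 → (RR M : ℝ) - 1 ≤ gx M i) := by
  have hH : (4 : ℝ) ≤ HH M := by
    have : 2 ≤ M ^ 1000 := hM.trans (Nat.le_self_pow (by norm_num) M)
    have : 4 ≤ HH M := by unfold HH; omega
    exact_mod_cast this
  have h2 : (i : ℝ) + 1 ≤ 2 * RR M * HH M := by exact_mod_cast h1
  have h3 : ((i : ℝ) + 1 / 2) / HH M ≤ 2 * RR M := by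
    rw [div_le_iff₀ (by linarith)]
    linarith
  have h4 : 0 ≤ ((i : ℝ) + 1 / 2) / HH M := by positivity
  unfold gx
  refine ⟨abs_le.2 ⟨by linarith, by linarith⟩, fun h => ?_⟩
  have h5 : 2 * (RR M : ℝ) * HH M ≤ i + 4 := by exact_mod_cast h
  have h6 : 2 * (RR M : ℝ) - 1 ≤ ((i : ℝ) + 1 / 2) / HH M := by
    rw [le_div_iff₀ (by linarith)]
    linarith
  linarith

theorem wf_br : ∀ᶠ M : ℕ in atTop, ∀ (l : ℝ) (q1 : E3 → ℝ) (q : ℕ → ℕ → ℕ → ℚ), WOK M l q1 q →
    ∀ (ρ : E3 → ℝ) (C : ℝ), Bd 4 C ρ → (∀ p, p ∉ box M 2 → ρ p = 0) → ∀ s : E3,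
      |∑ n ∈ grid M, l * (zz q n : ℝ) * ρ (node M n + s) - ∫ y in slab M, qq M q1 y * ρ (y + s)| ≤
        (if |s 2| ≤ 5 then C * ip M 3800 else 0) +
          (wfT M).indicator (fun _ => ip M 2030 * (3 * NX M * C)) s := by
  filter_upwards [qt, WOK.qq_bd, eventually_ge_atTop 2, ev_le 10000] with M hqt hqq hM hM' l q1 q hW
    ρ C hρ h0 s
  have hM1 : 1 ≤ M := by omega
  have hC : 0 ≤ C := (abs_nonneg _).trans (hρ.abs_le 0)
  have p1 := ip_pos hM1 2030
  have p2 := ip_pos hM1 4000
  have hI : 0 ≤ (wfT M).indicator (fun _ => ip M 2030 * (3 * NX M * C)) s :=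
    Set.indicator_nonneg (fun _ _ => by positivity) _
  split_ifs with hs
  swap
  · have hz : ∀ y ∈ slab M, ρ (y + s) = 0 := fun y hy => h0 _ fun hb => hs (by
      have a1 := abs_le.1 hy.2.2
      have a2 := abs_le.1 hb.2.2.2.2
      simp only [PiLp.add_apply] at a2
      exact abs_le.2 ⟨by linarith, by linarith⟩)
    rw [Finset.sum_eq_zero fun n hn => by rw [hz _ (node_mem hM1 hn), mul_zero],
      setIntegral_eq_zero_of_forall_eq_zero fun y hy => by rw [hz y hy, mul_zero]]
    simpa using hI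
  set B := wfBox (fun k => -s k) fun _ => (DD M : ℝ) + 3 with hB
  have hBc : IsCompact B := wfBox_compact _ _
  have hD : (0 : ℝ) ≤ DD M := by positivity
  have hh1 : 10 * hh M ≤ 1 := by
    have := ip_absorb hM1 (show (10 / 3 : ℝ) ≤ M by linarith) (show 0 + 0 + 1 ≤ 1000 by norm_num)
    rw [hh_eq]
    rw [wf_ip M 0] at this
    simp only [pow_zero, inv_one] at this
    linarith
  have hU := wf_shift hρ s
  have hQU := (hqq l q1 q hW).1.mul hU
  have key := hqt l q1 q hW (fun y => ρ (y + s))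
    (B.indicator fun _ => 2 ^ 4 * (M : ℝ) ^ 2 * C) (B.indicator fun _ => C) C
    ((wfT M).indicator (fun _ => 3 * NX M * C) s) hU.1 (wf_ind_int hBc _).1.integrableOn
    (wf_ind_int hBc _).1.integrableOn (fun y => Set.indicator_nonneg (fun _ _ => hC) _)
    (Set.indicator_nonneg (fun _ _ => by positivity) _) ?_ (fun y _ => hU.abs_le y) ?_
  · refine key.trans ?_
    have hv : volume.real B ≤ 64 * (M : ℝ) ^ 165 := by
      rw [hB, wfBox_vol _ _ fun _ => by positivity]
      have e : (DD M : ℝ) = (M : ℝ) ^ 55 := by simp [DD]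
      have a1 : (M : ℝ) ≤ (M : ℝ) ^ 55 := le_self_pow₀ (by linarith) (by norm_num)
      calc 8 * (((DD M : ℝ) + 3) * (DD M + 3) * (DD M + 3)) ≤
            8 * ((2 * (M : ℝ) ^ 55) * (2 * (M : ℝ) ^ 55) * (2 * (M : ℝ) ^ 55)) := by
            gcongr <;> linarith
        _ = _ := by ring
    have hi : ∀ c : ℝ, 0 ≤ c → ∫ y in slab M, B.indicator (fun _ => c) y ≤
        64 * (M : ℝ) ^ 165 * c := fun c hc =>
      (setIntegral_le_integral (wf_ind_int hBc c).1
        (.of_forall fun y => Set.indicator_nonneg (fun _ _ => hc) _)).trans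
        ((wf_ind_int hBc c).2.le.trans (mul_le_mul_of_nonneg_right hv hc))
    have a1 := mul_le_mul_of_nonneg_left (hi (2 ^ 4 * (M : ℝ) ^ 2 * C) (by positivity)) p2.le
    have a2 := mul_le_mul_of_nonneg_left (hi C hC) p2.le
    have a3 := mul_le_mul_of_nonneg_left (ip_absorb hM1 (show (3072 : ℝ) ≤ M by linarith)
      (show 3800 + 167 + 1 ≤ 4000 by norm_num)) hC
    have a4 := mul_le_mul_of_nonneg_left (ip_absorb hM1 (show (192 : ℝ) ≤ M by linarith)
      (show 3800 + 165 + 1 ≤ 4000 by norm_num)) hC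
    have a5 := mul_le_mul_of_nonneg_left (ip_absorb hM1 (show (3 : ℝ) ≤ M by linarith)
      (show 3800 + 0 + 1 ≤ 4390 by norm_num)) hC
    have a6 : (wfT M).indicator (fun _ => ip M 2030 * (3 * NX M * C)) s =
        ip M 2030 * (wfT M).indicator (fun _ => 3 * NX M * C) s :=
      Set.indicator_const_mul _ _ _ _
    have a7 : (M : ℝ) ^ 167 = (M : ℝ) ^ 165 * (M : ℝ) ^ 2 := by ring
    rw [a7] at a3
    rw [a6]
    linarith
  · intro y _ y' hy
    by_cases hb : y' + s ∈ box M 2
    · have hy2 : y ∈ B := fun k => by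
        have a1 := (PiLp.norm_apply_le (y' - y) k).trans (hy.trans hh1)
        have a2 : |y' k + s k| ≤ DD M + 2 := by
          obtain ⟨b1, b2, b3, b4, b5⟩ := hb
          simp only [PiLp.add_apply] at b1 b2 b3 b4 b5
          fin_cases k
          · exact abs_le.2 ⟨by simp only [Fin.zero_eta]; linarith, by simp only [Fin.zero_eta]; linarith⟩
          · exact abs_le.2 ⟨by simp only [Fin.mk_one]; linarith, by simp only [Fin.mk_one]; linarith⟩
          · exact b5.trans (by linarith)
        rw [PiLp.sub_apply, Real.norm_eq_abs, abs_le] at a1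
        rw [abs_le] at a2 ⊢
        constructor <;> linarith [a1.1, a1.2, a2.1, a2.2]
      rw [Set.indicator_of_mem hy2, Set.indicator_of_mem hy2]
      exact ⟨hQU.2 4 le_rfl _, hU.2 4 le_rfl _⟩
    · have a1 : (fun y => ρ (y + s)) =ᶠ[𝓝 y'] fun _ => 0 := by
        filter_upwards [((wf_box_closed M).preimage (continuous_add_const s)).mem_nhds hb]
          with z hz using h0 _ hz
      have a2 : (fun y => qq M q1 y * ρ (y + s)) =ᶠ[𝓝 y'] fun _ => 0 := by
        filter_upwards [a1] with z hz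
        rw [hz, mul_zero]
      rw [(a1.iteratedFDeriv ℝ 4).eq_of_nhds, (a2.iteratedFDeriv ℝ 4).eq_of_nhds,
        iteratedFDeriv_fun_zero]
      simp only [Pi.zero_apply, norm_zero]
      exact ⟨Set.indicator_nonneg (fun _ _ => by positivity) _,
        Set.indicator_nonneg (fun _ _ => hC) _⟩
  · intro i hi hi4 k _
    by_cases hT : s ∈ wfT M
    · rw [Set.indicator_of_mem hT]
      have a1 : ∑ j ∈ Finset.range (NX M - 1), |ρ (node M (i, j, k) + s) -
          ρ (node M (i, j + 1, k) + s)| ≤ ∑ j ∈ Finset.range (NX M - 1), 2 * C :=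
        Finset.sum_le_sum fun j _ => (abs_sub _ _).trans (by
          linarith [hρ.abs_le (node M (i, j, k) + s), hρ.abs_le (node M (i, j + 1, k) + s)])
      rw [Finset.sum_const, Finset.card_range, nsmul_eq_mul] at a1
      have a2 : ((NX M - 1 : ℕ) : ℝ) ≤ NX M := by exact_mod_cast Nat.sub_le _ _
      have a3 : (1 : ℝ) ≤ NX M := by exact_mod_cast (by omega : 1 ≤ NX M)
      have a4 := hρ.abs_le (node M (i, NX M - 1, k) + s)
      nlinarith
    · have hz : ∀ j < NX M, ρ (node M (i, j, k) + s) = 0 := fun j hj => h0 _ fun hb => hT (by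
        obtain ⟨b1, b2, b3, b4, -⟩ := hb
        simp only [PiLp.add_apply, node] at b1 b2 b3 b4
        simp only [Matrix.cons_val] at b1 b2 b3 b4
        obtain ⟨c1, c2⟩ := wf_gx hM hi
        have c3 := abs_le.1 (wf_gx hM hj).1
        have c4 := c2 hi4
        have c5 := abs_le.1 c1
        intro t
        fin_cases t
        · simp only [Fin.zero_eta, Matrix.cons_val]
          exact abs_le.2 ⟨by linarith, by linarith⟩
        · simp only [Fin.mk_one, Matrix.cons_val]
          exact abs_le.2 ⟨by linarith, by linarith⟩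
        · simpa using hs)
      rw [Set.indicator_of_notMem hT, hz _ (by omega), Finset.sum_eq_zero fun j hj => by
        have := Finset.mem_range.1 hj
        rw [hz j (by omega), hz (j + 1) (by omega), sub_zero, abs_zero]]
      simp

theorem w_first : ∀ᶠ M : ℕ in atTop, ∀ (l : ℝ) (q1 : E3 → ℝ) (q : ℕ → ℕ → ℕ → ℚ), WOK M l q1 q →
    ∀ (ρ : E3 → ℝ) (C : ℝ), Bd 4 C ρ → (∀ p, p ∉ box M 2 → ρ p = 0) →
      |(∫ p, AA M l q p * ρ p) - ∫ p, Vc M q1 p * ρ p| ≤ C * ip M 3500 := by
  obtain ⟨J, hJ0, hJ⟩ := jj_int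
  filter_upwards [qk, wf_br, eventually_ge_atTop 2, ev_le 100000, ev_le (6 * J)]
    with M hqk hbr hM hM' hJM l q1 q hW ρ C hρ h0
  have hM1 : 1 ≤ M := by omega
  have hC : 0 ≤ C := (abs_nonneg _).trans (hρ.abs_le 0)
  have p1 := ip_pos hM1 2030
  have p2 := ip_pos hM1 3800
  have p3 := ip_pos hM1 3870
  have eD : (DD M : ℝ) = (M : ℝ) ^ 55 := by simp [DD]
  have eR : (RR M : ℝ) = (M : ℝ) ^ 3300 := by simp [RR]
  have eN : (NX M : ℝ) = 6 * (M : ℝ) ^ 4300 := by
    simp only [NX, RR, HH]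
    push_cast
    ring
  have hMD : (M : ℝ) ≤ DD M := eD ▸ le_self_pow₀ (by linarith) (by norm_num)
  have hDR : (M : ℝ) * DD M ≤ RR M := by
    rw [eD, eR, ← pow_succ']
    exact pow_le_pow_right₀ (by linarith) (by norm_num)
  have hDR2 : 4 * (DD M : ℝ) ≤ RR M := by nlinarith
  rw [wf_split M l q hW.bd.1.continuous hρ.1.continuous (wf_supp h0)]
  have b1 : ‖∫ p, ρ p * (∑ n ∈ grid M, l * (zz q n : ℝ) * kk 1 (p - node M n) -
      ∫ y in slab M, qq M q1 y * kk 1 (p - y))‖ ≤ volume.real (box M 2) * (C * ip M 3870) := by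
    rw [← (wf_ind_int (box_isCompact M 2) _).2]
    refine norm_integral_le_of_norm_le (wf_ind_int (box_isCompact M 2) _).1 (.of_forall fun p => ?_)
    by_cases hp : p ∈ box M 2
    · rw [Set.indicator_of_mem hp, norm_mul]
      have a1 := hqk l q1 q hW 1 (by
        have := ip_anti hM1 (Nat.zero_le 1000)
        rw [wf_ip M 0] at this
        rw [hh_eq]
        simp only [pow_zero, inv_one] at this
        linarith) le_rfl p
      rw [if_pos (by rw [abs_of_nonneg hp.1]; exact hp.2.1), one_pow, div_one, add_zero] at a1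
      exact mul_le_mul (hρ.abs_le p) a1 (norm_nonneg _) hC
    · rw [Set.indicator_of_notMem hp, h0 p hp, zero_mul, norm_zero]
  have hS : MeasurableSet {y : E3 | |y 2| ≤ 4} := measurableSet_le (by fun_prop) measurable_const
  have j1 : ∀ p : E3, Integrable (fun s => {y : E3 | |y 2| ≤ 4}.indicator
      (fun y => jj 1 (p - y)) (p - s)) ∧ ∫ s, {y : E3 | |y 2| ≤ 4}.indicator
      (fun y => jj 1 (p - y)) (p - s) ≤ J := fun p => by
    obtain ⟨a1, a2⟩ := hJ 1 one_pos le_rfl p
    refine ⟨((integrable_indicator_iff hS).2 a1).comp_sub_left p, ?_⟩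
    rw [integral_sub_left_eq_self, integral_indicator hS]
    simpa using a2
  have hT := wf_ind_int (S := wfT M) (wfBox_compact _ _)
    (8 / (RR M : ℝ) ^ 3 * (ip M 2030 * (3 * NX M * C)))
  have b2 := norm_integral_le_of_norm_le (μ := volume)
    (f := fun s => wfJ s * (∑ n ∈ grid M, l * (zz q n : ℝ) * ρ (node M n + s) -
        ∫ y in slab M, qq M q1 y * ρ (y + s)))
    ((((j1 (ev 2)).1.add (j1 (-ev 2)).1).mul_const (C * ip M 3800)).add hT.1) (by
      filter_upwards [Measure.ae_ne volume (0 : E3)] with s hs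
      obtain ⟨a1, a2⟩ := sub_kk_mem 1 hs
      rw [norm_mul, Real.norm_of_nonneg (show 0 ≤ wfJ s from a1)]
      refine (mul_le_mul (show wfJ s ≤ jj 1 s from a2) (hbr l q1 q hW ρ C hρ h0 s) (abs_nonneg _)
        (jj_nonneg _ _)).trans ?_
      rw [mul_add]
      simp only [Pi.add_apply]
      have c0 : ∀ p : E3, 0 ≤ {y : E3 | |y 2| ≤ 4}.indicator (fun y => jj 1 (p - y)) (p - s) :=
        fun p => Set.indicator_nonneg (fun _ _ => jj_nonneg _ _) _
      refine add_le_add ?_ ?_
      · split_ifs with h5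
        · refine mul_le_mul_of_nonneg_right ?_ (by positivity)
          rw [abs_le] at h5
          rcases le_total 0 (s 2) with h6 | h6
          · refine le_add_of_le_of_nonneg (le_of_eq ?_) (c0 _)
            rw [Set.indicator_of_mem, sub_sub_cancel]
            simp only [Set.mem_setOf_eq, PiLp.sub_apply, ev, EuclideanSpace.single_apply, if_true]
            exact abs_le.2 ⟨by linarith, by linarith⟩
          · refine le_add_of_nonneg_of_le (c0 _) (le_of_eq ?_)
            rw [Set.indicator_of_mem, sub_sub_cancel]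
            simp only [Set.mem_setOf_eq, PiLp.sub_apply, PiLp.neg_apply, ev,
              EuclideanSpace.single_apply, if_true]
            exact abs_le.2 ⟨by linarith, by linarith⟩
        · rw [mul_zero]
          exact mul_nonneg (add_nonneg (c0 _) (c0 _)) (by positivity)
      · by_cases h7 : s ∈ wfT M
        · rw [Set.indicator_of_mem h7, Set.indicator_of_mem h7]
          refine mul_le_mul_of_nonneg_right ((min_le_right _ _).trans ?_) (by positivity)
          have c1 := abs_le.1 (h7 0)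
          simp only [Matrix.cons_val] at c1
          have c2 : (RR M : ℝ) / 2 ≤ ‖s‖ :=
            le_trans (le_trans (by linarith) (neg_le_abs (s 0))) (PiLp.norm_apply_le s 0)
          have c3 : (0 : ℝ) < RR M := by linarith
          calc (1 : ℝ) ^ 2 / ‖s‖ ^ 3 ≤ 1 ^ 2 / ((RR M : ℝ) / 2) ^ 3 := by gcongr
            _ = _ := by field_simp; norm_num
        · rw [Set.indicator_of_notMem h7, Set.indicator_of_notMem h7, mul_zero])
  rw [integral_add' (((j1 (ev 2)).1.add (j1 (-ev 2)).1).mul_const _) hT.1, integral_mul_const,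
    integral_add' (j1 (ev 2)).1 (j1 (-ev 2)).1, hT.2, wfT, wfBox_vol _ _ fun k => by
      fin_cases k <;> simp <;> positivity] at b2
  simp only [Matrix.cons_val] at b2
  rw [box_volume M (by norm_num), eD] at b1
  have b3 := mul_le_mul_of_nonneg_right (add_le_add (j1 (ev 2)).2 (j1 (-ev 2)).2)
    (show 0 ≤ C * ip M 3800 by positivity)
  have b4 : 8 * (((DD M : ℝ) + 1) * (RR M + DD M) * 5) *
      (8 / (RR M : ℝ) ^ 3 * (ip M 2030 * (3 * NX M * C))) ≤ C * (23040 * ip M 4275) := by
    calc _ ≤ 8 * ((2 * (DD M : ℝ)) * (2 * RR M) * 5) *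
          (8 / (RR M : ℝ) ^ 3 * (ip M 2030 * (3 * NX M * C))) := by gcongr <;> linarith
      _ = _ := by
          rw [eD, eR, eN, wf_ip, wf_ip]
          field_simp
          ring
  have a3 := mul_le_mul_of_nonneg_left (ip_absorb hM1 (show (12 : ℝ) ≤ M by linarith)
    (show 3500 + 110 + 1 ≤ 3870 by norm_num)) hC
  have a4 := mul_le_mul_of_nonneg_left (ip_absorb hM1 hJM
    (show 3500 + 0 + 1 ≤ 3800 by norm_num)) hC
  have a5 := mul_le_mul_of_nonneg_left (ip_absorb hM1 (show (69120 : ℝ) ≤ M by linarith)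
    (show 3500 + 0 + 1 ≤ 4275 by norm_num)) hC
  have a6 : ((M : ℝ) ^ 55) ^ 2 = (M : ℝ) ^ 110 := by ring
  rw [a6] at b1
  refine (abs_add_le _ _).trans ?_
  rw [Real.norm_eq_abs] at b1 b2
  linarith

end Vale.Agent.P370
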