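import Vale.Agent.P370.QK

/-! Pointwise comparison of the potentials. -/

namespace Vale.Agent.P370

open MeasureTheory Filter
open scoped Classical

theorem wpt_hh_pos {M : ℕ} (hM : 1 ≤ M) : 0 < hh M := by
  rw [hh_eq]
  exact div_pos (ip_pos hM _) (by norm_num)

theorem wpt_ip_le_one {M : ℕ} (hM : 1 ≤ M) (k : ℕ) : (ip M k : ℝ) ≤ 1 := by
  have h := ip_anti hM (Nat.zero_le k)
  have e : (ip M 0 : ℝ) = 1 := by
    unfold ip
    rw [pow_zero, inv_one]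
  rwa [e] at h

theorem wpt_hh_le {M : ℕ} (hM : 1 ≤ M) : hh M ≤ ip M 1000 := by
  rw [hh_eq]
  have := ip_pos hM 1000
  linarith

theorem wpt_ip_pow (M k j : ℕ) : (ip M k : ℝ) ^ j = ip M (k * j) := by
  unfold ip
  rw [pow_mul, inv_pow]

theorem wpt_rpow {M : ℕ} (hM : 1 ≤ M) : hh M ^ (15 / 8 : ℝ) ≤ ip M 1875 := by
  have h1 : (ip M 1000 : ℝ) = ip M 125 ^ 8 := (wpt_ip_pow M 125 8).symm
  have h2 : (ip M 1875 : ℝ) = ip M 125 ^ 15 := (wpt_ip_pow M 125 15).symm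
  have h3 := ip_pos hM 125
  calc hh M ^ (15 / 8 : ℝ) ≤ (ip M 1000 : ℝ) ^ (15 / 8 : ℝ) :=
        Real.rpow_le_rpow (wpt_hh_pos hM).le (wpt_hh_le hM) (by norm_num)
    _ = ip M 1875 := by
        rw [h1, h2, ← Real.rpow_natCast, ← Real.rpow_mul h3.le, ← Real.rpow_natCast]
        norm_num

theorem wpt_slab_sub (M : ℕ) : slab M ⊆ {y : E3 | |y 2| ≤ 4} := fun y hy => by
  have h : |y 2| ≤ 3 := hy.2.2
  show |y 2| ≤ 4
  linarith

theorem wpt_jj_cmp {ε : ℝ} {s t : E3} (ht : t ≠ 0) (h : ‖t‖ ≤ 5 * ‖s‖) :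
    jj ε s ≤ 125 * jj ε t := by
  have h0 : 0 < ‖t‖ := norm_pos_iff.2 ht
  have h1 : 0 < ‖s‖ := by linarith
  unfold jj
  rw [mul_min_of_nonneg _ _ (by norm_num : (0 : ℝ) ≤ 125)]
  refine min_le_min ?_ ?_
  · rw [mul_one_div, div_le_div_iff₀ h1 h0]
    linarith
  · rw [← mul_div_assoc, div_le_div_iff₀ (by positivity) (by positivity)]
    have h3 : ‖t‖ ^ 3 ≤ (5 * ‖s‖) ^ 3 := pow_le_pow_left₀ h0.le h 3
    have h4 : 0 ≤ ε ^ 2 := sq_nonneg ε
    calc ε ^ 2 * ‖t‖ ^ 3 ≤ ε ^ 2 * (5 * ‖s‖) ^ 3 := mul_le_mul_of_nonneg_left h3 h4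
      _ = 125 * ε ^ 2 * ‖s‖ ^ 3 := by ring

theorem wpt_ae_ne (p : E3) : ∀ᵐ y : E3, y ≠ p := by
  have h : (volume : Measure E3) {p} = 0 := measure_singleton p
  exact measure_eq_zero_iff_ae_notMem.1 h

theorem wpt_jj_slab {M : ℕ} {ε B : ℝ} {p : E3}
    (h1 : IntegrableOn (fun y => jj ε (p - y)) {y : E3 | |y 2| ≤ 4})
    (h2 : ∫ y in {y : E3 | |y 2| ≤ 4}, jj ε (p - y) ≤ B) :
    IntegrableOn (fun y => jj ε (p - y)) (slab M) ∧ ∫ y in slab M, jj ε (p - y) ≤ B :=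
  ⟨h1.mono_set (wpt_slab_sub M),
    (setIntegral_mono_set h1 (Eventually.of_forall fun _ => jj_nonneg _ _)
      (wpt_slab_sub M).eventuallyLE).trans h2⟩

theorem wpt_far {M : ℕ} (hM : 1 ≤ M) {B : ℝ} {p : E3}
    (h1 : IntegrableOn (fun y => jj (hh M) (p - y)) (slab M))
    (h2 : ∫ y in slab M, jj (hh M) (p - y) ≤ B) :
    ∑ n ∈ grid M, hh M ^ 3 * (if ‖p - node M n‖ < hh M / 4 then 0 else
      1 / ‖p - node M n‖ - kk (hh M) (p - node M n)) ≤ 125 * B := by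
  have hp := wpt_hh_pos hM
  have key := cell_sum hM (g := fun n => if ‖p - node M n‖ < hh M / 4 then 0 else
      1 / ‖p - node M n‖ - kk (hh M) (p - node M n)) (Θ := fun y => 125 * jj (hh M) (p - y))
    (h1.const_mul 125) (fun y => mul_nonneg (by norm_num) (jj_nonneg _ _)) (fun n _ => by
      filter_upwards [wpt_ae_ne p] with y hy _ hyn
      by_cases hn : ‖p - node M n‖ < hh M / 4
      · rw [if_pos hn]
        exact mul_nonneg (by norm_num) (jj_nonneg _ _)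
      · rw [if_neg hn]
        have hn' : hh M / 4 ≤ ‖p - node M n‖ := not_lt.1 hn
        have hs : p - node M n ≠ 0 := norm_pos_iff.1 (by linarith)
        refine (sub_kk_mem _ hs).2.trans (wpt_jj_cmp (sub_ne_zero.2 hy.symm) ?_)
        have h3 : ‖p - y‖ ≤ ‖p - node M n‖ + ‖node M n - y‖ := norm_sub_le_norm_sub_add_norm_sub _ _ _
        rw [norm_sub_rev (node M n) y] at h3
        linarith)
  rw [integral_const_mul] at key
  linarith

theorem wpt_near {M : ℕ} (hM : 1 ≤ M) (p : E3) :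
    ∑ n ∈ grid M, (if ‖p - node M n‖ < hh M / 4 then kk (hh M) (p - node M n) else 0) ≤
      1 / hh M := by
  have hp := wpt_hh_pos hM
  rw [← Finset.sum_filter]
  have hc : ((grid M).filter fun n => ‖p - node M n‖ < hh M / 4).card ≤ 1 := by
    refine Finset.card_le_one.2 fun a ha b hb => ?_
    by_contra hab
    have h1 := node_sep hM hab
    have h2 := (Finset.mem_filter.1 ha).2
    have h3 := (Finset.mem_filter.1 hb).2
    have h4 : ‖node M a - node M b‖ ≤ ‖node M a - p‖ + ‖p - node M b‖ :=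
      norm_sub_le_norm_sub_add_norm_sub _ _ _
    rw [norm_sub_rev (node M a) p] at h4
    linarith
  refine (Finset.sum_le_card_nsmul _ _ (1 / hh M) fun n _ => kk_le hp _).trans ?_
  rw [nsmul_eq_mul]
  have h5 : (((grid M).filter fun n => ‖p - node M n‖ < hh M / 4).card : ℝ) ≤ 1 := by
    exact_mod_cast hc
  have h6 : 0 ≤ 1 / hh M := by positivity
  nlinarith

theorem wpt_disc {M : ℕ} (hM : 1 ≤ M) {B l : ℝ} {q : ℕ → ℕ → ℕ → ℚ} {p : E3} (hl : 0 ≤ l)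
    (hz : ∀ n ∈ grid M, 1 ≤ zz q n ∧ l * (zz q n : ℝ) ≤ (M : ℝ) ^ 2 * hh M ^ 3)
    (h1 : IntegrableOn (fun y => jj (hh M) (p - y)) (slab M))
    (h2 : ∫ y in slab M, jj (hh M) (p - y) ≤ B) :
    |AA M l q p - Sing M l q p - ∑ n ∈ grid M, l * (zz q n : ℝ) * kk (hh M) (p - node M n)| ≤
      (M : ℝ) ^ 2 * (125 * B) + (M : ℝ) ^ 2 * hh M ^ 2 := by
  have hp := wpt_hh_pos hM
  have a1 := wpt_far hM h1 h2
  have a2 := wpt_near hM p
  have hM2 : (0 : ℝ) ≤ (M : ℝ) ^ 2 := sq_nonneg _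
  have e2 : (M : ℝ) ^ 2 * hh M ^ 2 = (M : ℝ) ^ 2 * hh M ^ 3 * (1 / hh M) := by
    field_simp
  have b1 := mul_le_mul_of_nonneg_left a1 hM2
  have b2 := mul_le_mul_of_nonneg_left a2 (mul_nonneg hM2 (pow_nonneg hp.le 3))
  rw [e2]
  refine le_trans ?_ (add_le_add b1 b2)
  unfold AA coul Sing
  rw [← Finset.sum_sub_distrib, ← Finset.sum_sub_distrib, Finset.mul_sum, Finset.mul_sum,
    ← Finset.sum_add_distrib]
  refine (Finset.abs_sum_le_sum_abs _ _).trans (Finset.sum_le_sum fun n hn => ?_)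
  obtain ⟨z1, z2⟩ := hz n hn
  have z0 : 0 ≤ l * (zz q n : ℝ) := mul_nonneg hl (by exact_mod_cast (by omega : 0 ≤ zz q n))
  have k0 := kk_nonneg (hh M) (p - node M n)
  by_cases hn : ‖p - node M n‖ < hh M / 4
  · simp only [if_pos hn]
    rw [sub_self, zero_sub, abs_neg, abs_of_nonneg (mul_nonneg z0 k0), mul_zero, mul_zero, zero_add]
    exact mul_le_mul_of_nonneg_right z2 k0
  · simp only [if_neg hn]
    have hn' : hh M / 4 ≤ ‖p - node M n‖ := not_lt.1 hn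
    have hs : p - node M n ≠ 0 := norm_pos_iff.1 (by linarith)
    have s0 := (sub_kk_mem (hh M) hs).1
    have e3 : l * (zz q n : ℝ) / ‖p - node M n‖ - 0 - l * (zz q n : ℝ) * kk (hh M) (p - node M n) =
        l * (zz q n : ℝ) * (1 / ‖p - node M n‖ - kk (hh M) (p - node M n)) := by ring
    rw [e3, abs_of_nonneg (mul_nonneg z0 s0), mul_zero, add_zero, ← mul_assoc]
    exact mul_le_mul_of_nonneg_right z2 s0

theorem wpt_cont {M : ℕ} (hM : 1 ≤ M) {B : ℝ} {q1 : E3 → ℝ} {p : E3} (hq : Continuous q1)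
    (hq2 : Continuous (qq M q1))
    (hb : ∀ y, (M : ℝ) ^ 2 / 30 ≤ qq M q1 y ∧ qq M q1 y ≤ (M : ℝ) ^ 2 / 8)
    (h1 : IntegrableOn (fun y => jj (hh M) (p - y)) (slab M))
    (h2 : ∫ y in slab M, jj (hh M) (p - y) ≤ B) :
    |(∫ y in slab M, qq M q1 y * kk (hh M) (p - y)) - Vc M q1 p| ≤ (M : ℝ) ^ 2 * B := by
  have hp := wpt_hh_pos hM
  have hM2 : (0 : ℝ) ≤ (M : ℝ) ^ 2 := sq_nonneg _
  have i1 := Vc_integrand M hq p
  have i2 : IntegrableOn (fun y => qq M q1 y * kk (hh M) (p - y)) (slab M) :=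
    (hq2.mul ((kk_contDiff hp).continuous.comp (continuous_const.sub continuous_id))).continuousOn
      |>.integrableOn_compact (slab_isCompact M)
  unfold Vc
  rw [← integral_sub i2 i1]
  refine le_trans ?_ (mul_le_mul_of_nonneg_left h2 hM2)
  rw [← integral_const_mul, ← Real.norm_eq_abs]
  refine norm_integral_le_of_norm_le (h1.const_mul _) (ae_restrict_of_ae ?_)
  filter_upwards [wpt_ae_ne p] with y hy
  obtain ⟨s0, s1⟩ := sub_kk_mem (hh M) (sub_ne_zero.2 hy.symm)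
  obtain ⟨c0, c1⟩ := hb y
  have e : qq M q1 y * kk (hh M) (p - y) - qq M q1 y / ‖p - y‖ =
      -(qq M q1 y * (1 / ‖p - y‖ - kk (hh M) (p - y))) := by ring
  have c2 : 0 ≤ qq M q1 y := by linarith
  rw [e, norm_neg, Real.norm_eq_abs, abs_of_nonneg (mul_nonneg c2 s0)]
  exact mul_le_mul (by linarith) s1 s0 hM2

theorem wpt_div2 {M : ℕ} (hM : 1 ≤ M) : ip M 3870 / hh M ^ 2 = 9 * ip M 1870 := by
  have h1 : (ip M 3870 : ℝ) = ip M 1870 * ip M 1000 ^ 2 := by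
    rw [wpt_ip_pow, ← ip_add]
  have h2 := (ip_pos hM 1000).ne'
  rw [h1, hh_eq]
  field_simp
  norm_num

theorem wpt_div1 {M : ℕ} (hM : 1 ≤ M) : ip M 2020 / hh M = 3 * ip M 1020 := by
  have h1 : (ip M 2020 : ℝ) = ip M 1020 * ip M 1000 := by
    rw [← ip_add]
  have h2 := (ip_pos hM 1000).ne'
  rw [h1, hh_eq]
  field_simp

theorem w_pt : ∀ᶠ M : ℕ in atTop, ∀ (l : ℝ) (q1 : E3 → ℝ) (q : ℕ → ℕ → ℕ → ℚ), WOK M l q1 q →
    ∀ p : E3, |AA M l q p - Sing M l q p - Vc M q1 p| ≤ ip M 900 ∧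
      (p ∈ box M 2 → |AA M l q p - Sing M l q p - Vc M q1 p| ≤ ip M 1850) := by
  obtain ⟨C, hC0, hC⟩ := jj_int
  filter_upwards [qk, zz_bd, WOK.qq_bd, ev_le (126 * C + 1), ev_le 10, eventually_ge_atTop 1]
    with M hqk hzz hqq hMC hM10 hM l q1 q hW p
  have hp := wpt_hh_pos hM
  have hp1 : hh M ≤ 1 := (wpt_hh_le hM).trans (wpt_ip_le_one hM _)
  obtain ⟨j1, j2⟩ := hC (hh M) hp hp1 p
  have j3 : ∫ y in {y : E3 | |y 2| ≤ 4}, jj (hh M) (p - y) ≤ C * ip M 1875 :=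
    j2.trans (mul_le_mul_of_nonneg_left (wpt_rpow hM) hC0)
  obtain ⟨k1, k2⟩ := wpt_jj_slab (M := M) j1 j3
  have hl : 0 ≤ l := (ip_pos hM _).le.trans hW.l_ge
  have a := wpt_disc hM hl (hzz l q1 q hW) k1 k2
  have c := wpt_cont hM hW.bd.1.continuous (hqq l q1 q hW).1.1.continuous (hqq l q1 q hW).2 k1 k2
  have b := hqk l q1 q hW (hh M) le_rfl hp1 p
  rw [wpt_div2 hM, wpt_div1 hM] at b
  have hM2 : (0 : ℝ) ≤ (M : ℝ) ^ 2 := sq_nonneg _
  have d1 : hh M ^ 2 ≤ ip M 1875 := by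
    refine (pow_le_pow_left₀ hp.le (wpt_hh_le hM) 2).trans ?_
    rw [wpt_ip_pow]
    exact ip_anti hM (by norm_num)
  have d2 := mul_le_mul_of_nonneg_left d1 hM2
  have d3 : (126 * C + 1) * (M : ℝ) ^ 2 * ip M 1875 ≤ ip M 1870 :=
    ip_absorb hM hMC (by norm_num)
  have d4 : 10 * (M : ℝ) ^ 0 * ip M 1870 ≤ ip M 1850 := ip_absorb hM hM10 (by norm_num)
  have d5 : 10 * (M : ℝ) ^ 0 * ip M 1020 ≤ ip M 900 := ip_absorb hM hM10 (by norm_num)
  have d6 : (ip M 1850 : ℝ) ≤ ip M 1020 := ip_anti hM (by norm_num)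
  have d7 := ip_pos hM 1020
  rw [pow_zero, mul_one] at d4 d5
  have t : |AA M l q p - Sing M l q p - Vc M q1 p| ≤
      ip M 1850 + if |p 0| ≤ DD M then 0 else 3 * ip M 1020 := by
    have e : AA M l q p - Sing M l q p - Vc M q1 p =
        (AA M l q p - Sing M l q p - ∑ n ∈ grid M, l * (zz q n : ℝ) * kk (hh M) (p - node M n)) +
        (∑ n ∈ grid M, l * (zz q n : ℝ) * kk (hh M) (p - node M n) -
          ∫ y in slab M, qq M q1 y * kk (hh M) (p - y)) +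
        ((∫ y in slab M, qq M q1 y * kk (hh M) (p - y)) - Vc M q1 p) := by ring
    rw [e]
    refine (abs_add_three _ _ _).trans ?_
    linarith
  refine ⟨t.trans ?_, fun hb => t.trans ?_⟩
  · split_ifs <;> linarith
  · have : |p 0| ≤ DD M := by
      rw [abs_of_nonneg hb.1]
      exact hb.2.1
    rw [if_pos this, add_zero]

end Vale.Agent.P370
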