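import Vale.Agent.P370.S1c
import Vale.Agent.P370.PotC
import Vale.Agent.P370.WPt
import Vale.Agent.P370.WFirst
import Vale.Agent.P370.SingB

/-! The one-particle lower bound for the point charges. -/

namespace Vale.Agent.P370

open MeasureTheory Filter
open scoped Classical

theorem s1d_bd_const {n : ℕ} {C c c' : ℝ} {f : E3 → ℝ} (h : Bd n C f) (hc : |c| ≤ c') :
    Bd n (c' * C) fun p => c * f p := by
  refine ⟨contDiff_const.mul h.1, fun i hi p => ?_⟩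
  have e := iteratedFDeriv_const_smul_apply' (a := c) (x := p)
    (h.1.of_le (show (i : WithTop ℕ∞) ≤ n by exact_mod_cast hi)).contDiffAt
  simp only [smul_eq_mul] at e
  rw [e, norm_smul, Real.norm_eq_abs]
  exact mul_le_mul hc (h.2 i hi p) (norm_nonneg _) ((abs_nonneg c).trans hc)

theorem s1d_bd_sum {ι : Type} {n : ℕ} {C : ι → ℝ} {f : ι → E3 → ℝ} (s : Finset ι)
    (h : ∀ a, Bd n (C a) (f a)) : Bd n (∑ a ∈ s, C a) fun p => ∑ a ∈ s, f a p := by
  induction s using Finset.induction_on with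
  | empty => exact ⟨by simpa using contDiff_const, fun i _ p => by simp⟩
  | insert a s ha ih =>
    simp only [Finset.sum_insert ha]
    exact (h a).add ih

theorem s1d_pt {W S x y g C a b : ℝ} (hg : 0 < g) (h1 : |W - S| ≤ a)
    (h2 : x = 0 ∨ |W - S| ≤ b) (T : ℝ) (hT : x = 0 ∧ T = 0 ∨ |x| ≤ C ∧ T = S ^ 2) :
    W * (x + y) ^ 2 ≤ W * x ^ 2 + 8 / g * (2 * C ^ 2 * T + 2 * b ^ 2 * x ^ 2) +
      (g / 8 + a) * y ^ 2 + S * y ^ 2 := by
  have e1 : 2 * W * x * y ≤ 8 / g * (W * x) ^ 2 + g / 8 * y ^ 2 := by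
    have : 8 / g * (W * x) ^ 2 + g / 8 * y ^ 2 - 2 * W * x * y =
        8 / g * (W * x - g / 8 * y) ^ 2 := by
      field_simp
      ring
    have h3 : 0 ≤ 8 / g * (W * x - g / 8 * y) ^ 2 := by positivity
    linarith
  have e2 : (W * x) ^ 2 ≤ 2 * C ^ 2 * T + 2 * b ^ 2 * x ^ 2 := by
    rcases hT with ⟨rfl, rfl⟩ | ⟨hx, rfl⟩
    · simp
    · rcases h2 with rfl | h2
      · simp only [mul_zero, ne_eq, OfNat.ofNat_ne_zero, not_false_eq_true, zero_pow, add_zero]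
        positivity
      · have a1 : x ^ 2 ≤ C ^ 2 := sq_le_sq' (abs_le.1 hx).1 (abs_le.1 hx).2
        have a2 : (W - S) ^ 2 ≤ b ^ 2 := sq_le_sq' (abs_le.1 h2).1 (abs_le.1 h2).2
        have a3 : W ^ 2 ≤ 2 * S ^ 2 + 2 * b ^ 2 := by nlinarith [sq_nonneg (W - 2 * S)]
        nlinarith [mul_le_mul_of_nonneg_right a3 (sq_nonneg x),
          mul_le_mul_of_nonneg_left a1 (sq_nonneg S)]
  have e3 := mul_le_mul_of_nonneg_left e2 (show 0 ≤ 8 / g by positivity)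
  have e4 := mul_le_mul_of_nonneg_right (abs_le.1 h1).2 (sq_nonneg y)
  nlinarith

theorem s1d_split {A V S v w : E3 → ℝ} {B : Set E3} (hB : MeasurableSet B) {g C a b : ℝ}
    (hg : 0 < g) (iA : ∀ ρ, MBaC ρ → Integrable fun p => A p * ρ p)
    (iV : ∀ ρ, MBaC ρ → Integrable fun p => V p * ρ p)
    (iS : ∀ ρ, MBaC ρ → Integrable fun p => S p * ρ p) (iS2 : IntegrableOn (fun p => S p ^ 2) B)
    (h1 : ∀ p, |A p - S p - V p| ≤ a) (h2 : ∀ p ∈ B, |A p - S p - V p| ≤ b) {u : E3 → ℝ}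
    (hu : MBaC u) (hv : MBaC v) (hw : MBaC w) (huv : ∀ p, u p = v p + w p) (hvC : ∀ p, |v p| ≤ C)
    (hv0 : ∀ p, p ∉ B → v p = 0) :
    (∫ p, A p * u p ^ 2) - ∫ p, V p * u p ^ 2 ≤ ((∫ p, A p * v p ^ 2) - ∫ p, V p * v p ^ 2) +
      8 / g * (2 * C ^ 2 * (∫ p in B, S p ^ 2) + 2 * b ^ 2 * nsq1 v) + (g / 8 + a) * nsq1 w +
      ∫ p, S p * w p ^ 2 := by
  have i1 : Integrable fun p => A p * v p ^ 2 - V p * v p ^ 2 := (iA _ hv.sq).sub (iV _ hv.sq)
  have i2 : Integrable fun p => 2 * C ^ 2 * B.indicator (fun p => S p ^ 2) p :=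
    (iS2.integrable_indicator hB).const_mul _
  have i3 : Integrable fun p => 2 * b ^ 2 * v p ^ 2 := hv.sq.int.const_mul _
  have i4 : Integrable fun p => 8 / g * (2 * C ^ 2 * B.indicator (fun p => S p ^ 2) p +
      2 * b ^ 2 * v p ^ 2) := (i2.add i3).const_mul _
  have i5 : Integrable fun p => (g / 8 + a) * w p ^ 2 := hw.sq.int.const_mul _
  have i6 : Integrable fun p => A p * v p ^ 2 - V p * v p ^ 2 + 8 / g *
      (2 * C ^ 2 * B.indicator (fun p => S p ^ 2) p + 2 * b ^ 2 * v p ^ 2) := i1.add i4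
  have i7 : Integrable fun p => A p * v p ^ 2 - V p * v p ^ 2 + 8 / g *
      (2 * C ^ 2 * B.indicator (fun p => S p ^ 2) p + 2 * b ^ 2 * v p ^ 2) +
      (g / 8 + a) * w p ^ 2 := i6.add i5
  rw [nsq1, nsq1, ← integral_indicator hB, ← integral_sub (iA _ hu.sq) (iV _ hu.sq),
    ← integral_sub (iA _ hv.sq) (iV _ hv.sq), ← integral_const_mul, ← integral_const_mul,
    ← integral_add i2 i3, ← integral_const_mul, ← integral_const_mul, ← integral_add i1 i4,
    ← integral_add i6 i5, ← integral_add i7 (iS _ hw.sq)]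
  refine integral_mono ((iA _ hu.sq).sub (iV _ hu.sq)) (i7.add (iS _ hw.sq)) fun p => ?_
  have e : A p - V p - S p = A p - S p - V p := by ring
  have := s1d_pt (W := A p - V p) (S := S p) (x := v p) (y := w p) (C := C) (b := b) hg
    (e ▸ h1 p) (by
      by_cases hp : p ∈ B
      · exact Or.inr (e ▸ h2 p hp)
      · exact Or.inl (hv0 p hp)) (B.indicator (fun p => S p ^ 2) p) (by
      by_cases hp : p ∈ B
      · exact Or.inr ⟨hvC p, Set.indicator_of_mem hp _⟩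
      · exact Or.inl ⟨hv0 p hp, Set.indicator_of_notMem hp _⟩)
  simp only [huv]
  linarith

theorem s1d_v : ∀ᶠ M : ℕ in atTop, ∀ (L : Lay) (Pi : ℕ) (v : ℕ → ℕ → ℕ), L.OK M Pi v →
    ∀ c : Fin L.K → ℝ, ∃ C : ℝ, C ^ 2 ≤ 4 * (M : ℝ) ^ 11 * ∑ a, c a ^ 2 ∧
      (Bd 4 C fun p => ∑ a, c a * phi M L a p) ∧
      ∀ p, p ∉ box M 2 → ∑ a, c a * phi M L a p = 0 := by
  filter_upwards [phh_norm, phh_bd, eventually_ge_atTop 2] with M h1 h2 hM L Pi v hL c
  have hM1 : 1 ≤ M := by omega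
  have hM2 : (2 : ℝ) ≤ M := by exact_mod_cast hM
  have k1 : ∀ a : Fin L.K, 1 / 2 ≤ Real.sqrt (nsq1 (phh M L a.val)) := fun a => by
    refine Real.le_sqrt_of_sq_le ?_
    have a1 := ip_absorb hM1 hM2 (j := 0) (k := 18) (k' := 0) (by norm_num)
    have a2 : (ip M 0 : ℝ) = 1 := by simp [ip]
    have a3 := hL.one_le_n0sq hM
    have a4 := (h1 L Pi v hL a a.2).1
    nlinarith
  refine ⟨∑ a, 2 * |c a| * (M : ℝ) ^ 5, ?_, ?_, fun p hp => Finset.sum_eq_zero fun a _ => ?_⟩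
  · have a1 := sq_sum_le_card_mul_sum_sq (s := Finset.univ) (f := fun a => |c a|)
    simp only [sq_abs, Finset.card_univ, Fintype.card_fin] at a1
    have a2 : (L.K : ℝ) ≤ M := by exact_mod_cast hL.K_le
    have a3 := a1.trans (mul_le_mul_of_nonneg_right a2 (Finset.sum_nonneg fun a _ => sq_nonneg _))
    rw [← Finset.sum_mul, ← Finset.mul_sum]
    calc (2 * (∑ a, |c a|) * (M : ℝ) ^ 5) ^ 2 = 4 * (M : ℝ) ^ 10 * (∑ a, |c a|) ^ 2 := by ring
      _ ≤ 4 * (M : ℝ) ^ 10 * (M * ∑ a, c a ^ 2) := by gcongr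
      _ = _ := by ring
  · refine s1d_bd_sum _ fun a => ?_
    have e : (fun p => c a * phi M L a p) =
        fun p => c a / Real.sqrt (nsq1 (phh M L a.val)) * phh M L a.val p := funext fun p => by
      rw [phi]
      ring
    rw [e]
    refine s1d_bd_const (h2 L a.val) ?_
    have := k1 a
    rw [abs_div, abs_of_nonneg (Real.sqrt_nonneg _), div_le_iff₀ (by linarith)]
    nlinarith [abs_nonneg (c a)]
  · rw [phi, hL.phh_supp a.2 hp, zero_div, mul_zero]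

theorem s1d_W : ∀ᶠ M : ℕ in atTop, ∀ (L : Lay) (Pi : ℕ) (v : ℕ → ℕ → ℕ), L.OK M Pi v →
    ∀ (l : ℝ) (q1 : E3 → ℝ) (q : ℕ → ℕ → ℕ → ℚ), WOK M l q1 q → ∀ u : E3 → ℝ, Sm u →
      (∫ p, AA M l q p * u p ^ 2) - ∫ p, Vc M q1 p * u p ^ 2 ≤
        4 * ip M 3096 * nsq1 u + 2 * ip M 3900 * kin1 u +
          3 / 8 * ip M 540 * (nsq1 u - ∑ a, cf (phi M L) u a ^ 2) := by
  filter_upwards [s1d_v, phi_onf, w_first, w_pt, sing_bd, ev_le 64, eventually_ge_atTop 1] with M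
    h1 h2 h3 h4 h5 hM hM1 L Pi v hL l q1 q hq u hu
  obtain ⟨C, c1, c2, c3⟩ := h1 L Pi v hL (cf (phi M L) u)
  have hφ := h2 L Pi v hL
  obtain ⟨-, s1, s2, s3⟩ := h5 l q1 q hq
  have hqc : Continuous q1 := hq.bd.1.continuous
  have b1 := onf_bessel hφ hu.1.continuous hu.2
  have b2 := onf_pyth hφ hu.1.continuous hu.2
  have b3 := onf_nsq hφ (cf (phi M L) u)
  generalize ∑ a, cf (phi M L) u a ^ 2 = T at *
  set f : E3 → ℝ := fun p => ∑ a, cf (phi M L) u a * phi M L a p with hf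
  have fS : Sm f := ⟨(c2.mono (show 1 ≤ 4 by norm_num) le_rfl).1,
    HasCompactSupport.intro (box_isCompact M 2) c3⟩
  have wS : Sm fun p => u p - f p := ⟨hu.1.sub fS.1, hu.2.sub fS.2⟩
  have g0 := ip_pos hM1 540
  have k := s1d_split (box_isCompact M 2).measurableSet g0
    (fun ρ h => AA_int M l q h.1 h.supp) (fun ρ h => Vc_int M hqc h.1 h.supp)
    (fun ρ h => Sing_int M l q h.1 h.supp) s2 (fun p => (h4 l q1 q hq p).1)
    (fun p => (h4 l q1 q hq p).2) (mba_of hu.1.continuous hu.2) (mba_of fS.1.continuous fS.2)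
    (mba_of wS.1.continuous wS.2) (fun p => (add_sub_cancel _ _).symm) c2.abs_le c3
  have k1 := (abs_le.1 (h3 l q1 q hq (fun p => f p * f p) _ (c2.mul c2)
    fun p hp => mul_eq_zero_of_left (c3 p hp) _)).2
  simp only [← pow_two] at k1
  have k2 := s1 _ wS
  have k3 := kin1_sub_le hu fS
  have k4 := kin1_le_of_bd (c2.mono (show 1 ≤ 4 by norm_num) le_rfl) (box_isCompact M 2) c3
  rw [box_volume M zero_le_two, DD, Nat.cast_pow] at k4
  change nsq1 (fun p => u p - f p) = _ at b2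
  change nsq1 f = _ at b3
  rw [b2] at k k2
  rw [b3] at k
  have hN := nsq1_nonneg u
  have hT : 0 ≤ T := b3 ▸ nsq1_nonneg f
  have hC : C ^ 2 ≤ 4 * (M : ℝ) ^ 11 * nsq1 u := c1.trans (by gcongr)
  have hM0 : (0 : ℝ) < M := by linarith
  have t1 : 2 ^ 4 * C * C * ip M 3500 ≤ ip M 3096 * nsq1 u := by
    have := ip_pos hM1 3500
    linarith [mul_le_mul_of_nonneg_right hC this.le, mul_le_mul_of_nonneg_right
      (ip_absorb hM1 hM (j := 11) (k := 3500) (k' := 3096) (by norm_num)) hN]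
  have gi : 8 / ip M 540 = 8 * (M : ℝ) ^ 540 := by rw [ip, div_inv_eq_mul]
  have t2 : 8 / ip M 540 * (2 * C ^ 2 * ∫ p in box M 2, Sing M l q p ^ 2) ≤ ip M 3096 * nsq1 u := by
    have a1 := ip_absorb hM1 hM (j := 540 + 11) (k := 3800) (k' := 3096) (by norm_num)
    have a2 : 0 ≤ ∫ p in box M 2, Sing M l q p ^ 2 := integral_nonneg fun _ => sq_nonneg _
    have a3 : (0 : ℝ) < (M : ℝ) ^ 540 := by positivity
    rw [gi]
    rw [pow_add] at a1
    generalize (M : ℝ) ^ 540 = x at *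
    calc 8 * x * (2 * C ^ 2 * ∫ p in box M 2, Sing M l q p ^ 2)
        ≤ 8 * x * (2 * (4 * (M : ℝ) ^ 11 * nsq1 u) * ip M 3800) := by gcongr
      _ = 64 * (x * (M : ℝ) ^ 11) * ip M 3800 * nsq1 u := by ring
      _ ≤ _ := mul_le_mul_of_nonneg_right a1 hN
  have t3 : 8 / ip M 540 * (2 * ip M 1850 ^ 2 * T) ≤ ip M 3096 * nsq1 u := by
    have a1 := ip_absorb hM1 (show (16 : ℝ) ≤ M by linarith) (j := 540) (k := 3700) (k' := 3096)
      (by norm_num)
    have a2 : (ip M 1850 : ℝ) ^ 2 = ip M 3700 := by rw [sq, ← ip_add]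
    have a3 : (0 : ℝ) < (M : ℝ) ^ 540 := by positivity
    have a4 := ip_pos hM1 3700
    rw [gi, a2]
    generalize (M : ℝ) ^ 540 = x at *
    linarith [mul_le_mul_of_nonneg_right a1 hN,
      mul_le_mul_of_nonneg_left b1 (mul_nonneg a3.le a4.le)]
  have a0 := ip_pos hM1 3900
  have t4 : ip M 3900 * (2 * kin1 f) ≤ ip M 3096 * nsq1 u := by
    have e : (M : ℝ) ^ 121 = ((M : ℝ) ^ 55) ^ 2 * (M : ℝ) ^ 11 := by rw [← pow_mul, ← pow_add]
    have a1 := ip_absorb hM1 hM (j := 121) (k := 3900) (k' := 3096) (by norm_num)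
    rw [e] at a1
    have a3 : (0 : ℝ) < ((M : ℝ) ^ 55) ^ 2 := by positivity
    generalize ((M : ℝ) ^ 55) ^ 2 = x at *
    linarith [mul_le_mul_of_nonneg_right a1 hN, mul_le_mul_of_nonneg_left k4 a0.le,
      mul_le_mul_of_nonneg_left hC (mul_nonneg a3.le a0.le)]
  have t5 := ip_absorb hM1 (show (8 : ℝ) ≤ M by linarith) (j := 0) (k := 900) (k' := 540)
    (by norm_num)
  have t6 := ip_absorb hM1 (show (8 : ℝ) ≤ M by linarith) (j := 0) (k := 1900) (k' := 540)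
    (by norm_num)
  rw [pow_zero, mul_one] at t5 t6
  have t7 := mul_le_mul_of_nonneg_right t5 (sub_nonneg.2 b1)
  have t8 := mul_le_mul_of_nonneg_right t6 (sub_nonneg.2 b1)
  have t9 := mul_le_mul_of_nonneg_left k3 a0.le
  rw [mul_add] at k
  linarith

theorem s1d : ∀ᶠ M : ℕ in atTop, ∀ (L : Lay) (Pi : ℕ) (v : ℕ → ℕ → ℕ), L.OK M Pi v →
    ∀ (l : ℝ) (q : ℕ → ℕ → ℕ → ℚ), WOK M l (lap (V1 M L)) q → ∀ u : E3 → ℝ, Sm u →
      (1 - 5 * ip M 4) * tt M Pi * hop1 (E4 L.K) (cf (phi M L) u) +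
        ip M 540 / 2 * (nsq1 u - ∑ a, cf (phi M L) u a ^ 2) + (e0 M L - 5 * ip M 3095) * nsq1 u ≤
      en1 (AA M l q) u := by
  filter_upwards [s1d_W, s1c, pot_c, Vm_ge, phi_onf, ev_le 16, eventually_ge_atTop 1] with M
    h1 h2 h3 h4 h5 hM hM1 L Pi v hL l q hq u hu
  have k1 := h1 L Pi v hL l _ q hq u hu
  have k2 := h2 L Pi v hL u hu
  have b1 := sub_nonneg.2 (onf_bessel (h5 L Pi v hL) hu.1.continuous hu.2)
  have uc := (mba_of hu.1.continuous hu.2).sq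
  have i1 : Integrable fun p => Vm M L p * u p ^ 2 := (uc.mul (Vm_continuous M L)).int
  have i2 : ∀ c : ℝ, Integrable fun p => c * u p ^ 2 := fun c => uc.int.const_mul c
  have k3 : ∫ p, Vc M (lap (V1 M L)) p * u p ^ 2 ≤
      (ip M 3095 - e0 M L) * nsq1 u - ∫ p, Vm M L p * u p ^ 2 := by
    rw [nsq1, ← integral_const_mul, ← integral_sub (i2 _) i1]
    refine integral_mono (Vc_int M hq.bd.1.continuous uc.1 uc.supp) ((i2 _).sub i1) fun p => ?_
    have := mul_le_mul_of_nonneg_right ((h3 L Pi v hL).1 p) (sq_nonneg (u p))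
    simp only
    linarith
  have k4 : -(M : ℝ) * nsq1 u ≤ ∫ p, Vm M L p * u p ^ 2 := by
    rw [nsq1, ← integral_const_mul]
    exact integral_mono (i2 _) i1 fun p =>
      mul_le_mul_of_nonneg_right (h4 L hL.K_le p) (sq_nonneg (u p))
  have hH : 0 ≤ tt M Pi * hop1 (E4 L.K) (cf (phi M L) u) :=
    mul_nonneg (div_nonneg (ip_pos hM1 _).le (by positivity))
      (Finset.sum_nonneg fun _ _ => sq_nonneg _)
  have hN := nsq1_nonneg u
  have h2M : (2 : ℝ) ≤ M := by linarith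
  have t1 := ip_absorb hM1 h2M (j := 1) (k := 3900) (k' := 3096) (by norm_num)
  have t2 := ip_absorb hM1 h2M (j := 0) (k := 3096) (k' := 3095) (by norm_num)
  have t3 := ip_absorb hM1 h2M (j := 0) (k := 3900) (k' := 4) (by norm_num)
  have t4 := ip_absorb hM1 hM (j := 0) (k := 3900) (k' := 0) (by norm_num)
  have t0 : (ip M 0 : ℝ) = 1 := by simp [ip]
  rw [t0] at t4
  rw [pow_zero, mul_one] at t2 t3 t4
  rw [pow_one] at t1
  have a0 := ip_pos hM1 3900
  have a1 := ip_pos hM1 540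
  have a2 := ip_pos hM1 4
  have a3 := ip_pos hM1 3095
  rw [en1, mul_assoc]
  rw [mul_assoc] at k2
  generalize tt M Pi * hop1 (E4 L.K) (cf (phi M L) u) = H at *
  generalize nsq1 u - ∑ a, cf (phi M L) u a ^ 2 = n at *
  have m1 := mul_le_mul_of_nonneg_left k2 (show 0 ≤ 1 - 2 * ip M 3900 by linarith)
  have m2 := mul_le_mul_of_nonneg_left k4 a0.le
  have m3 := mul_le_mul_of_nonneg_right t1 hN
  have m4 := mul_le_mul_of_nonneg_right t2 hN
  have m5 := mul_le_mul_of_nonneg_right t3 hH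
  have m6 := mul_le_mul_of_nonneg_right t4 (mul_nonneg a1.le b1)
  have m7 := mul_nonneg (mul_nonneg a0.le a2.le) hH
  have m8 := mul_nonneg (mul_nonneg a0.le a3.le) hN
  have m9 := mul_nonneg a3.le hN
  linarith

end Vale.Agent.P370
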