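import Vale.Agent.P370.S2c
import Vale.Agent.P370.PotC
import Vale.Agent.P370.WFirst

/-! The one-particle upper bound for the point charges. -/

namespace Vale.Agent.P370

open MeasureTheory Filter
open scoped Classical

theorem s2d_smul {n : ℕ} {C : ℝ} {f : E3 → ℝ} (h : Bd n C f) (c : ℝ) :
    Bd n (|c| * C) fun p => c * f p := by
  refine ⟨contDiff_const.mul h.1, fun i hi p => ?_⟩
  have e := iteratedFDeriv_const_smul_apply' (a := c) (x := p) (i := i)
    (h.1.of_le (by exact_mod_cast hi)).contDiffAt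
  simp only [smul_eq_mul] at e
  rw [e, norm_smul, Real.norm_eq_abs]
  exact mul_le_mul_of_nonneg_left (h.2 i hi p) (abs_nonneg c)

theorem s2d_sum {ι : Type} {n : ℕ} {C : ι → ℝ} {f : ι → E3 → ℝ} (h : ∀ a, Bd n (C a) (f a))
    (s : Finset ι) : Bd n (∑ a ∈ s, C a) fun p => ∑ a ∈ s, f a p := by
  induction s using Finset.induction_on with
  | empty => exact ⟨by simpa using contDiff_const, fun i _ p => by simp⟩
  | insert a s ha ih =>
    simp only [Finset.sum_insert ha]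
    exact (h a).add ih

theorem s2d_comb {ι : Type} [Fintype ι] {n : ℕ} {C r : ℝ} {g : ι → E3 → ℝ} (hC : 0 ≤ C)
    (hr : 1 ≤ r) (h : ∀ a, Bd n C (g a)) (c : ι → ℝ) :
    Bd n ((∑ a, |c a|) * C) fun p => ∑ a, c a / r * g a p := by
  rw [Finset.sum_mul]
  refine s2d_sum (f := fun a p => c a / r * g a p)
    (fun a => (s2d_smul (h a) (c a / r)).mono le_rfl ?_) _
  refine mul_le_mul_of_nonneg_right ?_ hC
  rw [abs_div, abs_of_nonneg (zero_le_one.trans hr)]
  exact div_le_self (abs_nonneg _) hr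

theorem s2d_eq {M : ℕ} {L : Lay} {Pi : ℕ} {v : ℕ → ℕ → ℕ} (h : L.OK M Pi v) (c : Fin L.K → ℝ) :
    trial (th M L Pi) (ff M L) c = fun p => ∑ a, c a / Real.sqrt (n0sq M Pi) *
      (part M L a.val p * (gam M (p 2) * chz (p 2))) := by
  funext p
  rw [trial, Finset.mul_sum]
  refine Finset.sum_congr rfl fun a _ => ?_
  rw [mul_left_comm, h.th_mul_ff]
  ring

theorem s2d_supp {M : ℕ} {L : Lay} {Pi : ℕ} {v : ℕ → ℕ → ℕ} (h : L.OK M Pi v) (c : Fin L.K → ℝ)
    {p : E3} (hp : p ∉ box M 2) : trial (th M L Pi) (ff M L) c p = 0 := by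
  rw [s2d_eq h]
  refine Finset.sum_eq_zero fun a _ => ?_
  by_cases h0 : part M L a.val p = 0
  · rw [h0, zero_mul, mul_zero]
  · obtain ⟨h1, h2, h3, h4⟩ := h.part_supp a.isLt h0
    rw [chz_eq_zero (not_le.1 fun h5 => hp ⟨h1.le, h2.le, h3.le, h4.le, h5⟩).le]
    simp

theorem s2d : ∀ᶠ M : ℕ in atTop, ∀ (L : Lay) (Pi : ℕ) (v : ℕ → ℕ → ℕ), L.OK M Pi v →
    ∀ (l : ℝ) (q : ℕ → ℕ → ℕ → ℚ), WOK M l (lap (V1 M L)) q → ∀ c : Fin L.K → ℝ,
      en1 (AA M l q) (trial (th M L Pi) (ff M L) c) ≤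
        (e0 M L + ip M 3095) * nsq1 (trial (th M L Pi) (ff M L) c) +
          (1 + ip M 4) * tt M Pi * hop1 (E4 L.K) c + 2 * ip M 3095 * ∑ a, c a ^ 2 := by
  filter_upwards [s2c, pot_c, w_first, part_bd, ev_le 16, eventually_ge_atTop 2]
    with M h1 h2 h3 h4 h16 hM L Pi v h l q hW c
  have hM1 : 1 ≤ M := by omega
  have hn : 1 ≤ Real.sqrt (n0sq M Pi) := Real.one_le_sqrt.2 (h.one_le_n0sq hM)
  have hb : Bd 4 ((∑ a, |c a|) * (M : ℝ) ^ 6) (trial (th M L Pi) (ff M L) c) := by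
    rw [s2d_eq h]
    exact s2d_comb (g := fun (a : Fin L.K) p => part M L a.val p * (gam M (p 2) * chz (p 2)))
      (by positivity) hn (fun a => h4 L h.K_le a.val) c
  have hs := fun p => s2d_supp h c (p := p)
  have a1 := h1 L Pi v h c
  have a2 := (h2 L Pi v h).2
  generalize trial (th M L Pi) (ff M L) c = χ at *
  have hs2 : ∀ p, p ∉ box M 2 → χ p ^ 2 = 0 := fun p hp => by rw [hs p hp]; norm_num
  have hb2 := hb.mul hb
  simp only [← sq] at hb2
  have a3 := (abs_le.1 (h3 l _ q hW _ _ hb2 hs2)).1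
  have hc : Continuous fun p => χ p ^ 2 := hb2.1.continuous
  have hk : HasCompactSupport fun p => χ p ^ 2 :=
    HasCompactSupport.intro (box_isCompact M 2) hs2
  have i1 := Vc_int M hW.bd.1.continuous hc hk
  have i2 : Integrable fun p => Vm M L p * χ p ^ 2 :=
    ((Vm_continuous M L).mul hc).integrable_of_hasCompactSupport hk.mul_left
  have i3 : Integrable fun p => χ p ^ 2 := hc.integrable_of_hasCompactSupport hk
  have a4 : -∫ p, Vc M (lap (V1 M L)) p * χ p ^ 2 ≤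
      (∫ p, Vm M L p * χ p ^ 2) + (e0 M L + ip M 3095) * nsq1 χ := by
    rw [nsq1, ← integral_const_mul, ← integral_add i2 (i3.const_mul _), ← integral_neg]
    refine integral_mono i1.neg (i2.add (i3.const_mul _)) fun p => ?_
    by_cases hp : p ∈ box M 2
    · have := mul_le_mul_of_nonneg_right (a2 p hp) (sq_nonneg (χ p))
      beta_reduce
      linarith
    · simp [hs2 p hp]
  have a5 : (∑ a, |c a|) ^ 2 ≤ M * ∑ a, c a ^ 2 := by
    refine sq_sum_le_card_mul_sum_sq.trans ?_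
    simp only [sq_abs, Finset.card_univ, Fintype.card_fin]
    exact mul_le_mul_of_nonneg_right (by exact_mod_cast h.K_le) (by positivity)
  have a6 := mul_le_mul_of_nonneg_right
    (ip_absorb hM1 h16 (j := 13) (k := 3500) (k' := 3095) (by norm_num))
    (by positivity : 0 ≤ ∑ a, c a ^ 2)
  have a7 := mul_le_mul_of_nonneg_left a5
    (mul_nonneg (by positivity : 0 ≤ 16 * (M : ℝ) ^ 12) (ip_pos hM1 3500).le)
  unfold en1
  linarith

end Vale.Agent.P370
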