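import Vale.Agent.P370.Defs
import Vale.Agent.Lib.PolyTime.Raw

namespace Vale.Agent.P370

open Vale.Agent.Lib.PolyTime

namespace TMC

open Function Turing Turing.TM2

/-- The number of push instructions of a statement. -/
def pushes {K : Type} {Γ : K → Type} {Λ σ : Type} : Stmt Γ Λ σ → ℕ
  | .push _ _ q => pushes q + 1
  | .peek _ _ q => pushes q
  | .pop _ _ q => pushes q
  | .load _ q => pushes q
  | .branch _ q q' => pushes q + pushes q'
  | .goto _ => 0
  | .halt => 0

theorem len_stepAux {K : Type} [DecidableEq K] {Γ : K → Type} {Λ σ : Type} (q : Stmt Γ Λ σ)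
    (j : K) : ∀ (v : σ) (S : ∀ k, List (Γ k)),
      ((stepAux q v S).stk j).length ≤ (S j).length + pushes q := by
  induction q with
  | push k f q ih =>
    intro v S
    refine (ih _ _).trans ?_
    by_cases h : j = k
    · subst h
      rw [update_self, List.length_cons, pushes]
      omega
    · rw [update_of_ne h, pushes]
      omega
  | peek k f q ih => intro v S; exact ih _ _
  | pop k f q ih =>
    intro v S
    refine (ih _ _).trans ?_
    by_cases h : j = k
    · subst h
      rw [update_self, List.length_tail, pushes]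
      omega
    · rw [update_of_ne h, pushes]
  | load f q ih => intro v S; exact ih _ _
  | branch f q q' ih ih' =>
    intro v S
    simp only [stepAux, pushes]
    cases f v
    · exact (ih' _ _).trans (by omega)
    · exact (ih _ _).trans (by omega)
  | goto f => intro v S; exact le_rfl
  | halt => intro v S; exact le_rfl

theorem len_iter (tm : FinTM2) : ∃ c : ℕ, ∀ (j : tm.K) (n : ℕ) (a b : tm.Cfg),
    (flip bind tm.step)^[n] (some a) = some b →
      (b.stk j).length ≤ (a.stk j).length + c * n := by
  have := tm.ΛFin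
  refine ⟨Finset.univ.sup fun l => pushes (tm.m l), fun j n => ?_⟩
  induction n with
  | zero =>
    intro a b h
    rw [Option.some.inj h]
    exact le_rfl
  | succ n ih =>
    rintro ⟨_ | l, v, S⟩ b h
    · have : ∀ n, (flip bind tm.step)^[n] none = none := fun n => iterate_fixed rfl n
      exact absurd ((this n).symm.trans h) (by simp)
    · have h1 := ih (stepAux (tm.m l) v S) b h
      have h2 := len_stepAux (tm.m l) j v S
      have h3 : pushes (tm.m l) ≤ Finset.univ.sup fun l => pushes (tm.m l) :=
        Finset.le_sup (f := fun l => pushes (tm.m l)) (Finset.mem_univ l)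
      rw [mul_add, mul_one]
      exact h1.trans ((Nat.add_le_add_right (h2.trans (Nat.add_le_add_left h3 _)) _).trans
        (by dsimp only; omega))

theorem len_out (tm : FinTM2) : ∃ c : ℕ, ∀ (w : List (tm.Γ tm.k₀)) (w' : List (tm.Γ tm.k₁))
    (t : ℕ), TM2OutputsInTime tm w (some w') t → w'.length ≤ w.length + c * t := by
  obtain ⟨c, hc⟩ := len_iter tm
  refine ⟨c, fun w w' t ⟨⟨n, h1⟩, h2⟩ => ?_⟩
  have h3 := hc tm.k₁ n _ _ h1
  rw [Raw.init_eq, Raw.halt_eq] at h3
  dsimp only at h2 h3
  rw [update_self] at h3
  refine h3.trans (Nat.add_le_add ?_ (Nat.mul_le_mul_left _ h2))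
  generalize tm.k₁ = j
  by_cases h : j = tm.k₀
  · subst h
    rw [update_self]
  · rw [update_of_ne h]
    exact Nat.zero_le _

variable (M N : TM2ComputableAux Bool Bool)

/-- Alphabets of the composed machine. -/
@[reducible] def Gm : M.tm.K ⊕ N.tm.K → Type
  | .inl k => M.tm.Γ k
  | .inr k => N.tm.Γ k

/-- Statements of the composed machine. -/
abbrev St : Type :=
  Stmt (Gm M N) (Option (M.tm.Λ ⊕ N.tm.Λ)) (M.tm.σ × N.tm.σ × Option Bool)

/-- Statements of the first machine. -/
def upL : Stmt M.tm.Γ M.tm.Λ M.tm.σ → St M N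
  | .push k f q => .push (.inl k) (fun v => f v.1) (upL q)
  | .peek k f q => .peek (.inl k) (fun v o => (f v.1 o, v.2)) (upL q)
  | .pop k f q => .pop (.inl k) (fun v o => (f v.1 o, v.2)) (upL q)
  | .load f q => .load (fun v => (f v.1, v.2)) (upL q)
  | .branch f q q' => .branch (fun v => f v.1) (upL q) (upL q')
  | .goto f => .goto fun v => some (.inl (f v.1))
  | .halt => .goto fun _ => none

/-- Statements of the second machine. -/
def upR : Stmt N.tm.Γ N.tm.Λ N.tm.σ → St M N
  | .push k f q => .push (.inr k) (fun v => f v.2.1) (upR q)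
  | .peek k f q => .peek (.inr k) (fun v o => (v.1, f v.2.1 o, v.2.2)) (upR q)
  | .pop k f q => .pop (.inr k) (fun v o => (v.1, f v.2.1 o, v.2.2)) (upR q)
  | .load f q => .load (fun v => (v.1, f v.2.1, v.2.2)) (upR q)
  | .branch f q q' => .branch (fun v => f v.2.1) (upR q) (upR q')
  | .goto f => .goto fun v => some (.inr (f v.2.1))
  | .halt => .halt

/-- The transfer loop. -/
def mv : St M N := .pop (.inl M.tm.k₁) (fun v o => (v.1, v.2.1, o.map M.outputAlphabet))
  (.branch (fun v => v.2.2.isNone) (.goto fun _ => some (.inr N.tm.main))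
    (.push (.inr N.tm.k₀) (fun v => N.inputAlphabet.symm (v.2.2.getD false))
      (.goto fun _ => none)))

/-- The composed machine. -/
def mach : FinTM2 :=
  letI := M.tm.kFin
  letI := M.tm.ΛFin
  letI := M.tm.σFin
  letI := N.tm.kFin
  letI := N.tm.ΛFin
  letI := N.tm.σFin
  { K := M.tm.K ⊕ N.tm.K
    k₀ := .inl M.tm.k₀
    k₁ := .inr N.tm.k₁
    Γ := Gm M N
    Λ := Option (M.tm.Λ ⊕ N.tm.Λ)
    main := some (.inl M.tm.main)
    σ := M.tm.σ × N.tm.σ × Option Bool
    initialState := (M.tm.initialState, N.tm.initialState, none)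
    Γk₀Fin := M.tm.Γk₀Fin
    m := fun l => match l with
      | some (.inl l) => upL M N (M.tm.m l)
      | some (.inr l) => upR M N (N.tm.m l)
      | none => mv M N }

variable {M N}

/-- Stacks of the composed machine. -/
def stk (S : ∀ k, List (M.tm.Γ k)) (T : ∀ k, List (N.tm.Γ k)) : ∀ k, List (Gm M N k)
  | .inl k => S k
  | .inr k => T k

theorem stk_inl (S : ∀ k, List (M.tm.Γ k)) (T : ∀ k, List (N.tm.Γ k)) (k : M.tm.K)
    (x : List (M.tm.Γ k)) : update (stk S T) (.inl k) x = stk (update S k x) T := by
  funext j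
  rcases j with j | j
  · by_cases h : j = k
    · subst h; simp [stk]
    · rw [update_of_ne (by simpa using h)]; simp [stk, update_of_ne h]
  · rw [update_of_ne (by simp)]; rfl

theorem stk_inr (S : ∀ k, List (M.tm.Γ k)) (T : ∀ k, List (N.tm.Γ k)) (k : N.tm.K)
    (x : List (N.tm.Γ k)) : update (stk S T) (.inr k) x = stk S (update T k x) := by
  funext j
  rcases j with j | j
  · rw [update_of_ne (by simp)]; rfl
  · by_cases h : j = k
    · subst h; simp [stk]
    · rw [update_of_ne (by simpa using h)]; simp [stk, update_of_ne h]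

/-- Configurations of the first machine. -/
def cL (N : TM2ComputableAux Bool Bool) (c : M.tm.Cfg) : (mach M N).Cfg :=
  ⟨some (c.l.map .inl), (c.var, N.tm.initialState, none), stk c.stk fun _ => []⟩

/-- Configurations of the second machine. -/
def cR (M : TM2ComputableAux Bool Bool) (c : N.tm.Cfg) : (mach M N).Cfg :=
  ⟨c.l.map fun l => some (.inr l), (M.tm.initialState, c.var, none), stk (fun _ => []) c.stk⟩

theorem stepAux_upL (q : Stmt M.tm.Γ M.tm.Λ M.tm.σ) :
    ∀ (v : M.tm.σ) (S : ∀ k, List (M.tm.Γ k)),
      stepAux (upL M N q) (v, N.tm.initialState, none) (stk S fun _ => []) =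
        cL N (stepAux q v S) := by
  induction q with
  | push k f q ih => intro v S; exact (congrArg _ (stk_inl S _ k _)).trans (ih _ _)
  | peek k f q ih => intro v S; exact ih _ _
  | pop k f q ih => intro v S; exact (congrArg _ (stk_inl S _ k _)).trans (ih _ _)
  | load f q ih => intro v S; exact ih _ _
  | branch f q q' ih ih' =>
    intro v S
    simp only [upL, stepAux]
    cases f v
    exacts [ih' _ _, ih _ _]
  | goto f => intro v S; rfl
  | halt => intro v S; rfl

theorem stepAux_upR (q : Stmt N.tm.Γ N.tm.Λ N.tm.σ) :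
    ∀ (v : N.tm.σ) (T : ∀ k, List (N.tm.Γ k)),
      stepAux (upR M N q) (M.tm.initialState, v, none) (stk (fun _ => []) T) =
        cR M (stepAux q v T) := by
  induction q with
  | push k f q ih => intro v T; exact (congrArg _ (stk_inr _ T k _)).trans (ih _ _)
  | peek k f q ih => intro v T; exact ih _ _
  | pop k f q ih => intro v T; exact (congrArg _ (stk_inr _ T k _)).trans (ih _ _)
  | load f q ih => intro v T; exact ih _ _
  | branch f q q' ih ih' =>
    intro v T
    simp only [upR, stepAux]
    cases f v
    exacts [ih' _ _, ih _ _]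
  | goto f => intro v T; rfl
  | halt => intro v T; rfl

theorem iter_upL (n : ℕ) : ∀ c c' : M.tm.Cfg, (flip bind M.tm.step)^[n] (some c) = some c' →
    (flip bind (mach M N).step)^[n] (some (cL N c)) = some (cL N c') := by
  induction n with
  | zero => intro c c' h; exact congrArg (Option.map (cL N)) h
  | succ n ih =>
    rintro ⟨_ | l, v, S⟩ c' h
    · have : ∀ n, (flip bind M.tm.step)^[n] none = none := fun n => iterate_fixed rfl n
      exact absurd ((this n).symm.trans h) (by simp)
    · exact (congrArg (fun x => (flip bind (mach M N).step)^[n] (some x))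
        (stepAux_upL (M.tm.m l) v S)).trans (ih _ _ h)

theorem iter_upR (n : ℕ) : ∀ c c' : N.tm.Cfg, (flip bind N.tm.step)^[n] (some c) = some c' →
    (flip bind (mach M N).step)^[n] (some (cR M c)) = some (cR M c') := by
  induction n with
  | zero => intro c c' h; exact congrArg (Option.map (cR M)) h
  | succ n ih =>
    rintro ⟨_ | l, v, S⟩ c' h
    · have : ∀ n, (flip bind N.tm.step)^[n] none = none := fun n => iterate_fixed rfl n
      exact absurd ((this n).symm.trans h) (by simp)
    · exact (congrArg (fun x => (flip bind (mach M N).step)^[n] (some x))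
        (stepAux_upR (N.tm.m l) v S)).trans (ih _ _ h)

theorem iter_mv (w : List Bool) : ∀ (v : M.tm.σ) (u : N.tm.σ) (o : Option Bool)
    (S : ∀ k, List (M.tm.Γ k)) (T : ∀ k, List (N.tm.Γ k)),
    S M.tm.k₁ = w.map M.outputAlphabet.symm →
    (flip bind (mach M N).step)^[w.length + 1] (some ⟨some none, (v, u, o), stk S T⟩) =
      some ⟨some (some (.inr N.tm.main)), (v, u, none), stk (update S M.tm.k₁ [])
        (update T N.tm.k₀ (w.reverse.map N.inputAlphabet.symm ++ T N.tm.k₀))⟩ := by
  induction w with
  | nil =>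
    intro v u o S T hS
    have e : stepAux (mv M N) (v, u, o) (stk S T) =
        ⟨some (some (.inr N.tm.main)), (v, u, none), stk (update S M.tm.k₁ []) T⟩ := by
      simp [mv, stk_inl, stk, hS]
    refine (congrArg some e).trans (congrArg (fun x => some (Cfg.mk _ _ (stk _ x))) ?_)
    simp
  | cons b w ih =>
    intro v u o S T hS
    have e : stepAux (mv M N) (v, u, o) (stk S T) = ⟨some none, (v, u, some b),
        stk (update S M.tm.k₁ (w.map M.outputAlphabet.symm))
          (update T N.tm.k₀ (N.inputAlphabet.symm b :: T N.tm.k₀))⟩ := by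
      simp [mv, stk_inl, stk_inr, stk, hS]
    refine (congrArg (fun x => (flip bind (mach M N).step)^[w.length + 1] (some x)) e).trans
      ((ih _ _ _ _ _ (by simp)).trans ?_)
    simp

theorem outputs {x : List (M.tm.Γ M.tm.k₀)} {w : List Bool} {y : List (N.tm.Γ N.tm.k₁)}
    {t s t' : ℕ} (h : TM2OutputsInTime M.tm x (some (w.map M.outputAlphabet.invFun)) t)
    (h' : TM2OutputsInTime N.tm (w.reverse.map N.inputAlphabet.invFun) (some y) s)
    (ht : t + s + w.length + 1 ≤ t') :
    Nonempty (TM2OutputsInTime (mach M N) x (some y) t') := by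
  obtain ⟨⟨n, h1⟩, h2⟩ := h
  obtain ⟨⟨m, h3⟩, h4⟩ := h'
  have e0 : (fun k => ([] : List (Gm M N k))) = stk (fun _ => []) fun _ => [] := by
    funext k; cases k <;> rfl
  have e4 : update (fun k => ([] : List (Gm M N k))) (.inl M.tm.k₀) x =
      stk (update (fun _ => []) M.tm.k₀ x) fun _ => [] := by rw [e0, stk_inl]
  have e5 : update (fun k => ([] : List (Gm M N k))) (.inr N.tm.k₁) y =
      stk (fun _ => []) (update (fun _ => []) N.tm.k₁ y) := by rw [e0, stk_inr]
  have e1 := iter_upL (N := N) n _ _ h1
  have e2 := iter_mv (N := N) w M.tm.initialState N.tm.initialState none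
    (update (fun _ => []) M.tm.k₁ (w.map M.outputAlphabet.invFun)) (fun _ => [])
    (update_self _ _ _)
  have e3 := iter_upR (M := M) m _ _ h3
  rw [Raw.init_eq, Raw.halt_eq] at e1 e3
  rw [List.append_nil, update_idem, update_eq_self] at e2
  refine ⟨⟨⟨m + (w.length + 1 + n), ?_⟩, ?_⟩⟩
  · refine (iterate_add_apply _ _ _ _).trans (Eq.trans (congrArg _
      ((iterate_add_apply _ _ _ _).trans ((congrArg _ (Eq.trans ?_ e1)).trans e2))) (e3.trans ?_))
    · exact congrArg (fun x => (flip bind (mach M N).step)^[n] (some x))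
        ((Raw.init_eq (mach M N) x).trans (congrArg (Cfg.mk _ _) e4))
    · exact congrArg some ((congrArg (Cfg.mk _ _) e5.symm).trans (Raw.halt_eq (mach M N) y).symm)
  · dsimp only at h2 h4 ⊢
    omega

theorem comp {A B C : Type} {ea : A → List Bool} {eb : B → List Bool} {ec : C → List Bool}
    {f : A → B} {g : B → C} (M : TM2ComputableInPolyTime ea eb f)
    (N : TM2ComputableInPolyTime (fun b => (eb b).reverse) ec g) (hM : ∀ k, Finite (M.tm.Γ k))
    (hN : ∀ k, Finite (N.tm.Γ k)) :
    ∃ P : TM2ComputableInPolyTime ea ec (fun a => g (f a)), ∀ k, Finite (P.tm.Γ k) := by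
  obtain ⟨c, hc⟩ := len_out M.tm
  refine ⟨⟨⟨mach M.toTM2ComputableAux N.toTM2ComputableAux, M.inputAlphabet, N.outputAlphabet⟩,
    M.time + N.time.comp (Polynomial.X + Polynomial.C c * M.time) +
      (Polynomial.X + Polynomial.C c * M.time) + 1, fun a => ?_⟩, ?_⟩
  · refine Classical.choice (outputs (M.outputsFun a) (N.outputsFun (f a)) ?_)
    have b1 := hc _ _ _ (M.outputsFun a)
    rw [List.length_map, List.length_map] at b1
    have b2 := eval_mono N.time b1
    simp only [Polynomial.eval_add, Polynomial.eval_mul, Polynomial.eval_C,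
      Polynomial.eval_X, Polynomial.eval_comp, Polynomial.eval_one, List.length_reverse]
    omega
  · rintro (k | k)
    · exact hM k
    · exact hN k

end TMC

/-- Composition of a polynomial-time machine with a polynomial-time function on codes. -/
theorem PolyTime.comp_pt {β γ : Type} {cb : β → List ℕ} {cc : γ → List ℕ} {f : List Bool → β}
    (hf : PolyTime cb f) (g : β → γ) {F : List Bool → List Bool} (hF : PT F)
    (h : ∀ b, F (binCode (cb b)) = binCode (cc (g b))) : PolyTime cc (fun x => g (f x)) := by
  obtain ⟨M, hM⟩ := hf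
  have h1 : PT (fun l : List Bool => F l.reverse) := by fun_prop
  obtain ⟨N, hN⟩ := h1.rawMachine (fun b => (binCode (cb b)).reverse)
    (fun y : γ => binCode (cc y)) g fun b => by rw [List.reverse_reverse, h]
  exact TMC.comp M N hM hN

end Vale.Agent.P370
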