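import Vale.Agent.P370.BrLow
import Vale.Agent.P370.BrUp
import Vale.Agent.P370.MBL
import Vale.Agent.P370.S1d
import Vale.Agent.P370.S2d
import Vale.Agent.P370.IntL
import Vale.Agent.P370.IntU
import Vale.Agent.P370.Num
import Vale.Agent.P370.Comb
import Vale.Agent.P370.InstPT
import Vale.Agent.P370.DiscMain
import Vale.Agent.P370.DiscPT
import Vale.Agent.P370.TMComp
import Vale.Agent.P325.Final

/-! Assembly of the reduction. -/

namespace Vale.Agent.P370

open MeasureTheory Filter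
open scoped Classical

theorem main_sum_flatMap {α β : Type} (l : List α) (G : α → List β) (F : β → ℝ) :
    ((l.flatMap G).map F).sum = (l.map fun a => ((G a).map F).sum).sum := by
  induction l with
  | nil => simp
  | cons a l ih => simp [ih]

theorem main_sum_range (n : ℕ) (F : ℕ → ℝ) :
    ((List.range n).map F).sum = ∑ i ∈ Finset.range n, F i := by
  induction n with
  | zero => simp
  | succ n ih => rw [List.range_succ, List.map_append, List.sum_append, ih, Finset.sum_range_succ]; simp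

theorem main_gx (M i : ℕ) : ((gx M i : ℚ) : ℝ) = gx M i := by
  unfold gx
  push_cast
  rfl

theorem main_gz (M i : ℕ) : ((gz M i : ℚ) : ℝ) = gz M i := by
  unfold gz
  push_cast
  rfl

theorem main_att {M : ℕ} {d : Disc} (hl : (0 : ℝ) < ellQ M d)
    (hz : ∀ n ∈ grid M, 1 ≤ zz (qI M d) n) :
    attL (ellQ M d) (nucI M d) = AA M (ellQ M d) (qI M d) := by
  funext x
  unfold attL nucI AA coul
  rw [main_sum_flatMap, main_sum_range, grid, Finset.sum_product]
  refine Finset.sum_congr rfl fun i hi => ?_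
  rw [main_sum_flatMap, main_sum_range, Finset.sum_product]
  refine Finset.sum_congr rfl fun j hj => ?_
  rw [List.map_map, main_sum_range]
  refine Finset.sum_congr rfl fun k hk => ?_
  have h1 := hz (i, j, k) (by simp only [grid, Finset.mem_product]; exact ⟨hi, hj, hk⟩)
  have h2 : (((zz (qI M d) (i, j, k)).toNat : ℕ) : ℝ) = (zz (qI M d) (i, j, k) : ℝ) := by
    rw [← Int.cast_natCast, Int.toNat_of_nonneg (by omega)]
  have h3 : ((ellQ M d : ℝ))⁻¹ • pt (ellQ M d * gx M i, ellQ M d * gx M j, ellQ M d * gz M k) =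
      node M (i, j, k) := by
    ext t
    fin_cases t <;> simp [pt, node, main_gx, main_gz, hl.ne']
  simp only [Function.comp_apply, h2, h3]

theorem main_mem_nuc {M : ℕ} {d : Disc} {p : (ℚ × ℚ × ℚ) × ℕ} (hp : p ∈ nucI M d) :
    ∃ n ∈ grid M, p.2 = (zz (qI M d) n).toNat := by
  simp only [nucI, List.mem_flatMap, List.mem_map, List.mem_range] at hp
  obtain ⟨i, hi, j, hj, k, hk, rfl⟩ := hp
  exact ⟨(i, j, k), by simp [grid, hi, hj, hk], rfl⟩

theorem main_nodup {M : ℕ} (hM : 1 ≤ M) {d : Disc} (hl : 0 < ellQ M d) :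
    ((nucI M d).map Prod.fst).Nodup := by
  have hH : (0 : ℚ) < HH M := by
    unfold HH
    positivity
  have hx : ∀ i j, ellQ M d * gx M i = ellQ M d * gx M j → i = j := by
    intro i j h
    have h1 := mul_left_cancel₀ hl.ne' h
    unfold gx at h1
    have h2 := (div_left_inj' hH.ne').1 (sub_left_injective h1)
    exact_mod_cast add_right_cancel h2
  have hz : ∀ i j, ellQ M d * gz M i = ellQ M d * gz M j → i = j := by
    intro i j h
    have h1 := mul_left_cancel₀ hl.ne' h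
    unfold gz at h1
    have h2 := (div_left_inj' hH.ne').1 (sub_left_injective h1)
    exact_mod_cast add_right_cancel h2
  have e : (nucI M d).map Prod.fst = ((List.range (NX M)) ×ˢ ((List.range (NX M)) ×ˢ
      (List.range (NZ M)))).map fun n =>
        (ellQ M d * gx M n.1, ellQ M d * gx M n.2.1, ellQ M d * gz M n.2.2) := by
    simp [nucI, List.map_flatMap, SProd.sprod, List.product, Function.comp_def]
  rw [e]
  refine (List.nodup_range.product (List.nodup_range.product List.nodup_range)).map ?_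
  intro n n' h
  simp only [Prod.mk.injEq] at h
  exact Prod.ext (hx _ _ h.1) (Prod.ext (hx _ _ h.2.1) (hz _ _ h.2.2))

theorem main_ell {M : ℕ} {d : Disc} (h : d.Le M) (hO : (comb M d).OK M (piN M d) d.wt) :
    (ip M 3040 : ℝ) ≤ ellQ M d ∧ (ellQ M d : ℝ) ≤ ip M 3037 := by
  have hM : 1 ≤ M := h.tau_pos.trans h.tau_le
  have e : (ellQ M d : ℝ) = ip M 3040 * (piN M d / (2 * d.tau)) := by
    unfold ellQ ip
    push_cast
    ring
  have h1 : (1 : ℝ) ≤ d.tau := by exact_mod_cast h.tau_pos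
  have h2 : 2 * (d.tau : ℝ) ≤ piN M d := by
    have h3 := h.n_pos
    have h4 := h.tau_le
    have : 2 * d.tau ≤ piN M d := by
      unfold piN
      calc 2 * d.tau ≤ 1 * (2 * M) := by omega
        _ ≤ (4 * d.n - 1) * (4 * d.n * M) := by gcongr <;> omega
    exact_mod_cast this
  have h3 : (piN M d : ℝ) ≤ (M : ℝ) ^ 3 := by exact_mod_cast hO.Pi_le
  have h4 := ip_pos hM 3040
  rw [e]
  refine ⟨le_mul_of_one_le_right h4.le ((one_le_div (by positivity)).2 h2), ?_⟩
  rw [← ip_mul_pow hM 3037 3]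
  exact mul_le_mul_of_nonneg_left ((div_le_self (by positivity) (by linarith)).trans h3) h4.le

theorem main_intT {N K : ℕ} (c : ℝ) (w : Fin K → Fin K → ℝ) (C : Ten N K) :
    intT (fun a b => c * w a b) C = c * intT w C := by
  unfold intT
  simp only [Finset.mul_sum, Finset.sum_mul, mul_assoc]

theorem main_intT2 {N K : ℕ} (c : ℝ) {c' : ℝ} (hc : 0 ≤ c') (w : Fin K → Fin K → ℝ) (C : Ten N K) :
    intT (fun a b => c * w a b + c') C ≤ c * intT w C + c' * (N : ℝ) ^ 2 * nrmT C := by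
  unfold intT nrmT
  simp only [Finset.mul_sum, ← Finset.sum_add_distrib]
  refine Finset.sum_le_sum fun s _ => Finset.sum_le_sum fun a _ => ?_
  rw [← mul_assoc, ← add_mul]
  refine mul_le_mul_of_nonneg_right ?_ (sq_nonneg _)
  simp only [Finset.sum_add_distrib, ← Finset.mul_sum]
  refine add_le_add_right ?_ _
  calc ∑ i : Fin N, ∑ j with i < j, c' ≤ ∑ i : Fin N, ∑ j : Fin N, c' :=
        Finset.sum_le_sum fun i _ => Finset.sum_le_sum_of_subset_of_nonneg
          (Finset.filter_subset _ _) fun _ _ _ => hc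
    _ = c' * (N : ℝ) ^ 2 := by simp; ring

/-- The quantities shared by both directions. -/
theorem main_common : ∀ᶠ M : ℕ in atTop, ∀ d : Disc, d.Le M →
    (comb M d).OK M (piN M d) d.wt ∧ (0 : ℝ) < ellQ M d ∧ (ellQ M d : ℝ) ≤ ip M 3037 ∧
    WOK M (ellQ M d) (lap (V1 M (comb M d))) (qI M d) ∧ (∀ n ∈ grid M, 1 ≤ zz (qI M d) n) ∧
    |(e0Q M (ellQ M d) (qI M d) : ℝ) - e0 M (comb M d)| ≤ ip M 3095 ∧
    tt M (piN M d) = ellQ M d / ((piN M d : ℝ) ^ 2 * SS M) * d.tau ∧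
    ip M 3086 ≤ (ellQ M d : ℝ) / ((piN M d : ℝ) ^ 2 * SS M) ∧
    (ellQ M d : ℝ) / ((piN M d : ℝ) ^ 2 * SS M) ≤ ip M 3037 := by
  filter_upwards [eventually_ge_atTop 4, num_q, num_e0, zz_bd, w_ref] with M hM h1 h2 h3 h4 d hd
  have hM1 : 1 ≤ M := by omega
  have hO := comb_ok hM hd
  obtain ⟨e1, e2⟩ := main_ell hd hO
  have hW := h1 _ _ _ hO _ e1 e2
  have hl : (0 : ℝ) < ellQ M d := (ip_pos hM1 _).trans_le e1
  have hP : (1 : ℝ) ≤ piN M d := by exact_mod_cast hM1.trans hO.Pi_ge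
  have hP3 : (piN M d : ℝ) ≤ (M : ℝ) ^ 3 := by exact_mod_cast hO.Pi_le
  have hS : (SS M : ℝ) = (M : ℝ) ^ 40 := by simp [SS]
  have hM2 : (1 : ℝ) ≤ M := by exact_mod_cast hM1
  have ht : (0 : ℝ) < d.tau := by exact_mod_cast hd.tau_pos
  have hS1 : (1 : ℝ) ≤ SS M := hS ▸ one_le_pow₀ hM2
  refine ⟨hO, hl, e2, hW, fun n hn => (h3 _ _ _ hW n hn).1, ?_, ?_, ?_, ?_⟩
  · have a1 := abs_le.1 (h2 _ _ _ hW)
    have a2 := abs_le.1 (h4 _ _ _ hW)
    have a3 := ip_anti hM1 (show 3300 ≤ 3500 by norm_num)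
    have a4 := ip_absorb hM1 (show (2 : ℝ) ≤ M by exact_mod_cast (by omega : 2 ≤ M))
      (show 3095 + 0 + 1 ≤ 3300 by norm_num)
    unfold e0
    rw [abs_le]
    unfold qI
    constructor <;> linarith
  · have e : (ellQ M d : ℝ) = ip M 3040 * piN M d / (2 * d.tau) := by
      unfold ellQ ip
      push_cast
      ring
    unfold tt
    rw [e]
    field_simp
  · rw [le_div_iff₀ (by positivity)]
    refine le_trans ?_ e1
    rw [← ip_mul_pow hM1 3040 46, hS]
    refine mul_le_mul_of_nonneg_left ?_ (ip_pos hM1 _).le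
    calc (piN M d : ℝ) ^ 2 * (M : ℝ) ^ 40 ≤ ((M : ℝ) ^ 3) ^ 2 * (M : ℝ) ^ 40 := by gcongr
      _ = (M : ℝ) ^ 46 := by ring
  · exact (div_le_self hl.le (one_le_mul_of_one_le_of_one_le (one_le_pow₀ hP) hS1)).trans e2

theorem main_aI (M : ℕ) (d : Disc) : ((aI M d : ℚ) : ℝ) =
    (((3 * d.n : ℕ) : ℝ) * e0Q M (ellQ M d) (qI M d) +
      (ellQ M d : ℝ) / ((piN M d : ℝ) ^ 2 * SS M) * (d.al + 1)) / (ellQ M d : ℝ) ^ 2 := by
  unfold aI
  push_cast
  ring

theorem main_valid : ∀ᶠ M : ℕ in atTop, ∀ d : Disc, d.Le M → ∀ c, (inst M d).Valid c := by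
  filter_upwards [eventually_ge_atTop 1, main_common] with M hM h d hd c
  obtain ⟨-, hl, -, -, hz, -⟩ := h d hd
  have hne : nucI M d ≠ [] := by
    have h1 : 0 < NX M := by unfold NX RR HH; positivity
    have h2 : 0 < NZ M := by unfold NZ HH; positivity
    refine List.ne_nil_of_mem (a := ((ellQ M d * gx M 0, ellQ M d * gx M 0, ellQ M d * gz M 0),
      (zz (qI M d) (0, 0, 0)).toNat)) ?_
    simp only [nucI, List.mem_flatMap, List.mem_map, List.mem_range]
    exact ⟨0, h1, 0, h1, 0, h2, rfl⟩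
  refine ⟨hne, main_nodup hM (by exact_mod_cast hl), fun p hp => ?_, ?_, ?_, ?_⟩
  · obtain ⟨n, hn, e⟩ := main_mem_nuc hp
    have := hz n hn
    omega
  · have := hd.n_pos
    show 1 ≤ 3 * d.n
    omega
  · show aI M d < aI M d + 1
    linarith
  · have h1 : 1 ≤ (binCode (inst M d).code).length := by
      unfold Inst.code binCode
      simp only [List.cons_append, List.flatMap_cons, List.length_append, List.length_cons]
      omega
    have h2 : (1 : ℚ) ≤ ((binCode (inst M d).code).length : ℚ) ^ c :=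
      one_le_pow₀ (by exact_mod_cast h1)
    show _ ≤ aI M d + 1 - aI M d
    rw [add_sub_cancel_left]
    exact (div_le_one (by linarith)).2 h2

attribute [local irreducible] ip

theorem main_ip (M k : ℕ) : (ip M k : ℝ) = ((M : ℝ) ^ k)⁻¹ := by
  unfold ip
  rfl

theorem main_no : ∀ᶠ M : ℕ in atTop, ∀ d : Disc, d.Le M → d.No →
    ((((inst M d).b : ℚ) : ℝ) : EReal) ≤ (inst M d).E0 := by
  filter_upwards [eventually_ge_atTop 10, main_common, s1d, int_low, phi_onf]
    with M hM h h1 h2 h3 d hd hno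
  obtain ⟨hO, hl, hl2, hW, hz, he, ht, hu1, hu2⟩ := h d hd
  have hM1 : 1 ≤ M := by omega
  have hM2 : (10 : ℝ) ≤ M := by exact_mod_cast hM
  set lu := (ellQ M d : ℝ) / ((piN M d : ℝ) ^ 2 * SS M) with hlu
  have p1 := ip_pos hM1 3086
  have p2 := ip_pos hM1 4
  have p3 := ip_pos hM1 540
  have p4 := ip_pos hM1 3095
  have hlu0 : 0 < lu := p1.trans_le hu1
  have hal : (d.al : ℝ) + 2 ≤ M := by exact_mod_cast hd.al_le
  have hN : ((3 * d.n : ℕ) : ℝ) ≤ M := by
    have := hd.n_le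
    exact_mod_cast (by omega : 3 * d.n ≤ M)
  have hη : 10 * (M : ℝ) ^ 1 * ip M 4 ≤ 1 := by
    simpa [ip] using ip_absorb hM1 hM2 (show 0 + 1 + 1 ≤ 4 by norm_num)
  have hη1 : 0 ≤ 1 - 5 * (ip M 4 : ℝ) := by nlinarith
  have hlam : (1 - 5 * ip M 4) * lu * (d.al + 2) ≤ ip M 540 / 2 / 2 := by
    have a1 := ip_absorb hM1 (show (4 : ℝ) ≤ M by linarith) (show 540 + 1 + 1 ≤ 3037 by norm_num)
    have a0 := ip_pos hM1 3037
    have a2 : (1 - 5 * ip M 4) * lu * (d.al + 2) ≤ 1 * ip M 3037 * M := by gcongr; linarith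
    linarith
  have key := mb_low (N := 3 * d.n) (K := 4 * d.n) (by have := hd.n_pos; omega) (h3 _ _ _ hO)
    (grid M) (fun n => (ellQ M d : ℝ) * (zz (qI M d) n : ℝ)) (node M) (E4 (4 * d.n))
    (t := (1 - 5 * ip M 4) * tt M (piN M d)) (g := ip M 540 / 2)
    (e := e0 M (comb M d) - 5 * ip M 3095) (l := ellQ M d)
    (lam := (1 - 5 * ip M 4) * lu * (d.al + 2)) (fun a b => (1 - 5 * ip M 4) * lu * d.w a b)
    (by rw [ht]; positivity) (by positivity) hl.le hlam (h1 _ _ _ hO _ _ hW)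
    (fun a b => le_trans (mul_le_mul_of_nonneg_right (mul_le_mul_of_nonneg_right (by linarith)
      hlu0.le) (Nat.cast_nonneg _)) (h2 _ _ _ hO _ hl.le a b))
    (fun C hC => by
      have a1 := mul_le_mul_of_nonneg_left (hno C hC) (mul_nonneg hη1 hlu0.le)
      rw [main_intT, ht]
      unfold Disc.form at a1
      linarith)
  have key2 := bridge_low (inst M d) hl _ fun F hF => by
    have := key F hF
    rwa [show coul (grid M) (fun n => (ellQ M d : ℝ) * (zz (qI M d) n : ℝ)) (node M) =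
      attL (ellQ M d) (inst M d).nuc from (main_att hl hz).symm] at this
  refine le_trans ?_ key2
  rw [EReal.coe_le_coe_iff, le_div_iff₀ (by positivity)]
  have e : (((inst M d).b : ℚ) : ℝ) = (aI M d : ℝ) + 1 := by simp [inst]
  rw [e, main_aI, add_mul, div_mul_cancel₀ _ (by positivity), ← hlu]
  have b1 := ip_absorb hM1 (show (6 : ℝ) ≤ M by linarith) (show 3087 + 1 + 1 ≤ 3095 by norm_num)
  have b2 : (ellQ M d : ℝ) ^ 2 ≤ ip M 6074 := by
    rw [show 6074 = 3037 + 3037 by norm_num, ip_add, sq]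
    exact mul_self_le_mul_self hl.le hl2
  have b3 := ip_anti hM1 (show 3087 ≤ 6074 by norm_num)
  have b4 := ip_absorb hM1 (show (4 : ℝ) ≤ M by linarith) (show 3087 + 544 + 1 ≤ 6074 by norm_num)
  have b5 := ip_absorb hM1 (show (6 : ℝ) ≤ M by linarith) (show 3086 + 0 + 1 ≤ 3087 by norm_num)
  have b6 : 2 * (ellQ M d : ℝ) ^ 2 * ((3 * d.n : ℕ) : ℝ) ^ 4 / (ip M 540 / 2) ≤
      4 * (M : ℝ) ^ 544 * ip M 6074 := by
    have := main_ip M 540
    rw [this]
    calc 2 * (ellQ M d : ℝ) ^ 2 * ((3 * d.n : ℕ) : ℝ) ^ 4 / (((M : ℝ) ^ 540)⁻¹ / 2)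
        = 4 * (((3 * d.n : ℕ) : ℝ) ^ 4 * (M : ℝ) ^ 540) * (ellQ M d : ℝ) ^ 2 := by field_simp; ring
      _ ≤ 4 * ((M : ℝ) ^ 4 * (M : ℝ) ^ 540) * ip M 6074 := by gcongr
      _ = _ := by ring
  have b7 : ((3 * d.n : ℕ) : ℝ) * (e0Q M (ellQ M d) (qI M d) : ℝ) ≤
      ((3 * d.n : ℕ) : ℝ) * (e0 M (comb M d) + ip M 3095) :=
    mul_le_mul_of_nonneg_left (by linarith [(abs_le.1 he).2]) (by positivity)
  have b8 : ((3 * d.n : ℕ) : ℝ) * ip M 3095 ≤ M * ip M 3095 := by gcongr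
  have b9 : lu * (ip M 4 * (d.al + 2)) ≤ lu * (ip M 4 * M) := by gcongr
  have b10 : lu * (10 * (M : ℝ) ^ 1 * ip M 4) ≤ lu * 1 := by gcongr
  nlinarith

theorem main_arith {lu al η i3 δ N ρ P e e' : ℝ} (h0 : 0 ≤ lu) (h1 : 0 ≤ al) (h2 : 0 ≤ η)
    (h3 : 0 ≤ lu * i3 * N ^ 2 + N * (2 * δ)) (h4 : 0 ≤ ρ) (c1 : P ≤ 1 + 6 * ρ)
    (c2 : N * (e + δ) ≤ N * (e' + 2 * δ)) (c3 : 100 * (N * δ) ≤ lu) (c5 : N ^ 2 * i3 ≤ 1 / 100)
    (c6 : al * η ≤ 1 / 100) (c8 : ρ * (al + 1 / 25) ≤ 1 / 100) :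
    N * (e + δ) + P * ((1 + η) * lu * al + lu * i3 * N ^ 2 + N * (2 * δ)) ≤
      N * e' + lu * (al + 1) := by
  have a1 := mul_le_mul_of_nonneg_left c5 h0
  have a2 := mul_le_mul_of_nonneg_left c6 h0
  have a3 := mul_le_mul_of_nonneg_left c8 h0
  have c7 : (1 + η) * lu * al + lu * i3 * N ^ 2 + N * (2 * δ) ≤ lu * (al + 1 / 25) := by linarith
  have a4 : 0 ≤ (1 + η) * lu * al := by positivity
  have c9 := mul_le_mul c1 c7 (by linarith) (by positivity)
  linarith

theorem main_yes : ∀ᶠ M : ℕ in atTop, ∀ d : Disc, d.Le M → d.Yes →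
    (inst M d).E0 ≤ ((((inst M d).a : ℚ) : ℝ) : EReal) := by
  filter_upwards [eventually_ge_atTop 100, main_common, s2d, int_up, mass_le]
    with M hM h h1 h2 h3 d hd hyes
  obtain ⟨hO, hl, hl2, hW, hz, he, ht, hu1, hu2⟩ := h d hd
  obtain ⟨C, hA, hH, hn, hC⟩ := hyes
  have hM1 : 1 ≤ M := by omega
  have hM2 : (100 : ℝ) ≤ M := by exact_mod_cast hM
  set lu := (ellQ M d : ℝ) / ((piN M d : ℝ) ^ 2 * SS M) with hlu
  have p1 := ip_pos hM1 3086
  have p2 := ip_pos hM1 4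
  have p3 := ip_pos hM1 3
  have p4 := ip_pos hM1 3095
  have hlu0 : 0 < lu := p1.trans_le hu1
  have hal : (d.al : ℝ) + 2 ≤ M := by exact_mod_cast hd.al_le
  have hN : ((3 * d.n : ℕ) : ℝ) ≤ M := by
    have := hd.n_le
    exact_mod_cast (by omega : 3 * d.n ≤ M)
  have hη : 100 * (M : ℝ) ^ 2 * ip M 4 ≤ 1 := by
    simpa [ip] using ip_absorb hM1 hM2 (show 0 + 2 + 1 ≤ 4 by norm_num)
  have hη2 : (M : ℝ) * ip M 4 ≤ 1 / 100 := by nlinarith
  have hη3 : (ip M 4 : ℝ) ≤ 1 / 100 := by nlinarith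
  have hη4 : (M : ℝ) ^ 2 * ip M 3 ≤ 1 / 100 := by
    have := ip_mul_pow hM1 0 3
    simp only [ip, pow_zero, inv_one, zero_add] at this
    have h5 : (0 : ℝ) ≤ (M : ℝ) ^ 2 * ((M : ℝ) ^ 3)⁻¹ := by positivity
    unfold ip
    nlinarith
  obtain ⟨F, hF, hF0, hF1⟩ := mb_up (N := 3 * d.n) (K := 4 * d.n) (by have := hd.n_pos; omega)
    (θ := th M (comb M d) (piN M d)) (f := ff M (comb M d))
    (grid M) (fun n => (ellQ M d : ℝ) * (zz (qI M d) n : ℝ)) (node M) (E4 (4 * d.n))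
    (t := (1 + ip M 4) * tt M (piN M d)) (e := e0 M (comb M d) + ip M 3095) (l := ellQ M d)
    (η := ip M 4) (δ := 2 * ip M 3095)
    (α := (1 + ip M 4) * lu * d.al + lu * ip M 3 * ((3 * d.n : ℕ) : ℝ) ^ 2)
    (fun a b => (1 + ip M 4) * lu * d.w a b + lu * ip M 3)
    (fun a => {p : E3 | 0 < ports M (comb M d) a.val (p 0) (p 1)})
    (by rw [ht]; positivity) hl.le (by positivity) p2.le (by linarith)
    (fun a b => by unfold Disc.w; positivity) (th_sm _ _ _) (ff_contDiff M (comb M d))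
    (ff_nonneg (show 2 ≤ M by omega) (comb M d)) (ff_sum M (comb M d)) (fun a => (h3 _ _ _ hO a).1)
    (fun a => (isOpen_lt continuous_const (ports_continuous _ _ _)).measurableSet)
    (fun a b hab p hp => hO.ff_eq_zero (by omega) hab hp) (fun a => (h3 _ _ _ hO a).2)
    (h1 _ _ _ hO _ _ hW)
    (fun a b hab => (h2 _ _ _ hO _ hl.le a b hab).trans (le_of_eq (by unfold Disc.w; ring)))
    C hA hH hn (by
      have a1 := main_intT2 ((1 + ip M 4) * lu) (show 0 ≤ lu * ip M 3 by positivity) d.w C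
      have a2 := mul_le_mul_of_nonneg_left hC (show 0 ≤ (1 + ip M 4) * lu by positivity)
      rw [hn] at a1
      rw [ht]
      unfold Disc.form at a2
      linarith)
  rw [show coul (grid M) (fun n => (ellQ M d : ℝ) * (zz (qI M d) n : ℝ)) (node M) =
      attL (ellQ M d) (inst M d).nuc from (main_att hl hz).symm] at hF1
  refine (bridge_up (inst M d) hl _ F hF hF0 hF1).trans ?_
  rw [EReal.coe_le_coe_iff]
  have e : (((inst M d).a : ℚ) : ℝ) = (aI M d : ℝ) := rfl
  rw [e, main_aI, ← hlu]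
  refine div_le_div_of_nonneg_right ?_ (by positivity)
  set N : ℝ := ((3 * d.n : ℕ) : ℝ) with hNd
  have hN0 : 0 ≤ N := by positivity
  have c1 : ((1 + ip M 4) / (1 - ip M 4) : ℝ) ^ (3 * d.n) ≤ 1 + 6 * (M * ip M 4) := by
    have a1 : ((1 + ip M 4) / (1 - ip M 4) : ℝ) ≤ Real.exp (3 * ip M 4) := by
      refine le_trans ?_ (Real.add_one_le_exp _)
      rw [div_le_iff₀ (by linarith)]
      nlinarith
    have a2 : N * (3 * ip M 4) ≤ M * (3 * ip M 4) := by gcongr
    have a3 := (abs_le.1 (Real.abs_exp_sub_one_le (x := N * (3 * ip M 4))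
      (by rw [abs_of_nonneg (by positivity)]; linarith))).2
    rw [abs_of_nonneg (by positivity)] at a3
    calc _ ≤ Real.exp (3 * ip M 4) ^ (3 * d.n) :=
          pow_le_pow_left₀ (div_nonneg (by linarith) (by linarith)) a1 _
      _ = Real.exp (N * (3 * ip M 4)) := (Real.exp_nat_mul _ _).symm
      _ ≤ _ := by linarith
  have c2 : N * (e0 M (comb M d) + ip M 3095) ≤
      N * ((e0Q M (ellQ M d) (qI M d) : ℝ) + 2 * ip M 3095) :=
    mul_le_mul_of_nonneg_left (by linarith [(abs_le.1 he).1]) hN0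
  have c3 : N * ip M 3095 ≤ M * ip M 3095 := by gcongr
  have c4 := ip_absorb hM1 hM2 (show 3086 + 1 + 1 ≤ 3095 by norm_num)
  have c5 : N ^ 2 * ip M 3 ≤ (M : ℝ) ^ 2 * ip M 3 := by gcongr
  have c6 : (d.al : ℝ) * ip M 4 ≤ M * ip M 4 := mul_le_mul_of_nonneg_right (by linarith) p2.le
  rw [pow_one] at c4
  exact main_arith hlu0.le (Nat.cast_nonneg _) p2.le (by positivity) (by positivity) c1 c2
    (by linarith) (c5.trans hη4) (c6.trans hη2) (by
      have : (M * ip M 4) * ((d.al : ℝ) + 1 / 25) ≤ (M * ip M 4) * M :=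
        mul_le_mul_of_nonneg_left (by linarith) (by positivity)
      linarith)

open Vale.Agent.Lib.PolyTime in
theorem main_hard (c : ℕ) : QMAHard c := by
  intro Y No ⟨f, hf, hY, hN⟩
  obtain ⟨M0, hM0⟩ := eventually_atTop.1 (main_valid.and (main_no.and main_yes))
  have hle : ∀ C : Circ, C.raw.disc.Le (C.raw.bnd + M0) := fun C => disc_le _ (by omega)
  refine ⟨fun x => inst ((f x).raw.bnd + M0) (f x).raw.disc, ?_, fun x => ?_⟩
  · have h1 : PT fun w : List Bool => parseR (P325.Fnl.dec w) := pt_parseR.comp P325.Fnl.pt_dec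
    have h2 : PT fun r : Raw => (inst (r.bnd + M0) r.disc).code :=
      pt_inst (pt_bnd.add (PT.const M0)) (pb_bnd.add (PB.const M0)) pt_disc
        fun r => (disc_le r (Nat.le_add_right _ _)).n_le
    refine hf.comp_pt (fun C => inst (C.raw.bnd + M0) C.raw.disc)
      (P325.Fnl.pt_bitsOf.comp (h2.comp h1)) fun C => ?_
    have e : P325.Fnl.dec (binCode C.code) = C.code := P325.Fnl.dec_bitsOf _
    rw [e, parseR_code]
    rfl
  · obtain ⟨h1, h2, h3⟩ := hM0 ((f x).raw.bnd + M0) (by omega)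
    exact ⟨h1 _ (hle _) c, fun hx => h3 _ (hle _) (disc_yes _ (hY x hx)),
      fun hx => h2 _ (hle _) (disc_no _ (hN x hx))⟩

end Vale.Agent.P370
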