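import Vale.Agent.P370.PoinA

/-! Weighted Poincare inequalities. -/

namespace Vale.Agent.P370

open MeasureTheory Filter
open scoped Classical

theorem cube_isCompact (c : E3) (ρ : ℝ) : IsCompact (cube c ρ) := by
  have e : cube c ρ = (fun q : ℝ × ℝ × ℝ => c + (!₂[q.1, q.2.1, q.2.2] : E3)) ''
      (Set.Icc (-ρ) ρ ×ˢ Set.Icc (-ρ) ρ ×ˢ Set.Icc (-ρ) ρ) := by
    ext p
    have e1 : c + (!₂[p 0 - c 0, p 1 - c 1, p 2 - c 2] : E3) = p := by
      ext k
      fin_cases k <;> simp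
    constructor
    · intro hp
      refine ⟨(p 0 - c 0, p 1 - c 1, p 2 - c 2), ?_, e1⟩
      rw [← e1] at hp
      exact (poin_cube_mem _ _ _ _ _).1 hp
    · rintro ⟨q, hq, rfl⟩
      exact (poin_cube_mem _ _ _ _ _).2 hq
  rw [e]
  exact (isCompact_Icc.prod (isCompact_Icc.prod isCompact_Icc)).image
    (continuous_const.add poin_cont)

theorem cube_volume (c : E3) {ρ : ℝ} (h : 0 ≤ ρ) : volume.real (cube c ρ) = (2 * ρ) ^ 3 := by
  have h1 := poin_cube (F := fun _ => (1 : ℝ)) continuous_const c h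
  simp only [integral_const, MeasurableSet.univ, measureReal_restrict_apply, Set.univ_inter,
    smul_eq_mul, mul_one, intervalIntegral.integral_const] at h1
  rw [h1]
  ring

theorem poin_mono3 {F F' : ℝ × ℝ × ℝ → ℝ} (hF : Continuous F) (hF' : Continuous F') {L : ℝ}
    (hL : 0 ≤ L) (h : ∀ x ∈ Set.Icc (-L) L, ∀ y ∈ Set.Icc (-L) L, ∀ z ∈ Set.Icc (-L) L,
      F (x, y, z) ≤ F' (x, y, z)) :
    ∫ x in -L..L, ∫ y in -L..L, ∫ z in -L..L, F (x, y, z) ≤
      ∫ x in -L..L, ∫ y in -L..L, ∫ z in -L..L, F' (x, y, z) := by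
  have c2 : ∀ {G : ℝ × ℝ × ℝ → ℝ}, Continuous G →
      Continuous fun q : ℝ × ℝ => ∫ z in -L..L, G (q.1, q.2, z) := fun hG =>
    poin_par (by unfold Function.uncurry; fun_prop) _ _
  have c1 : ∀ {G : ℝ × ℝ × ℝ → ℝ}, Continuous G →
      Continuous fun x : ℝ => ∫ y in -L..L, ∫ z in -L..L, G (x, y, z) := fun hG =>
    poin_par (c2 hG) _ _
  refine intervalIntegral.integral_mono_on (by linarith) ((c1 hF).intervalIntegrable _ _)
    ((c1 hF').intervalIntegrable _ _) fun x hx => ?_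
  refine intervalIntegral.integral_mono_on (by linarith)
    (((c2 hF).comp (continuous_const.prodMk continuous_id)).intervalIntegrable _ _)
    (((c2 hF').comp (continuous_const.prodMk continuous_id)).intervalIntegrable _ _)
    fun y hy => ?_
  exact intervalIntegral.integral_mono_on (by linarith)
    (Continuous.intervalIntegrable (by fun_prop) _ _)
    (Continuous.intervalIntegrable (by fun_prop) _ _) fun z hz => h x hx y hy z hz

theorem poin_rot1 {F : ℝ × ℝ × ℝ → ℝ} (hF : Continuous F) (L : ℝ) :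
    ∫ y in -L..L, ∫ z in -L..L, ∫ x in -L..L, F (x, y, z) =
      ∫ x in -L..L, ∫ y in -L..L, ∫ z in -L..L, F (x, y, z) := by
  rw [poin_swap (F := fun x y => ∫ z in -L..L, F (x, y, z))
    (poin_par (X := ℝ × ℝ) (by unfold Function.uncurry; fun_prop) _ _)]
  exact intervalIntegral.integral_congr fun y _ =>
    poin_swap (F := fun z x => F (x, y, z)) (by unfold Function.uncurry; fun_prop) _ _ _ _

theorem poin_rot2 {F : ℝ × ℝ × ℝ → ℝ} (hF : Continuous F) (L : ℝ) :
    ∫ z in -L..L, ∫ x in -L..L, ∫ y in -L..L, F (x, y, z) =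
      ∫ x in -L..L, ∫ y in -L..L, ∫ z in -L..L, F (x, y, z) := by
  rw [poin_swap (F := fun z x => ∫ y in -L..L, F (x, y, z))
    (poin_par (X := ℝ × ℝ) (by unfold Function.uncurry; fun_prop) _ _)]
  exact intervalIntegral.integral_congr fun x _ =>
    poin_swap (F := fun z y => F (x, y, z)) (by unfold Function.uncurry; fun_prop) _ _ _ _

section Main

variable {a0 a1 a2 : ℝ → ℝ} {L ρ κ : ℝ} {G G0 G1 G2 : ℝ × ℝ × ℝ → ℝ}

theorem poin_pt (c0 : Continuous a0) (c1 : Continuous a1) (c2 : Continuous a2)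
    (n0 : ∀ x, 0 ≤ a0 x) (n1 : ∀ x, 0 ≤ a1 x) (n2 : ∀ x, 0 ≤ a2 x)
    (hρ : 0 < ρ) (hL : ρ ≤ L) (hκ : 1 ≤ κ)
    (q0 : ∀ x s, |s| ≤ max |x| ρ → a0 x ≤ κ * a0 s) (q1 : ∀ x s, |s| ≤ max |x| ρ → a1 x ≤ κ * a1 s)
    (q2 : ∀ x s, |s| ≤ max |x| ρ → a2 x ≤ κ * a2 s)
    (hG : Continuous G) (hG0 : Continuous G0) (hG1 : Continuous G1) (hG2 : Continuous G2)
    (d0 : ∀ x y z, HasDerivAt (fun t => G (t, y, z)) (G0 (x, y, z)) x)
    (d1 : ∀ x y z, HasDerivAt (fun t => G (x, t, z)) (G1 (x, y, z)) y)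
    (d2 : ∀ x y z, HasDerivAt (fun t => G (x, y, t)) (G2 (x, y, z)) z)
    {x y z : ℝ} (hx : x ∈ Set.Icc (-L) L) (hy : y ∈ Set.Icc (-L) L) (hz : z ∈ Set.Icc (-L) L) :
    a0 x * a1 y * a2 z *
        (G (x, y, z) - poinAv ρ fun x => poinAv ρ fun y => poinAv ρ fun z => G (x, y, z)) ^ 2 ≤
      6 * L * κ * ((∫ s in -L..L, a0 s * a1 y * a2 z * G0 (s, y, z) ^ 2) +
        (κ / (2 * ρ) * (∫ s in -L..L, ∫ t in -L..L, a0 s * a1 t * a2 z * G1 (s, t, z) ^ 2) +
        (κ / (2 * ρ)) ^ 2 * ∫ s in -L..L, ∫ t in -L..L, ∫ r in -L..L,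
          a0 s * a1 t * a2 r * G2 (s, t, r) ^ 2)) := by
  have k3 : Continuous fun q : ℝ × ℝ => poinAv ρ fun r => G (q.1, q.2, r) :=
    poin_av_par (by unfold Function.uncurry; fun_prop) ρ
  have k2 : Continuous fun s : ℝ => poinAv ρ fun t => G (s, t, z) :=
    poin_av_par (by unfold Function.uncurry; fun_prop) ρ
  have k23 : Continuous fun s : ℝ => poinAv ρ fun t => poinAv ρ fun r => G (s, t, r) :=
    poin_av_par k3 ρ
  have k4 : Continuous fun q : ℝ × ℝ => G (q.1, q.2, z) - poinAv ρ fun r => G (q.1, q.2, r) :=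
    Continuous.sub (by fun_prop) k3
  have k5 : Continuous fun s : ℝ =>
      poinAv ρ fun t => G (s, t, z) - poinAv ρ fun r => G (s, t, r) := poin_av_par k4 ρ
  have w1 : Continuous fun s : ℝ => ∫ t in -L..L, a0 s * a1 t * a2 z * G1 (s, t, z) ^ 2 :=
    poin_par (by unfold Function.uncurry; fun_prop) _ _
  have w2 : Continuous fun q : ℝ × ℝ =>
      ∫ r in -L..L, a0 q.1 * a1 q.2 * a2 r * G2 (q.1, q.2, r) ^ 2 :=
    poin_par (by unfold Function.uncurry; fun_prop) _ _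
  have w3 : Continuous fun s : ℝ => ∫ t in -L..L, ∫ r in -L..L,
      a0 s * a1 t * a2 r * G2 (s, t, r) ^ 2 := poin_par w2 _ _
  have t0 := poin_1d c0 n0 hρ hL hκ q0 (fun t => d0 t y z) (by fun_prop)
    (mul_nonneg (n1 y) (n2 z)) hx
  have t1 := poin_avg c0 n0 hρ hL hκ q0
    (u := fun s => G (s, y, z) - poinAv ρ fun t => G (s, t, z))
    (w := fun s : ℝ => 2 * L * κ * ∫ t in -L..L, a0 s * a1 t * a2 z * G1 (s, t, z) ^ 2)
    (Continuous.sub (by fun_prop) k2) (continuous_const.mul w1)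
    (mul_nonneg (n1 y) (n2 z)) (fun s _ => by
      have := poin_1d c1 n1 hρ hL hκ q1 (fun t => d1 s t z) (by fun_prop)
        (mul_nonneg (n0 s) (n2 z)) hy
      refine (le_of_eq (by ring)).trans (this.trans (le_of_eq ?_))
      congr 1
      exact intervalIntegral.integral_congr fun t _ => by ring) x
  have t2 := poin_avg c0 n0 hρ hL hκ q0
    (w := fun s : ℝ => (κ / (2 * ρ) * (2 * L * κ)) * ∫ t in -L..L, ∫ r in -L..L,
        a0 s * a1 t * a2 r * G2 (s, t, r) ^ 2) k5 (continuous_const.mul w3)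
    (mul_nonneg (n1 y) (n2 z)) (fun s _ => by
      have := poin_avg c1 n1 hρ hL hκ q1
        (u := fun t => G (s, t, z) - poinAv ρ fun r => G (s, t, r))
        (w := fun t : ℝ => 2 * L * κ * ∫ r in -L..L, a0 s * a1 t * a2 r * G2 (s, t, r) ^ 2)
        (k4.comp (continuous_const.prodMk continuous_id))
        (continuous_const.mul (w2.comp (continuous_const.prodMk continuous_id)))
        (mul_nonneg (n0 s) (n2 z)) (fun t _ => by
          have := poin_1d c2 n2 hρ hL hκ q2 (fun r => d2 s t r) (by fun_prop)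
            (mul_nonneg (n0 s) (n1 t)) hz
          refine (le_of_eq (by ring)).trans (this.trans (le_of_eq ?_))
          congr 1
          exact intervalIntegral.integral_congr fun t _ => by ring) y
      rw [intervalIntegral.integral_const_mul] at this
      refine (le_of_eq (by ring)).trans (this.trans (le_of_eq (by ring)))) x
  rw [intervalIntegral.integral_const_mul] at t1 t2
  have e0 : ∫ s in -L..L, a0 s * (a1 y * a2 z * G0 (s, y, z) ^ 2) =
      ∫ s in -L..L, a0 s * a1 y * a2 z * G0 (s, y, z) ^ 2 :=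
    intervalIntegral.integral_congr fun t _ => by ring
  rw [e0] at t0
  have e1 : (poinAv ρ fun s => poinAv ρ fun t => G (s, t, z) - poinAv ρ fun r => G (s, t, r)) =
      (poinAv ρ fun s => poinAv ρ fun t => G (s, t, z)) -
        poinAv ρ fun s => poinAv ρ fun t => poinAv ρ fun r => G (s, t, r) := by
    rw [← poin_av_sub' k2 k23]
    congr 1
    funext s
    exact poin_av_sub' (by fun_prop) (k3.comp (continuous_const.prodMk continuous_id))
  rw [poin_av_sub' (by fun_prop) k2] at t1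
  rw [e1] at t2
  set A := G (x, y, z) - poinAv ρ fun s => G (s, y, z) with hA
  set B := (poinAv ρ fun s => G (s, y, z)) - poinAv ρ fun s => poinAv ρ fun t => G (s, t, z)
    with hB
  set C := (poinAv ρ fun s => poinAv ρ fun t => G (s, t, z)) -
    poinAv ρ fun s => poinAv ρ fun t => poinAv ρ fun r => G (s, t, r) with hC
  have e2 : (G (x, y, z) - poinAv ρ fun x => poinAv ρ fun y => poinAv ρ fun z => G (x, y, z)) =
      A + B + C := by
    rw [hA, hB, hC]
    ring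
  have e3 : (A + B + C) ^ 2 ≤ 3 * (A ^ 2 + B ^ 2 + C ^ 2) := by
    nlinarith [sq_nonneg (A - B), sq_nonneg (B - C), sq_nonneg (A - C)]
  have e4 := mul_le_mul_of_nonneg_left e3 (mul_nonneg (mul_nonneg (n0 x) (n1 y)) (n2 z))
  rw [e2]
  refine e4.trans ?_
  linarith

theorem poin_3d (c0 : Continuous a0) (c1 : Continuous a1) (c2 : Continuous a2)
    (n0 : ∀ x, 0 ≤ a0 x) (n1 : ∀ x, 0 ≤ a1 x) (n2 : ∀ x, 0 ≤ a2 x)
    (hρ : 0 < ρ) (hL : ρ ≤ L) (hκ : 1 ≤ κ)
    (q0 : ∀ x s, |s| ≤ max |x| ρ → a0 x ≤ κ * a0 s) (q1 : ∀ x s, |s| ≤ max |x| ρ → a1 x ≤ κ * a1 s)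
    (q2 : ∀ x s, |s| ≤ max |x| ρ → a2 x ≤ κ * a2 s)
    (hG : Continuous G) (hG0 : Continuous G0) (hG1 : Continuous G1) (hG2 : Continuous G2)
    (d0 : ∀ x y z, HasDerivAt (fun t => G (t, y, z)) (G0 (x, y, z)) x)
    (d1 : ∀ x y z, HasDerivAt (fun t => G (x, t, z)) (G1 (x, y, z)) y)
    (d2 : ∀ x y z, HasDerivAt (fun t => G (x, y, t)) (G2 (x, y, z)) z) :
    ∫ x in -L..L, ∫ y in -L..L, ∫ z in -L..L, a0 x * a1 y * a2 z *
        (G (x, y, z) - poinAv ρ fun x => poinAv ρ fun y => poinAv ρ fun z => G (x, y, z)) ^ 2 ≤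
      12 * L ^ 2 * κ ^ 3 * (L / ρ) ^ 2 *
        ((∫ x in -L..L, ∫ y in -L..L, ∫ z in -L..L, a0 x * a1 y * a2 z * G0 (x, y, z) ^ 2) +
        (∫ x in -L..L, ∫ y in -L..L, ∫ z in -L..L, a0 x * a1 y * a2 z * G1 (x, y, z) ^ 2) +
        ∫ x in -L..L, ∫ y in -L..L, ∫ z in -L..L, a0 x * a1 y * a2 z * G2 (x, y, z) ^ 2) := by
  have hL0 : 0 ≤ L := by linarith
  have p0 : Continuous fun q : ℝ × ℝ => ∫ s in -L..L, a0 s * a1 q.1 * a2 q.2 * G0 (s, q.1, q.2) ^ 2 :=
    poin_par (by unfold Function.uncurry; fun_prop) _ _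
  have p1 : Continuous fun z : ℝ =>
      ∫ s in -L..L, ∫ t in -L..L, a0 s * a1 t * a2 z * G1 (s, t, z) ^ 2 :=
    poin_par (poin_par (X := ℝ × ℝ) (by unfold Function.uncurry; fun_prop) _ _) _ _
  have r0 := poin_rot1 (F := fun q => a0 q.1 * a1 q.2.1 * a2 q.2.2 * G0 q ^ 2) (by fun_prop) L
  have r1 := poin_rot2 (F := fun q => a0 q.1 * a1 q.2.1 * a2 q.2.2 * G1 q ^ 2) (by fun_prop) L
  have nn : ∀ H : ℝ × ℝ × ℝ → ℝ,
      0 ≤ ∫ x in -L..L, ∫ y in -L..L, ∫ z in -L..L, a0 x * a1 y * a2 z * H (x, y, z) ^ 2 :=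
    fun H => intervalIntegral.integral_nonneg (by linarith) fun x _ =>
      intervalIntegral.integral_nonneg (by linarith) fun y _ =>
        intervalIntegral.integral_nonneg (by linarith) fun z _ =>
          mul_nonneg (mul_nonneg (mul_nonneg (n0 x) (n1 y)) (n2 z)) (sq_nonneg _)
  have m0 := nn G0
  have m1 := nn G1
  have m2 := nn G2
  simp only at r0 r1
  set E0 := ∫ x in -L..L, ∫ y in -L..L, ∫ z in -L..L, a0 x * a1 y * a2 z * G0 (x, y, z) ^ 2
  set E1 := ∫ x in -L..L, ∫ y in -L..L, ∫ z in -L..L, a0 x * a1 y * a2 z * G1 (x, y, z) ^ 2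
  set E2 := ∫ x in -L..L, ∫ y in -L..L, ∫ z in -L..L, a0 x * a1 y * a2 z * G2 (x, y, z) ^ 2
    with hE2
  set P : ℝ × ℝ → ℝ := fun q => ∫ s in -L..L, a0 s * a1 q.1 * a2 q.2 * G0 (s, q.1, q.2) ^ 2
    with hP
  set Q : ℝ → ℝ := fun z => ∫ s in -L..L, ∫ t in -L..L, a0 s * a1 t * a2 z * G1 (s, t, z) ^ 2
    with hQ
  have h1 := poin_mono3 (F := fun q => a0 q.1 * a1 q.2.1 * a2 q.2.2 *
      (G q - poinAv ρ fun x => poinAv ρ fun y => poinAv ρ fun z => G (x, y, z)) ^ 2)
    (F' := fun q => 6 * L * κ * (P q.2 + (κ / (2 * ρ) * Q q.2.2 + (κ / (2 * ρ)) ^ 2 * E2)))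
    (by fun_prop) (by fun_prop) hL0 fun x hx y hy z hz =>
      poin_pt c0 c1 c2 n0 n1 n2 hρ hL hκ q0 q1 q2 hG hG0 hG1 hG2 d0 d1 d2 hx hy hz
  refine h1.trans ?_
  have e1 : ∀ y, ∫ z in -L..L, (P (y, z) + (κ / (2 * ρ) * Q z + (κ / (2 * ρ)) ^ 2 * E2)) =
      (∫ z in -L..L, P (y, z)) + (κ / (2 * ρ) * E1 + 2 * L * ((κ / (2 * ρ)) ^ 2 * E2)) := by
    intro y
    rw [intervalIntegral.integral_add (Continuous.intervalIntegrable (by fun_prop) _ _)
        (Continuous.intervalIntegrable (by fun_prop) _ _),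
      intervalIntegral.integral_add (Continuous.intervalIntegrable (by fun_prop) _ _)
        intervalIntegrable_const, intervalIntegral.integral_const_mul, r1,
      intervalIntegral.integral_const, smul_eq_mul]
    ring
  simp only [intervalIntegral.integral_const_mul, e1]
  rw [intervalIntegral.integral_add ((poin_par (F := fun y z => P (y, z)) p0 _ _).intervalIntegrable
    _ _) intervalIntegrable_const, r0, intervalIntegral.integral_const,
    intervalIntegral.integral_const, smul_eq_mul, smul_eq_mul]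
  have u1 : 1 ≤ L / ρ := (one_le_div hρ).2 hL
  have u2 : 1 ≤ κ * (L / ρ) := one_le_mul_of_one_le_of_one_le hκ u1
  have u3 : κ * (L / ρ) ≤ (κ * (L / ρ)) ^ 2 := by nlinarith
  have u4 : E0 + κ * (L / ρ) * E1 + (κ * (L / ρ)) ^ 2 * E2 ≤ (κ * (L / ρ)) ^ 2 * (E0 + E1 + E2) := by
    nlinarith [mul_le_mul_of_nonneg_right (u2.trans u3) m0, mul_le_mul_of_nonneg_right u3 m1]
  calc _ = 12 * L ^ 2 * κ * (E0 + κ * (L / ρ) * E1 + (κ * (L / ρ)) ^ 2 * E2) := by
        field_simp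
        ring
    _ ≤ 12 * L ^ 2 * κ * ((κ * (L / ρ)) ^ 2 * (E0 + E1 + E2)) :=
        mul_le_mul_of_nonneg_left u4 (by positivity)
    _ = _ := by ring

end Main

theorem poin_pd_cont {f : E3 → ℝ} (hf : ContDiff ℝ 1 f) (k : Fin 3) : Continuous (pd k f) :=
  (hf.continuous_fderiv one_ne_zero).clm_apply continuous_const

/-- Poincare inequality for weights that decrease away from the centre. -/
theorem poinA {a : Fin 3 → ℝ → ℝ} (ha : ∀ k, Continuous (a k)) (h0 : ∀ k x, 0 ≤ a k x)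
    {Lg ρ κ : ℝ} (hρ : 0 < ρ) (hL : ρ ≤ Lg) (hκ : 1 ≤ κ)
    (hq : ∀ k x s, |s| ≤ max |x| ρ → a k x ≤ κ * a k s) {f : E3 → ℝ} (hf : ContDiff ℝ 1 f)
    (c : E3) :
    ∫ p in cube c Lg, (∏ k, a k (p k - c k)) * (f p - avgc c ρ f) ^ 2 ≤
      12 * Lg ^ 2 * κ ^ 3 * (Lg / ρ) ^ 2 *
        ∑ j, ∫ p in cube c Lg, (∏ k, a k (p k - c k)) * pd j f p ^ 2 := by
  have hL0 : 0 ≤ Lg := by linarith
  have hc := hf.continuous
  have hd := hf.differentiable one_ne_zero
  have hw : Continuous fun p : E3 => ∏ k, a k (p k - c k) :=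
    continuous_finsetProd _ fun k _ => (ha k).comp (by fun_prop)
  have hφ : Continuous fun q : ℝ × ℝ × ℝ => c + (!₂[q.1, q.2.1, q.2.2] : E3) :=
    continuous_const.add poin_cont
  have ew : ∀ x y z : ℝ, ∏ k, a k ((c + (!₂[x, y, z] : E3)) k - c k) = a 0 x * a 1 y * a 2 z := by
    intro x y z
    rw [Fin.prod_univ_three]
    simp
  have ea : avgc c ρ f = poinAv ρ fun x => poinAv ρ fun y => poinAv ρ fun z =>
      f (c + (!₂[x, y, z] : E3)) := by
    unfold avgc poinAv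
    rw [poin_cube hc c hρ.le]
    simp only [intervalIntegral.integral_div]
    field_simp
  have l0 : ∀ t y z : ℝ, c + (!₂[t, y, z] : E3) = c + !₂[0, y, z] + t • ev 0 := by
    intro t y z
    ext k
    fin_cases k <;> simp [ev]
  have l1 : ∀ x t z : ℝ, c + (!₂[x, t, z] : E3) = c + !₂[x, 0, z] + t • ev 1 := by
    intro t y z
    ext k
    fin_cases k <;> simp [ev]
  have l2 : ∀ x y t : ℝ, c + (!₂[x, y, t] : E3) = c + !₂[x, y, 0] + t • ev 2 := by
    intro t y z
    ext k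
    fin_cases k <;> simp [ev]
  have i0 : ∀ {u : E3 → ℝ}, Continuous u →
      Continuous fun p : E3 => (∏ k, a k (p k - c k)) * u p ^ 2 := fun hu => hw.mul (hu.pow 2)
  rw [Fin.sum_univ_three,
    poin_cube (i0 (u := fun p => f p - avgc c ρ f) (hc.sub continuous_const)) c hL0,
    poin_cube (i0 (poin_pd_cont hf 0)) c hL0, poin_cube (i0 (poin_pd_cont hf 1)) c hL0,
    poin_cube (i0 (poin_pd_cont hf 2)) c hL0, ea]
  simp only [ew]
  exact poin_3d (G := fun q => f (c + (!₂[q.1, q.2.1, q.2.2] : E3)))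
    (G0 := fun q => pd 0 f (c + (!₂[q.1, q.2.1, q.2.2] : E3)))
    (G1 := fun q => pd 1 f (c + (!₂[q.1, q.2.1, q.2.2] : E3)))
    (G2 := fun q => pd 2 f (c + (!₂[q.1, q.2.1, q.2.2] : E3)))
    (ha 0) (ha 1) (ha 2) (h0 0) (h0 1) (h0 2) hρ hL hκ (hq 0) (hq 1) (hq 2) (hc.comp hφ)
    ((poin_pd_cont hf 0).comp hφ) ((poin_pd_cont hf 1).comp hφ) ((poin_pd_cont hf 2).comp hφ)
    (fun x y z => by
      have := hasDerivAt_line hd 0 (c + !₂[0, y, z]) x
      simpa only [← l0] using this)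
    (fun x y z => by
      have := hasDerivAt_line hd 1 (c + !₂[x, 0, z]) y
      simpa only [← l1] using this)
    (fun x y z => by
      have := hasDerivAt_line hd 2 (c + !₂[x, y, 0]) z
      simpa only [← l2] using this)

/-- Averages over neighbouring cubes. -/
theorem poinB {ρ : ℝ} (hρ : 0 < ρ) {f : E3 → ℝ} (hf : ContDiff ℝ 1 f) (c : E3) (j : Fin 3) :
    (avgc (c + ev j) ρ f - avgc c ρ f) ^ 2 ≤
      (∫ p in {p ∈ cube c (1 + ρ) | ∀ k, k ≠ j → |p k - c k| ≤ ρ}, pd j f p ^ 2) / (2 * ρ) ^ 3 := by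
  have hc := hf.continuous
  have hd := hf.differentiable one_ne_zero
  have hp := poin_pd_cont hf j
  set S := {p ∈ cube c (1 + ρ) | ∀ k, k ≠ j → |p k - c k| ≤ ρ} with hS
  set T := ∫ p in S, pd j f p ^ 2 with hT
  have hV : (0 : ℝ) < (2 * ρ) ^ 3 := by positivity
  have tr : ∀ (v : E3) (F : E3 → ℝ), ∫ p in cube (c + v) ρ, F p = ∫ p in cube c ρ, F (p + v) := by
    intro v F
    rw [← (measurePreserving_add_right volume v).setIntegral_preimage_emb
      (Homeomorph.addRight v).measurableEmbedding]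
    congr 2
    ext p
    simp [cube]
  have hI : ∀ {F : E3 → ℝ}, Continuous F → ∀ (c : E3) (r : ℝ), IntegrableOn F (cube c r) :=
    fun hF c r => hF.continuousOn.integrableOn_compact (cube_isCompact c r)
  have : ∀ c : E3, IsFiniteMeasure (volume.restrict (cube c ρ)) := fun c =>
    ⟨by simpa using (cube_isCompact c ρ).measure_lt_top⟩
  have h1 : (∫ p in cube (c + ev j) ρ, f p) - ∫ p in cube c ρ, f p =
      ∫ s in (0 : ℝ)..1, ∫ p in cube c ρ, pd j f (p + s • ev j) := by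
    rw [tr, ← integral_sub (hI (by fun_prop) _ _) (hI hc _ _), intervalIntegral_integral_swap]
    · refine integral_congr_ae (.of_forall fun p => ?_)
      have := intervalIntegral.integral_eq_sub_of_hasDerivAt (a := 0) (b := 1)
        (fun t _ => hasDerivAt_line hd j p t) (Continuous.intervalIntegrable (by fun_prop) _ _)
      simpa using this.symm
    · rw [Measure.prod_restrict]
      refine IntegrableOn.mono_set (ContinuousOn.integrableOn_compact
        (isCompact_uIcc.prod (cube_isCompact c ρ)) (Continuous.continuousOn ?_))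
        (Set.prod_mono Set.uIoc_subset_uIcc le_rfl)
      unfold Function.uncurry
      fun_prop
  have h2 : ∀ s ∈ Set.uIoc (0 : ℝ) 1,
      ‖∫ p in cube c ρ, pd j f (p + s • ev j)‖ ≤ Real.sqrt ((2 * ρ) ^ 3 * T) := by
    intro s hs
    rw [Set.uIoc_of_le zero_le_one] at hs
    refine Real.abs_le_sqrt ?_
    rw [← tr (s • ev j) (pd j f)]
    refine (poin_cs (hI hp _ _) (hI (hp.pow 2) _ _)).trans ?_
    rw [measureReal_restrict_apply_univ, cube_volume _ hρ.le]
    refine mul_le_mul_of_nonneg_left (setIntegral_mono_set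
      ((hI (hp.pow 2) c (1 + ρ)).mono_set (Set.sep_subset _ _))
      (.of_forall fun p => sq_nonneg _) (LE.le.eventuallyLE fun p hp => ?_)) hV.le
    refine ⟨fun k => ?_, fun k hk => ?_⟩
    · have h3 := hp k
      by_cases hk : k = j
      · subst hk
        simp only [ev, PiLp.add_apply, PiLp.smul_apply, PiLp.single_apply, if_true,
          smul_eq_mul, mul_one] at h3
        have := abs_le.1 h3
        exact abs_le.2 ⟨by linarith [hs.1], by linarith [hs.2]⟩
      · simp only [ev, PiLp.add_apply, PiLp.smul_apply, PiLp.single_apply, if_neg hk,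
          smul_eq_mul, mul_zero, add_zero] at h3
        linarith
    · simpa only [ev, PiLp.add_apply, PiLp.smul_apply, PiLp.single_apply, if_neg hk,
        smul_eq_mul, mul_zero, add_zero] using hp k
  have h3 := intervalIntegral.norm_integral_le_of_norm_le_const h2
  have hT0 : 0 ≤ T := integral_nonneg fun p => sq_nonneg _
  rw [← h1, sub_zero, abs_one, mul_one, Real.norm_eq_abs] at h3
  have h4 := pow_le_pow_left₀ (abs_nonneg _) h3 2
  rw [sq_abs, Real.sq_sqrt (by positivity)] at h4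
  unfold avgc
  rw [← sub_div, div_pow, div_le_div_iff₀ (by positivity) hV]
  nlinarith

end Vale.Agent.P370
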