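import Vale.Agent.P370.LayF
import Vale.Agent.P370.Poin

/-! Local averages at the nodes of a layout. -/

namespace Vale.Agent.P370

open MeasureTheory Filter
open scoped Classical

theorem node_pd_cont {f : E3 → ℝ} (hf : Sm f) (k : Fin 3) : Continuous (pd k f) :=
  (hf.1.continuous_fderiv one_ne_zero).clm_apply continuous_const

theorem node_integrable (M : ℕ) (L : Lay) {f : E3 → ℝ} (hf : Sm f) (k : Fin 3) :
    Integrable fun p => TH M L p ^ 2 * pd k f p ^ 2 := by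
  have h1 : HasCompactSupport (pd k f) := hf.2.fderiv_apply ℝ (ev k)
  have h2 : HasCompactSupport fun p => pd k f p ^ 2 := h1.comp_left (g := fun t => t ^ 2) (by simp)
  exact Continuous.integrable_of_hasCompactSupport
    (((TH_contDiff M L).continuous.pow 2).mul ((node_pd_cont hf k).pow 2)) h2.mul_left

theorem node_int_le (M : ℕ) (L : Lay) {f : E3 → ℝ} (hf : Sm f) (k : Fin 3) {S : Set E3}
    (hS : IsCompact S) {w : E3 → ℝ} (hw : Continuous w) (h : ∀ p ∈ S, w p ≤ TH M L p ^ 2) :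
    ∫ p in S, w p * pd k f p ^ 2 ≤ ∫ p, TH M L p ^ 2 * pd k f p ^ 2 := by
  refine le_trans (setIntegral_mono_on
    ((hw.mul ((node_pd_cont hf k).pow 2)).continuousOn.integrableOn_compact hS)
    (node_integrable M L hf k).integrableOn hS.measurableSet
    fun p hp => mul_le_mul_of_nonneg_right (h p hp) (sq_nonneg _)) ?_
  exact setIntegral_le_integral (node_integrable M L hf k) (.of_forall fun p => by positivity)

theorem node_single_le (M : ℕ) (L : Lay) (f : E3 → ℝ) (k : Fin 3) :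
    ∫ p, TH M L p ^ 2 * pd k f p ^ 2 ≤ 2 * EE M L f := by
  have := Finset.single_le_sum (f := fun k => ∫ p, TH M L p ^ 2 * pd k f p ^ 2)
    (fun k _ => integral_nonneg fun p => by positivity) (Finset.mem_univ k)
  unfold EE
  linarith

theorem node_EE_nonneg (M : ℕ) (L : Lay) (f : E3 → ℝ) : 0 ≤ EE M L f :=
  div_nonneg (Finset.sum_nonneg fun _ _ => integral_nonneg fun p => by positivity) zero_le_two

theorem node_Gam_cont (M : ℕ) : Continuous (Gam M) :=
  (gam_contDiff M).continuous.add continuous_const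

theorem node_Gam_pos (M : ℕ) (z : ℝ) : 0 < Gam M z := add_pos (gam_pos M z) (om_pos M)

/-- The weights of the first Poincare inequality. -/
noncomputable def nodeW (M : ℕ) : Fin 3 → ℝ → ℝ :=
  ![fun u => gk M u ^ 2, fun u => gk M u ^ 2, fun u => Gam M u ^ 2]

theorem nodeW_cont (M : ℕ) (k : Fin 3) : Continuous (nodeW M k) := by
  fin_cases k
  · exact (gk_contDiff M).continuous.pow 2
  · exact (gk_contDiff M).continuous.pow 2
  · exact (node_Gam_cont M).pow 2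

theorem nodeW_nonneg (M : ℕ) (k : Fin 3) (u : ℝ) : 0 ≤ nodeW M k u := by
  fin_cases k <;> exact sq_nonneg _

theorem node_gk_q {M : ℕ} (hM : 1 ≤ M) {x s : ℝ} (h : |s| ≤ max |x| (1 / M)) :
    gk M x ^ 2 ≤ 16 * gk M s ^ 2 := by
  have h0 := gk_nonneg M x
  rcases le_max_iff.1 h with h | h
  · have := gk_anti M h
    nlinarith
  · have h1 : (1 : ℝ) / M ≤ 1 := div_le_one_of_le₀ (by exact_mod_cast hM) (Nat.cast_nonneg M)
    have := gk_ge_half hM (h.trans h1)
    have := gk_le_one M x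
    nlinarith

theorem node_Gam_q {M : ℕ} (hM : 1 ≤ M) {x s : ℝ} (h : |s| ≤ max |x| (1 / M)) :
    Gam M x ^ 2 ≤ 16 * Gam M s ^ 2 := by
  have h0 := node_Gam_pos M x
  have h1 := om_pos M
  unfold Gam at *
  rcases le_max_iff.1 h with h | h
  · have := gam_anti M h
    nlinarith
  · have := gam_ge hM h
    have := gam_le_one M x
    have := om_le_one M
    nlinarith

theorem nodeW_q {M : ℕ} (hM : 1 ≤ M) (k : Fin 3) (x s : ℝ) (h : |s| ≤ max |x| (1 / M)) :
    nodeW M k x ≤ 16 * nodeW M k s := by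
  fin_cases k
  · exact node_gk_q hM h
  · exact node_gk_q hM h
  · exact node_Gam_q hM h

theorem nodeW_prod (M i j : ℕ) (p : E3) :
    ∏ k, nodeW M k (p k - (!₂[(i : ℝ), (j : ℝ), 0] : E3) k) =
      (gk M (p 0 - (i : ℝ)) * gk M (p 1 - (j : ℝ)) * Gam M (p 2)) ^ 2 := by
  rw [Fin.prod_univ_three]
  simp [nodeW, mul_pow]

theorem node_le_TH {M : ℕ} {L : Lay} {α : ℝ} {i j : ℕ} (h0 : 0 ≤ α) {p : E3}
    (h : α * (gk M (p 0 - (i : ℝ)) * gk M (p 1 - (j : ℝ))) ≤ PS M L p) :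
    α ^ 2 * (gk M (p 0 - (i : ℝ)) * gk M (p 1 - (j : ℝ)) * Gam M (p 2)) ^ 2 ≤ TH M L p ^ 2 := by
  have h1 := gk_nonneg M (p 0 - (i : ℝ))
  have h2 := gk_nonneg M (p 1 - (j : ℝ))
  have h3 := node_Gam_pos M (p 2)
  rw [← mul_pow, ← mul_assoc]
  exact pow_le_pow_left₀ (by positivity) (mul_le_mul_of_nonneg_right h h3.le) 2

theorem node_tube {M : ℕ} (hM : 256 ≤ M) {L : Lay} {α : ℝ} {i j : ℕ} (h0 : 0 ≤ α)
    (h : ∀ p : E3, α * (gk M (p 0 - (i : ℝ)) * gk M (p 1 - (j : ℝ))) ≤ PS M L p) {f : E3 → ℝ}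
    (hf : Sm f) {k : Fin 3} (hk : 2 ≠ k) :
    α ^ 2 * (avgc (!₂[(i : ℝ), (j : ℝ), 0] + ev k) (1 / M) f - avg M i j f) ^ 2 ≤
      (M : ℝ) ^ 4 * EE M L f := by
  have hM1 : 1 ≤ M := by omega
  have hM' : (256 : ℝ) ≤ M := by exact_mod_cast hM
  have hρ : (0 : ℝ) < 1 / M := by positivity
  have hρ1 : (1 : ℝ) / M ≤ 1 := div_le_one_of_le₀ (by linarith) (Nat.cast_nonneg M)
  have b := poinB hρ hf.1 !₂[(i : ℝ), (j : ℝ), 0] k
  have hS : IsCompact {p ∈ cube !₂[(i : ℝ), (j : ℝ), 0] (1 + 1 / M) |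
      ∀ k', k' ≠ k → |p k' - (!₂[(i : ℝ), (j : ℝ), 0] : E3) k'| ≤ 1 / M} := by
    refine (cube_isCompact _ _).inter_right (t := {p : E3 |
      ∀ k', k' ≠ k → |p k' - (!₂[(i : ℝ), (j : ℝ), 0] : E3) k'| ≤ 1 / M}) ?_
    simp only [Set.ofPred_forall]
    exact isClosed_iInter fun k' => isClosed_iInter fun _ =>
      isClosed_le (by fun_prop) continuous_const
  have c := node_int_le M L hf k hS (w := fun _ => α ^ 2 / 1024) continuous_const fun p hp => by
    refine le_trans ?_ (node_le_TH h0 (h p))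
    have a0 := gk_ge_quarter hM1 (u := p 0 - i) ((hp.1 0).trans (by linarith))
    have a1 := gk_ge_quarter hM1 (u := p 1 - j) ((hp.1 1).trans (by linarith))
    have a2 := gam_ge hM1 (z := p 2) (by simpa using hp.2 2 hk)
    have a3 : 1 / 2 ≤ Gam M (p 2) := a2.trans (le_add_of_nonneg_right (om_pos M).le)
    have a4 : 1 / 4 * (1 / 4) * (1 / 2) ≤
        gk M (p 0 - (i : ℝ)) * gk M (p 1 - (j : ℝ)) * Gam M (p 2) :=
      mul_le_mul (mul_le_mul a0 a1 (by norm_num) (by linarith)) a3 (by norm_num) (by positivity)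
    have a5 := mul_le_mul_of_nonneg_left (pow_le_pow_left₀ (by norm_num) a4 2) (sq_nonneg α)
    linarith
  rw [integral_const_mul] at c
  have d := c.trans (node_single_le M L f k)
  have e := node_EE_nonneg M L f
  have g := mul_le_mul_of_nonneg_left b (sq_nonneg α)
  refine g.trans ?_
  rw [← mul_div_assoc, div_le_iff₀ (by positivity)]
  have e2 : (M : ℝ) ^ 4 * EE M L f * (2 * (1 / M)) ^ 3 = 8 * (M * EE M L f) := by
    field_simp
    ring
  rw [e2]
  nlinarith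

theorem node_abs_le {α x R : ℝ} (h : α ^ 2 * x ^ 2 ≤ R) : α * |x| ≤ √R := by
  refine Real.le_sqrt_of_sq_le ?_
  rwa [mul_pow, sq_abs]

theorem node_sq_le {α x R n : ℝ} (h0 : 0 ≤ α) (hR : 0 ≤ R) (h : α * |x| ≤ n * √R) :
    α ^ 2 * x ^ 2 ≤ n ^ 2 * R := by
  have := pow_le_pow_left₀ (by positivity) h 2
  rwa [mul_pow, mul_pow, sq_abs, Real.sq_sqrt hR] at this

theorem node_step {α x y z s n : ℝ} (h0 : 0 ≤ α) (h1 : α * |x - y| ≤ s) (h2 : α * |y - z| ≤ n * s) :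
    α * |x - z| ≤ (n + 1) * s := by
  have := mul_le_mul_of_nonneg_left (abs_sub_le x y z) h0
  linarith

/-- Walking to the root. -/
theorem node_walk {B : ℕ → ℕ → Prop} {x0 y0 : ℕ} {u : ℕ → ℕ → ℝ} {α s : ℝ} (h0 : 0 ≤ α)
    (conn : ∀ i j, B i j → (y0 < j → B i (j - 1)) ∧ (j < y0 → B i (j + 1)) ∧
      (j = y0 → x0 < i → B (i - 1) j) ∧ (j = y0 → i < x0 → B (i + 1) j))
    (h : ∀ i j, B i j → α * |u (i + 1) j - u i j| ≤ s ∧ α * |u i (j + 1) - u i j| ≤ s) (n : ℕ) :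
    ∀ i j, B i j → i - x0 + (x0 - i) + (j - y0 + (y0 - j)) = n →
      α * |u i j - u x0 y0| ≤ n * s := by
  induction n with
  | zero =>
    intro i j _ e
    obtain rfl : i = x0 := by omega
    obtain rfl : j = y0 := by omega
    simp
  | succ n ih =>
    intro i j hb e
    obtain ⟨c1, c2, c3, c4⟩ := conn i j hb
    push_cast
    rcases lt_trichotomy j y0 with hj | hj | hj
    · exact node_step h0 (abs_sub_comm (u i j) _ ▸ (h i j hb).2) (ih _ _ (c2 hj) (by omega))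
    · rcases lt_trichotomy i x0 with hi | hi | hi
      · exact node_step h0 (abs_sub_comm (u i j) _ ▸ (h i j hb).1) (ih _ _ (c4 hj hi) (by omega))
      · omega
      · obtain ⟨i', rfl⟩ : ∃ i', i = i' + 1 := ⟨i - 1, by omega⟩
        exact node_step h0 (h i' j (c3 hj hi)).1 (ih _ _ (c3 hj hi) (by omega))
    · obtain ⟨j', rfl⟩ : ∃ j', j = j' + 1 := ⟨j - 1, by omega⟩
      exact node_step h0 (h i j' (c1 hj)).2 (ih _ _ (c1 hj) (by omega))

theorem node1 : ∀ᶠ M : ℕ in atTop, ∀ (L : Lay) (α : ℝ) (i j : ℕ), 0 ≤ α →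
    (∀ p : E3, α * (gk M (p 0 - (i : ℝ)) * gk M (p 1 - (j : ℝ))) ≤ PS M L p) →
    ∀ f : E3 → ℝ, Sm f →
      ∫ p in {p : E3 | |p 2| ≤ 2}, (α * (gk M (p 0 - (i : ℝ)) * gk M (p 1 - (j : ℝ))) *
        Gam M (p 2) * (f p - avg M i j f)) ^ 2 ≤ (M : ℝ) ^ 7 * EE M L f := by
  filter_upwards [ev_le 7962624, eventually_ge_atTop 1] with M hM hM1 L α i j h0 h f hf
  have hρ : (0 : ℝ) < 1 / M := by positivity
  have hρ1 : (1 : ℝ) / M ≤ 1 := div_le_one_of_le₀ (by linarith) (Nat.cast_nonneg M)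
  have hr : (rr M : ℝ) = 2 * M + 1 := by simp [rr]
  have a := poinA (nodeW_cont M) (nodeW_nonneg M) (Lg := rr M) hρ (by linarith)
    (by norm_num : (1 : ℝ) ≤ 16) (nodeW_q hM1) hf.1 !₂[(i : ℝ), (j : ℝ), 0]
  simp only [nodeW_prod] at a
  have cw : Continuous fun p : E3 =>
      gk M (p 0 - (i : ℝ)) * gk M (p 1 - (j : ℝ)) * Gam M (p 2) :=
    (((gk_contDiff M).continuous.comp (by fun_prop)).mul
      ((gk_contDiff M).continuous.comp (by fun_prop))).mul ((node_Gam_cont M).comp (by fun_prop))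
  have e1 : ∀ p : E3, (α * (gk M (p 0 - (i : ℝ)) * gk M (p 1 - (j : ℝ))) * Gam M (p 2) *
      (f p - avg M i j f)) ^ 2 = α ^ 2 * ((gk M (p 0 - (i : ℝ)) * gk M (p 1 - (j : ℝ)) *
        Gam M (p 2)) ^ 2 * (f p - avg M i j f) ^ 2) := fun p => by ring
  have hm : MeasurableSet {p : E3 | |p 2| ≤ 2} :=
    (isClosed_le (by fun_prop) continuous_const).measurableSet
  have b : ∫ p in {p : E3 | |p 2| ≤ 2}, (gk M (p 0 - (i : ℝ)) * gk M (p 1 - (j : ℝ)) *
      Gam M (p 2)) ^ 2 * (f p - avg M i j f) ^ 2 ≤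
      ∫ p in cube !₂[(i : ℝ), (j : ℝ), 0] (rr M), (gk M (p 0 - (i : ℝ)) * gk M (p 1 - (j : ℝ)) *
      Gam M (p 2)) ^ 2 * (f p - avg M i j f) ^ 2 := by
    rw [setIntegral_eq_of_subset_of_forall_sdiff_eq_zero hm
      (Set.inter_subset_left (t := cube !₂[(i : ℝ), (j : ℝ), 0] (rr M)))]
    · exact setIntegral_mono_set (((cw.pow 2).mul ((hf.1.continuous.sub continuous_const).pow
        2)).continuousOn.integrableOn_compact (cube_isCompact _ _))
        (.of_forall fun p => by positivity) Set.inter_subset_right.eventuallyLE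
    · intro p hp
      have hc : p ∉ cube !₂[(i : ℝ), (j : ℝ), 0] (rr M) := fun h => hp.2 ⟨hp.1, h⟩
      have h2 : |p 2| ≤ 2 := hp.1
      by_cases c0 : (rr M : ℝ) ≤ |p 0 - i|
      · simp [gk_eq_zero M c0]
      by_cases c1 : (rr M : ℝ) ≤ |p 1 - j|
      · simp [gk_eq_zero M c1]
      refine absurd (fun k => ?_) hc
      fin_cases k
      · simpa using (not_le.1 c0).le
      · simpa using (not_le.1 c1).le
      · simpa using h2.trans (by linarith)
  have c : α ^ 2 * ∑ k, ∫ p in cube !₂[(i : ℝ), (j : ℝ), 0] (rr M), (gk M (p 0 - (i : ℝ)) *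
      gk M (p 1 - (j : ℝ)) * Gam M (p 2)) ^ 2 * pd k f p ^ 2 ≤ 2 * EE M L f := by
    rw [EE, mul_div_cancel₀ _ two_ne_zero, Finset.mul_sum]
    refine Finset.sum_le_sum fun k _ => ?_
    rw [← integral_const_mul]
    simp only [← mul_assoc (α ^ 2)]
    exact node_int_le M L hf k (cube_isCompact _ _) (continuous_const.mul (cw.pow 2))
      fun p _ => node_le_TH h0 (h p)
  have d : 12 * (rr M : ℝ) ^ 2 * 16 ^ 3 * (rr M / (1 / M)) ^ 2 * 2 ≤ (M : ℝ) ^ 7 := by
    have d1 : (rr M : ℝ) ^ 4 ≤ (3 * M) ^ 4 := pow_le_pow_left₀ (by positivity) (by linarith) 4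
    have d2 := mul_le_mul_of_nonneg_right d1 (sq_nonneg (M : ℝ))
    have d3 := mul_le_mul_of_nonneg_right hM (pow_nonneg (Nat.cast_nonneg (α := ℝ) M) 6)
    rw [div_div_eq_mul_div, div_one]
    linarith
  simp only [e1]
  rw [integral_const_mul]
  have g1 := mul_le_mul_of_nonneg_left (b.trans a) (sq_nonneg α)
  have g2 := mul_le_mul_of_nonneg_left c
    (by positivity : 0 ≤ 12 * (rr M : ℝ) ^ 2 * 16 ^ 3 * (rr M / (1 / M)) ^ 2)
  have g3 := mul_le_mul_of_nonneg_right d (node_EE_nonneg M L f)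
  linarith

theorem node2 : ∀ᶠ M : ℕ in atTop, ∀ (L : Lay) (α : ℝ) (i j : ℕ), 0 ≤ α →
    (∀ p : E3, α * (gk M (p 0 - (i : ℝ)) * gk M (p 1 - (j : ℝ))) ≤ PS M L p) →
    ∀ f : E3 → ℝ, Sm f →
      α ^ 2 * (avg M (i + 1) j f - avg M i j f) ^ 2 ≤ (M : ℝ) ^ 4 * EE M L f ∧
      α ^ 2 * (avg M i (j + 1) f - avg M i j f) ^ 2 ≤ (M : ℝ) ^ 4 * EE M L f := by
  filter_upwards [eventually_ge_atTop 256] with M hM L α i j h0 h f hf
  have e0 : (!₂[((i + 1 : ℕ) : ℝ), (j : ℝ), 0] : E3) = !₂[(i : ℝ), (j : ℝ), 0] + ev 0 := by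
    ext k
    fin_cases k <;> simp [ev]
  have e1 : (!₂[(i : ℝ), ((j + 1 : ℕ) : ℝ), 0] : E3) = !₂[(i : ℝ), (j : ℝ), 0] + ev 1 := by
    ext k
    fin_cases k <;> simp [ev]
  constructor
  · rw [avg, e0]
    exact node_tube hM h0 h hf (by decide)
  · rw [avg, e1]
    exact node_tube hM h0 h hf (by decide)

theorem chain_bus : ∀ᶠ M : ℕ in atTop, ∀ (L : Lay) (Pi : ℕ) (v : ℕ → ℕ → ℕ), L.OK M Pi v →
    ∀ f : E3 → ℝ, Sm f → ∀ (a : Fin L.K) (i j : ℕ), L.bus a.val i j = true →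
      (avg M i j f - fb M L f a) ^ 2 ≤ (M : ℝ) ^ 295 * EE M L f := by
  filter_upwards [node2, ev_le 4, eventually_ge_atTop 1] with M h2 hM hM1 L Pi v hL f hf a i j hb
  have h0 := ip_pos hM1 90
  have hE := node_EE_nonneg M L f
  have w := node_walk (B := fun i j => L.bus a.val i j = true) (u := fun i j => avg M i j f) h0.le
    (fun i j hb => hL.conn a.val i j a.2 hb) (fun i j hb =>
      (h2 L _ i j h0.le (hL.bus_dom a.2 hb) f hf).imp node_abs_le node_abs_le)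
    _ i j hb rfl
  have w2 := node_sq_le h0.le (by positivity) w
  have i1 := hL.inner a.val i j a.2 hb
  have i2 := hL.inner a.val _ _ a.2 (hL.root a.val a.2)
  have n1 : i - L.x0 + (L.x0 - i) + (j - row M a.val + (row M a.val - j)) ≤ 2 * DD M := by omega
  generalize i - L.x0 + (L.x0 - i) + (j - row M a.val + (row M a.val - j)) = n at *
  have n2 : (n : ℝ) ≤ 2 * (M : ℝ) ^ 55 := by exact_mod_cast n1
  have n3 := mul_le_mul_of_nonneg_right (pow_le_pow_left₀ (Nat.cast_nonneg n) n2 2)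
    (by positivity : 0 ≤ (M : ℝ) ^ 4 * EE M L f)
  have n4 := mul_le_mul_of_nonneg_left (w2.trans n3) (by positivity : 0 ≤ ((M : ℝ) ^ 90) ^ 2)
  have n5 : ((M : ℝ) ^ 90) ^ 2 * (ip M 90 : ℝ) ^ 2 = 1 := by
    rw [← mul_pow, ip, mul_inv_cancel₀ (by positivity), one_pow]
  rw [← mul_assoc, n5, one_mul] at n4
  have n6 := mul_le_mul_of_nonneg_right hM (by positivity : 0 ≤ (M : ℝ) ^ 294 * EE M L f)
  unfold fb
  linarith

theorem chain_link : ∀ᶠ M : ℕ in atTop, ∀ (L : Lay) (f : E3 → ℝ), Sm f →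
    ∀ a b, Edge L.K a b → ∀ k k' : ℕ, k ≤ k' → k' ≤ LL M →
      ip M 3040 * (avg M (L.li a b + k') (L.lj a b) f - avg M (L.li a b + k) (L.lj a b) f) ^ 2 ≤
        ((k' : ℝ) - k) ^ 2 * (M : ℝ) ^ 4 * EE M L f := by
  filter_upwards [node2, eventually_ge_atTop 1] with M h2 hM1 L f hf a b he k k' hk hk'
  have h0 := ip_pos hM1 1520
  have hE := node_EE_nonneg M L f
  have w : ip M 1520 * |avg M (L.li a b + k') (L.lj a b) f - avg M (L.li a b + k) (L.lj a b) f| ≤
      ((k' : ℝ) - k) * √((M : ℝ) ^ 4 * EE M L f) := by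
    induction k', hk using Nat.le_induction with
    | base => simp
    | succ n _ ih =>
      have s := node_abs_le
        (h2 L _ (L.li a b + n) (L.lj a b) h0.le (link_dom he (by omega)) f hf).1
      have := node_step h0.le s (ih (by omega))
      push_cast
      rw [← add_assoc, add_sub_right_comm]
      exact this
  have w2 := node_sq_le h0.le (by positivity) w
  rw [sq (ip M 1520), ← ip_add, ← mul_assoc] at w2
  exact w2

end Vale.Agent.P370
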