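import Vale.Agent.P370.CDefs

/-! Iterated integrals over boxes and one-dimensional estimates. -/

namespace Vale.Agent.P370

open MeasureTheory Filter Set
open scoped Classical

theorem poin_mp (c : E3) :
    MeasurePreserving (fun q : ℝ × ℝ × ℝ => c + (!₂[q.1, q.2.1, q.2.2] : E3)) volume volume :=
  (measurePreserving_add_left volume c).comp measurePreserving_coord

theorem poin_emb (c : E3) :
    MeasurableEmbedding fun q : ℝ × ℝ × ℝ => c + (!₂[q.1, q.2.1, q.2.2] : E3) :=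
  (Homeomorph.addLeft c).measurableEmbedding.comp basic_emb

theorem poin_cont : Continuous fun q : ℝ × ℝ × ℝ => (!₂[q.1, q.2.1, q.2.2] : E3) := by
  fun_prop

theorem poin_par {X : Type} [TopologicalSpace X] {F : X → ℝ → ℝ} (hF : Continuous F.uncurry)
    (a b : ℝ) : Continuous fun x => ∫ t in a..b, F x t :=
  intervalIntegral.continuous_parametric_intervalIntegral_of_continuous' hF a b

theorem poin_prod2 {F : ℝ × ℝ → ℝ} (hF : Continuous F) {a b a' b' : ℝ} (h : a ≤ b)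
    (h' : a' ≤ b') :
    ∫ q in Icc a b ×ˢ Icc a' b', F q = ∫ x in a..b, ∫ y in a'..b', F (x, y) := by
  rw [Measure.volume_eq_prod, setIntegral_prod _
    (hF.continuousOn.integrableOn_compact (isCompact_Icc.prod isCompact_Icc)),
    intervalIntegral.integral_of_le h, ← integral_Icc_eq_integral_Ioc]
  simp_rw [intervalIntegral.integral_of_le h', ← integral_Icc_eq_integral_Ioc]

/-- Integrals over boxes as iterated integrals. -/
theorem poin_box {F : E3 → ℝ} (hF : Continuous F) (c : E3) {S : Set E3} {a0 b0 a1 b1 a2 b2 : ℝ}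
    (h0 : a0 ≤ b0) (h1 : a1 ≤ b1) (h2 : a2 ≤ b2)
    (hS : ∀ x y z : ℝ, c + (!₂[x, y, z] : E3) ∈ S ↔
      x ∈ Icc a0 b0 ∧ y ∈ Icc a1 b1 ∧ z ∈ Icc a2 b2) :
    ∫ p in S, F p =
      ∫ x in a0..b0, ∫ y in a1..b1, ∫ z in a2..b2, F (c + (!₂[x, y, z] : E3)) := by
  have e : (fun q : ℝ × ℝ × ℝ => c + (!₂[q.1, q.2.1, q.2.2] : E3)) ⁻¹' S =
      Icc a0 b0 ×ˢ Icc a1 b1 ×ˢ Icc a2 b2 := by
    ext q
    exact hS _ _ _
  have hc : Continuous fun q : ℝ × ℝ × ℝ => F (c + (!₂[q.1, q.2.1, q.2.2] : E3)) :=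
    hF.comp (continuous_const.add poin_cont)
  rw [← (poin_mp c).setIntegral_preimage_emb (poin_emb c), e, Measure.volume_eq_prod,
    setIntegral_prod _ (hc.continuousOn.integrableOn_compact
      (isCompact_Icc.prod (isCompact_Icc.prod isCompact_Icc))),
    intervalIntegral.integral_of_le h0, ← integral_Icc_eq_integral_Ioc]
  refine setIntegral_congr_fun measurableSet_Icc fun x _ => ?_
  exact poin_prod2 (F := fun q => F (c + (!₂[x, q.1, q.2] : E3)))
    (hc.comp (continuous_const.prodMk continuous_id)) h1 h2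

theorem poin_cube_mem (c : E3) (ρ x y z : ℝ) : c + (!₂[x, y, z] : E3) ∈ cube c ρ ↔
    x ∈ Icc (-ρ) ρ ∧ y ∈ Icc (-ρ) ρ ∧ z ∈ Icc (-ρ) ρ := by
  simp only [cube, mem_ofPred_eq, Fin.forall_fin_succ, mem_Icc, ← abs_le]
  simp

theorem poin_cube {F : E3 → ℝ} (hF : Continuous F) (c : E3) {ρ : ℝ} (h : 0 ≤ ρ) :
    ∫ p in cube c ρ, F p =
      ∫ x in -ρ..ρ, ∫ y in -ρ..ρ, ∫ z in -ρ..ρ, F (c + (!₂[x, y, z] : E3)) :=
  poin_box hF c (by linarith) (by linarith) (by linarith) (poin_cube_mem c ρ)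

theorem poin_swap {F : ℝ → ℝ → ℝ} (hF : Continuous F.uncurry) (a b c d : ℝ) :
    ∫ x in a..b, ∫ y in c..d, F x y = ∫ y in c..d, ∫ x in a..b, F x y :=
  intervalIntegral_intervalIntegral_swap
    ((hF.continuousOn.integrableOn_compact (isCompact_uIcc.prod isCompact_uIcc)).mono_set
      (prod_mono uIoc_subset_uIcc uIoc_subset_uIcc))

/-- The Cauchy-Schwarz inequality. -/
theorem poin_cs {X : Type} [MeasurableSpace X] {μ : Measure X} [IsFiniteMeasure μ] {u : X → ℝ}
    (h1 : Integrable u μ) (h2 : Integrable (fun x => u x ^ 2) μ) :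
    (∫ x, u x ∂μ) ^ 2 ≤ μ.real univ * ∫ x, u x ^ 2 ∂μ := by
  have key : ∀ t : ℝ, 0 ≤ μ.real univ * (t * t) + (-2 * ∫ x, u x ∂μ) * t + ∫ x, u x ^ 2 ∂μ := by
    intro t
    have h3 : 0 ≤ ∫ x, (u x - t) ^ 2 ∂μ := integral_nonneg fun x => sq_nonneg _
    have h4 : ∫ x, (u x - t) ^ 2 ∂μ = ∫ x, (u x ^ 2 + ((-2 * t) * u x + t * t)) ∂μ :=
      integral_congr_ae (.of_forall fun x => by ring)
    have h5 : Integrable (fun x => (-2 * t) * u x + t * t) μ :=
      (h1.const_mul _).add (integrable_const _)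
    rw [h4, integral_add h2 h5,
      integral_add (h1.const_mul _) (integrable_const _), integral_const_mul, integral_const,
      smul_eq_mul] at h3
    linarith
  have h5 := discrim_le_zero key
  unfold discrim at h5
  nlinarith

theorem poin_cs1 {u : ℝ → ℝ} (hu : Continuous u) {α β : ℝ} (h : α ≤ β) :
    (∫ t in α..β, u t) ^ 2 ≤ (β - α) * ∫ t in α..β, u t ^ 2 := by
  have h1 := poin_cs (μ := volume.restrict (Ioc α β)) (u := u) (hu.integrableOn_Ioc)
    ((hu.pow 2).integrableOn_Ioc)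
  rw [intervalIntegral.integral_of_le h, intervalIntegral.integral_of_le h]
  simpa [h] using h1

/-- One-dimensional averages. -/
noncomputable def poinAv (ρ : ℝ) (u : ℝ → ℝ) : ℝ := (∫ t in -ρ..ρ, u t) / (2 * ρ)

theorem poin_av_sq {ρ : ℝ} (hρ : 0 < ρ) {u : ℝ → ℝ} (hu : Continuous u) :
    poinAv ρ u ^ 2 ≤ (∫ t in -ρ..ρ, u t ^ 2) / (2 * ρ) := by
  have h := poin_cs1 hu (show -ρ ≤ ρ by linarith)
  unfold poinAv
  rw [div_pow, div_le_div_iff₀ (by positivity) (by positivity)]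
  nlinarith

theorem poin_av_par {X : Type} [TopologicalSpace X] {F : X → ℝ → ℝ} (hF : Continuous F.uncurry)
    (ρ : ℝ) : Continuous fun x => poinAv ρ (F x) :=
  (poin_par hF _ _).div_const _

theorem poin_av_sub {ρ : ℝ} (hρ : 0 < ρ) {u : ℝ → ℝ} (hu : Continuous u) (m : ℝ) :
    poinAv ρ (fun t => u t - m) = poinAv ρ u - m := by
  unfold poinAv
  rw [intervalIntegral.integral_sub (hu.intervalIntegrable _ _) intervalIntegrable_const,
    intervalIntegral.integral_const, smul_eq_mul]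
  field_simp
  ring

theorem poin_av_sub' {ρ : ℝ} {u v : ℝ → ℝ} (hu : Continuous u) (hv : Continuous v) :
    poinAv ρ (fun t => u t - v t) = poinAv ρ u - poinAv ρ v := by
  unfold poinAv
  rw [intervalIntegral.integral_sub (hu.intervalIntegrable _ _) (hv.intervalIntegrable _ _),
    sub_div]

section W

variable {a : ℝ → ℝ} {L ρ κ : ℝ}

/-- Averaging against a weight. -/
theorem poin_avg (ha : Continuous a) (h0 : ∀ x, 0 ≤ a x) (hρ : 0 < ρ) (hL : ρ ≤ L) (hκ : 1 ≤ κ)
    (hq : ∀ x s, |s| ≤ max |x| ρ → a x ≤ κ * a s) {u w : ℝ → ℝ} (hu : Continuous u)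
    (hw : Continuous w) {b : ℝ} (hb : 0 ≤ b) (h : ∀ s ∈ Icc (-L) L, a s * (b * u s ^ 2) ≤ w s)
    (x : ℝ) : a x * (b * poinAv ρ u ^ 2) ≤ κ / (2 * ρ) * ∫ s in -L..L, w s := by
  have h1 := poin_av_sq hρ hu
  have h2 : ∫ t in -ρ..ρ, a x * (b * u t ^ 2) ≤ ∫ t in -ρ..ρ, κ * (a t * (b * u t ^ 2)) := by
    refine intervalIntegral.integral_mono_on (by linarith)
      (Continuous.intervalIntegrable (by fun_prop) _ _)
      (Continuous.intervalIntegrable (by fun_prop) _ _) fun t ht => ?_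
    have h3 := hq x t (le_max_of_le_right (abs_le.2 ht))
    rw [← mul_assoc κ]
    exact mul_le_mul_of_nonneg_right h3 (by positivity)
  have h3 : ∫ t in -ρ..ρ, a t * (b * u t ^ 2) ≤ ∫ t in -L..L, a t * (b * u t ^ 2) :=
    intervalIntegral.integral_mono_interval (by linarith) (by linarith) hL
      (.of_forall fun t => mul_nonneg (h0 t) (by positivity))
      (Continuous.intervalIntegrable (by fun_prop) _ _)
  have h4 : ∫ t in -L..L, a t * (b * u t ^ 2) ≤ ∫ s in -L..L, w s :=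
    intervalIntegral.integral_mono_on (by linarith)
      (Continuous.intervalIntegrable (by fun_prop) _ _) (hw.intervalIntegrable _ _) h
  rw [intervalIntegral.integral_const_mul, intervalIntegral.integral_const_mul,
    intervalIntegral.integral_const_mul] at h2
  calc a x * (b * poinAv ρ u ^ 2) ≤ a x * (b * ((∫ t in -ρ..ρ, u t ^ 2) / (2 * ρ))) :=
        mul_le_mul_of_nonneg_left (mul_le_mul_of_nonneg_left h1 hb) (h0 x)
    _ = (a x * (b * ∫ t in -ρ..ρ, u t ^ 2)) / (2 * ρ) := by ring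
    _ ≤ (κ * ∫ s in -L..L, w s) / (2 * ρ) := by
        refine div_le_div_of_nonneg_right (h2.trans ?_) (by positivity)
        exact mul_le_mul_of_nonneg_left (h3.trans h4) (by linarith)
    _ = _ := by ring

theorem poin_two (ha : Continuous a) (h0 : ∀ x, 0 ≤ a x) (hL : ρ ≤ L) (hκ : 1 ≤ κ)
    (hq : ∀ x s, |s| ≤ max |x| ρ → a x ≤ κ * a s) {g g' : ℝ → ℝ} (hg : ∀ t, HasDerivAt g (g' t) t)
    (hg' : Continuous g') {x α β : ℝ} (hx : |x| ≤ L) (hα : |α| ≤ max |x| ρ) (hβ : |β| ≤ max |x| ρ)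
    (h : α ≤ β) : a x * (g β - g α) ^ 2 ≤ 2 * L * κ * ∫ s in -L..L, a s * g' s ^ 2 := by
  have hm : max |x| ρ ≤ L := max_le hx hL
  have hα' := abs_le.1 (hα.trans hm)
  have hβ' := abs_le.1 (hβ.trans hm)
  rw [← intervalIntegral.integral_eq_sub_of_hasDerivAt (fun t _ => hg t)
    (hg'.intervalIntegrable _ _)]
  have h1 := poin_cs1 hg' h
  have h2 : ∫ t in α..β, a x * g' t ^ 2 ≤ ∫ t in α..β, κ * (a t * g' t ^ 2) := by
    refine intervalIntegral.integral_mono_on h
      (Continuous.intervalIntegrable (by fun_prop) _ _)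
      (Continuous.intervalIntegrable (by fun_prop) _ _) fun t ht => ?_
    have h3 := hq x t (abs_le.2 ⟨(abs_le.1 hα).1.trans ht.1, ht.2.trans (abs_le.1 hβ).2⟩)
    rw [← mul_assoc κ]
    exact mul_le_mul_of_nonneg_right h3 (by positivity)
  have h3 : ∫ t in α..β, a t * g' t ^ 2 ≤ ∫ t in -L..L, a t * g' t ^ 2 :=
    intervalIntegral.integral_mono_interval hα'.1 h hβ'.2
      (.of_forall fun t => mul_nonneg (h0 t) (by positivity))
      (Continuous.intervalIntegrable (by fun_prop) _ _)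
  rw [intervalIntegral.integral_const_mul, intervalIntegral.integral_const_mul] at h2
  have h4 : 0 ≤ ∫ t in α..β, g' t ^ 2 := intervalIntegral.integral_nonneg h fun t _ => sq_nonneg _
  have h5 : 0 ≤ a x * ∫ t in α..β, g' t ^ 2 := mul_nonneg (h0 x) h4
  calc a x * (∫ t in α..β, g' t) ^ 2 ≤ a x * ((β - α) * ∫ t in α..β, g' t ^ 2) :=
        mul_le_mul_of_nonneg_left h1 (h0 x)
    _ = (β - α) * (a x * ∫ t in α..β, g' t ^ 2) := by ring
    _ ≤ (2 * L) * (κ * ∫ s in -L..L, a s * g' s ^ 2) :=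
        mul_le_mul (by linarith) (h2.trans (mul_le_mul_of_nonneg_left h3 (by linarith))) h5
          (by linarith)
    _ = _ := by ring

/-- The one-dimensional weighted inequality. -/
theorem poin_1d (ha : Continuous a) (h0 : ∀ x, 0 ≤ a x) (hρ : 0 < ρ) (hL : ρ ≤ L) (hκ : 1 ≤ κ)
    (hq : ∀ x s, |s| ≤ max |x| ρ → a x ≤ κ * a s) {g g' : ℝ → ℝ} (hg : ∀ t, HasDerivAt g (g' t) t)
    (hg' : Continuous g') {b : ℝ} (hb : 0 ≤ b) {x : ℝ} (hx : x ∈ Icc (-L) L) :
    a x * (b * (g x - poinAv ρ g) ^ 2) ≤ 2 * L * κ * ∫ s in -L..L, a s * (b * g' s ^ 2) := by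
  have hc : Continuous g := continuous_iff_continuousAt.2 fun t => (hg t).continuousAt
  have hx' := abs_le.2 hx
  have h1 := poin_av_sq hρ (u := fun t => g t - g x) (by fun_prop)
  rw [poin_av_sub hρ hc] at h1
  have h2 : ∫ t in -ρ..ρ, a x * (g t - g x) ^ 2 ≤
      ∫ _ in -ρ..ρ, 2 * L * κ * ∫ s in -L..L, a s * g' s ^ 2 := by
    refine intervalIntegral.integral_mono_on (by linarith)
      (Continuous.intervalIntegrable (by fun_prop) _ _) intervalIntegrable_const fun t ht => ?_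
    have h3 : |t| ≤ max |x| ρ := le_max_of_le_right (abs_le.2 ht)
    rcases le_total t x with h4 | h4
    · have := poin_two ha h0 hL hκ hq hg hg' hx' h3 (le_max_left _ _) h4
      rwa [show (g t - g x) ^ 2 = (g x - g t) ^ 2 by ring]
    · exact poin_two ha h0 hL hκ hq hg hg' hx' (le_max_left _ _) h3 h4
  rw [intervalIntegral.integral_const_mul, intervalIntegral.integral_const, smul_eq_mul] at h2
  have h3 : ∫ s in -L..L, a s * (b * g' s ^ 2) = b * ∫ s in -L..L, a s * g' s ^ 2 := by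
    rw [← intervalIntegral.integral_const_mul]
    exact intervalIntegral.integral_congr fun s _ => by ring
  have h4 : a x * (g x - poinAv ρ g) ^ 2 ≤ 2 * L * κ * ∫ s in -L..L, a s * g' s ^ 2 := by
    calc a x * (g x - poinAv ρ g) ^ 2 = a x * (poinAv ρ g - g x) ^ 2 := by ring
      _ ≤ a x * ((∫ t in -ρ..ρ, (g t - g x) ^ 2) / (2 * ρ)) := mul_le_mul_of_nonneg_left h1 (h0 x)
      _ = (a x * ∫ t in -ρ..ρ, (g t - g x) ^ 2) / (2 * ρ) := by ring
      _ ≤ _ := by
        rw [div_le_iff₀ (by positivity)]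
        linarith
  rw [h3]
  nlinarith [mul_le_mul_of_nonneg_left h4 hb]

end W

end Vale.Agent.P370
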