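import Vale.Agent.P370.QT

/-! The quadrature theorem for the regularised kernels and at the reference point. -/

namespace Vale.Agent.P370

open MeasureTheory Filter
open scoped Classical

/-- Indicator of an interval. -/
noncomputable def qk_ind (a t : ℝ) : ℝ := (Set.Icc (-a) a).indicator 1 t

theorem qk_ind_nonneg (a t : ℝ) : 0 ≤ qk_ind a t :=
  Set.indicator_nonneg (fun _ _ => zero_le_one) t

theorem qk_ind_one {a t : ℝ} (h : |t| ≤ a) : qk_ind a t = 1 :=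
  Set.indicator_of_mem (show t ∈ Set.Icc (-a) a from abs_le.1 h) _

theorem qk_ind_int (a : ℝ) : Integrable (qk_ind a) :=
  (integrable_indicator_iff measurableSet_Icc).2 (integrableOn_const (by simp))

theorem qk_ind_integral {a : ℝ} (ha : 0 ≤ a) : ∫ t, qk_ind a t = 2 * a := by
  unfold qk_ind
  rw [integral_indicator_one measurableSet_Icc, Real.volume_real_Icc_of_le (by linarith)]
  ring

/-- Indicator of an enlarged box. -/
noncomputable def qk_chi (a : ℝ) (p : E3) : ℝ := qk_ind a (p 0) * qk_ind a (p 1) * qk_ind 4 (p 2)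

theorem qk_chi_nonneg (a : ℝ) (p : E3) : 0 ≤ qk_chi a p :=
  mul_nonneg (mul_nonneg (qk_ind_nonneg _ _) (qk_ind_nonneg _ _)) (qk_ind_nonneg _ _)

theorem qk_chi_int (a : ℝ) : Integrable (qk_chi a) := by
  refine (integrable_E3 _).2 ?_
  have h := (qk_ind_int a).mul_prod ((qk_ind_int a).mul_prod (qk_ind_int 4))
  refine h.congr (Eventually.of_forall fun z => ?_)
  exact (mul_assoc _ _ _).symm

theorem qk_chi_integral {a : ℝ} (ha : 0 ≤ a) : ∫ p, qk_chi a p = 32 * a ^ 2 := by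
  unfold qk_chi
  rw [integral_E3_prod, qk_ind_integral ha, qk_ind_integral (by norm_num)]
  ring

theorem qk_coord (y y' : E3) (k : Fin 3) : |y' k - y k| ≤ ‖y' - y‖ :=
  PiLp.norm_apply_le (y' - y) k

theorem qk_HH {M : ℕ} (hM : 6 ≤ M) : (18 : ℝ) ≤ HH M := by
  have h1 : M ≤ M ^ 1000 := Nat.le_self_pow (Nat.succ_ne_zero 999) M
  have h2 : 18 ≤ HH M := by
    unfold HH
    generalize M ^ 1000 = x at h1
    omega
  exact_mod_cast h2

theorem qk_hh {M : ℕ} (hM : 6 ≤ M) : 0 < hh M ∧ 10 * hh M < 1 := by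
  have h := qk_HH hM
  unfold hh
  refine ⟨by positivity, ?_⟩
  rw [mul_one_div, div_lt_one (by linarith)]
  linarith

theorem qk_box_closed (M : ℕ) : IsClosed (box M 3) := by
  unfold box
  simp only [Set.ofPred_and]
  refine (isClosed_le ?_ ?_).inter ((isClosed_le ?_ ?_).inter ((isClosed_le ?_ ?_).inter
    ((isClosed_le ?_ ?_).inter (isClosed_le ?_ ?_)))) <;> fun_prop

theorem qk_pow_le {x : ℝ} (hx : 0 ≤ x) {j : ℕ} (hj : j ≤ 5) : x ^ j ≤ 1 + x ^ 5 := by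
  rcases le_total x 1 with h | h
  · exact (pow_le_one₀ hx h).trans (le_add_of_nonneg_right (by positivity))
  · exact (pow_le_pow_right₀ h hj).trans (le_add_of_nonneg_left zero_le_one)

theorem qk_leib {f U : E3 → ℝ} {B C κ χ : ℝ} (hf : Bd 4 B f) (hU : ContDiff ℝ 4 U) {y : E3}
    (hC : 0 ≤ C) (hκ : 0 ≤ κ) (hb : ∀ i ≤ 4, ‖iteratedFDeriv ℝ i U y‖ ≤ C * κ ^ (i + 1))
    (hχ : 0 ≤ χ) (h : χ = 1 ∨ ∀ i, i ≠ 0 → iteratedFDeriv ℝ i f y = 0) :
    ‖iteratedFDeriv ℝ 4 (fun y => f y * U y) y‖ ≤ 16 * (B * C * (κ ^ 5 + χ)) := by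
  have hB : 0 ≤ B := (norm_nonneg _).trans (hf.2 0 (by norm_num) y)
  refine (norm_iteratedFDeriv_mul_le hf.1 hU y le_rfl).trans ?_
  have h1 : ∀ i ∈ Finset.range (4 + 1), (Nat.choose 4 i : ℝ) * ‖iteratedFDeriv ℝ i f y‖ *
      ‖iteratedFDeriv ℝ (4 - i) U y‖ ≤ (Nat.choose 4 i : ℝ) * (B * C * (κ ^ 5 + χ)) := by
    intro i hi
    have hi4 : i ≤ 4 := Nat.lt_succ_iff.1 (Finset.mem_range.1 hi)
    rw [mul_assoc]
    refine mul_le_mul_of_nonneg_left ?_ (Nat.cast_nonneg _)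
    have h2 : κ ^ (4 - i + 1) ≤ κ ^ 5 + χ → ‖iteratedFDeriv ℝ i f y‖ *
        ‖iteratedFDeriv ℝ (4 - i) U y‖ ≤ B * C * (κ ^ 5 + χ) := fun h3 => by
      rw [mul_assoc]
      exact mul_le_mul (hf.2 i hi4 y) ((hb _ (Nat.sub_le _ _)).trans
        (mul_le_mul_of_nonneg_left h3 hC)) (norm_nonneg _) hB
    rcases eq_or_ne i 0 with rfl | h0
    · exact h2 (le_add_of_nonneg_right hχ)
    · rcases h with rfl | h
      · exact h2 ((qk_pow_le hκ (by omega)).trans (add_comm _ _).le)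
      · rw [h i h0, norm_zero, zero_mul]
        positivity
  refine (Finset.sum_le_sum h1).trans (le_of_eq ?_)
  rw [← Finset.sum_mul, ← Nat.cast_sum, Nat.sum_range_choose]
  norm_num

theorem qk_gen {C : ℝ} (hC : 0 ≤ C) : ∀ᶠ M : ℕ in atTop,
    ∀ (l : ℝ) (q1 : E3 → ℝ) (q : ℕ → ℕ → ℕ → ℚ), WOK M l q1 q →
    ∀ ε : ℝ, hh M ≤ ε → ε ≤ 1 → ∀ (p : E3) (U : E3 → ℝ) (U0 A1 : ℝ), ContDiff ℝ 4 U → 0 ≤ A1 →
    (∀ y : E3, y 2 < 4 → ∀ i ≤ 4, ‖iteratedFDeriv ℝ i U y‖ ≤ C * kk ε (p - y) ^ (i + 1)) →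
    (∀ y ∈ slab M, |U y| ≤ U0) →
    (∀ i < NX M, NX M ≤ i + 4 → ∀ k < NZ M,
      ∑ j ∈ Finset.range (NX M - 1), |U (node M (i, j, k)) - U (node M (i, j + 1, k))| +
        |U (node M (i, NX M - 1, k))| ≤ A1) →
    |∑ n ∈ grid M, l * (zz q n : ℝ) * U (node M n) - ∫ y in slab M, qq M q1 y * U y| ≤
      ip M 3880 / ε ^ 2 + ip M 2030 * A1 + ip M 4390 * U0 := by
  obtain ⟨C5, hC5, h5⟩ := kk5_int
  filter_upwards [qt, WOK.qq_bd, eventually_ge_atTop 6,
    ev_le (17 * (C * 11 ^ 5 * C5) + 16 * 128 * C)] with M hqt hbd hM hK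
  intro l q1 q hW ε hε hε1 p U U0 A1 hU hA hD hU0 htv
  obtain ⟨hh0, hh1⟩ := qk_hh hM
  have hε0 : 0 < ε := hh0.trans_le hε
  obtain ⟨i5, hi5⟩ := h5 ε hε0 p
  have iχ := qk_chi_int ((DD M : ℝ) + 1)
  have i1 : Integrable fun y => 16 * ((M : ℝ) ^ 2 * C *
      (11 ^ 5 * kk ε (p - y) ^ 5 + qk_chi ((DD M : ℝ) + 1) y)) :=
    (((i5.const_mul _).add iχ).const_mul _).const_mul _
  have i2 : Integrable fun y => C * (11 ^ 5 * kk ε (p - y) ^ 5) := (i5.const_mul _).const_mul _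
  have n2 : ∀ y, 0 ≤ C * (11 ^ 5 * kk ε (p - y) ^ 5) := fun y =>
    mul_nonneg hC (mul_nonneg (by norm_num) (pow_nonneg (kk_nonneg _ _) _))
  have n1 : ∀ y, 0 ≤ 16 * ((M : ℝ) ^ 2 * C *
      (11 ^ 5 * kk ε (p - y) ^ 5 + qk_chi ((DD M : ℝ) + 1) y)) := fun y =>
    mul_nonneg (by norm_num) (mul_nonneg (by positivity) (add_nonneg
      (mul_nonneg (by norm_num) (pow_nonneg (kk_nonneg _ _) _)) (qk_chi_nonneg _ _)))
  have key := hqt l q1 q hW U _ _ U0 A1 hU i1.integrableOn i2.integrableOn n2 hA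
    (fun y hy y' hy' => by
      have hc := fun k => abs_le.1 ((qk_coord y y' k).trans (hy'.trans hh1.le))
      have h2 : y' 2 < 4 := by
        have h3 := (abs_le.1 ((qk_coord y y' 2).trans hy')).2
        have h4 := (abs_le.1 hy.2.2).2
        linarith
      have hκ : kk ε (p - y') ^ 5 ≤ 11 ^ 5 * kk ε (p - y) ^ 5 := by
        rw [← mul_pow]
        refine pow_le_pow_left₀ (kk_nonneg _ _) (kk_loc hε0 ?_) _
        rw [sub_sub_sub_cancel_left, norm_sub_rev]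
        linarith
      refine ⟨(qk_leib (hbd l q1 q hW).1 hU hC (kk_nonneg _ _) (hD y' h2)
        (qk_chi_nonneg ((DD M : ℝ) + 1) y) ?_).trans ?_,
        (hD y' h2 4 le_rfl).trans (mul_le_mul_of_nonneg_left hκ hC)⟩
      · by_cases hb : y' ∈ box M 3
        · left
          obtain ⟨b1, b2, b3, b4, -⟩ := hb
          unfold qk_chi
          rw [qk_ind_one (abs_le.2 ⟨by linarith [(hc 0).2, (Nat.cast_nonneg (DD M) : (0 : ℝ) ≤ _)],
              by linarith [(hc 0).1]⟩),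
            qk_ind_one (abs_le.2 ⟨by linarith [(hc 1).2, (Nat.cast_nonneg (DD M) : (0 : ℝ) ≤ _)],
              by linarith [(hc 1).1]⟩),
            qk_ind_one (hy.2.2.trans (by norm_num)), mul_one, mul_one]
        · right
          intro i hi
          have h3 : qq M q1 =ᶠ[nhds y'] fun _ => ((M : ℝ) ^ 2 + 0) / (4 * Real.pi) := by
            filter_upwards [(qk_box_closed M).isOpen_compl.mem_nhds hb] with w hw
            rw [qq, hW.supp w hw]
          rw [(h3.iteratedFDeriv ℝ i).self_of_nhds, iteratedFDeriv_const_of_ne hi]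
          rfl
      · exact mul_le_mul_of_nonneg_left (mul_le_mul_of_nonneg_left (add_le_add_left hκ _)
          (by positivity)) (by norm_num)) hU0 htv
  refine key.trans (add_le_add_left (add_le_add_left ?_ _) _)
  have e1 := setIntegral_le_integral (s := slab M) i1 (Eventually.of_forall n1)
  have e2 := setIntegral_le_integral (s := slab M) i2 (Eventually.of_forall n2)
  clear key hqt
  generalize (∫ y in slab M, C * (11 ^ 5 * kk ε (p - y) ^ 5)) = T2 at e2 ⊢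
  generalize (∫ y in slab M, 16 * ((M : ℝ) ^ 2 * C *
      (11 ^ 5 * kk ε (p - y) ^ 5 + qk_chi ((DD M : ℝ) + 1) y))) = T1 at e1 ⊢
  rw [integral_const_mul, integral_const_mul, integral_add (i5.const_mul _) iχ, integral_const_mul,
    qk_chi_integral (by positivity)] at e1
  rw [integral_const_mul, integral_const_mul] at e2
  have hM1 : 1 ≤ M := by omega
  have hab := ip_absorb hM1 hK (j := 112) (k := 4000) (k' := 3880) (by norm_num)
  have hip := ip_pos hM1 4000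
  have hM2 : (1 : ℝ) ≤ M := by exact_mod_cast hM1
  have hd : ((DD M : ℝ) + 1) ^ 2 ≤ 4 * (M : ℝ) ^ 110 := by
    have h1 : (1 : ℝ) ≤ (M : ℝ) ^ 55 := one_le_pow₀ hM2
    have h2 : (DD M : ℝ) = (M : ℝ) ^ 55 := by unfold DD; push_cast; rfl
    have h3 : (4 : ℝ) * (M : ℝ) ^ 110 = (2 * (M : ℝ) ^ 55) ^ 2 := by ring
    rw [h2, h3]
    exact pow_le_pow_left₀ (by positivity) (by linarith) _
  have hu : 1 ≤ 1 / ε ^ 2 := by
    rw [le_div_iff₀ (by positivity), one_mul]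
    exact pow_le_one₀ hε0.le hε1
  have hp1 : (1 : ℝ) ≤ (M : ℝ) ^ 112 := one_le_pow₀ hM2
  have hp2 : (M : ℝ) ^ 2 ≤ (M : ℝ) ^ 112 := pow_le_pow_right₀ hM2 (by norm_num)
  have hp3 : (M : ℝ) ^ 2 * ((DD M : ℝ) + 1) ^ 2 ≤ 4 * (M : ℝ) ^ 112 :=
    (mul_le_mul_of_nonneg_left hd (by positivity)).trans (le_of_eq (by ring))
  have hp0 : (0 : ℝ) ≤ (M : ℝ) ^ 2 := by positivity
  have hI : 0 ≤ ∫ y, kk ε (p - y) ^ 5 := integral_nonneg fun y => pow_nonneg (kk_nonneg _ _) _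
  rw [div_eq_mul_one_div] at hi5 ⊢
  generalize (∫ y, kk ε (p - y) ^ 5) = I at e1 e2 hi5 hI
  generalize 1 / ε ^ 2 = u at hi5 hu ⊢
  generalize ((DD M : ℝ) + 1) ^ 2 = d at e1 hp3
  generalize (M : ℝ) ^ 112 = P at hab hp1 hp2 hp3
  generalize (M : ℝ) ^ 2 = m at e1 hp2 hp3 hp0
  generalize (ip M 4000 : ℝ) = a at hab hip ⊢
  generalize (ip M 3880 : ℝ) = b at hab ⊢
  have f1 : C * (11 ^ 5 * I) ≤ C * 11 ^ 5 * C5 * u := by
    have := mul_le_mul_of_nonneg_left hi5 (show 0 ≤ C * 11 ^ 5 by positivity)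
    linarith
  have f0 : 0 ≤ C * 11 ^ 5 * C5 * u := by positivity
  have f2 : m * (C * (11 ^ 5 * I)) ≤ P * (C * 11 ^ 5 * C5 * u) :=
    mul_le_mul hp2 f1 (by positivity) (by positivity)
  have f3 : C * 11 ^ 5 * C5 * u ≤ P * (C * 11 ^ 5 * C5 * u) := le_mul_of_one_le_left f0 hp1
  have f4 : C * (m * d) ≤ C * (4 * P * u) :=
    mul_le_mul_of_nonneg_left (hp3.trans (le_mul_of_one_le_right (by positivity) hu)) hC
  have f5 : T1 + T2 ≤ (17 * (C * 11 ^ 5 * C5) + 16 * 128 * C) * P * u := by linarith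
  have f6 := mul_le_mul_of_nonneg_left f5 hip.le
  have f7 := mul_le_mul_of_nonneg_right hab (zero_le_one.trans hu)
  linarith

theorem qk_mono (M : ℕ) : Monotone (gx M : ℕ → ℝ) := fun i j h => by
  have h1 : (i : ℝ) ≤ j := by exact_mod_cast h
  unfold gx
  gcongr

theorem qk_tv (M : ℕ) {ε : ℝ} (p : E3) (i k : ℕ) (h : 0 < (p 0 - gx M i) ^ 2 + ε ^ 2) (n : ℕ) :
    ∑ j ∈ Finset.range n, |kk ε (p - node M (i, j, k)) - kk ε (p - node M (i, j + 1, k))| +
      |kk ε (p - node M (i, n, k))| ≤ 3 / Real.sqrt ((p 0 - gx M i) ^ 2 + ε ^ 2) :=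
  kk_tv (x := gx M i) (z := gz M k) (y := gx M) p h (qk_mono M) n

theorem qk_far {M : ℕ} (hM : 6 ≤ M) {x : ℝ} (hx : |x| ≤ DD M) {i : ℕ} (hi : NX M ≤ i + 4)
    (ε : ℝ) : 0 < (x - gx M i) ^ 2 + ε ^ 2 ∧
      3 / Real.sqrt ((x - gx M i) ^ 2 + ε ^ 2) ≤ ip M 1850 := by
  have hH := qk_HH hM
  have hM6 : (6 : ℝ) ≤ M := by exact_mod_cast hM
  have hM1 : (1 : ℝ) ≤ M := by linarith
  have h1 : (RR M : ℝ) - 1 ≤ gx M i := by
    have h2 : 2 * (RR M : ℝ) * HH M ≤ i + 4 := by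
      unfold NX at hi
      exact_mod_cast hi
    unfold gx
    rw [le_sub_iff_add_le, le_div_iff₀ (by linarith)]
    linarith
  have h2 : (DD M : ℝ) ≤ (M : ℝ) ^ 1850 := by
    unfold DD
    push_cast
    exact pow_le_pow_right₀ hM1 (by norm_num)
  have h3 : (M : ℝ) ^ 1850 * 6 ≤ RR M := by
    unfold RR
    push_cast
    refine (mul_le_mul_of_nonneg_left hM6 (by positivity)).trans ?_
    rw [← pow_succ]
    exact pow_le_pow_right₀ hM1 (by norm_num)
  have h4 : (1 : ℝ) ≤ (M : ℝ) ^ 1850 := one_le_pow₀ hM1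
  unfold ip
  generalize (M : ℝ) ^ 1850 = P at h2 h3 h4 ⊢
  have h5 : 3 * P ≤ gx M i - x := by linarith [(abs_le.1 hx).2]
  have h6 : (3 * P) ^ 2 ≤ (x - gx M i) ^ 2 + ε ^ 2 := by
    rw [← neg_sub, neg_sq]
    exact (pow_le_pow_left₀ (by positivity) h5 2).trans (le_add_of_nonneg_right (sq_nonneg _))
  refine ⟨lt_of_lt_of_le (by positivity) h6, ?_⟩
  refine (div_le_div_of_nonneg_left (by norm_num) (by positivity) (Real.le_sqrt_of_sq_le h6)).trans
    (le_of_eq ?_)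
  field_simp

theorem qk_abs {M : ℕ} (hM : 6 ≤ M) {k k' : ℕ} (h : k' + 1 ≤ k) : 3 * (ip M k : ℝ) ≤ ip M k' := by
  have h1 : (3 : ℝ) ≤ M := by exact_mod_cast (by omega : 3 ≤ M)
  have := ip_absorb (by omega : 1 ≤ M) h1 (j := 0) (k := k) (k' := k') h
  rwa [pow_zero, mul_one] at this

theorem qk : ∀ᶠ M : ℕ in atTop, ∀ (l : ℝ) (q1 : E3 → ℝ) (q : ℕ → ℕ → ℕ → ℚ), WOK M l q1 q →
    ∀ ε : ℝ, hh M ≤ ε → ε ≤ 1 → ∀ p : E3,
    |∑ n ∈ grid M, l * (zz q n : ℝ) * kk ε (p - node M n) -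
        ∫ y in slab M, qq M q1 y * kk ε (p - y)| ≤
      ip M 3870 / ε ^ 2 + if |p 0| ≤ DD M then 0 else ip M 2020 / ε := by
  obtain ⟨C, hC, hD⟩ := kk_deriv
  filter_upwards [qk_gen hC, eventually_ge_atTop 6] with M hg hM
  intro l q1 q hW ε hε hε1 p
  have hε0 : 0 < ε := (qk_hh hM).1.trans_le hε
  have hM1 : 1 ≤ M := by omega
  have key := fun A1 hA => hg l q1 q hW ε hε hε1 p (fun y => kk ε (p - y)) (1 / ε) A1
    ((kk_contDiff hε0).comp (contDiff_const.sub contDiff_id)) hA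
    (fun y _ => hD ε p y (by positivity))
    (fun y _ => by rw [abs_of_nonneg (kk_nonneg _ _)]; exact kk_le hε0 _)
  have hu : 1 ≤ 1 / ε := by rw [le_div_iff₀ hε0, one_mul]; exact hε1
  have hu2 : 1 / ε ^ 2 = (1 / ε) * (1 / ε) := by field_simp
  have hu3 : 1 / ε ≤ 1 / ε ^ 2 := hu2 ▸ le_mul_of_one_le_left (by positivity) hu
  have a1 := qk_abs hM (k := 3880) (k' := 3870) (by norm_num)
  have a2 := ip_anti hM1 (k := 3880) (k' := 4390) (by norm_num)
  have a3 := ip_pos hM1 4390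
  have a4 : (ip M 4390 : ℝ) * (1 / ε) ≤ ip M 3880 * (1 / ε ^ 2) :=
    mul_le_mul a2 hu3 (by positivity) (a3.le.trans a2)
  have a5 : (ip M 3880 : ℝ) ≤ ip M 3880 * (1 / ε ^ 2) :=
    le_mul_of_one_le_right (a3.le.trans a2) (hu.trans hu3)
  have a6 := mul_le_mul_of_nonneg_right a1 (show 0 ≤ 1 / ε ^ 2 by positivity)
  have a7 := ip_pos hM1 3880
  split_ifs with hp
  · refine (key (ip M 1850) (ip_pos hM1 _).le fun i _ hi k _ =>
      (qk_tv M p i k (qk_far hM hp hi ε).1 _).trans (qk_far hM hp hi ε).2).trans ?_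
    rw [← ip_add, div_eq_mul_one_div, div_eq_mul_one_div (ip M 3870 : ℝ)]
    linarith
  · refine (key (3 / ε) (by positivity) fun i _ hi k _ =>
      (qk_tv M p i k (by positivity) _).trans ?_).trans ?_
    · exact div_le_div_of_nonneg_left (by norm_num) hε0
        (Real.le_sqrt_of_sq_le (le_add_of_nonneg_left (sq_nonneg _)))
    · have b1 := mul_le_mul_of_nonneg_right (qk_abs hM (k := 2030) (k' := 2020) (by norm_num))
        (show 0 ≤ 1 / ε by positivity)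
      rw [div_eq_mul_one_div, div_eq_mul_one_div (ip M 3870 : ℝ), div_eq_mul_one_div 3,
        div_eq_mul_one_div (ip M 2020 : ℝ)]
      linarith

/-- A smooth extension of the potential at the reference point. -/
noncomputable def qk_U (y : E3) : ℝ := Real.smoothTransition (5 - y 2) * kk 0 (xs - y)

theorem qk_U_eq {y : E3} (h : y 2 ≤ 4) : qk_U y = kk 0 (xs - y) := by
  rw [qk_U, Real.smoothTransition.one_of_one_le (by linarith), one_mul]

theorem qk_xs (y : E3) : 6 - y 2 ≤ ‖xs - y‖ := (le_abs_self _).trans (qk_coord y xs 2)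

theorem qk_U_contDiff : ContDiff ℝ 4 qk_U := by
  refine contDiff_iff_contDiffAt.2 fun y => ?_
  by_cases h : y 2 < 6
  · have h1 : ContDiff ℝ 4 fun y : E3 => Real.smoothTransition (5 - y 2) :=
      Real.smoothTransition.contDiff.comp (by fun_prop)
    have h2 : 0 < ‖xs - y‖ := lt_of_lt_of_le (by linarith) (qk_xs y)
    exact h1.contDiffAt.mul (ContDiffAt.comp (g := kk 0) y (kk_contDiffAt (by positivity))
      (contDiffAt_const.sub contDiffAt_id))
  · refine (contDiffAt_const (c := (0 : ℝ))).congr_of_eventuallyEq ?_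
    have h1 : IsOpen {y : E3 | 5 < y 2} := isOpen_lt continuous_const (by fun_prop)
    filter_upwards [h1.mem_nhds (show 5 < y 2 by linarith)] with w hw
    rw [qk_U, Real.smoothTransition.zero_of_nonpos (sub_nonpos.2 (le_of_lt hw)), zero_mul]

theorem qk_two {s : E3} (h : 1 ≤ ‖s‖) : kk 0 s ≤ 2 * kk 1 s := by
  rw [kk_zero, kk, mul_one_div, div_le_div_iff₀ (by positivity) (by positivity), one_mul]
  exact Real.sqrt_le_iff.2 ⟨by positivity, by nlinarith⟩

theorem w_ref : ∀ᶠ M : ℕ in atTop, ∀ (l : ℝ) (q1 : E3 → ℝ) (q : ℕ → ℕ → ℕ → ℚ), WOK M l q1 q →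
    |AA M l q xs - Vc M q1 xs| ≤ ip M 3500 := by
  obtain ⟨C, hC, hD⟩ := kk_deriv
  filter_upwards [qk_gen (C := C * 2 ^ 5) (by positivity), eventually_ge_atTop 6] with M hg hM
  intro l q1 q hW
  have hM1 : 1 ≤ M := by omega
  have hs : ∀ y ∈ slab M, y 2 ≤ 4 := fun y hy => (abs_le.1 hy.2.2).2.trans (by norm_num)
  have key := hg l q1 q hW 1 (by linarith [qk_hh hM]) le_rfl xs qk_U 1 (ip M 1850) qk_U_contDiff
    (ip_pos hM1 _).le (fun y hy i hi => by
      have h1 : IsOpen {y : E3 | y 2 < 4} := isOpen_lt (by fun_prop) continuous_const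
      have h2 : qk_U =ᶠ[nhds y] fun y => kk 0 (xs - y) := by
        filter_upwards [h1.mem_nhds hy] with w hw
        exact qk_U_eq (le_of_lt hw)
      have h3 : 1 ≤ ‖xs - y‖ := le_trans (by linarith) (qk_xs y)
      rw [(h2.iteratedFDeriv ℝ i).self_of_nhds, mul_assoc]
      refine (hD 0 xs y (by positivity) i hi).trans (mul_le_mul_of_nonneg_left ?_ hC)
      refine (pow_le_pow_left₀ (kk_nonneg _ _) (qk_two h3) _).trans ?_
      rw [mul_pow]
      exact mul_le_mul_of_nonneg_right (pow_le_pow_right₀ one_le_two (by omega))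
        (pow_nonneg (kk_nonneg _ _) _))
    (fun y hy => by
      have h3 : 1 ≤ ‖xs - y‖ := le_trans (by linarith [hs y hy]) (qk_xs y)
      rw [qk_U_eq (hs y hy), abs_of_nonneg (kk_nonneg _ _), kk_zero]
      exact div_le_one_of_le₀ h3 (norm_nonneg _))
    (fun i hi0 hi k hk => by
      have h1 : (i, i, k) ∈ grid M := Finset.mem_product.2 ⟨Finset.mem_range.2 hi0,
        Finset.mem_product.2 ⟨Finset.mem_range.2 hi0, Finset.mem_range.2 hk⟩⟩
      have h2 := hs _ (node_mem hM1 h1)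
      have h3 : ∀ j, qk_U (node M (i, j, k)) = kk 0 (xs - node M (i, j, k)) := fun j => qk_U_eq h2
      have hp : |xs 0| ≤ DD M := by simp [xs]
      simp only [h3]
      exact (qk_tv M xs i k (qk_far hM hp hi 0).1 _).trans (qk_far hM hp hi 0).2)
  have e1 : ∑ n ∈ grid M, l * (zz q n : ℝ) * qk_U (node M n) = AA M l q xs :=
    Finset.sum_congr rfl fun n hn => by
      rw [qk_U_eq (hs _ (node_mem hM1 hn)), kk_zero, mul_one_div]
  have e2 : ∫ y in slab M, qq M q1 y * qk_U y = Vc M q1 xs :=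
    setIntegral_congr_fun (slab_isCompact M).measurableSet fun y hy => by
      simp only [qk_U_eq (hs y hy), kk_zero, mul_one_div]
  rw [e1, e2, one_pow, div_one, ← ip_add, mul_one] at key
  have a1 := qk_abs hM (k := 3880) (k' := 3500) (by norm_num)
  have a2 := ip_anti hM1 (k := 3880) (k' := 4390) (by norm_num)
  linarith

end Vale.Agent.P370
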