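import Vale.Agent.P370.Gap
import Vale.Agent.P370.Link
import Vale.Agent.P370.Norms

/-! The one-particle lower bound for the model potential. -/

namespace Vale.Agent.P370

open MeasureTheory Filter
open scoped Classical

theorem s1c_sq {η : ℝ} (hη : 0 < η) (x y : ℝ) :
    (x + y) ^ 2 ≤ (1 + η) * x ^ 2 + (1 + η⁻¹) * y ^ 2 := by
  have h1 : η * η⁻¹ = 1 := mul_inv_cancel₀ hη.ne'
  have h2 : 0 ≤ η * (x - η⁻¹ * y) ^ 2 := by positivity
  have h3 : η * (x - η⁻¹ * y) ^ 2 =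
      η * x ^ 2 - 2 * (η * η⁻¹) * (x * y) + (η * η⁻¹) * η⁻¹ * y ^ 2 := by ring
  rw [h3, h1] at h2
  nlinarith

theorem s1c_edges {K : ℕ} (E : Finset (Fin K × Fin K)) {x : Fin K → ℝ} (hx : ∀ a, 0 ≤ x a) :
    ∑ e ∈ E, (x e.1 + x e.2) ≤ 2 * K * ∑ a, x a := by
  calc ∑ e ∈ E, (x e.1 + x e.2) ≤ ∑ e : Fin K × Fin K, (x e.1 + x e.2) :=
        Finset.sum_le_sum_of_subset_of_nonneg (Finset.subset_univ _)
          fun e _ _ => add_nonneg (hx _) (hx _)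
    _ = 2 * K * ∑ a, x a := by
        rw [Fintype.sum_prod_type]
        simp only [Finset.sum_add_distrib, Finset.sum_const, Finset.card_univ, Fintype.card_fin,
          nsmul_eq_mul, ← Finset.mul_sum]
        ring

theorem s1c_hop {K : ℕ} (E : Finset (Fin K × Fin K)) (c b ν : Fin K → ℝ) {n0 δ η : ℝ}
    (hη : 0 < η) (hδ : 0 ≤ δ) (hν : ∀ a, (ν a - n0) ^ 2 ≤ δ) :
    hop1 E c ≤ (1 + η) * (n0 ^ 2 * hop1 E b) +
      (1 + η⁻¹) * (8 * K * (δ * ∑ a, b a ^ 2 + ∑ a, (c a - b a * ν a) ^ 2)) := by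
  have hx : ∀ a, 0 ≤ δ * b a ^ 2 + (c a - b a * ν a) ^ 2 := fun a => by positivity
  have h1 := s1c_edges E hx
  rw [Finset.sum_add_distrib (s := Finset.univ), ← Finset.mul_sum] at h1
  have h2 : ∀ e : Fin K × Fin K, (c e.1 - c e.2) ^ 2 ≤ (1 + η) * (n0 ^ 2 * (b e.1 - b e.2) ^ 2) +
      (1 + η⁻¹) * (4 * ((δ * b e.1 ^ 2 + (c e.1 - b e.1 * ν e.1) ^ 2) +
        (δ * b e.2 ^ 2 + (c e.2 - b e.2 * ν e.2) ^ 2))) := fun e => by
    have e1 : c e.1 - c e.2 = n0 * (b e.1 - b e.2) + (b e.1 * (ν e.1 - n0) - b e.2 * (ν e.2 - n0) +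
        (c e.1 - b e.1 * ν e.1) - (c e.2 - b e.2 * ν e.2)) := by ring
    rw [e1]
    refine (s1c_sq hη _ _).trans ?_
    rw [mul_pow]
    refine add_le_add le_rfl (mul_le_mul_of_nonneg_left ?_ (by positivity))
    have k1 : (b e.1 * (ν e.1 - n0)) ^ 2 ≤ δ * b e.1 ^ 2 := by
      rw [mul_pow, mul_comm]
      exact mul_le_mul_of_nonneg_right (hν _) (sq_nonneg _)
    have k2 : (b e.2 * (ν e.2 - n0)) ^ 2 ≤ δ * b e.2 ^ 2 := by
      rw [mul_pow, mul_comm]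
      exact mul_le_mul_of_nonneg_right (hν _) (sq_nonneg _)
    generalize b e.1 * (ν e.1 - n0) = p at k1 ⊢
    generalize b e.2 * (ν e.2 - n0) = q at k2 ⊢
    generalize c e.1 - b e.1 * ν e.1 = r
    generalize c e.2 - b e.2 * ν e.2 = s
    nlinarith [sq_nonneg (p + q), sq_nonneg (p - r), sq_nonneg (p + s), sq_nonneg (q + r),
      sq_nonneg (q - s), sq_nonneg (r + s)]
  unfold hop1
  refine (Finset.sum_le_sum fun e _ => h2 e).trans ?_
  rw [Finset.sum_add_distrib, ← Finset.mul_sum, ← Finset.mul_sum, ← Finset.mul_sum,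
    ← Finset.mul_sum]
  refine add_le_add le_rfl (mul_le_mul_of_nonneg_left ?_ (by positivity))
  linarith

theorem s1c_nu {ν n0 δ : ℝ} (hν : 0 ≤ ν) (hn : 0 < n0) (hδ : 0 ≤ δ)
    (h1 : (1 - δ) * n0 ^ 2 ≤ ν ^ 2) (h2 : ν ^ 2 ≤ (1 + δ) * n0 ^ 2) :
    (ν - n0) ^ 2 ≤ δ ^ 2 * n0 ^ 2 := by
  rw [← mul_pow]
  refine sq_le_sq' ?_ ?_
  · by_contra h
    push Not at h
    nlinarith [mul_nonneg hδ hn.le]
  · by_contra h
    push Not at h
    nlinarith [mul_nonneg hδ hn.le]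

theorem s1c_mass {K : ℕ} (c b ν : Fin K → ℝ) {n : ℝ} (h : ∀ a, n ≤ 2 * ν a ^ 2) :
    n * ∑ a, b a ^ 2 ≤ 4 * ∑ a, c a ^ 2 + 4 * ∑ a, (c a - b a * ν a) ^ 2 := by
  rw [Finset.mul_sum, Finset.mul_sum, Finset.mul_sum, ← Finset.sum_add_distrib]
  refine Finset.sum_le_sum fun a _ => ?_
  nlinarith [mul_le_mul_of_nonneg_right (h a) (sq_nonneg (b a)), sq_nonneg (2 * c a - b a * ν a)]

/-- The final computation. -/
theorem s1c_fin {N C S F n E W H Hb t η A g G γ δ q r : ℝ} (hC : C ≤ N) (hC0 : 0 ≤ C)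
    (hS : 0 ≤ S) (hF : 0 ≤ F) (hn : 1 ≤ n) (hE : 0 ≤ E) (hW : 0 ≤ W) (hH : 0 ≤ H) (ht : 0 ≤ t)
    (hη : 0 < η) (hη1 : 4 * η ≤ 1) (hA : 0 ≤ A) (hg : 0 ≤ g) (hγ0 : 0 ≤ γ) (hγ : 8 * γ ≤ 1)
    (hδ0 : 0 ≤ δ) (hδ : 4 * δ ≤ 1)
    (hmass : n * F ≤ 4 * C + 4 * S) (hgap : N - C + S ≤ G * (E + W) + γ * F)
    (hhop : H ≤ (1 + η) * (n * Hb) + A * (δ * n * F + S))
    (hlink : t * n * Hb ≤ (1 + η) * E) (h1 : 2 * A * t ≤ g) (h2 : 4 * G * g ≤ 2 * η)
    (h3 : 4 * A * δ * t + 16 * g * γ + r ≤ q) :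
    (1 - 4 * η) * t * H + g * (N - C) - q * N ≤ E + W - r * N := by
  have hN : 0 ≤ N := hC0.trans hC
  have k0 : F ≤ n * F := le_mul_of_one_le_left hF hn
  have k1 : n * F ≤ 4 * N + 4 * (N - C + S) := by linarith
  have k2 : γ * F ≤ γ * (4 * N + 4 * (N - C + S)) := mul_le_mul_of_nonneg_left (k0.trans k1) hγ0
  have k3 : 8 * γ * (N - C + S) ≤ 1 * (N - C + S) :=
    mul_le_mul_of_nonneg_right hγ (by linarith)
  have kd : N - C + S ≤ 2 * G * (E + W) + 8 * γ * N := by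
    have := mul_nonneg hγ0 hN
    linarith
  have k4 : δ * n * F ≤ δ * (4 * N + 4 * (N - C + S)) := by
    rw [mul_assoc]
    exact mul_le_mul_of_nonneg_left k1 hδ0
  have k5 : 4 * δ * (N - C + S) ≤ 1 * (N - C + S) :=
    mul_le_mul_of_nonneg_right hδ (by linarith)
  have k6 : δ * n * F + S ≤ 4 * δ * N + 2 * (N - C + S) := by linarith
  have k7 : t * H ≤ (1 + η) * ((1 + η) * E) + t * (A * (4 * δ * N + 2 * (N - C + S))) := by
    have m1 := mul_le_mul_of_nonneg_left hhop ht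
    have m2 := mul_le_mul_of_nonneg_left hlink (show 0 ≤ 1 + η by linarith)
    have m3 := mul_le_mul_of_nonneg_left (mul_le_mul_of_nonneg_left k6 hA) ht
    linarith
  have k8 : 0 ≤ t * (A * (4 * δ * N + 2 * (N - C + S))) :=
    mul_nonneg ht (mul_nonneg hA (by linarith [mul_nonneg hδ0 hN]))
  have k9 : (1 - 4 * η) * t * H ≤
      (1 - 2 * η) * E + t * (A * (4 * δ * N + 2 * (N - C + S))) := by
    have m1 := mul_le_mul_of_nonneg_left k7 (show 0 ≤ 1 - 4 * η by linarith)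
    have m2 : (1 - 4 * η) * ((1 + η) * (1 + η)) ≤ 1 - 2 * η := by
      linarith [mul_pos hη hη, mul_pos hη (mul_pos hη hη)]
    have m3 := mul_le_mul_of_nonneg_right m2 hE
    have m4 := mul_nonneg hη.le k8
    linarith
  have k10 : 2 * A * t * (N - C + S) ≤ g * (N - C + S) :=
    mul_le_mul_of_nonneg_right h1 (by linarith)
  have k11 := mul_le_mul_of_nonneg_left kd hg
  have k12 := mul_le_mul_of_nonneg_right h2 (add_nonneg hE hW)
  have k13 := mul_le_mul_of_nonneg_right h3 hN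
  have k14 := mul_nonneg hg hS
  have k15 := mul_le_mul_of_nonneg_right hη1 hW
  have k16 := mul_nonneg hη.le hW
  linarith

theorem s1c_tt {M Pi : ℕ} (hM : 1 ≤ M) (hP : M ≤ Pi) : 0 ≤ tt M Pi ∧ tt M Pi ≤ ip M 3081 := by
  have h1 : (1 : ℝ) ≤ M := by exact_mod_cast hM
  have h2 : (M : ℝ) ≤ Pi := by exact_mod_cast hP
  have h3 := ip_pos hM 3040
  have h4 := ip_pos hM 3081
  have h5 : (0 : ℝ) < (M : ℝ) ^ 40 := by positivity
  have h6 : ((SS M : ℕ) : ℝ) = (M : ℝ) ^ 40 := by rw [SS, Nat.cast_pow]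
  have h7 : (0 : ℝ) < 2 * Pi * (M : ℝ) ^ 40 := mul_pos (by linarith) h5
  rw [tt, h6]
  refine ⟨(div_pos h3 h7).le, ?_⟩
  rw [div_le_iff₀ h7, ← ip_mul_pow hM 3040 41, pow_succ' (M : ℝ) 40]
  refine mul_le_mul_of_nonneg_left (mul_le_mul_of_nonneg_right (by linarith) h5.le) h4.le

theorem s1c : ∀ᶠ M : ℕ in atTop, ∀ (L : Lay) (Pi : ℕ) (v : ℕ → ℕ → ℕ), L.OK M Pi v →
    ∀ u : E3 → ℝ, Sm u →
      (1 - 4 * ip M 4) * tt M Pi * hop1 (E4 L.K) (cf (phi M L) u) +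
        ip M 540 * (nsq1 u - ∑ a, cf (phi M L) u a ^ 2) - ip M 3095 * nsq1 u ≤
      kin1 u + ∫ p, Vm M L p * u p ^ 2 := by
  filter_upwards [gap_est, link_low, low0, phh_norm, phi_onf, ev_le 64, eventually_ge_atTop 2]
    with M hgap hlink hlow hnorm honf h64 hM2 L Pi v hL u hu
  have hM : 1 ≤ M := by omega
  have hM1 : (1 : ℝ) ≤ M := by exact_mod_cast hM
  have ip0 : (ip M 0 : ℝ) = 1 := by simp [ip]
  have sm : ∀ {C : ℝ} {k : ℕ}, C ≤ 64 → 1 ≤ k → C * ip M k ≤ 1 := fun {C k} hC hk => by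
    have := ip_absorb hM (hC.trans h64) (j := 0) (k := k) (k' := 0) (by omega)
    rwa [pow_zero, mul_one, ip0] at this
  refine le_trans ?_ (hlow L hL.K_le u hu)
  have hφ := honf L Pi v hL
  have hf := sm_div_TH M L hu
  have hn := hL.one_le_n0sq hM2
  have h18 := ip_pos hM 18
  have h18' : 2 * (ip M 18 : ℝ) ≤ 1 := sm (by norm_num) (by norm_num)
  set f : E3 → ℝ := fun p => u p / TH M L p with hfd
  set ν : Fin L.K → ℝ := fun a => Real.sqrt (nsq1 (phh M L a.val)) with hνd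
  have hν2 : ∀ a, ν a ^ 2 = nsq1 (phh M L a.val) := fun a => Real.sq_sqrt (nsq1_nonneg _)
  have hn2 : Real.sqrt (n0sq M Pi) ^ 2 = n0sq M Pi := Real.sq_sqrt (by linarith)
  have hlo : ∀ a, n0sq M Pi ≤ 2 * ν a ^ 2 := fun a => by
    rw [hν2]
    nlinarith [(hnorm L Pi v hL a.val a.2).1]
  have hν0 : ∀ a, ν a ≠ 0 := fun a h0 => by
    have := hlo a
    rw [h0] at this
    linarith
  have hν : ∀ a, (ν a - Real.sqrt (n0sq M Pi)) ^ 2 ≤ ip M 36 * n0sq M Pi := fun a => by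
    have := s1c_nu (ν := ν a) (n0 := Real.sqrt (n0sq M Pi)) (Real.sqrt_nonneg _)
      (Real.sqrt_pos.2 (by linarith)) h18.le
      (by rw [hn2, hν2]; exact (hnorm L Pi v hL a.val a.2).1)
      (by rw [hn2, hν2]; exact (hnorm L Pi v hL a.val a.2).2)
    rwa [hn2, sq (ip M 18 : ℝ), ← ip_add] at this
  have hg := hgap L Pi v hL u hu
  have e1 : ∀ p, ∑ a : Fin L.K, fb M L f a * phh M L a.val p =
      ∑ a : Fin L.K, fb M L f a * ν a * phi M L a p := fun p =>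
    Finset.sum_congr rfl fun a _ => by
      have := hν0 a
      rw [mul_assoc, phi, mul_div_cancel₀ _ this]
  simp only [← hfd, e1] at hg
  rw [onf_dist hφ hu.1.continuous hu.2] at hg
  have h36 := ip_pos hM 36
  have h4 := ip_pos hM 4
  have hh := s1c_hop (E4 L.K) (cf (phi M L) u) (fb M L f) ν h4 (mul_nonneg h36.le (by linarith)) hν
  rw [hn2, ← mul_assoc (1 + (ip M 4 : ℝ)⁻¹)] at hh
  obtain ⟨ht0, ht⟩ := s1c_tt hM hL.Pi_ge
  have hK : (L.K : ℝ) ≤ M := by exact_mod_cast hL.K_le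
  have hA0 : 0 ≤ (1 + (ip M 4 : ℝ)⁻¹) * (8 * L.K) := by positivity
  have hA : (1 + (ip M 4 : ℝ)⁻¹) * (8 * L.K) ≤ 16 * (M : ℝ) ^ 5 := by
    rw [ip, inv_inv]
    have := one_le_pow₀ (n := 4) hM1
    calc (1 + (M : ℝ) ^ 4) * (8 * L.K) ≤ (2 * (M : ℝ) ^ 4) * (8 * M) := by gcongr; linarith
      _ = _ := by ring
  have hAt : (1 + (ip M 4 : ℝ)⁻¹) * (8 * L.K) * tt M Pi ≤ 16 * (M : ℝ) ^ 5 * ip M 3081 :=
    mul_le_mul hA ht ht0 (by positivity)
  have h540 := ip_pos hM 540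
  refine s1c_fin (onf_bessel hφ hu.1.continuous hu.2) (by positivity) (by positivity)
    (by positivity) hn (EE_nonneg M L f)
    (integral_nonneg fun p => mul_nonneg (Wt_mem M L p).1 (sq_nonneg _))
    (Finset.sum_nonneg fun e _ => sq_nonneg _) ht0 h4 (sm (by norm_num) (by norm_num)) hA0 h540.le
    (ip_pos hM 2900).le (sm (by norm_num) (by norm_num)) h36.le (sm (by norm_num) (by norm_num))
    (s1c_mass _ _ ν hlo) hg hh (hlink L Pi v hL f hf) ?_ ?_ ?_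
  · have := ip_absorb hM (show (32 : ℝ) ≤ M by linarith) (j := 5) (k := 3081) (k' := 540)
      (by norm_num)
    linarith
  · have := ip_absorb hM (show (2 : ℝ) ≤ M by linarith) (j := 530) (k := 540) (k' := 4)
      (by norm_num)
    linarith
  · have a1 := ip_absorb hM h64 (j := 5) (k := 3081 + 36) (k' := 3096) (by norm_num)
    have a2 := ip_absorb hM (show (16 : ℝ) ≤ M by linarith) (j := 0) (k := 540 + 2900)
      (k' := 3096) (by norm_num)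
    have a3 := ip_anti hM (show 3096 ≤ 4000 by norm_num)
    have a4 := ip_absorb hM (show (3 : ℝ) ≤ M by linarith) (j := 0) (k := 3096) (k' := 3095)
      (by norm_num)
    rw [ip_add] at a1 a2
    rw [pow_zero] at a2 a4
    have a5 := mul_le_mul_of_nonneg_right hAt h36.le
    linarith

end Vale.Agent.P370
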