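import Vale.Agent.P370.S2cA

/-! The one-particle upper bound for the model potential. -/

namespace Vale.Agent.P370

open MeasureTheory Filter
open scoped Classical

theorem s2c_int_prod {f g h : ℝ → ℝ} (hf : Integrable f) (hg : Integrable g) (hh : Integrable h) :
    Integrable fun p : E3 => f (p 0) * g (p 1) * h (p 2) :=
  (integrable_E3 _).2 ((hf.mul_prod (hg.mul_prod hh)).congr (.of_forall fun q => by
    simp [mul_assoc]))

theorem s2c_gam2 (M : ℕ) (z : ℝ) :
    deriv (deriv (gam M)) z = ((M : ℝ) ^ 2 * z ^ 2 - M) * gam M z := by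
  rw [show deriv (gam M) = fun z => -(M * z) * gam M z from
    funext fun z => (gam_hasDerivAt M z).deriv,
    ((((hasDerivAt_id' z).const_mul (M : ℝ)).fun_neg).fun_mul (gam_hasDerivAt M z)).deriv]
  ring

theorem s2c_ind {M : ℕ} (B : ℝ) : Integrable ((box M 2).indicator fun _ => B) ∧
    ∫ p, (box M 2).indicator (fun _ => B) p = 4 * (M : ℝ) ^ 110 * B := by
  have hm := (box_isCompact M 2).isClosed.measurableSet
  refine ⟨(integrable_indicator_iff hm).2
    (integrableOn_const (box_isCompact M 2).measure_lt_top.ne), ?_⟩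
  rw [integral_indicator_const _ hm, box_volume M (by norm_num), smul_eq_mul, DD]
  push_cast
  ring

variable {M : ℕ} {L : Lay} {Pi : ℕ} {v : ℕ → ℕ → ℕ}

theorem s2c_trial (h : L.OK M Pi v) (c : Fin L.K → ℝ) : trial (th M L Pi) (ff M L) c =
    fun p => PS M L p * gam M (p 2) * s2cF M L Pi c p := by
  funext p
  have hP := (PS_pos M L p).ne'
  have e : PS M L p * gam M (p 2) * s2cF M L Pi c p =
      s2cP M L c p * (gam M (p 2) * chz (p 2) / Real.sqrt (n0sq M Pi)) := by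
    rw [s2cF, div_eq_mul_inv _ (Real.sqrt _)]
    field_simp
  rw [e, trial, s2cP, Finset.mul_sum, Finset.sum_mul]
  refine Finset.sum_congr rfl fun a _ => ?_
  rw [mul_left_comm, h.th_mul_ff]
  ring

theorem s2c_pot (c : Fin L.K → ℝ) (p : E3) :
    lap (fun p => PS M L p * gam M (p 2)) p * (PS M L p * gam M (p 2)) * s2cF M L Pi c p ^ 2 =
      2 * (Vm M L p * (PS M L p * gam M (p 2) * s2cF M L Pi c p) ^ 2 -
        om M / PS M L p * (PS M L p * gam M (p 2) * s2cF M L Pi c p) ^ 2) := by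
  rcases le_total 2 |p 2| with hz | hz
  · simp [s2cF, chz_eq_zero hz]
  have hP := (PS_pos M L p).ne'
  have h1 := abs_le.1 hz
  rw [lap_mul_vert ((PS_contDiff M L).of_le (by norm_num)) ((gam_contDiff M).of_le (by norm_num))
    (fun p t => by simp [PS, ev]), s2c_gam2, Vm, V1, vlat, plat_eq_one h1.1 h1.2,
    min_eq_left (by nlinarith)]
  field_simp
  ring

theorem s2c_pen (h : L.OK M Pi v) (hM : 2 ≤ M) (c : Fin L.K → ℝ) (p : E3) :
    om M / PS M L p * (PS M L p * gam M (p 2) * s2cF M L Pi c p) ^ 2 ≤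
      (box M 2).indicator (fun _ => 16 * om M * ∑ a, c a ^ 2) p := by
  by_cases hp : p ∈ box M 2
  swap
  · simp [s2cF_supp h c hp, hp]
  have hP := PS_pos M L p
  have hn := h.one_le_n0sq hM
  have ho := om_pos M
  have hS : 0 ≤ ∑ a, c a ^ 2 := Finset.sum_nonneg fun _ _ => sq_nonneg _
  have b4 : (chz (p 2) * gam M (p 2)) ^ 2 ≤ 1 :=
    pow_le_one₀ (mul_nonneg (chz_mem _).1 (gam_pos M _).le)
      (mul_le_one₀ (chz_mem _).2 (gam_pos M _).le (gam_le_one M _))
  have b5 : (Real.sqrt (n0sq M Pi))⁻¹ ^ 2 ≤ 1 := by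
    rw [inv_pow, Real.sq_sqrt (by linarith)]
    exact inv_le_one_of_one_le₀ hn
  have b6 : s2cP M L c p ^ 2 / PS M L p ≤ (∑ a, c a ^ 2) * 16 := by
    rw [div_le_iff₀ hP, mul_assoc]
    refine (s2cP_sq hM c p).trans (mul_le_mul_of_nonneg_left ?_ hS)
    rw [sq]
    exact mul_le_mul_of_nonneg_right (h.PS_le hM p) hP.le
  rw [Set.indicator_of_mem hp]
  calc _ = om M * (s2cP M L c p ^ 2 / PS M L p) * (chz (p 2) * gam M (p 2)) ^ 2 *
        (Real.sqrt (n0sq M Pi))⁻¹ ^ 2 := by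
        rw [s2cF]
        field_simp
    _ ≤ om M * ((∑ a, c a ^ 2) * 16) * 1 * 1 := by gcongr
    _ = _ := by ring

theorem s2c_main (h : L.OK M Pi v) (hM : 2 ≤ M) (c : Fin L.K → ℝ) :
    Integrable (s2cA M L Pi c) ∧ (1 + ip M 5) * ∫ p, s2cA M L Pi c p ≤
      2 * ((1 + ip M 4) * tt M Pi * hop1 (E4 L.K) c) := by
  have hM1 : 1 ≤ M := by omega
  have hM2 : (2 : ℝ) ≤ M := by exact_mod_cast hM
  have hβ := beta_ge hM1
  have hγ : 0 < gam0 M := lt_of_lt_of_le (by positivity) (gam0_ge hM1)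
  have i1 : Integrable fun u : ℝ => gk M u ^ 2 :=
    .of_integral_ne_zero (show beta M ≠ 0 by linarith)
  have i2 : Integrable fun z : ℝ => (gam M z * chz z) ^ 2 := .of_integral_ne_zero hγ.ne'
  have i3 := fun e : Fin L.K × Fin L.K => ramp_deriv_sq (s2c_gap hM (L.li e.1.val e.2.val))
  have i4 : ∀ e : Fin L.K × Fin L.K, Integrable fun p : E3 =>
      (c e.1 - c e.2) ^ 2 * (ip M 3040 * ginf M ^ 2 / n0sq M Pi) *
        (deriv (rho M L e.1.val e.2.val) (p 0) ^ 2 * gk M (p 1 - L.lj e.1.val e.2.val) ^ 2 *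
          (gam M (p 2) * chz (p 2)) ^ 2) := fun e =>
    (s2c_int_prod (i3 e).1 (i1.comp_sub_right _) i2).const_mul _
  refine ⟨integrable_finsetSum _ fun e _ => i4 e, ?_⟩
  unfold s2cA
  rw [integral_finsetSum _ fun e _ => i4 e, hop1, Finset.mul_sum, Finset.mul_sum, Finset.mul_sum]
  refine Finset.sum_le_sum fun e _ => ?_
  rw [integral_const_mul, integral_E3_prod (fun x => deriv (rho M L e.1.val e.2.val) x ^ 2)
    (fun y => gk M (y - L.lj e.1.val e.2.val) ^ 2) (fun z => (gam M z * chz z) ^ 2),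
    integral_sub_right_eq_self (fun u : ℝ => gk M u ^ 2)]
  have h1 : ∫ x, deriv (rho M L e.1.val e.2.val) x ^ 2 ≤ 1 / (LL M - 4 * M - 4) := by
    refine (i3 e).2.trans_eq ?_
    unfold rr
    push_cast
    ring
  obtain ⟨l1, l2, l3⟩ := s2c_LL hM
  have hPi : (0 : ℝ) < Pi := by
    have := h.Pi_ge
    exact_mod_cast (by omega : 0 < Pi)
  have hg : (0 : ℝ) < ginf M := by linarith [one_le_ginf M]
  have hL : (0 : ℝ) < LL M := by linarith
  have hL' : (0 : ℝ) < LL M - 4 * M - 4 := by linarith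
  have h2 : (1 + ip M 5) * (1 / (LL M - 4 * M - 4)) ≤ (1 + ip M 4 : ℝ) / LL M := by
    have e1 : (ip M 5 : ℝ) * LL M = (M : ℝ) ^ 15 := by
      unfold ip LL
      push_cast
      field_simp
    have e2 : (ip M 4 : ℝ) * LL M = (M : ℝ) ^ 16 := by
      unfold ip LL
      push_cast
      field_simp
    have e3 : (ip M 4 : ℝ) ≤ 1 := (ip_anti hM1 (Nat.zero_le 4)).trans_eq (by simp [ip])
    rw [mul_one_div, div_le_div_iff₀ hL' hL]
    nlinarith [mul_le_mul_of_nonneg_right e3 (show (0 : ℝ) ≤ 4 * M + 4 by linarith)]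
  have h3 := (mul_le_mul_of_nonneg_left h1 (show 0 ≤ 1 + (ip M 5 : ℝ) by
    linarith [ip_pos hM1 5])).trans h2
  have h4 : 0 ≤ (c e.1 - c e.2) ^ 2 * (ip M 3040 / (Pi * LL M)) :=
    mul_nonneg (sq_nonneg _) (div_nonneg (ip_pos hM1 _).le (by positivity))
  have h5 : (SS M : ℝ) = LL M * LL M := by
    unfold SS LL
    push_cast
    ring
  refine le_trans (le_of_eq ?_) ((mul_le_mul_of_nonneg_left h3 h4).trans_eq ?_)
  · change _ * (_ * (_ * beta M * gam0 M)) = _
    have : beta M ≠ 0 := by linarith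
    rw [n0sq]
    generalize (ip M 3040 : ℝ) = t
    field_simp
  · rw [tt, h5]
    generalize (ip M 3040 : ℝ) = t
    field_simp

theorem s2c : ∀ᶠ M : ℕ in atTop, ∀ (L : Lay) (Pi : ℕ) (v : ℕ → ℕ → ℕ), L.OK M Pi v →
    ∀ c : Fin L.K → ℝ,
      kin1 (trial (th M L Pi) (ff M L) c) + ∫ p, Vm M L p * trial (th M L Pi) (ff M L) c p ^ 2 ≤
        (1 + ip M 4) * tt M Pi * hop1 (E4 L.K) c + ip M 3095 * ∑ a, c a ^ 2 := by
  obtain ⟨C, hC, h1⟩ := s2c_pt
  filter_upwards [h1, ev_om 4000, ev_le (6 * C + 64), eventually_ge_atTop 2] with M h1 hom hCM hM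
    L Pi v h c
  have hM1 : 1 ≤ M := by omega
  have hΘ : ContDiff ℝ 8 fun p : E3 => PS M L p * gam M (p 2) := (PS_contDiff M L).mul
    ((gam_contDiff M).comp (EuclideanSpace.proj 2 : E3 →L[ℝ] ℝ).contDiff)
  have hF := s2cF_sm h c
  have e1 := gsr (hΘ.of_le (by norm_num)) hF
  have hc : Continuous fun p => (PS M L p * gam M (p 2) * s2cF M L Pi c p) ^ 2 :=
    (hΘ.continuous.mul hF.1.continuous).pow 2
  have hi : ∀ W : E3 → ℝ, Continuous W →
      Integrable fun p => W p * (PS M L p * gam M (p 2) * s2cF M L Pi c p) ^ 2 := fun W hW =>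
    (hW.mul hc).integrable_of_hasCompactSupport
      (.intro (box_isCompact M 2) fun p hp => by simp [s2cF_supp h c hp])
  have i1 := hi _ (Vm_continuous M L)
  have i2 := hi (fun p => om M / PS M L p)
    (continuous_const.div (PS_contDiff M L).continuous fun p => (PS_pos M L p).ne')
  simp only [s2c_pot] at e1
  rw [integral_const_mul, integral_sub i1 i2] at e1
  have e2 := integral_mono i2 (s2c_ind _).1 (s2c_pen h hM c)
  rw [(s2c_ind _).2] at e2
  obtain ⟨i3, e3⟩ := s2c_main h hM c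
  have e4 : ∀ k : Fin 3, ∫ p, (PS M L p * gam M (p 2)) ^ 2 * pd k (s2cF M L Pi c) p ^ 2 ≤
      (1 + ip M 5) * (if 0 = k then 1 else 0) * (∫ p, s2cA M L Pi c p) +
        4 * (M : ℝ) ^ 110 * (C * (M : ℝ) ^ 5 * ip M 4000 * ∑ a, c a ^ 2) := fun k => by
    rw [← (s2c_ind _).2, ← integral_const_mul, ← integral_add (i3.const_mul _) (s2c_ind _).1]
    exact integral_mono_of_nonneg (.of_forall fun p => by positivity)
      ((i3.const_mul _).add (s2c_ind _).1) (.of_forall (h1 L Pi v h c k))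
  have e5 := Finset.sum_le_sum fun k (_ : k ∈ Finset.univ) => e4 k
  rw [Fin.sum_univ_three (fun k : Fin 3 => _ + _), if_pos rfl, if_neg (by decide),
    if_neg (by decide)] at e5
  have hS : 0 ≤ ∑ a, c a ^ 2 := Finset.sum_nonneg fun _ _ => sq_nonneg _
  have e6 := mul_le_mul_of_nonneg_right
    (ip_absorb hM1 hCM (j := 115) (k := 4000) (k' := 3095) (by norm_num)) hS
  have e7 : (M : ℝ) ^ 110 * om M ≤ (M : ℝ) ^ 115 * ip M 4000 :=
    mul_le_mul (pow_le_pow_right₀ (by exact_mod_cast hM1) (by norm_num)) hom (om_pos M).le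
      (by positivity)
  have e8 := mul_le_mul_of_nonneg_right e7 hS
  have e9 : (M : ℝ) ^ 110 * (C * (M : ℝ) ^ 5 * ip M 4000 * ∑ a, c a ^ 2) =
      C * (M : ℝ) ^ 115 * ip M 4000 * ∑ a, c a ^ 2 := by ring
  rw [s2c_trial h c]
  rw [mul_assoc 4, e9] at e5
  linarith

end Vale.Agent.P370
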