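import Vale.Agent.P370.Norms
import Vale.Agent.P370.Low0

/-! Pointwise gradient bound for the trial functions. -/

namespace Vale.Agent.P370

open MeasureTheory Filter Topology
open scoped Classical

section PD

variable {f g : E3 → ℝ} {p : E3} (k : Fin 3)

theorem s2c_pd_add (hf : DifferentiableAt ℝ f p) (hg : DifferentiableAt ℝ g p) :
    pd k (fun q => f q + g q) p = pd k f p + pd k g p := by
  simp [pd, fderiv_fun_add hf hg]

theorem s2c_pd_mul (hf : DifferentiableAt ℝ f p) (hg : DifferentiableAt ℝ g p) :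
    pd k (fun q => f q * g q) p = f p * pd k g p + g p * pd k f p := by
  simp [pd, fderiv_fun_mul hf hg]

theorem s2c_pd_const (c : ℝ) : pd k (fun _ => c) p = 0 := by simp [pd]

theorem s2c_pd_sum {ι : Type} (s : Finset ι) {F : ι → E3 → ℝ}
    (h : ∀ i, DifferentiableAt ℝ (F i) p) :
    pd k (fun q => ∑ i ∈ s, F i q) p = ∑ i ∈ s, pd k (F i) p := by
  simp [pd, fderiv_fun_sum fun i (_ : i ∈ s) => h i]

theorem s2c_pd_coord {h : ℝ → ℝ} (j : Fin 3) (hh : DifferentiableAt ℝ h (p j)) :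
    pd k (fun q => h (q j)) p = deriv h (p j) * if j = k then 1 else 0 := by
  have h1 : HasFDerivAt (fun q : E3 => q j) (EuclideanSpace.proj j : E3 →L[ℝ] ℝ) p :=
    (EuclideanSpace.proj j : E3 →L[ℝ] ℝ).hasFDerivAt
  have h2 : HasFDerivAt (fun q : E3 => h (q j)) _ p := hh.hasDerivAt.comp_hasFDerivAt p h1
  simp [pd, h2.fderiv, ev]

theorem s2c_pd_min (h : ∀ q, 0 ≤ f q) (h0 : f p = 0) : pd k f p = 0 := by
  have : IsLocalMin f p := Eventually.of_forall fun q => h0.trans_le (h q)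
  simp [pd, this.fderiv_eq_zero]

theorem s2c_pd_le : |pd k f p| ≤ ‖iteratedFDeriv ℝ 1 f p‖ := by
  rw [norm_iteratedFDeriv_one]
  simpa [pd, basic_norm_ev] using (fderiv ℝ f p).le_opNorm (ev k)

end PD

theorem s2c_sq_sum {ι : Type} (s : Finset ι) (r : ι → ℝ)
    (h : ∀ i ∈ s, ∀ j ∈ s, i ≠ j → r i = 0 ∨ r j = 0) :
    (∑ i ∈ s, r i) ^ 2 = ∑ i ∈ s, r i ^ 2 := by
  rw [sq, Finset.sum_mul_sum]
  refine Finset.sum_congr rfl fun i hi => ?_
  rw [Finset.sum_eq_single_of_mem i hi fun j hj hne => mul_eq_zero.2 (h i hi j hj hne.symm), sq]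

theorem s2c_LL {M : ℕ} (hM : 2 ≤ M) : 16 * (M : ℝ) ≤ (M : ℝ) ^ 15 ∧
    (M : ℝ) ^ 15 * 2 ≤ (M : ℝ) ^ 16 ∧ (M : ℝ) ^ 16 ≤ LL M := by
  have h : (2 : ℝ) ≤ M := by exact_mod_cast hM
  refine ⟨?_, ?_, ?_⟩
  · have h1 : (2 : ℝ) ^ 14 ≤ (M : ℝ) ^ 14 := by gcongr
    rw [pow_succ (M : ℝ) 14]
    nlinarith
  · rw [pow_succ (M : ℝ) 15]
    gcongr
  · unfold LL
    push_cast
    exact pow_le_pow_right₀ (by linarith) (by norm_num)

theorem s2c_gap {M : ℕ} (hM : 2 ≤ M) (x : ℝ) : x + rr M + 3 ≤ x + LL M - rr M := by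
  have h : (2 : ℝ) ≤ M := by exact_mod_cast hM
  obtain ⟨h1, h2, h3⟩ := s2c_LL hM
  unfold rr
  push_cast
  linarith

/-- The lateral part of the trial function. -/
noncomputable def s2cP (M : ℕ) (L : Lay) (c : Fin L.K → ℝ) (p : E3) : ℝ :=
  ∑ a, c a * part M L a.val p

/-- The coefficient along a link. -/
noncomputable def s2cC (M : ℕ) (L : Lay) (c : Fin L.K → ℝ) (e : Fin L.K × Fin L.K) (x : ℝ) : ℝ :=
  c e.1 + (c e.2 - c e.1) * rho M L e.1.val e.2.val x

/-- The hopping part of the gradient. -/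
noncomputable def s2cR (M : ℕ) (L : Lay) (c : Fin L.K → ℝ) (p : E3) : ℝ :=
  ∑ e ∈ E4 L.K, (c e.2 - c e.1) * deriv (rho M L e.1.val e.2.val) (p 0) *
    linkF M L e.1.val e.2.val (p 0) (p 1)

/-- The quotient of the trial function by the comparison function. -/
noncomputable def s2cF (M : ℕ) (L : Lay) (Pi : ℕ) (c : Fin L.K → ℝ) (p : E3) : ℝ :=
  chz (p 2) * (s2cP M L c p / PS M L p) * (Real.sqrt (n0sq M Pi))⁻¹

variable {M : ℕ} {L : Lay} {Pi : ℕ} {v : ℕ → ℕ → ℕ}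

theorem s2cP_contDiff (c : Fin L.K → ℝ) : ContDiff ℝ 8 (s2cP M L c) :=
  ContDiff.sum fun a _ => contDiff_const.mul (part_contDiff M L a)

theorem s2cP_sq (hM : 2 ≤ M) (c : Fin L.K → ℝ) (p : E3) :
    s2cP M L c p ^ 2 ≤ (∑ a, c a ^ 2) * PS M L p ^ 2 := by
  have h0 : ∀ a : Fin L.K, 0 ≤ part M L a.val p := fun a =>
    (own_nonneg M L a _ _).trans (own_le_part hM L a p)
  refine (Finset.sum_mul_sq_le_sq_mul_sq _ _ _).trans (mul_le_mul_of_nonneg_left ?_
    (Finset.sum_nonneg fun _ _ => sq_nonneg _))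
  refine (Finset.sum_sq_le_sq_sum_of_nonneg fun a _ => h0 a).trans
    (pow_le_pow_left₀ (Finset.sum_nonneg fun a _ => h0 a) ?_ 2)
  rw [sum_part]
  linarith [om_pos M]

theorem s2c_label (h : L.OK M Pi v) (hM : 2 ≤ M) (c : Fin L.K → ℝ) (x y : ℝ) :
    ∃ g : ℝ, g ^ 2 ≤ ∑ a, c a ^ 2 ∧ (∀ a : Fin L.K, own M L a.val x y ≠ 0 → c a = g) ∧
      ∀ e ∈ E4 L.K, linkF M L e.1.val e.2.val x y ≠ 0 → s2cC M L c e x = g := by
  have hc : ∀ a, c a ^ 2 ≤ ∑ a, c a ^ 2 := fun a =>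
    Finset.single_le_sum (f := fun a => c a ^ 2) (fun _ _ => sq_nonneg _) (Finset.mem_univ a)
  by_cases h1 : ∃ a : Fin L.K, own M L a.val x y ≠ 0
  · obtain ⟨a, ha⟩ := h1
    refine ⟨c a, hc a, fun b hb => ?_, fun e he hl => ?_⟩
    · by_contra hne
      exact (h.own_disj a.2 b.2 (fun e => hne (by rw [Fin.ext e])) x y).elim ha hb
    · rcases h.own_link ((edge_iff e).1 he) a.2 ha hl with ⟨e1, h2⟩ | ⟨e1, h2⟩
      · rw [s2cC, rho, (ramp_eq_zero (s2c_gap hM _) h2.le).1, Fin.ext e1]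
        ring
      · rw [s2cC, rho, (ramp_eq_one (s2c_gap hM _) h2.le).1, Fin.ext e1]
        ring
  push Not at h1
  by_cases h2 : ∃ e ∈ E4 L.K, linkF M L e.1.val e.2.val x y ≠ 0
  · obtain ⟨e, he, hl⟩ := h2
    refine ⟨s2cC M L c e x, ?_, fun a ha => absurd (h1 a) ha, fun e' he' hl' => ?_⟩
    · obtain ⟨r0, r1⟩ := ramp_mem (s2c_gap hM (L.li e.1.val e.2.val)) x
      have c1 := hc e.1
      have c2 := hc e.2
      unfold s2cC rho
      set r := ramp _ _ x
      nlinarith [mul_nonneg (mul_nonneg r0 (sub_nonneg.2 r1)) (sq_nonneg (c e.2 - c e.1)),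
        mul_nonneg r0 (sub_nonneg.2 c2), mul_nonneg (sub_nonneg.2 r1) (sub_nonneg.2 c1)]
    · by_cases hne : e' = e
      · rw [hne]
      · refine absurd (h.link_disj ((edge_iff e).1 he) ((edge_iff e').1 he') (fun e0 => hne ?_)
          x x y) (not_or.2 ⟨hl, hl'⟩)
        rw [Prod.mk.injEq] at e0
        exact Prod.ext (Fin.ext e0.1.symm) (Fin.ext e0.2.symm)
  · push Not at h2
    exact ⟨0, by simpa using Finset.sum_nonneg fun a _ => sq_nonneg (c a),
      fun a ha => absurd (h1 a) ha, fun e he hl => absurd (h2 e he) hl⟩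

theorem s2c_rho_diff (a b : ℕ) : Differentiable ℝ (rho M L a b) :=
  (ramp_contDiff _ _).differentiable (by norm_num)

theorem s2c_pdP (h : L.OK M Pi v) (hM : 2 ≤ M) (c : Fin L.K → ℝ) (k : Fin 3) (p : E3) :
    ∃ g : ℝ, g ^ 2 ≤ ∑ a, c a ^ 2 ∧ s2cP M L c p = g * (PS M L p - om M) ∧
      pd k (s2cP M L c) p = g * pd k (PS M L) p + s2cR M L c p * if 0 = k then 1 else 0 := by
  obtain ⟨g, hg, ho, hl⟩ := s2c_label h hM c (p 0) (p 1)
  have dO : ∀ a : Fin L.K, DifferentiableAt ℝ (fun q : E3 => own M L a.val (q 0) (q 1)) p :=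
    fun a => (own_contDiff M L a).differentiable (by norm_num) p
  have dL : ∀ e : Fin L.K × Fin L.K,
      DifferentiableAt ℝ (fun q : E3 => linkF M L e.1.val e.2.val (q 0) (q 1)) p :=
    fun e => (linkF_contDiff M L _ _).differentiable (by norm_num) p
  have dC0 : ∀ e x, HasDerivAt (s2cC M L c e)
      ((c e.2 - c e.1) * deriv (rho M L e.1.val e.2.val) x) x := fun e x =>
    ((s2c_rho_diff _ _ x).hasDerivAt.const_mul _).const_add _
  have dC : ∀ e, DifferentiableAt ℝ (fun q : E3 => s2cC M L c e (q 0)) p := fun e =>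
    (dC0 e _).differentiableAt.comp p (EuclideanSpace.proj 0 : E3 →L[ℝ] ℝ).differentiableAt
  have e1 : s2cP M L c = fun q => ∑ a, c a * own M L a.val (q 0) (q 1) +
      ∑ e ∈ E4 L.K, s2cC M L c e (q 0) * linkF M L e.1.val e.2.val (q 0) (q 1) :=
    funext fun q => part_eq M L c q
  have e2 : PS M L = fun q => om M + ∑ a : Fin L.K, own M L a.val (q 0) (q 1) +
      ∑ e ∈ E4 L.K, linkF M L e.1.val e.2.val (q 0) (q 1) := funext fun q => psi_eq M L _ _
  refine ⟨g, hg, ?_, ?_⟩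
  · rw [e1, e2]
    simp only [add_assoc, add_sub_cancel_left, mul_add, Finset.mul_sum]
    congr 1
    · refine Finset.sum_congr rfl fun a _ => ?_
      by_cases h0 : own M L a.val (p 0) (p 1) = 0
      · simp [h0]
      · rw [ho a h0]
    · refine Finset.sum_congr rfl fun e he => ?_
      by_cases h0 : linkF M L e.1.val e.2.val (p 0) (p 1) = 0
      · simp [h0]
      · rw [hl e he h0]
  · rw [e1, e2, s2c_pd_add k (.fun_sum fun a _ => (dO a).const_mul _)
      (.fun_sum fun e _ => (dC e).fun_mul (dL e)),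
      s2c_pd_add k ((DifferentiableAt.fun_sum fun a _ => dO a).const_add _)
        (.fun_sum fun e _ => dL e),
      s2c_pd_add k (differentiableAt_const _) (.fun_sum fun a _ => dO a), s2c_pd_const,
      s2c_pd_sum k _ dO, s2c_pd_sum k _ dL, s2c_pd_sum k _ fun a => (dO a).const_mul (c a),
      s2c_pd_sum k _ fun e => (dC e).fun_mul (dL e), zero_add, mul_add, add_assoc,
      Finset.mul_sum, Finset.mul_sum]
    congr 1
    · refine Finset.sum_congr rfl fun a _ => ?_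
      rw [s2c_pd_mul k (differentiableAt_const _) (dO a), s2c_pd_const, mul_zero, add_zero]
      by_cases h0 : own M L a.val (p 0) (p 1) = 0
      · rw [s2c_pd_min (p := p) k (fun q => own_nonneg M L a (q 0) (q 1)) h0]
        simp
      · rw [ho a h0]
    · rw [s2cR, Finset.sum_mul, ← Finset.sum_add_distrib]
      refine Finset.sum_congr rfl fun e he => ?_
      rw [s2c_pd_mul k (dC e) (dL e), s2c_pd_coord k 0 (dC0 e _).differentiableAt,
        (dC0 e _).deriv]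
      congr 1
      · by_cases h0 : linkF M L e.1.val e.2.val (p 0) (p 1) = 0
        · rw [s2c_pd_min (p := p) k (fun q => (linkF_mem M L e.1 e.2 (q 0) (q 1)).1) h0]
          simp
        · rw [hl e he h0]
      · ring

theorem s2cF_contDiff (c : Fin L.K → ℝ) : ContDiff ℝ 1 (s2cF M L Pi c) := by
  have h1 : ContDiff ℝ 8 fun p : E3 => chz (p 2) :=
    (plat_contDiff _ _).comp (EuclideanSpace.proj 2 : E3 →L[ℝ] ℝ).contDiff
  exact ((h1.mul ((s2cP_contDiff c).div (PS_contDiff M L) fun p => (PS_pos M L p).ne')).mul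
    contDiff_const).of_le (by norm_num)

theorem s2cF_supp (h : L.OK M Pi v) (c : Fin L.K → ℝ) {p : E3} (hp : p ∉ box M 2) :
    s2cF M L Pi c p = 0 := by
  by_contra h0
  have h1 : chz (p 2) ≠ 0 := fun h1 => h0 (by simp [s2cF, h1])
  have h2 : s2cP M L c p ≠ 0 := fun h1 => h0 (by simp [s2cF, h1])
  obtain ⟨a, -, ha⟩ := Finset.exists_ne_zero_of_sum_ne_zero h2
  obtain ⟨a1, a2, a3, a4⟩ := h.part_supp a.2 (right_ne_zero_of_mul ha)
  exact hp ⟨a1.le, a2.le, a3.le, a4.le, (not_le.1 fun h3 => h1 (chz_eq_zero h3)).le⟩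

theorem s2cF_sm (h : L.OK M Pi v) (c : Fin L.K → ℝ) : Sm (s2cF M L Pi c) :=
  ⟨s2cF_contDiff c, .intro (box_isCompact M 2) fun _ hp => s2cF_supp h c hp⟩

theorem s2c_pdF (h : L.OK M Pi v) (hM : 2 ≤ M) (c : Fin L.K → ℝ) (k : Fin 3) (p : E3) :
    ∃ g : ℝ, g ^ 2 ≤ ∑ a, c a ^ 2 ∧ PS M L p * pd k (s2cF M L Pi c) p =
      (chz (p 2) * s2cR M L c p * (if 0 = k then 1 else 0) +
        (deriv chz (p 2) * (if 2 = k then 1 else 0) * s2cP M L c p +
          chz (p 2) * (g * (om M * (pd k (PS M L) p / PS M L p))))) *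
        (Real.sqrt (n0sq M Pi))⁻¹ := by
  obtain ⟨g, hg, e1, e2⟩ := s2c_pdP h hM c k p
  refine ⟨g, hg, ?_⟩
  have hP := (PS_pos M L p).ne'
  have dz : Differentiable ℝ chz := (plat_contDiff _ _).differentiable (by norm_num)
  have d1 : DifferentiableAt ℝ (fun q : E3 => chz (q 2)) p :=
    (dz _).comp p (EuclideanSpace.proj 2 : E3 →L[ℝ] ℝ).differentiableAt
  have d2 : DifferentiableAt ℝ (PS M L) p := (PS_contDiff M L).differentiable (by norm_num) p
  have d3 : DifferentiableAt ℝ (fun q => s2cP M L c q / PS M L q) p :=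
    ((s2cP_contDiff c).div (PS_contDiff M L) fun p => (PS_pos M L p).ne').differentiable
      (by norm_num) p
  have e3 := s2c_pd_mul k d3 d2
  rw [show (fun q => s2cP M L c q / PS M L q * PS M L q) = s2cP M L c from
    funext fun q => div_mul_cancel₀ _ (PS_pos M L q).ne', e2] at e3
  unfold s2cF
  rw [s2c_pd_mul k (d1.fun_mul d3) (differentiableAt_const _), s2c_pd_const, s2c_pd_mul k d1 d3,
    s2c_pd_coord k 2 (dz _)]
  have e4 : PS M L p * (s2cP M L c p / PS M L p) = s2cP M L c p := mul_div_cancel₀ _ hP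
  have e5 : s2cP M L c p / PS M L p * pd k (PS M L) p =
      g * pd k (PS M L) p - g * (om M * (pd k (PS M L) p / PS M L p)) := by
    rw [e1]
    field_simp
  rw [e5] at e3
  linear_combination (-(chz (p 2)) * (Real.sqrt (n0sq M Pi))⁻¹) * e3 +
    (deriv chz (p 2) * (if 2 = k then 1 else 0) * (Real.sqrt (n0sq M Pi))⁻¹) * e4

theorem s2cR_sq (h : L.OK M Pi v) (hM : 2 ≤ M) (c : Fin L.K → ℝ) (p : E3) :
    s2cR M L c p ^ 2 ≤ ∑ e ∈ E4 L.K, (c e.1 - c e.2) ^ 2 * (ip M 3040 * ginf M ^ 2) *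
      (deriv (rho M L e.1.val e.2.val) (p 0) ^ 2 * gk M (p 1 - L.lj e.1.val e.2.val) ^ 2) := by
  rw [s2cR, s2c_sq_sum]
  · refine Finset.sum_le_sum fun e _ => ?_
    have h1 : linkF M L e.1.val e.2.val (p 0) (p 1) ≤
        ip M 1520 * (gk M (p 1 - L.lj e.1.val e.2.val) * ginf M) :=
      mul_le_mul_of_nonneg_left (run_le _ _ _ _ _ _) (ip_pos (by omega) _).le
    have h2 := pow_le_pow_left₀ (linkF_mem M L _ _ _ _).1 h1 2
    have h3 := mul_le_mul_of_nonneg_left h2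
      (sq_nonneg ((c e.2 - c e.1) * deriv (rho M L e.1.val e.2.val) (p 0)))
    rw [show (ip M 3040 : ℝ) = ip M 1520 * ip M 1520 from ip_add M 1520 1520, mul_pow]
    refine h3.trans_eq ?_
    ring
  · intro e he e' he' hne
    refine (h.link_disj ((edge_iff e).1 he) ((edge_iff e').1 he') (fun e0 => hne ?_)
      (p 0) (p 0) (p 1)).imp (fun h0 => by simp [h0]) fun h0 => by simp [h0]
    rw [Prod.mk.injEq] at e0
    exact Prod.ext (Fin.ext e0.1) (Fin.ext e0.2)

theorem s2c_young {A B η : ℝ} (h : 0 < η) : (A + B) ^ 2 ≤ (1 + η) * A ^ 2 + (1 + η⁻¹) * B ^ 2 := by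
  have h1 : η * η⁻¹ = 1 := mul_inv_cancel₀ h.ne'
  have h2 := mul_nonneg h.le (sq_nonneg (A - η⁻¹ * B))
  have h3 : η * (A - η⁻¹ * B) ^ 2 = η * A ^ 2 - 2 * (η * η⁻¹) * A * B + (η * η⁻¹) * η⁻¹ * B ^ 2 := by
    ring
  rw [h3, h1] at h2
  nlinarith

/-- The main term of the gradient. -/
noncomputable def s2cA (M : ℕ) (L : Lay) (Pi : ℕ) (c : Fin L.K → ℝ) (p : E3) : ℝ :=
  ∑ e ∈ E4 L.K, (c e.1 - c e.2) ^ 2 * (ip M 3040 * ginf M ^ 2 / n0sq M Pi) *
    (deriv (rho M L e.1.val e.2.val) (p 0) ^ 2 * gk M (p 1 - L.lj e.1.val e.2.val) ^ 2 *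
      (gam M (p 2) * chz (p 2)) ^ 2)

theorem s2c_pt : ∃ C : ℝ, 0 ≤ C ∧ ∀ᶠ M : ℕ in atTop, ∀ (L : Lay) (Pi : ℕ) (v : ℕ → ℕ → ℕ),
    L.OK M Pi v → ∀ (c : Fin L.K → ℝ) (k : Fin 3) (p : E3),
      (PS M L p * gam M (p 2)) ^ 2 * pd k (s2cF M L Pi c) p ^ 2 ≤
        (1 + ip M 5) * (if 0 = k then 1 else 0) * s2cA M L Pi c p +
          (box M 2).indicator (fun _ => C * (M : ℝ) ^ 5 * ip M 4000 * ∑ a, c a ^ 2) p := by
  obtain ⟨C1, h1⟩ := plat_deriv
  obtain ⟨C2, h2⟩ := PS_deriv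
  refine ⟨4 * (256 * C1 ^ 2 + C2 ^ 2), by positivity, ?_⟩
  filter_upwards [h2, ev_exp 2000, ev_om 2000, eventually_ge_atTop 2] with M h2 hexp hom hM L Pi v
    h c k p
  have hM1 : 1 ≤ M := by omega
  have hn := h.one_le_n0sq hM
  have hη := ip_pos hM1 5
  have hA : 0 ≤ s2cA M L Pi c p := Finset.sum_nonneg fun e _ =>
    mul_nonneg (mul_nonneg (sq_nonneg _) (div_nonneg
      (mul_nonneg (ip_pos hM1 3040).le (sq_nonneg _)) (by linarith))) (by positivity)
  by_cases hp : p ∈ box M 2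
  swap
  · have : s2cF M L Pi c =ᶠ[𝓝 p] fun _ => 0 :=
      ((box_isCompact M 2).isClosed.isOpen_compl.eventually_mem hp).mono fun q hq =>
        s2cF_supp h c hq
    have h0 : pd k (s2cF M L Pi c) p = 0 := by simp [pd, this.fderiv_eq]
    rw [Set.indicator_of_notMem hp, h0, add_zero, zero_pow two_ne_zero, mul_zero]
    refine mul_nonneg (mul_nonneg (by linarith) ?_) hA
    split_ifs <;> norm_num
  obtain ⟨g, hg, e⟩ := s2c_pdF h hM c k p
  rw [Set.indicator_of_mem hp, ← mul_pow, mul_right_comm, e, add_mul, add_mul]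
  refine (s2c_young hη).trans (add_le_add ?_ ?_)
  · rw [mul_assoc (1 + ip M 5)]
    refine mul_le_mul_of_nonneg_left ?_ (by positivity)
    split_ifs
    swap
    · simp
    have h3 := mul_le_mul_of_nonneg_left (s2cR_sq h hM c p)
      (show 0 ≤ (gam M (p 2) * chz (p 2)) ^ 2 / n0sq M Pi by positivity)
    refine le_trans (le_of_eq ?_) (h3.trans_eq ?_)
    · rw [mul_pow, mul_pow, inv_pow, Real.sq_sqrt (by linarith)]
      ring
    · rw [one_mul, s2cA, Finset.mul_sum]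
      refine Finset.sum_congr rfl fun e _ => ?_
      ring
  · set S := ∑ a, c a ^ 2 with hS
    have hS0 : 0 ≤ S := (sq_nonneg g).trans hg
    have hPS := PS_pos M L p
    have hga := gam_pos M (p 2)
    have ha := ip_pos hM1 2000
    have b1 : |deriv chz (p 2) * gam M (p 2)| ≤ |C1| * ip M 2000 := by
      by_cases hz : |p 2| < 1
      · have : chz =ᶠ[𝓝 (p 2)] fun _ => 1 :=
          ((isOpen_lt continuous_abs continuous_const).eventually_mem hz).mono fun z hz =>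
            chz_eq_one (le_of_lt hz)
        rw [this.deriv_eq, deriv_const, zero_mul, abs_zero]
        positivity
      · have := h1 (-1) 1 1 (by norm_num) (p 2)
        rw [iteratedDeriv_one] at this
        rw [abs_mul, abs_of_pos hga]
        exact mul_le_mul (this.trans (le_abs_self _)) ((gam_small M (not_lt.1 hz)).trans hexp)
          hga.le (abs_nonneg _)
    have b2 : |om M * (pd k (PS M L) p / PS M L p)| ≤ ip M 2000 * |C2| := by
      rw [abs_mul, abs_of_pos (om_pos M), abs_div, abs_of_pos hPS]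
      refine mul_le_mul hom ?_ (by positivity) ha.le
      rw [div_le_iff₀ hPS]
      exact (s2c_pd_le k).trans ((h2 L h.K_le 1 (by norm_num) p).trans
        (mul_le_mul_of_nonneg_right (le_abs_self _) hPS.le))
    have b3 : s2cP M L c p ^ 2 ≤ S * 16 ^ 2 := (s2cP_sq hM c p).trans
      (mul_le_mul_of_nonneg_left (pow_le_pow_left₀ hPS.le (h.PS_le hM p) 2) hS0)
    have b4 : (chz (p 2) * gam M (p 2)) ^ 2 ≤ 1 := pow_le_one₀ (mul_nonneg (chz_mem _).1 hga.le)
      (mul_le_one₀ (chz_mem _).2 hga.le (gam_le_one M _))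
    have b5 : (Real.sqrt (n0sq M Pi))⁻¹ ^ 2 ≤ 1 := by
      rw [inv_pow, Real.sq_sqrt (by linarith)]
      exact inv_le_one_of_one_le₀ hn
    have b6 : (if 2 = k then (1 : ℝ) else 0) ^ 2 ≤ 1 := by split_ifs <;> norm_num
    have b7 : 1 + (ip M 5 : ℝ)⁻¹ ≤ 2 * (M : ℝ) ^ 5 := by
      have : (1 : ℝ) ≤ (M : ℝ) ^ 5 := one_le_pow₀ (by exact_mod_cast hM1)
      rw [ip, inv_inv]
      linarith
    have c1 := pow_le_pow_left₀ (abs_nonneg _) b1 2
    have c2 := pow_le_pow_left₀ (abs_nonneg _) b2 2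
    rw [sq_abs, mul_pow _ (ip M 2000 : ℝ), sq_abs] at c1
    rw [sq_abs, mul_pow (ip M 2000 : ℝ), sq_abs] at c2
    rw [show (ip M 4000 : ℝ) = ip M 2000 * ip M 2000 from ip_add M 2000 2000, ← sq]
    set X := deriv chz (p 2) * gam M (p 2)
    set Y := om M * (pd k (PS M L) p / PS M L p)
    set t := (ip M 2000 : ℝ) ^ 2
    set δ := if 2 = k then (1 : ℝ) else 0
    have d1 : (X * δ * s2cP M L c p) ^ 2 ≤ C1 ^ 2 * t * 1 * (S * 16 ^ 2) := by
      rw [mul_pow, mul_pow]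
      gcongr
    have d2 : (chz (p 2) * gam M (p 2) * g * Y) ^ 2 ≤ 1 * S * (t * C2 ^ 2) := by
      rw [mul_pow, mul_pow]
      gcongr
    have d3 : ((deriv chz (p 2) * δ * s2cP M L c p + chz (p 2) * (g * Y)) *
        (Real.sqrt (n0sq M Pi))⁻¹ * gam M (p 2)) ^ 2 ≤ 2 * (256 * C1 ^ 2 + C2 ^ 2) * t * S := by
      have d4 : ((deriv chz (p 2) * δ * s2cP M L c p + chz (p 2) * (g * Y)) *
          (Real.sqrt (n0sq M Pi))⁻¹ * gam M (p 2)) ^ 2 =
          (X * δ * s2cP M L c p + chz (p 2) * gam M (p 2) * g * Y) ^ 2 *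
            (Real.sqrt (n0sq M Pi))⁻¹ ^ 2 := by
        simp only [X]
        ring
      rw [d4]
      refine (mul_le_of_le_one_right (sq_nonneg _) b5).trans ?_
      nlinarith [sq_nonneg (X * δ * s2cP M L c p - chz (p 2) * gam M (p 2) * g * Y)]
    refine (mul_le_mul b7 d3 (sq_nonneg _) (by positivity)).trans_eq ?_
    ring

end Vale.Agent.P370
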