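import Vale.Agent.P370.PoinA

/-! The three-point rule on one cell and sums over cells. -/

namespace Vale.Agent.P370

open MeasureTheory Filter Set
open scoped Classical

/-- The three-point rule on the interval of length `3 h` with centre `c`. -/
noncomputable def simpS (h c : ℝ) (g : ℝ → ℝ) : ℝ :=
  h * (9 / 8 * g (c - h) + 3 / 4 * g c + 9 / 8 * g (c + h))

theorem simp_taylor {g : ℝ → ℝ} (hg : ContDiff ℝ 4 g) {c r B : ℝ}
    (hB : ∀ t ∈ Icc (c - r) (c + r), |iteratedDeriv 4 g t| ≤ B) {x : ℝ}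
    (hx : x ∈ Icc (c - r) (c + r)) :
    |g x - (g c + iteratedDeriv 1 g c * (x - c) + iteratedDeriv 2 g c / 2 * (x - c) ^ 2 +
      iteratedDeriv 3 g c / 6 * (x - c) ^ 3)| ≤ B * r ^ 4 / 24 := by
  have hr : 0 ≤ r := by linarith [hx.1, hx.2]
  have hc : c ∈ Icc (c - r) (c + r) := ⟨by linarith, by linarith⟩
  have hB0 : 0 ≤ B := (abs_nonneg _).trans (hB c hc)
  rcases eq_or_ne c x with rfl | hne
  · simp only [sub_self, mul_zero, ne_eq, OfNat.ofNat_ne_zero, not_false_eq_true, zero_pow,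
      add_zero, abs_zero]
    positivity
  obtain ⟨y, hy, e⟩ := taylor_mean_remainder_lagrange_iteratedDeriv (n := 3) hne hg.contDiffOn
  have hu : UniqueDiffOn ℝ (uIcc c x) := uniqueDiffOn_uIcc hne
  have e1 : ∀ k ≤ 4, iteratedDerivWithin k g (uIcc c x) c = iteratedDeriv k g c := fun k hk =>
    iteratedDerivWithin_eq_iteratedDeriv hu (hg.contDiffAt.of_le (by exact_mod_cast hk))
      left_mem_uIcc
  rw [taylor_within_apply] at e
  simp only [Finset.sum_range_succ, Finset.sum_range_zero, e1 0 (by norm_num), e1 1 (by norm_num),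
    e1 2 (by norm_num), e1 3 (by norm_num), iteratedDeriv_zero, smul_eq_mul, Nat.factorial] at e
  have hy' : y ∈ Icc (c - r) (c + r) := uIcc_subset_Icc hc hx (uIoo_subset_uIcc_self hy)
  have h1 : |x - c| ≤ r := abs_le.2 ⟨by linarith [hx.1], by linarith [hx.2]⟩
  have h2 : |iteratedDeriv 4 g y * (x - c) ^ 4| ≤ B * r ^ 4 := by
    rw [abs_mul, abs_pow]
    exact mul_le_mul (hB y hy') (pow_le_pow_left₀ (abs_nonneg _) h1 4) (by positivity) hB0
  have h3 := abs_le.1 h2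
  push_cast at e
  exact abs_le.2 ⟨by linarith [h3.1], by linarith [h3.2]⟩

theorem simp_S_bd {h c e : ℝ} (hh : 0 ≤ h) {u v : ℝ → ℝ}
    (hu : ∀ t ∈ Icc (c - 3 * h / 2) (c + 3 * h / 2), |u t - v t| ≤ e) :
    |simpS h c u - simpS h c v| ≤ 3 * h * e := by
  have h1 := abs_le.1 (hu (c - h) ⟨by linarith, by linarith⟩)
  have h2 := abs_le.1 (hu c ⟨by linarith, by linarith⟩)
  have h3 := abs_le.1 (hu (c + h) ⟨by linarith, by linarith⟩)
  unfold simpS
  rw [← mul_sub, abs_mul, abs_of_nonneg hh, show 3 * h * e = h * (3 * e) by ring]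
  exact mul_le_mul_of_nonneg_left (abs_le.2 ⟨by linarith [h1.1, h2.1, h3.1],
    by linarith [h1.2, h2.2, h3.2]⟩) hh

theorem simp_I_bd {h c e : ℝ} (hh : 0 ≤ h) {u v : ℝ → ℝ} (cu : Continuous u) (cv : Continuous v)
    (hu : ∀ t ∈ Icc (c - 3 * h / 2) (c + 3 * h / 2), |u t - v t| ≤ e) :
    |(∫ t in (c - 3 * h / 2)..(c + 3 * h / 2), u t) -
      ∫ t in (c - 3 * h / 2)..(c + 3 * h / 2), v t| ≤ 3 * h * e := by
  rw [← intervalIntegral.integral_sub (cu.intervalIntegrable _ _) (cv.intervalIntegrable _ _)]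
  have h1 : c - 3 * h / 2 ≤ c + 3 * h / 2 := by linarith
  refine (intervalIntegral.norm_integral_le_of_norm_le_const (f := fun t => u t - v t) (C := e)
    fun t ht => ?_).trans (le_of_eq ?_)
  · rw [uIoc_of_le h1] at ht
    exact hu t (Ioc_subset_Icc_self ht)
  · rw [abs_of_nonneg (by linarith)]
    ring

/-- The error of the three-point rule. -/
theorem simp_1d {g : ℝ → ℝ} (hg : ContDiff ℝ 4 g) {h c B : ℝ} (hh : 0 ≤ h)
    (hB : ∀ t ∈ Icc (c - 3 * h / 2) (c + 3 * h / 2), |iteratedDeriv 4 g t| ≤ B) :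
    |simpS h c g - ∫ t in (c - 3 * h / 2)..(c + 3 * h / 2), g t| ≤ 2 * h ^ 5 * B := by
  have hB0 : 0 ≤ B := (abs_nonneg _).trans (hB c ⟨by linarith, by linarith⟩)
  have key := fun x hx => simp_taylor hg hB (x := x) hx
  generalize g c = a0 at key
  generalize iteratedDeriv 1 g c = a1 at key
  generalize iteratedDeriv 2 g c / 2 = a2 at key
  generalize iteratedDeriv 3 g c / 6 = a3 at key
  have h1 := simp_S_bd hh key
  have h2 := simp_I_bd hh hg.continuous (by fun_prop) key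
  have h3 : ∫ t in (c - 3 * h / 2)..(c + 3 * h / 2),
      (a0 + a1 * (t - c) + a2 * (t - c) ^ 2 + a3 * (t - c) ^ 3) =
      simpS h c fun t => a0 + a1 * (t - c) + a2 * (t - c) ^ 2 + a3 * (t - c) ^ 3 := by
    rw [intervalIntegral.integral_eq_sub_of_hasDerivAt (f := fun t =>
      a0 * t + a1 / 2 * (t - c) ^ 2 + a2 / 3 * (t - c) ^ 3 + a3 / 4 * (t - c) ^ 4)
      (fun t _ => ?_) (Continuous.intervalIntegrable (by fun_prop) _ _)]
    · unfold simpS
      ring
    · have d := (hasDerivAt_id t).sub_const c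
      refine (((((hasDerivAt_id t).const_mul a0).add ((d.pow 2).const_mul (a1 / 2))).add
        ((d.pow 3).const_mul (a2 / 3))).add ((d.pow 4).const_mul (a3 / 4))).congr_deriv ?_
      simp only [id]
      push_cast
      ring
  rw [h3] at h2
  have h4 := abs_le.1 h1
  have h5 := abs_le.1 h2
  have h6 : 0 ≤ h ^ 5 * B := by positivity
  exact abs_le.2 ⟨by nlinarith [h4.1, h5.2], by nlinarith [h4.2, h5.1]⟩

theorem simp_IS (h c a b : ℝ) {F : ℝ → ℝ → ℝ} (hF : ∀ z, Continuous fun y => F y z) :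
    ∫ y in a..b, simpS h c (F y) = simpS h c fun z => ∫ y in a..b, F y z := by
  unfold simpS
  have i : ∀ w z : ℝ, IntervalIntegrable (fun y => w * F y z) volume a b := fun w z =>
    (continuous_const.mul (hF z)).intervalIntegrable a b
  rw [intervalIntegral.integral_const_mul, intervalIntegral.integral_add ((i _ _).add (i _ _))
    (i _ _), intervalIntegral.integral_add (i _ _) (i _ _), intervalIntegral.integral_const_mul,
    intervalIntegral.integral_const_mul, intervalIntegral.integral_const_mul]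

theorem simp_S_cont {X : Type} [TopologicalSpace X] (h c : ℝ) {F : X → ℝ → ℝ}
    (hF : ∀ z, Continuous fun y => F y z) : Continuous fun y => simpS h c (F y) := by
  unfold simpS
  fun_prop

/-- The error of the product rule on one cell. -/
theorem simp_3d {G : ℝ × ℝ × ℝ → ℝ} (hG : Continuous G) {h c0 c1 c2 e : ℝ} (hh : 0 ≤ h)
    (e0 : ∀ y ∈ Icc (c1 - 3 * h / 2) (c1 + 3 * h / 2), ∀ z ∈ Icc (c2 - 3 * h / 2) (c2 + 3 * h / 2),
      |(simpS h c0 fun t => G (t, y, z)) -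
        ∫ t in (c0 - 3 * h / 2)..(c0 + 3 * h / 2), G (t, y, z)| ≤ e)
    (e1 : ∀ x ∈ Icc (c0 - 3 * h / 2) (c0 + 3 * h / 2), ∀ z ∈ Icc (c2 - 3 * h / 2) (c2 + 3 * h / 2),
      |(simpS h c1 fun t => G (x, t, z)) -
        ∫ t in (c1 - 3 * h / 2)..(c1 + 3 * h / 2), G (x, t, z)| ≤ e)
    (e2 : ∀ x ∈ Icc (c0 - 3 * h / 2) (c0 + 3 * h / 2), ∀ y ∈ Icc (c1 - 3 * h / 2) (c1 + 3 * h / 2),
      |(simpS h c2 fun t => G (x, y, t)) -
        ∫ t in (c2 - 3 * h / 2)..(c2 + 3 * h / 2), G (x, y, t)| ≤ e) :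
    |(simpS h c0 fun x => simpS h c1 fun y => simpS h c2 fun z => G (x, y, z)) -
      ∫ x in (c0 - 3 * h / 2)..(c0 + 3 * h / 2), ∫ y in (c1 - 3 * h / 2)..(c1 + 3 * h / 2),
        ∫ z in (c2 - 3 * h / 2)..(c2 + 3 * h / 2), G (x, y, z)| ≤ 27 * h ^ 2 * e := by
  have k1 : Continuous fun q : ℝ × ℝ => simpS h c2 fun z => G (q.1, q.2, z) :=
    simp_S_cont h c2 fun z => by fun_prop
  have k2 : Continuous fun q : ℝ × ℝ => ∫ z in (c2 - 3 * h / 2)..(c2 + 3 * h / 2), G (q.1, q.2, z) :=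
    poin_par (by unfold Function.uncurry; fun_prop) _ _
  have k3 : Continuous fun x : ℝ => simpS h c1 fun y => simpS h c2 fun z => G (x, y, z) :=
    simp_S_cont h c1 fun y => k1.comp (continuous_id.prodMk continuous_const)
  have a1 : ∀ x ∈ Icc (c0 - 3 * h / 2) (c0 + 3 * h / 2),
      |(simpS h c1 fun y => simpS h c2 fun z => G (x, y, z)) -
        ∫ y in (c1 - 3 * h / 2)..(c1 + 3 * h / 2),
          ∫ z in (c2 - 3 * h / 2)..(c2 + 3 * h / 2), G (x, y, z)| ≤ 6 * h * e := by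
    intro x hx
    have b1 := simp_I_bd hh (k1.comp (continuous_const.prodMk continuous_id))
      (k2.comp (continuous_const.prodMk continuous_id)) (e2 x hx)
    have b2 := simp_S_bd hh (e1 x hx)
    rw [← simp_IS h c2 _ _ (F := fun y z => G (x, y, z)) fun z => by fun_prop] at b2
    have b3 : (simpS h c2 fun z => simpS h c1 fun y => G (x, y, z)) =
        simpS h c1 fun y => simpS h c2 fun z => G (x, y, z) := by
      unfold simpS
      ring
    rw [b3] at b2
    refine (abs_sub_le _ _ _).trans ((add_le_add b2 b1).trans (le_of_eq (by ring)))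
  have a2 := simp_I_bd hh k3 (poin_par k2 _ _) a1
  have a3 := simp_S_bd hh fun y hy => simp_S_bd hh (e0 y hy)
  have a4 : ∀ y, (simpS h c2 fun z => ∫ x in (c0 - 3 * h / 2)..(c0 + 3 * h / 2), G (x, y, z)) =
      ∫ x in (c0 - 3 * h / 2)..(c0 + 3 * h / 2), simpS h c2 fun z => G (x, y, z) := fun y =>
    (simp_IS h c2 _ _ (F := fun x z => G (x, y, z)) fun z => by fun_prop).symm
  simp only [a4] at a3
  rw [← simp_IS h c1 _ _ (F := fun x y => simpS h c2 fun z => G (x, y, z)) fun y =>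
    k1.comp (continuous_id.prodMk continuous_const)] at a3
  have a5 : (simpS h c1 fun y => simpS h c2 fun z => simpS h c0 fun x => G (x, y, z)) =
      simpS h c0 fun x => simpS h c1 fun y => simpS h c2 fun z => G (x, y, z) := by
    unfold simpS
    ring
  rw [a5] at a3
  exact (abs_sub_le _ _ _).trans ((add_le_add a3 a2).trans (le_of_eq (by ring)))

theorem simp_cell {f : E3 → ℝ} (hf : ContDiff ℝ 4 f) {h c0 c1 c2 B : ℝ} (hh : 0 ≤ h)
    (hB : ∀ x ∈ Icc (c0 - 3 * h / 2) (c0 + 3 * h / 2), ∀ y ∈ Icc (c1 - 3 * h / 2) (c1 + 3 * h / 2),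
      ∀ z ∈ Icc (c2 - 3 * h / 2) (c2 + 3 * h / 2), ‖iteratedFDeriv ℝ 4 f !₂[x, y, z]‖ ≤ B) :
    |(simpS h c0 fun x => simpS h c1 fun y => simpS h c2 fun z => f !₂[x, y, z]) -
      ∫ x in (c0 - 3 * h / 2)..(c0 + 3 * h / 2), ∫ y in (c1 - 3 * h / 2)..(c1 + 3 * h / 2),
        ∫ z in (c2 - 3 * h / 2)..(c2 + 3 * h / 2), f !₂[x, y, z]| ≤ 54 * h ^ 7 * B := by
  have l0 : ∀ t y z : ℝ, (!₂[0, y, z] : E3) + t • ev 0 = !₂[t, y, z] := by
    intro t y z
    ext k
    fin_cases k <;> simp [ev]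
  have l1 : ∀ x t z : ℝ, (!₂[x, 0, z] : E3) + t • ev 1 = !₂[x, t, z] := by
    intro t y z
    ext k
    fin_cases k <;> simp [ev]
  have l2 : ∀ x y t : ℝ, (!₂[x, y, 0] : E3) + t • ev 2 = !₂[x, y, t] := by
    intro t y z
    ext k
    fin_cases k <;> simp [ev]
  have key : ∀ (k : Fin 3) (p : E3) (c : ℝ), (∀ t ∈ Icc (c - 3 * h / 2) (c + 3 * h / 2),
      ‖iteratedFDeriv ℝ 4 f (p + t • ev k)‖ ≤ B) →
      |(simpS h c fun t => f (p + t • ev k)) -
        ∫ t in (c - 3 * h / 2)..(c + 3 * h / 2), f (p + t • ev k)| ≤ 2 * h ^ 5 * B :=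
    fun k p c hp => simp_1d (hf.comp (contDiff_const.add (contDiff_id.smul contDiff_const))) hh
      fun t ht => (abs_iteratedDeriv_line (n := 4) hf k p t).trans (hp t ht)
  refine (simp_3d (G := fun q => f !₂[q.1, q.2.1, q.2.2]) (hf.continuous.comp poin_cont) hh
    (e := 2 * h ^ 5 * B) (fun y hy z hz => ?_) (fun x hx z hz => ?_)
    fun x hx y hy => ?_).trans (le_of_eq (by ring))
  · simpa only [l0] using key 0 !₂[0, y, z] c0 fun t ht => by
      rw [l0]
      exact hB t ht y hy z hz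
  · simpa only [l1] using key 1 !₂[x, 0, z] c1 fun t ht => by
      rw [l1]
      exact hB x hx t ht z hz
  · simpa only [l2] using key 2 !₂[x, y, 0] c2 fun t ht => by
      rw [l2]
      exact hB x hx y hy t ht

theorem simp_S_sum {ι : Type} (s : Finset ι) (h c : ℝ) (u : ι → ℝ → ℝ) :
    (simpS h c fun t => ∑ b ∈ s, u b t) = ∑ b ∈ s, simpS h c (u b) := by
  unfold simpS
  simp only [Finset.mul_sum, ← Finset.sum_add_distrib]

/-- The composite rule. -/
theorem simp_comp (h a : ℝ) (F : ℝ → ℝ) (n : ℕ) :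
    ∑ i ∈ Finset.range (3 * n), ws i * h * F (a + ((i : ℝ) + 1 / 2) * h) =
      ∑ m ∈ Finset.range n, simpS h (a + (3 * (m : ℝ) + 3 / 2) * h) F := by
  induction n with
  | zero => simp
  | succ n ih =>
    rw [show 3 * (n + 1) = 3 * n + 1 + 1 + 1 by ring, Finset.sum_range_succ, Finset.sum_range_succ,
      Finset.sum_range_succ, Finset.sum_range_succ, ih]
    have w0 : (ws (3 * n) : ℝ) = 9 / 8 := if_neg (by omega)
    have w1 : (ws (3 * n + 1) : ℝ) = 3 / 4 := if_pos (by omega)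
    have w2 : (ws (3 * n + 1 + 1) : ℝ) = 9 / 8 := if_neg (by omega)
    rw [w0, w1, w2]
    unfold simpS
    rw [show a + (((3 * n : ℕ) : ℝ) + 1 / 2) * h = a + (3 * (n : ℝ) + 3 / 2) * h - h by
        push_cast; ring,
      show a + (((3 * n + 1 : ℕ) : ℝ) + 1 / 2) * h = a + (3 * (n : ℝ) + 3 / 2) * h by
        push_cast; ring,
      show a + (((3 * n + 1 + 1 : ℕ) : ℝ) + 1 / 2) * h = a + (3 * (n : ℝ) + 3 / 2) * h + h by
        push_cast; ring]
    ring

theorem simp_comp_int (h a : ℝ) {F : ℝ → ℝ} (hF : Continuous F) (n : ℕ) {b : ℝ}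
    (hb : a + 3 * h * n = b) :
    ∫ t in a..b, F t = ∑ m ∈ Finset.range n,
      ∫ t in (a + (3 * (m : ℝ) + 3 / 2) * h - 3 * h / 2)..(a + (3 * (m : ℝ) + 3 / 2) * h + 3 * h / 2),
        F t := by
  have := intervalIntegral.sum_integral_adjacent_intervals (μ := volume) (f := F)
    (a := fun m : ℕ => a + 3 * h * m) (n := n) fun k _ => hF.intervalIntegrable _ _
  simp only [Nat.cast_zero, mul_zero, add_zero, hb] at this
  rw [← this]
  refine Finset.sum_congr rfl fun m _ => ?_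
  congr 1
  · ring
  · push_cast
    ring

theorem simp_sum3 (h a b : ℝ) (G : ℝ × ℝ × ℝ → ℝ) (n0 n2 : ℕ) :
    ∑ n ∈ Finset.range (3 * n0) ×ˢ Finset.range (3 * n0) ×ˢ Finset.range (3 * n2),
      ws n.1 * ws n.2.1 * ws n.2.2 * h ^ 3 * G (a + ((n.1 : ℝ) + 1 / 2) * h,
        a + ((n.2.1 : ℝ) + 1 / 2) * h, b + ((n.2.2 : ℝ) + 1 / 2) * h) =
      ∑ m ∈ Finset.range n0 ×ˢ Finset.range n0 ×ˢ Finset.range n2,
        simpS h (a + (3 * (m.1 : ℝ) + 3 / 2) * h) fun x =>
          simpS h (a + (3 * (m.2.1 : ℝ) + 3 / 2) * h) fun y =>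
            simpS h (b + (3 * (m.2.2 : ℝ) + 3 / 2) * h) fun z => G (x, y, z) := by
  simp only [Finset.sum_product, ← simp_S_sum]
  simp only [← simp_comp, Finset.mul_sum]
  refine Finset.sum_congr rfl fun i _ => Finset.sum_congr rfl fun j _ =>
    Finset.sum_congr rfl fun k _ => ?_
  ring

theorem simp_int3 (h a b : ℝ) {G : ℝ × ℝ × ℝ → ℝ} (hG : Continuous G) (n0 n2 : ℕ) {a' b' : ℝ}
    (ha : a + 3 * h * n0 = a') (hb : b + 3 * h * n2 = b') :
    ∫ x in a..a', ∫ y in a..a', ∫ z in b..b', G (x, y, z) =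
      ∑ m ∈ Finset.range n0 ×ˢ Finset.range n0 ×ˢ Finset.range n2,
        ∫ x in (a + (3 * (m.1 : ℝ) + 3 / 2) * h - 3 * h / 2)..(a + (3 * (m.1 : ℝ) + 3 / 2) * h +
          3 * h / 2), ∫ y in (a + (3 * (m.2.1 : ℝ) + 3 / 2) * h - 3 * h / 2)..(a +
            (3 * (m.2.1 : ℝ) + 3 / 2) * h + 3 * h / 2),
          ∫ z in (b + (3 * (m.2.2 : ℝ) + 3 / 2) * h - 3 * h / 2)..(b +
            (3 * (m.2.2 : ℝ) + 3 / 2) * h + 3 * h / 2), G (x, y, z) := by
  have k1 : ∀ a b : ℝ, Continuous fun q : ℝ × ℝ => ∫ z in a..b, G (q.1, q.2, z) := fun a b =>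
    poin_par (by unfold Function.uncurry; fun_prop) _ _
  have k0 : ∀ a b x : ℝ, Continuous fun y : ℝ => ∫ z in a..b, G (x, y, z) := fun a b x =>
    (k1 a b).comp (continuous_const.prodMk continuous_id)
  have k2 : ∀ a b a' b' : ℝ, Continuous fun x : ℝ => ∫ y in a'..b', ∫ z in a..b, G (x, y, z) :=
    fun a b a' b' => poin_par (k1 a b) _ _
  rw [simp_comp_int h a (k2 _ _ _ _) n0 ha, Finset.sum_product]
  refine Finset.sum_congr rfl fun i _ => ?_
  dsimp only
  rw [← intervalIntegral.integral_finsetSum fun m _ => (k2 _ _ _ _).intervalIntegrable _ _]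
  refine intervalIntegral.integral_congr fun x _ => ?_
  rw [simp_comp_int h a (k0 _ _ x) n0 ha, Finset.sum_product]
  refine Finset.sum_congr rfl fun j _ => ?_
  dsimp only
  rw [← intervalIntegral.integral_finsetSum fun m _ => (k0 _ _ x).intervalIntegrable _ _]
  exact intervalIntegral.integral_congr fun y _ =>
    simp_comp_int h b (F := fun z => G (x, y, z)) (by fun_prop) n2 hb

/-- Half-open cells. -/
def simpCell (s a b : ℝ) (n : ℕ × ℕ × ℕ) : Set E3 :=
  {y | y 0 ∈ Ico (a + s * n.1) (a + s * (n.1 + 1)) ∧ y 1 ∈ Ico (a + s * n.2.1) (a + s * (n.2.1 + 1)) ∧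
    y 2 ∈ Ico (b + s * n.2.2) (b + s * (n.2.2 + 1))}

theorem simp_cell_meas (s a b : ℝ) (n : ℕ × ℕ × ℕ) : MeasurableSet (simpCell s a b n) := by
  have m : ∀ k : Fin 3, Measurable fun y : E3 => y k := fun k => by fun_prop
  exact (m 0 measurableSet_Ico).inter ((m 1 measurableSet_Ico).inter (m 2 measurableSet_Ico))

theorem simp_cell_vol {s : ℝ} (a b : ℝ) (n : ℕ × ℕ × ℕ) :
    volume (simpCell s a b n) = ENNReal.ofReal s ^ 3 := by
  rw [← measurePreserving_coord.measure_preimage (simp_cell_meas s a b n).nullMeasurableSet]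
  have e : (fun q : ℝ × ℝ × ℝ => (!₂[q.1, q.2.1, q.2.2] : E3)) ⁻¹' simpCell s a b n =
      Ico (a + s * n.1) (a + s * (n.1 + 1)) ×ˢ Ico (a + s * n.2.1) (a + s * (n.2.1 + 1)) ×ˢ
        Ico (b + s * n.2.2) (b + s * (n.2.2 + 1)) := rfl
  have e1 : ∀ (a : ℝ) (k : ℕ), a + s * (k + 1) - (a + s * k) = s := fun a k => by ring
  rw [e, Measure.volume_eq_prod, Measure.prod_prod, Measure.volume_eq_prod, Measure.prod_prod,
    Real.volume_Ico, Real.volume_Ico, Real.volume_Ico, e1, e1, e1]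
  ring

theorem simp_idx {s a y : ℝ} (hs : 0 < s) {i j : ℕ} (hi : y ∈ Ico (a + s * i) (a + s * (i + 1)))
    (hj : y ∈ Ico (a + s * j) (a + s * (j + 1))) : i = j := by
  have h1 : (i : ℝ) < j + 1 := lt_of_mul_lt_mul_left (by linarith [hi.1, hj.2]) hs.le
  have h2 : (j : ℝ) < i + 1 := lt_of_mul_lt_mul_left (by linarith [hj.1, hi.2]) hs.le
  have h3 : i < j + 1 := by exact_mod_cast h1
  have h4 : j < i + 1 := by exact_mod_cast h2
  omega

theorem simp_abs {s R y : ℝ} (hs : 0 < s) {i N : ℕ} (hN : s * N = 2 * R) (hi : i < N)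
    (hy : y ∈ Ico (-R + s * i) (-R + s * (i + 1))) : |y| ≤ R := by
  have h1 : (i : ℝ) + 1 ≤ N := by exact_mod_cast hi
  have h2 := mul_le_mul_of_nonneg_left h1 hs.le
  have h3 : 0 ≤ s * i := by positivity
  exact abs_le.2 ⟨by linarith [hy.1], by linarith [hy.2]⟩

/-- Sums over cells are bounded by integrals. -/
theorem simp_cells (M : ℕ) {s : ℝ} (hs : 0 < s) {N0 N2 : ℕ} (h0 : s * N0 = 2 * RR M)
    (h2 : s * N2 = 2 * 3) {g : ℕ × ℕ × ℕ → ℝ} {Θ : E3 → ℝ} (hΘ : IntegrableOn Θ (slab M))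
    (hm : MeasurableSet (slab M)) (hp : ∀ y ∈ slab M, 0 ≤ Θ y)
    (h : ∀ n ∈ Finset.range N0 ×ˢ Finset.range N0 ×ˢ Finset.range N2,
      ∀ᵐ y, y ∈ slab M → y ∈ simpCell s (-(RR M : ℝ)) (-3) n → g n ≤ Θ y) :
    ∑ n ∈ Finset.range N0 ×ˢ Finset.range N0 ×ˢ Finset.range N2, s ^ 3 * g n ≤
      ∫ y in slab M, Θ y := by
  have sub : ∀ n ∈ Finset.range N0 ×ˢ Finset.range N0 ×ˢ Finset.range N2,
      simpCell s (-(RR M : ℝ)) (-3) n ⊆ slab M := fun n hn y hy => by
    simp only [Finset.mem_product, Finset.mem_range] at hn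
    exact ⟨simp_abs hs h0 hn.1 hy.1, simp_abs hs h0 hn.2.1 hy.2.1, simp_abs hs h2 hn.2.2 hy.2.2⟩
  refine le_trans (Finset.sum_le_sum (g := fun n => ∫ y in simpCell s (-(RR M : ℝ)) (-3) n, Θ y)
    fun n hn => ?_) ?_
  · have hv : volume (simpCell s (-(RR M : ℝ)) (-3) n) < ⊤ := by
      rw [simp_cell_vol]
      exact ENNReal.pow_lt_top ENNReal.ofReal_lt_top
    have h1 := setIntegral_mono_ae_restrict (f := fun _ => g n) (integrableOn_const hv.ne)
      (hΘ.mono_set (sub n hn)) ((ae_restrict_iff' (simp_cell_meas _ _ _ n)).2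
        ((h n hn).mono fun y hy hy' => hy (sub n hn hy') hy'))
    rwa [setIntegral_const, Measure.real, simp_cell_vol, ENNReal.toReal_pow,
      ENNReal.toReal_ofReal hs.le, smul_eq_mul] at h1
  · rw [← integral_biUnion_finset _ (fun n _ => simp_cell_meas _ _ _ n) ?_
      fun n hn => hΘ.mono_set (sub n hn)]
    · exact setIntegral_mono_set hΘ ((ae_restrict_iff' hm).2 (.of_forall hp))
        (LE.le.eventuallyLE (iUnion₂_subset sub))
    · intro n _ n' _ hne
      refine disjoint_left.2 fun y hy hy' => hne ?_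
      exact Prod.ext (simp_idx hs hy.1 hy'.1)
        (Prod.ext (simp_idx hs hy.2.1 hy'.2.1) (simp_idx hs hy.2.2 hy'.2.2))

end Vale.Agent.P370
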