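import Vale.Agent.P370.KerI
import Vale.Agent.P370.SimpA

/-! Quadrature on the grid. -/

namespace Vale.Agent.P370

open MeasureTheory Filter
open scoped Classical

theorem simp_HH {M : ℕ} (hM : 1 ≤ M) : (0 : ℝ) < HH M := by
  unfold HH
  positivity

theorem simp_hh {M : ℕ} (hM : 1 ≤ M) : 0 < hh M := one_div_pos.2 (simp_HH hM)

theorem simp_hH {M : ℕ} (hM : 1 ≤ M) : hh M * HH M = 1 := one_div_mul_cancel (simp_HH hM).ne'

theorem simp_gx (M i : ℕ) : (gx M i : ℝ) = -(RR M : ℝ) + ((i : ℝ) + 1 / 2) * hh M := by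
  unfold gx hh
  ring

theorem simp_gz (M i : ℕ) : (gz M i : ℝ) = -3 + ((i : ℝ) + 1 / 2) * hh M := by
  unfold gz hh
  ring

theorem simp_wt (M : ℕ) (n : ℕ × ℕ × ℕ) :
    (wt3 M n : ℝ) = ws n.1 * ws n.2.1 * ws n.2.2 * hh M ^ 3 := by
  unfold wt3 hh
  ring

theorem simp_NX {M : ℕ} (hM : 1 ≤ M) : hh M * NX M = 2 * RR M := by
  rw [NX, Nat.cast_mul, mul_left_comm, simp_hH hM]
  push_cast
  ring

theorem simp_NZ {M : ℕ} (hM : 1 ≤ M) : hh M * NZ M = 2 * 3 := by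
  rw [NZ, Nat.cast_mul, mul_left_comm, simp_hH hM]
  push_cast
  ring

theorem simp_norm {p : E3} {r s : ℝ} (hs : 0 ≤ s) (h : ∀ k, |p k| ≤ r) (hr : 3 * r ^ 2 ≤ s ^ 2) :
    ‖p‖ ≤ s := by
  refine le_of_sq_le_sq ?_ hs
  have h0 := sq_le_sq' (abs_le.1 (h 0)).1 (abs_le.1 (h 0)).2
  have h1 := sq_le_sq' (abs_le.1 (h 1)).1 (abs_le.1 (h 1)).2
  have h2 := sq_le_sq' (abs_le.1 (h 2)).1 (abs_le.1 (h 2)).2
  rw [norm_E3_sq]
  linarith

theorem simp3 {M : ℕ} (hM : 1 ≤ M) {f Θ : E3 → ℝ} (hf : ContDiff ℝ 4 f)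
    (hΘ : IntegrableOn Θ (slab M))
    (h : ∀ y ∈ slab M, ∀ y', ‖y' - y‖ ≤ 10 * hh M → ‖iteratedFDeriv ℝ 4 f y'‖ ≤ Θ y) :
    |∑ n ∈ grid M, wt3 M n * f (node M n) - ∫ y in slab M, f y| ≤
      10 * hh M ^ 4 * ∫ y in slab M, Θ y := by
  have hp := simp_hh hM
  obtain ⟨n0, e0⟩ : ∃ n0, NX M = 3 * n0 := ⟨2 * RR M * M ^ 1000, by rw [NX, HH]; ring⟩
  obtain ⟨n2, e2⟩ : ∃ n2, NZ M = 3 * n2 := ⟨6 * M ^ 1000, by rw [NZ, HH]; ring⟩
  have a0 : 3 * hh M * n0 = 2 * RR M := by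
    rw [← simp_NX hM, e0]
    push_cast
    ring
  have a2 : 3 * hh M * n2 = 2 * 3 := by
    rw [← simp_NZ hM, e2]
    push_cast
    ring
  have hR : (0 : ℝ) ≤ RR M := Nat.cast_nonneg _
  have hG : Continuous fun q : ℝ × ℝ × ℝ => f !₂[q.1, q.2.1, q.2.2] := hf.continuous.comp poin_cont
  have hΘ0 : ∀ y ∈ slab M, 0 ≤ Θ y := fun y hy =>
    (norm_nonneg _).trans (h y hy y (by rw [sub_self, norm_zero]; positivity))
  have s1 := simp_sum3 (hh M) (-(RR M : ℝ)) (-3) (fun q => f !₂[q.1, q.2.1, q.2.2]) n0 n2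
  simp only [← simp_gx, ← simp_gz, ← simp_wt, ← e0, ← e2] at s1
  have s2 := poin_box hf.continuous 0 (S := slab M) (a0 := -(RR M : ℝ)) (b0 := RR M)
    (a1 := -(RR M : ℝ)) (b1 := RR M) (a2 := -3) (b2 := 3) (by linarith) (by linarith)
    (by norm_num) fun x y z => by simp [slab, abs_le, neg_le]
  simp only [zero_add] at s2
  have s3 := simp_int3 (hh M) (-(RR M : ℝ)) (-3) hG n0 n2 (a' := RR M) (b' := 3) (by linarith)
    (by linarith)
  have s4 : ∑ n ∈ grid M, wt3 M n * f (node M n) = _ := s1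
  rw [s4, s2, s3, ← Finset.sum_sub_distrib]
  refine (Finset.abs_sum_le_sum_abs _ _).trans ?_
  set D : ℕ × ℕ × ℕ → ℝ := fun m =>
    |(simpS (hh M) (-(RR M : ℝ) + (3 * (m.1 : ℝ) + 3 / 2) * hh M) fun x =>
      simpS (hh M) (-(RR M : ℝ) + (3 * (m.2.1 : ℝ) + 3 / 2) * hh M) fun y =>
        simpS (hh M) (-3 + (3 * (m.2.2 : ℝ) + 3 / 2) * hh M) fun z => f !₂[x, y, z]) -
      ∫ x in (-(RR M : ℝ) + (3 * (m.1 : ℝ) + 3 / 2) * hh M - 3 * hh M / 2)..(-(RR M : ℝ) +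
          (3 * (m.1 : ℝ) + 3 / 2) * hh M + 3 * hh M / 2),
        ∫ y in (-(RR M : ℝ) + (3 * (m.2.1 : ℝ) + 3 / 2) * hh M - 3 * hh M / 2)..(-(RR M : ℝ) +
            (3 * (m.2.1 : ℝ) + 3 / 2) * hh M + 3 * hh M / 2),
          ∫ z in (-3 + (3 * (m.2.2 : ℝ) + 3 / 2) * hh M - 3 * hh M / 2)..(-3 +
            (3 * (m.2.2 : ℝ) + 3 / 2) * hh M + 3 * hh M / 2), f !₂[x, y, z]| with hD
  have s5 := simp_cells M (s := 3 * hh M) (by positivity) a0 a2 (g := fun m => D m / (54 * hh M ^ 7))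
    hΘ (slab_isCompact M).measurableSet hΘ0 fun m _ => .of_forall fun p hp1 hp2 => by
      rw [div_le_iff₀' (by positivity)]
      refine simp_cell hf hp.le fun x hx y hy z hz => h p hp1 _ ?_
      refine simp_norm (r := 3 * hh M) (by positivity) (fun k => ?_) (by nlinarith)
      obtain ⟨b0, b1, b2⟩ := hp2
      fin_cases k
      · exact abs_le.2 ⟨by simp; linarith [b0.2, hx.1], by simp; linarith [b0.1, hx.2]⟩
      · exact abs_le.2 ⟨by simp; linarith [b1.2, hy.1], by simp; linarith [b1.1, hy.2]⟩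
      · exact abs_le.2 ⟨by simp; linarith [b2.2, hz.1], by simp; linarith [b2.1, hz.2]⟩
  have s6 : 0 ≤ ∫ y in slab M, Θ y := setIntegral_nonneg (slab_isCompact M).measurableSet hΘ0
  calc _ = 2 * hh M ^ 4 * ∑ m ∈ Finset.range n0 ×ˢ Finset.range n0 ×ˢ Finset.range n2,
        (3 * hh M) ^ 3 * (D m / (54 * hh M ^ 7)) := by
        rw [Finset.mul_sum]
        refine Finset.sum_congr rfl fun m _ => ?_
        field_simp
        ring
    _ ≤ 2 * hh M ^ 4 * ∫ y in slab M, Θ y := mul_le_mul_of_nonneg_left s5 (by positivity)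
    _ ≤ _ := mul_le_mul_of_nonneg_right (by nlinarith [pow_pos hp 4]) s6

theorem cell_sum {M : ℕ} (hM : 1 ≤ M) {g : ℕ × ℕ × ℕ → ℝ} {Θ : E3 → ℝ}
    (hΘ : IntegrableOn Θ (slab M)) (h0 : ∀ y, 0 ≤ Θ y)
    (h : ∀ n ∈ grid M, ∀ᵐ y, y ∈ slab M → ‖y - node M n‖ ≤ hh M → g n ≤ Θ y) :
    ∑ n ∈ grid M, hh M ^ 3 * g n ≤ ∫ y in slab M, Θ y := by
  have hp := simp_hh hM
  refine simp_cells M hp (simp_NX hM) (simp_NZ hM) hΘ (slab_isCompact M).measurableSet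
    (fun y _ => h0 y) fun n hn => (h n hn).mono fun y hy h1 h2 => hy h1 ?_
  refine simp_norm (r := hh M / 2) hp.le (fun k => ?_) (by nlinarith)
  obtain ⟨b0, b1, b2⟩ := h2
  fin_cases k
  · simp only [node, simp_gx]
    exact abs_le.2 ⟨by simp; linarith [b0.1], by simp; linarith [b0.2]⟩
  · simp only [node, simp_gx]
    exact abs_le.2 ⟨by simp; linarith [b1.1], by simp; linarith [b1.2]⟩
  · simp only [node, simp_gz]
    exact abs_le.2 ⟨by simp; linarith [b2.1], by simp; linarith [b2.2]⟩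

theorem node_mem {M : ℕ} (hM : 1 ≤ M) {n : ℕ × ℕ × ℕ} (hn : n ∈ grid M) : node M n ∈ slab M := by
  have hp := simp_hh hM
  simp only [grid, Finset.mem_product, Finset.mem_range] at hn
  have key : ∀ (R : ℝ) (i N : ℕ), hh M * N = 2 * R → i < N →
      |-R + ((i : ℝ) + 1 / 2) * hh M| ≤ R := fun R i N hN hi =>
    simp_abs hp hN hi ⟨by linarith, by linarith⟩
  have k0 := key _ _ _ (simp_NX hM) hn.1
  have k1 := key _ _ _ (simp_NX hM) hn.2.1
  have k2 := key _ _ _ (simp_NZ hM) hn.2.2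
  rw [← simp_gx] at k0 k1
  rw [← simp_gz] at k2
  exact ⟨k0, k1, k2⟩

theorem node_sep {M : ℕ} (hM : 1 ≤ M) {n n' : ℕ × ℕ × ℕ} (hn : n ≠ n') :
    hh M ≤ ‖node M n - node M n'‖ := by
  have hp := simp_hh hM
  have key : ∀ (R : ℝ) (i j : ℕ), i ≠ j →
      hh M ≤ |R + ((i : ℝ) + 1 / 2) * hh M - (R + ((j : ℝ) + 1 / 2) * hh M)| := by
    intro R i j hij
    rcases lt_or_gt_of_ne hij with h | h
    · have : (i : ℝ) + 1 ≤ j := by exact_mod_cast h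
      exact le_abs.2 (Or.inr (by nlinarith))
    · have : (j : ℝ) + 1 ≤ i := by exact_mod_cast h
      exact le_abs.2 (Or.inl (by nlinarith))
  have hk := fun k => PiLp.norm_apply_le (node M n - node M n') k
  by_cases h0 : n.1 = n'.1
  · by_cases h1 : n.2.1 = n'.2.1
    · have h2 : n.2.2 ≠ n'.2.2 := fun h2 => hn (Prod.ext h0 (Prod.ext h1 h2))
      have k := key (-3) _ _ h2
      rw [← simp_gz, ← simp_gz] at k
      exact k.trans (hk 2)
    · have k := key (-(RR M : ℝ)) _ _ h1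
      rw [← simp_gx, ← simp_gx] at k
      exact k.trans (hk 1)
  · have k := key (-(RR M : ℝ)) _ _ h0
    rw [← simp_gx, ← simp_gx] at k
    exact k.trans (hk 0)

theorem grid_card (M : ℕ) : (grid M).card = 648 * M ^ 9600 := by
  simp only [grid, Finset.card_product, Finset.card_range, NX, NZ, RR, HH]
  ring

theorem hh_eq (M : ℕ) : hh M = ip M 1000 / 3 := by
  unfold hh ip HH
  push_cast
  generalize (M : ℝ) ^ 1000 = a
  rw [one_div, mul_inv]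
  ring

theorem wt3_mem (M : ℕ) (n : ℕ × ℕ × ℕ) :
    27 / 64 * hh M ^ 3 ≤ wt3 M n ∧ (wt3 M n : ℝ) ≤ 3 / 2 * hh M ^ 3 := by
  have hp : 0 ≤ hh M ^ 3 := pow_nonneg (one_div_nonneg.2 (Nat.cast_nonneg _)) 3
  rw [simp_wt]
  unfold ws
  constructor <;> refine mul_le_mul_of_nonneg_right ?_ hp <;> split_ifs <;> norm_num

end Vale.Agent.P370
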