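import Vale.Agent.P370.TupA

/-! Antisymmetric tensors on valid placements versus cluster functions. -/

namespace Vale.Agent.P370

open scoped Classical

theorem tup_sign_sq {N : ℕ} (π : Equiv.Perm (Fin N)) :
    ((Equiv.Perm.sign π : ℤ) : ℝ) * ((Equiv.Perm.sign π : ℤ) : ℝ) = 1 := by
  rw [← Int.cast_mul, ← Units.val_mul, Int.units_mul_self, Units.val_one, Int.cast_one]

theorem tup_mul {N K : ℕ} {C : Ten N K} (hC : AntiT C) (π : Equiv.Perm (Fin N)) (s : Spin N)
    (a b : Fin N → Fin K) : C (s ∘ π) (a ∘ π) * C (s ∘ π) (b ∘ π) = C s a * C s b := by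
  rw [hC, hC, mul_mul_mul_comm, tup_sign_sq, one_mul]

theorem tup_sq {N K : ℕ} {C : Ten N K} (hC : AntiT C) (π : Equiv.Perm (Fin N)) (s : Spin N)
    (a : Fin N → Fin K) : C (s ∘ π) (a ∘ π) ^ 2 = C s a ^ 2 := by
  rw [sq, sq, tup_mul hC]

theorem tup_pair {N K : ℕ} (w : Fin K → Fin K → ℝ) (hw : ∀ a b, w a b = w b a)
    (a : Fin N → Fin K) :
    2 * ∑ i, ∑ j with i < j, w (a i) (a j) = ∑ i, ∑ j, if j ≠ i then w (a i) (a j) else 0 := by
  rw [← tup_sum_lt fun i j => w (a i) (a j), Finset.mul_sum]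
  refine Finset.sum_congr rfl fun i _ => ?_
  rw [Finset.sum_filter, Finset.mul_sum]
  refine Finset.sum_congr rfl fun j _ => ?_
  rw [hw (a j) (a i)]
  split_ifs <;> ring

theorem tup_pair_comp {N K : ℕ} (w : Fin K → Fin K → ℝ) (hw : ∀ a b, w a b = w b a)
    (a : Fin N → Fin K) (π : Equiv.Perm (Fin N)) :
    ∑ i, ∑ j with i < j, w ((a ∘ π) i) ((a ∘ π) j) = ∑ i, ∑ j with i < j, w (a i) (a j) := by
  refine mul_left_cancel₀ (two_ne_zero (α := ℝ)) ?_
  rw [tup_pair w hw, tup_pair w hw,
    ← Equiv.sum_comp π fun i => ∑ j, if j ≠ i then w (a i) (a j) else 0]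
  refine Finset.sum_congr rfl fun i _ => ?_
  rw [← Equiv.sum_comp π fun j => if j ≠ π i then w (a (π i)) (a j) else 0]
  simp only [Function.comp_apply, Ne, π.apply_eq_iff_eq]

theorem tup_pair_can {n : ℕ} (w : Fin (4 * n) → Fin (4 * n) → ℝ) (hw : ∀ a b, w a b = w b a)
    (x : Fin n → Cl) :
    ∑ i, ∑ j with i < j, w (tupCan x i) (tupCan x j) = wDiag w x := by
  refine mul_left_cancel₀ (two_ne_zero (α := ℝ)) ?_
  have h2 := tup_pair (fun a b => if occ x a ∧ occ x b then w a b else 0)
    (fun a b => by rw [hw a b]; simp only [and_comm]) id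
  simp only [id] at h2
  rw [tup_pair w hw, wDiag, h2]
  have e : ∀ i, (∑ j, if j ≠ i then w (tupCan x i) (tupCan x j) else 0) =
      ∑ b, if occ x b then (if b ≠ tupCan x i then w (tupCan x i) b else 0) else 0 := by
    intro i
    rw [← tup_sum_can x fun b => if b ≠ tupCan x i then w (tupCan x i) b else 0]
    simp only [Ne, (tupCan_inj x).eq_iff]
  simp only [e]
  rw [tup_sum_can x fun a => ∑ b, if occ x b then (if b ≠ a then w a b else 0) else 0]
  refine Finset.sum_congr rfl fun a _ => ?_
  by_cases ha : occ x a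
  · rw [if_pos ha]
    refine Finset.sum_congr rfl fun b _ => ?_
    by_cases hb : occ x b <;> simp [ha, hb]
  · simp [ha]

theorem tup_swap {N K : ℕ} (i : Fin N) (p q : Fin K) (g : (Fin N → Fin K) → (Fin N → Fin K) → ℝ) :
    ∑ a with a i = p, g a (Function.update a i q) =
      ∑ a with a i = q, g (Function.update a i p) a := by
  refine Finset.sum_nbij' (fun a => Function.update a i q) (fun a => Function.update a i p)
    (by simp) (by simp) ?_ ?_ ?_
  · intro a ha
    rw [Function.update_idem, ← (Finset.mem_filter.1 ha).2, Function.update_eq_self]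
  · intro a ha
    rw [Function.update_idem, ← (Finset.mem_filter.1 ha).2, Function.update_eq_self]
  · intro a ha
    rw [Function.update_idem, ← (Finset.mem_filter.1 ha).2, Function.update_eq_self]

theorem tup_nbrs {n : ℕ} (p : Fin (4 * n)) :
    (Finset.univ.filter fun q => q ≠ p ∧ clOf q = clOf p).card = 3 := by
  obtain ⟨⟨c, k⟩, rfl⟩ := (tupM n).surjective p
  have e : (Finset.univ.filter fun q => q ≠ tupM n (c, k) ∧ clOf q = clOf (tupM n (c, k))) =
      Finset.univ.image fun t : Fin 3 => tupM n (c, k.succAbove t) := by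
    ext q
    obtain ⟨⟨d, l⟩, rfl⟩ := (tupM n).surjective q
    simp only [Finset.mem_filter, Finset.mem_univ, true_and, tup_clOf, Finset.mem_image, Ne,
      (tupM n).apply_eq_iff_eq, Prod.mk.injEq]
    constructor
    · rintro ⟨h, rfl⟩
      obtain ⟨t, rfl⟩ := Fin.exists_succAbove_eq (show l ≠ k from fun e => h ⟨rfl, e⟩)
      exact ⟨t, rfl, rfl⟩
    · rintro ⟨t, rfl, rfl⟩
      exact ⟨fun h => Fin.succAbove_ne _ _ h.2, rfl⟩
  rw [e, Finset.card_image_of_injective _ fun t u h => by simpa using h, Finset.card_univ,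
    Fintype.card_fin]

theorem tup_hop1 {N n : ℕ} (i : Fin N) (f : (Fin N → Fin (4 * n)) → ℝ) :
    ∑ e ∈ E4 (4 * n), ∑ a with a i = e.1, (f a - f (Function.update a i e.2)) ^ 2 =
      3 * ∑ a, f a ^ 2 -
        ∑ a, ∑ b with b ≠ a i ∧ clOf b = clOf (a i), f a * f (Function.update a i b) := by
  let g : Fin (4 * n) → Fin (4 * n) → ℝ := fun p q =>
    if clOf q = clOf p then ∑ a with a i = p, (f a ^ 2 - f a * f (Function.update a i q)) else 0
  have e1 : ∑ e ∈ E4 (4 * n), ∑ a with a i = e.1, (f a - f (Function.update a i e.2)) ^ 2 =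
      ∑ p, ∑ q, if p < q then g p q + g q p else 0 := by
    rw [E4, Finset.sum_filter, Fintype.sum_prod_type]
    refine Finset.sum_congr rfl fun p _ => Finset.sum_congr rfl fun q _ => ?_
    have hc : p.val / 4 = q.val / 4 ↔ clOf q = clOf p := by
      simp only [clOf, Fin.mk.injEq, eq_comm]
    by_cases h1 : p < q
    · by_cases h2 : clOf q = clOf p
      · simp only [g, h1, hc, h2, and_self, if_true]
        rw [tup_swap i q p fun a b => f a ^ 2 - f a * f b, ← Finset.sum_add_distrib]
        exact Finset.sum_congr rfl fun a _ => by ring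
      · simp [g, hc, h2, Ne.symm h2]
    · simp [h1]
  rw [e1, tup_sum_lt, Finset.mul_sum, ← Finset.sum_sub_distrib,
    ← Finset.sum_fiberwise (s := Finset.univ) (g := fun a : Fin N → Fin (4 * n) => a i)]
  refine Finset.sum_congr rfl fun p _ => ?_
  have e2 : ∑ q, (if q ≠ p then g p q else 0) = ∑ q with q ≠ p ∧ clOf q = clOf p,
      ∑ a with a i = p, (f a ^ 2 - f a * f (Function.update a i q)) := by
    rw [Finset.sum_filter]
    exact Finset.sum_congr rfl fun q _ => by simp only [g, ite_and]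
  rw [e2, Finset.sum_comm]
  refine Finset.sum_congr rfl fun a ha => ?_
  rw [(Finset.mem_filter.1 ha).2, Finset.sum_sub_distrib, Finset.sum_const, tup_nbrs]
  simp

theorem tup_cross {n : ℕ} {C : Ten (3 * n) (4 * n)} (hC : AntiT C) (hV : SuppV C)
    (x : Fin n → Cl) (c : Fin n) (t : Fin 3) :
    ∑ b with b ≠ tupCan x (tupP n (c, t)) ∧ clOf b = clOf (tupCan x (tupP n (c, t))),
      C (tupSpn x) (Function.update (tupCan x) (tupP n (c, t)) b) =
      (sgZ (x c).1 t : ℝ) * C (tupSpn (Function.update x c (hopC (x c) t)))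
        (tupCan (Function.update x c (hopC (x c) t))) := by
  rw [Finset.sum_eq_single_of_mem (tupM n (c, (x c).1))]
  · let ρ : Equiv.Perm (Fin (3 * n)) :=
      (tupP n).permCongr (Equiv.Perm.prodExtendRight c (mvP (x c).1 t))
    have hρ : (Equiv.Perm.sign ρ : ℤ) = sgZ (x c).1 t := by
      rw [Equiv.Perm.sign_permCongr, Equiv.Perm.sign_prodExtendRight, sign_mvP]
    have r1 : ∀ u, ρ (tupP n (c, u)) = tupP n (c, mvF (x c).1 t u) := by
      intro u
      simp [ρ, mvP]
    have r2 : ∀ d, d ≠ c → ∀ u, ρ (tupP n (d, u)) = tupP n (d, u) := by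
      intro d hd u
      simp [ρ, Equiv.Perm.prodExtendRight_apply_ne _ hd]
    rw [← hρ, ← hC]
    congr 1
    · funext j
      obtain ⟨⟨d, u⟩, rfl⟩ := (tupP n).surjective j
      rw [Function.comp_apply]
      by_cases hd : d = c
      · subst hd
        rw [r1, tupSpn_apply, tupSpn_apply, Function.update_self, hopC]
        simp only [mvI_mvF]
      · rw [r2 d hd, tupSpn_apply, tupSpn_apply, Function.update_of_ne hd]
    · funext j
      obtain ⟨⟨d, u⟩, rfl⟩ := (tupP n).surjective j
      rw [Function.comp_apply]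
      by_cases hd : d = c
      · subst hd
        rw [r1, tupCan_apply, Function.update_self, hopC]
        simp only [mvF_spec]
        split_ifs with hu
        · rw [hu, Function.update_self]
        · rw [Function.update_of_ne (by simpa using hu), tupCan_apply]
      · rw [r2 d hd, Function.update_of_ne (by simp [hd]), tupCan_apply, tupCan_apply,
          Function.update_of_ne hd]
  · simp only [Finset.mem_filter, Finset.mem_univ, true_and, tupCan_apply, tup_clOf, and_true]
    simp
  · intro b hb hne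
    obtain ⟨⟨d, k⟩, rfl⟩ := (tupM n).surjective b
    simp only [Finset.mem_filter, Finset.mem_univ, true_and, tupCan_apply, tup_clOf] at hb
    obtain ⟨hb, rfl⟩ := hb
    obtain ⟨u, rfl⟩ := Fin.exists_succAbove_eq (show k ≠ (x d).1 by simpa using hne)
    have hu : tupP n (d, u) ≠ tupP n (d, t) := by
      rintro h
      rw [(tupP n).apply_eq_iff_eq, Prod.mk.injEq] at h
      exact hb (by rw [h.2])
    refine hV _ _ fun hv => hu (hv.1 ?_)
    rw [Function.update_self, Function.update_of_ne hu, tupCan_apply]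

theorem tup_corr {n : ℕ} {C : Ten (3 * n) (4 * n)} (hC : AntiT C) (hV : SuppV C) :
    Corr C fun x => C (tupSpn x) (tupCan x) := by
  have hn : nrmT C = (3 * n).factorial * ∑ x, C (tupSpn x) (tupCan x) ^ 2 :=
    tup_sum (fun s a => C s a ^ 2) (fun s a h => by simp [hV s a h]) (tup_sq hC)
  refine ⟨hn, ?_, fun w hw => ?_⟩
  · have hx := tup_sum (fun s a => ∑ i, ∑ b with b ≠ a i ∧ clOf b = clOf (a i),
      C s a * C s (Function.update a i b)) (fun s a h => by simp [hV s a h]) (by
        intro π s a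
        rw [← Equiv.sum_comp π fun i => ∑ b with b ≠ a i ∧ clOf b = clOf (a i),
          C s a * C s (Function.update a i b)]
        refine Finset.sum_congr rfl fun i _ => Finset.sum_congr rfl fun b _ => ?_
        rw [← tup_mul hC π s a, Function.update_comp_eq_of_injective _ π.injective])
    have hy : ∑ x, ∑ i, ∑ b with b ≠ tupCan x i ∧ clOf b = clOf (tupCan x i),
        C (tupSpn x) (tupCan x) * C (tupSpn x) (Function.update (tupCan x) i b) =
        xN fun x => C (tupSpn x) (tupCan x) := by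
      rw [xN, Finset.sum_comm (s := (Finset.univ : Finset (Fin n)))]
      refine Finset.sum_congr rfl fun x _ => ?_
      rw [← (tupP n).sum_comp, Fintype.sum_prod_type]
      refine Finset.sum_congr rfl fun c _ => Finset.sum_congr rfl fun t _ => ?_
      rw [← Finset.mul_sum, tup_cross hC hV, mul_assoc]
    rw [hy] at hx
    rw [mul_sub, ← hx, mul_left_comm, ← hn, hopT, nrmT, Finset.mul_sum, ← Finset.sum_sub_distrib]
    refine Finset.sum_congr rfl fun s _ => ?_
    simp only [tup_hop1]
    rw [Finset.sum_sub_distrib, Finset.sum_comm (s := (Finset.univ : Finset (Fin (3 * n)))),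
      Finset.sum_const, Finset.card_univ, Fintype.card_fin, nsmul_eq_mul]
    push_cast
    ring
  · have hx := tup_sum (fun s a => (∑ i, ∑ j with i < j, w (a i) (a j)) * C s a ^ 2)
      (fun s a h => by simp [hV s a h]) (fun π s a => by rw [tup_pair_comp w hw, tup_sq hC])
    simp only [tup_pair_can w hw] at hx
    exact hx

theorem tup_exists_G {n : ℕ} (C : Ten (3 * n) (4 * n)) (hC : AntiT C) (hV : SuppV C) :
    ∃ G, Corr C G :=
  ⟨_, tup_corr hC hV⟩

theorem tup_exists_C {n : ℕ} (G : (Fin n → Cl) → ℝ) :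
    ∃ C : Ten (3 * n) (4 * n), AntiT C ∧ SuppV C ∧ Corr C G := by
  let C : Ten (3 * n) (4 * n) := fun s a =>
    Function.extend tupPhi (fun p => ((Equiv.Perm.sign p.1 : ℤ) : ℝ) * G p.2) 0 (s, a)
  have h1 : ∀ (π : Equiv.Perm (Fin (3 * n))) x,
      C (tupSpn x ∘ π) (tupCan x ∘ π) = ((Equiv.Perm.sign π : ℤ) : ℝ) * G x :=
    fun π x => tupPhi_inj.extend_apply _ _ (π, x)
  have hV : SuppV C := by
    intro s a ha
    refine Function.extend_apply' _ _ _ ?_
    rintro ⟨p, hp⟩
    exact ha ((Prod.mk.inj hp).2 ▸ tup_valid_comp (tup_valid_can p.2) p.1)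
  have hC : AntiT C := by
    intro π s a
    by_cases ha : ValidT a
    · obtain ⟨⟨ρ, x⟩, hp⟩ := tupPhi_surj s ha
      obtain ⟨rfl, rfl⟩ := Prod.mk.inj hp
      have := h1 (ρ * π) x
      rw [Equiv.Perm.coe_mul, ← Function.comp_assoc, ← Function.comp_assoc] at this
      rw [this, h1, Equiv.Perm.sign_mul]
      push_cast
      ring
    · rw [hV s a ha, hV _ _ (mt (tup_valid_comp_iff π).1 ha), mul_zero]
  refine ⟨C, hC, hV, ?_⟩
  have e : G = fun x => C (tupSpn x) (tupCan x) := by
    funext x
    simpa using (h1 1 x).symm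
  rw [e]
  exact tup_corr hC hV

end Vale.Agent.P370
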