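import Vale.Agent.P370.DDefs

/-! The bijection between valid placements and permuted cluster configurations. -/

namespace Vale.Agent.P370

open scoped Classical

variable {n : ℕ}

/-- Particles as pairs (cluster, slot). -/
def tupP (n : ℕ) : Fin n × Fin 3 ≃ Fin (3 * n) :=
  finProdFinEquiv.trans (finCongr (Nat.mul_comm n 3))

/-- Modes as pairs (cluster, position). -/
def tupM (n : ℕ) : Fin n × Fin 4 ≃ Fin (4 * n) :=
  finProdFinEquiv.trans (finCongr (Nat.mul_comm n 4))

theorem tupM_val (c : Fin n) (k : Fin 4) : (tupM n (c, k)).val = k.val + 4 * c.val := by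
  simp [tupM]

theorem tup_clOf (c : Fin n) (k : Fin 4) : clOf (tupM n (c, k)) = c := by
  apply Fin.ext
  have := k.2
  simp only [clOf, tupM_val]
  omega

theorem tup_occ (x : Fin n → Cl) (c : Fin n) (k : Fin 4) :
    occ x (tupM n (c, k)) ↔ k ≠ (x c).1 := by
  have := k.2
  have e : (k.val + 4 * c.val) % 4 = k.val := by omega
  rw [occ, tup_clOf, tupM_val, e, Ne, Ne, Fin.val_inj, eq_comm]

/-- The canonical placement. -/
def tupCan (x : Fin n → Cl) (i : Fin (3 * n)) : Fin (4 * n) :=
  tupM n (((tupP n).symm i).1, (x ((tupP n).symm i).1).1.succAbove ((tupP n).symm i).2)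

/-- The canonical spins. -/
def tupSpn (x : Fin n → Cl) : Spin (3 * n) :=
  fun i => (x ((tupP n).symm i).1).2 ((tupP n).symm i).2

theorem tupCan_apply (x : Fin n → Cl) (c : Fin n) (t : Fin 3) :
    tupCan x (tupP n (c, t)) = tupM n (c, (x c).1.succAbove t) := by
  simp [tupCan]

theorem tupSpn_apply (x : Fin n → Cl) (c : Fin n) (t : Fin 3) :
    tupSpn x (tupP n (c, t)) = (x c).2 t := by
  simp [tupSpn]

theorem tupCan_inj (x : Fin n → Cl) : Function.Injective (tupCan x) := by
  intro i j h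
  obtain ⟨⟨c, t⟩, rfl⟩ := (tupP n).surjective i
  obtain ⟨⟨d, u⟩, rfl⟩ := (tupP n).surjective j
  rw [tupCan_apply, tupCan_apply, (tupM n).apply_eq_iff_eq, Prod.mk.injEq] at h
  obtain ⟨rfl, h⟩ := h
  rw [Fin.succAbove_right_injective h]

theorem tup_mem_range (x : Fin n → Cl) (a : Fin (4 * n)) :
    (∃ i, tupCan x i = a) ↔ occ x a := by
  obtain ⟨⟨c, k⟩, rfl⟩ := (tupM n).surjective a
  rw [tup_occ]
  constructor
  · rintro ⟨i, h⟩
    obtain ⟨⟨d, t⟩, rfl⟩ := (tupP n).surjective i
    rw [tupCan_apply, (tupM n).apply_eq_iff_eq, Prod.mk.injEq] at h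
    obtain ⟨rfl, rfl⟩ := h
    exact Fin.succAbove_ne _ _
  · intro h
    obtain ⟨t, rfl⟩ := Fin.exists_succAbove_eq h
    exact ⟨_, tupCan_apply x c t⟩

theorem tup_valid_can (x : Fin n → Cl) : ValidT (tupCan x) := by
  refine ⟨tupCan_inj x, fun c => ?_⟩
  have e : (Finset.univ.filter fun i => clOf (tupCan x i) = c) =
      Finset.univ.image fun t : Fin 3 => tupP n (c, t) := by
    ext i
    obtain ⟨⟨d, t⟩, rfl⟩ := (tupP n).surjective i
    simp [tupCan_apply, tup_clOf, eq_comm]
  rw [e, Finset.card_image_of_injective _ fun t u h => by simpa using h, Finset.card_univ,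
    Fintype.card_fin]

theorem tup_valid_comp {a : Fin (3 * n) → Fin (4 * n)} (ha : ValidT a)
    (π : Equiv.Perm (Fin (3 * n))) : ValidT (a ∘ π) := by
  exact ⟨ha.1.comp π.injective, fun c => (Finset.card_equiv π (by simp)).trans (ha.2 c)⟩

theorem tup_valid_comp_iff {a : Fin (3 * n) → Fin (4 * n)} (π : Equiv.Perm (Fin (3 * n))) :
    ValidT (a ∘ π) ↔ ValidT a := by
  refine ⟨fun h => ?_, fun h => tup_valid_comp h π⟩
  have := tup_valid_comp h π.symm
  rwa [Function.comp_assoc, Equiv.self_comp_symm, Function.comp_id] at this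

/-- The parametrisation of valid placements. -/
def tupPhi (p : Equiv.Perm (Fin (3 * n)) × (Fin n → Cl)) :
    Spin (3 * n) × (Fin (3 * n) → Fin (4 * n)) :=
  (tupSpn p.2 ∘ p.1, tupCan p.2 ∘ p.1)

theorem tupCan_congr {x y : Fin n → Cl} (h : ∀ c, (x c).1 = (y c).1) : tupCan x = tupCan y := by
  funext i
  simp only [tupCan, h]

theorem tupPhi_inj : Function.Injective (tupPhi (n := n)) := by
  rintro ⟨π, x⟩ ⟨ρ, y⟩ h
  simp only [tupPhi, Prod.mk.injEq] at h
  obtain ⟨h1, h2⟩ := h
  have hh : ∀ c, (x c).1 = (y c).1 := by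
    intro c
    by_contra hc
    obtain ⟨i, hi⟩ := (tup_mem_range y _).2 ((tup_occ y c _).2 hc)
    have : tupCan x (π (ρ.symm i)) = tupM n (c, (x c).1) := by
      rw [← hi]
      simpa using congrFun h2 (ρ.symm i)
    exact (tup_occ x c _).1 ((tup_mem_range x _).1 ⟨_, this⟩) rfl
  have hπ : π = ρ := by
    rw [tupCan_congr hh] at h2
    exact Equiv.ext fun i => tupCan_inj y (congrFun h2 i)
  subst hπ
  have h3 : tupSpn x = tupSpn y := π.surjective.injective_comp_right h1
  refine Prod.ext rfl (funext fun c => Prod.ext (hh c) (funext fun t => ?_))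
  rw [← tupSpn_apply, ← tupSpn_apply, h3]

theorem tup_hole {a : Fin (3 * n) → Fin (4 * n)} (ha : ValidT a) (c : Fin n) :
    ∃ h : Fin 4, ∀ i, a i ≠ tupM n (c, h) := by
  by_contra hc
  push Not at hc
  choose f hf using hc
  have h1 : (Finset.univ : Finset (Fin 4)).card ≤
      (Finset.univ.filter fun i => clOf (a i) = c).card := by
    refine Finset.card_le_card_of_injOn f (fun k _ => ?_) fun k _ l _ h => ?_
    · simp [hf, tup_clOf]
    · have := hf k
      rw [h, hf l] at this
      simpa using this.symm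
  rw [ha.2 c] at h1
  simp at h1

theorem tupPhi_surj (s : Spin (3 * n)) {a : Fin (3 * n) → Fin (4 * n)} (ha : ValidT a) :
    ∃ p, tupPhi p = (s, a) := by
  choose h hh using tup_hole ha
  have h1 : ∀ i, ∃ j, tupCan (fun c => (h c, fun _ => 0)) j = a i := by
    intro i
    rw [tup_mem_range]
    obtain ⟨⟨c, k⟩, e⟩ := (tupM n).surjective (a i)
    rw [← e, tup_occ]
    rintro rfl
    exact hh c i e.symm
  choose f hf using h1
  have hfi : Function.Injective f := fun i j e => ha.1 (by rw [← hf i, e, hf j])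
  let π : Equiv.Perm (Fin (3 * n)) := Equiv.ofBijective f (Finite.injective_iff_bijective.1 hfi)
  refine ⟨(π, fun c => (h c, fun t => s (π.symm (tupP n (c, t))))), Prod.ext ?_ ?_⟩
  · funext i
    simp [tupPhi, tupSpn]
  · funext i
    exact hf i

/-- Sums over valid placements. -/
theorem tup_sum (F : Spin (3 * n) → (Fin (3 * n) → Fin (4 * n)) → ℝ)
    (h0 : ∀ s a, ¬ ValidT a → F s a = 0)
    (h1 : ∀ (π : Equiv.Perm (Fin (3 * n))) s a, F (s ∘ π) (a ∘ π) = F s a) :
    ∑ s, ∑ a, F s a = (3 * n).factorial * ∑ x, F (tupSpn x) (tupCan x) := by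
  rw [← Fintype.sum_prod_type' F,
    ← Fintype.sum_of_injective tupPhi tupPhi_inj (fun p => F (tupSpn p.2) (tupCan p.2))
      (fun q => F q.1 q.2) ?_ (fun p => (h1 p.1 _ _).symm),
    Fintype.sum_prod_type]
  · simp only [Finset.sum_const, Finset.card_univ, Fintype.card_perm, Fintype.card_fin,
      nsmul_eq_mul]
  · rintro ⟨s, a⟩ h
    exact h0 s a fun ha => h (tupPhi_surj s ha)

theorem tup_sum_can (x : Fin n → Cl) (H : Fin (4 * n) → ℝ) :
    ∑ i, H (tupCan x i) = ∑ a, if occ x a then H a else 0 := by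
  refine Fintype.sum_of_injective (tupCan x) (tupCan_inj x) _ _ (fun a ha => ?_) fun i => ?_
  · exact if_neg fun h => ha ((tup_mem_range x a).2 h)
  · exact (if_pos ((tup_mem_range x _).1 ⟨i, rfl⟩)).symm

theorem tup_sum_lt {α : Type} [Fintype α] [LinearOrder α] (g : α → α → ℝ) :
    ∑ p, ∑ q, (if p < q then g p q + g q p else 0) = ∑ p, ∑ q, if q ≠ p then g p q else 0 := by
  have e1 : ∑ p, ∑ q, (if p < q then g p q + g q p else 0) =
      ∑ p, ∑ q, (if p < q then g p q else 0) + ∑ p, ∑ q, (if p < q then g q p else 0) := by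
    simp only [← Finset.sum_add_distrib]
    refine Finset.sum_congr rfl fun p _ => Finset.sum_congr rfl fun q _ => ?_
    split_ifs <;> simp
  rw [e1, Finset.sum_comm (f := fun p q => if p < q then g q p else 0)]
  simp only [← Finset.sum_add_distrib]
  refine Finset.sum_congr rfl fun p _ => Finset.sum_congr rfl fun q _ => ?_
  rcases lt_trichotomy p q with h | h | h
  · simp [h, h.not_gt, h.ne']
  · simp [h]
  · simp [h, h.not_gt, h.ne]

end Vale.Agent.P370
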